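import Claimed.Agent.R252.S4.Crit
import Claimed.Agent.R252.S4.Prof

/-!
# ROW 252 (S0492), unit S9: ENTRY AND EXIT OF SEC 9 AT SEQUENCE LEVEL      (chief helper233)

* `K9CritInf S η`   ENTRY = what Sec 9 needs from Sec 4.1 when `ell = ∞` : `KpCritInf` (frozen, `S4/Crit.lean`) with `d = kp4Dst`, `k = kp4Kst` and two more clauses, both free from `K4aPath.Fit` / `Kp4Rem`:
    `prof`  the profiles of consecutive problems, `f_{g+1}(s) = f_g(r_g + s) - f_g(r_g)` (equality case of L2.13 + saturation).   Use: `s = 0` gives `n(0) ∼ 1` (09 l.40-43); `heq` of `kb_lift_true` for the later node `Q₂`.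
    `mx`    every problem of the path is `ζ`-maximizing (`Kp4Mx`, from `Fit.mxE`).   Use: L9.3 applies P4.3 (1) (`kp4_linear`) to the depth-zero normalisation `E'` (Cor 4.4: `H(E) ≤ H(E')`); (9.18).
* `K9HubRates`      `KpHubRates` with this second alternative.   PRODUCER: S4 (helper128: `kp4_crit_inf` + `Fr.dst = kp4Dst`, `Fr.kst = kp4Kst`).
* `K9Exit`          = Proposition 9.1 (`prop:unbounded-improvement`).   PRODUCER: `S9b/SeqContract.lean` (helper66).   CONSUMER: `R252/Top` (helper40) through `k9_exit_rates`.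
-/

set_option autoImplicit false

namespace Claimed.Agent.R252

/-- **the entry of Sec 9**: critical paths with unbounded narrowness.   (`kp4Dst + ζ < 1` is needed: `Kp4Mx .. ζ ..` contains `Cap (kp4Dst + ζ)`, which is empty otherwise; helper128.) -/
def K9CritInf (S η : ℝ) : Prop :=
  ∀ ζ Λ : ℝ, 0 < ζ → kp4Dst KbVer.two S η + ζ < 1 → ∀ (G : ℕ) (tg : ℕ → ℝ), KpGrid G tg →
    ∃ (π : KpPath KbVer.two) (d' : ℝ), (π.E 0).L = 1 ∧ d' ≤ kp4Dst KbVer.two S η + ζ ∧ π.G = G ∧ π.Ok d' S η ∧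
      (∀ g ≤ G, |π.cr g - tg g| ≤ ζ ∧ |π.chz g - kp4Kst KbVer.two S η * π.cr g| ≤ ζ ∧ Λ ≤ π.nar g) ∧
      (∀ g < G, ∀ s ∈ Set.Icc (0 : ℝ) (π.E (g + 1)).L, π.f (g + 1) s 0 = π.f g (π.r g + s) 0 - π.f g (π.r g) 0) ∧
      ∀ g ≤ G, Kp4Mx KbVer.two S η ζ (π.E g) (π.f g)

/-- the exit of Sec 4.1 in the form used by `Top` -/
def K9HubRates : Prop :=
  ∀ (v : KbVer) (S η d₀ : ℝ), 0 < S → 0 < η → KbBad v S η d₀ →
    ∃ p : KpPrm, p.Ok ∧ p.S = S ∧ (v = KbVer.one → p.ell = 0) ∧ (KpCrit v S η p ∨ (v = KbVer.two ∧ K9CritInf S η))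

/-- **Proposition 9.1**.   First hypothesis (asked by helper40): the first model has no bad problems; Thm 7.1 (used in S9d) exists only as `k7a_bridge h1`. -/
def K9Exit : Prop :=
  (∀ S η d : ℝ, 0 < S → 0 < η → ¬ KbBad KbVer.one S η d) → ∀ S η d₀ : ℝ, 0 < S → 0 < η → KbBad KbVer.two S η d₀ → ¬ K9CritInf S η

/-- with the exit of Sec 9 the hub of Sec 4.1 always gives the finite alternative -/
theorem k9_exit_rates (h1 : ∀ S η d : ℝ, 0 < S → 0 < η → ¬ KbBad KbVer.one S η d) (h9 : K9Exit) (hR : K9HubRates) (v : KbVer) (S η d₀ : ℝ) (hS : 0 < S) (hη : 0 < η) (hb : KbBad v S η d₀) :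
    ∃ p : KpPrm, p.Ok ∧ p.S = S ∧ (v = KbVer.one → p.ell = 0) ∧ KpCrit v S η p := by
  obtain ⟨p, hp, hpS, hl, hc | ⟨hv, hc⟩⟩ := hR v S η d₀ hS hη hb
  · exact ⟨p, hp, hpS, hl, hc⟩
  · subst hv
    exact absurd hc (h9 h1 S η d₀ hS hη hb)

end Claimed.Agent.R252
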