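import Mathlib

/-!
# ROW 252 (S0492), unit S9 (09-unbounded-narrowness.tex), file 1: PAPER-FREE LEAVES.      CONTRACT file (architect helper233, post BP-252-S9)

Every `sorry` below is a leaf `L-252-S9-*` : replace it IN PLACE, do not change statements (report a false statement to helper233 at once).  Imports Mathlib only.
Vectors of the base plane are `Fin 2 → ℝ` (= `KbB KbVer.two` of `Base/Pb`), matrices `Matrix (Fin 2) (Fin 2) ℝ`; NO norms, NO inner product spaces: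
`k9dot`, `k9crs` (cross product = sine of the angle for unit vectors), `K9Unit`, `k9row n D = ‖nᵀ D‖₂²`.

* §1 frames: SVD of a 2x2 matrix, nested angle (9.8), two strips, unit vectors      (09 l.109-133, 188)
* §2 strips of a chart: normal strip, velocity strip, extrapolation, rounding, label comparison      ((9.7), l.232-262)
* §3 areas: strip in a box, slab of a parallelogram      (l.204-208, l.741-747)
* §4 abstract angle failure (core of P9.2, l.176-224), pair mass (Jensen, l.166-169)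
* §5 L9.5: coordinate precision (9.23)-(9.25), common box (l.783-808)
* §6 L9.4: centre / root branch of a quadratic equation (l.629-660)
* §7 greedy coverage (l.925-949), posterior lists (l.1075-1096), rounding of quadratics (l.1117-1124)
-/

set_option autoImplicit false

namespace Claimed.Agent.R252

open MeasureTheory
open scoped ENNReal BigOperators

noncomputable section

/-- the base plane -/
abbrev K9V := Fin 2 → ℝ

/-- spatial matrices -/
abbrev K9M := Matrix (Fin 2) (Fin 2) ℝ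

/-- euclidean scalar product -/
def k9dot (a b : K9V) : ℝ := a 0 * b 0 + a 1 * b 1

/-- cross product -/
def k9crs (a b : K9V) : ℝ := a 0 * b 1 - a 1 * b 0

/-- unit vector -/
def K9Unit (a : K9V) : Prop := a 0 ^ 2 + a 1 ^ 2 = 1

/-- `‖nᵀ D‖₂²` -/
def k9row (n : K9V) (D : K9M) : ℝ := (n 0 * D 0 0 + n 1 * D 1 0) ^ 2 + (n 0 * D 0 1 + n 1 * D 1 1) ^ 2

/-- `(n, s, S)` is a singular frame of `D` : `n` = unit LEFT MINOR axis, `s ≤ S` the singular values -/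
def K9Svd (D : K9M) (n : K9V) (s S : ℝ) : Prop :=
  K9Unit n ∧ 0 ≤ s ∧ s ≤ S ∧ s * S = |D.det| ∧ ∀ v : K9V, k9row v D = s ^ 2 * k9dot v n ^ 2 + S ^ 2 * k9crs n v ^ 2

/-! ## §1 frames -/

theorem k9_half_angle (a b : ℝ) (h : a ^ 2 + b ^ 2 = 1) :
    ∃ x y : ℝ, x ^ 2 + y ^ 2 = 1 ∧ x ^ 2 - y ^ 2 = a ∧ 2 * (x * y) = b := by
  have ha1 : a ≤ 1 := by nlinarith [sq_nonneg b, sq_nonneg (a - 1)]
  have ha2 : -1 ≤ a := by nlinarith [sq_nonneg b, sq_nonneg (a + 1)]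
  have hu : Real.sqrt ((1 + a) / 2) ^ 2 = (1 + a) / 2 := Real.sq_sqrt (by linarith)
  have hw : Real.sqrt ((1 - a) / 2) ^ 2 = (1 - a) / 2 := Real.sq_sqrt (by linarith)
  have huw : Real.sqrt ((1 + a) / 2) * Real.sqrt ((1 - a) / 2) = |b| / 2 := by
    rw [← Real.sqrt_mul (by linarith)]
    have : (1 + a) / 2 * ((1 - a) / 2) = (|b| / 2) ^ 2 := by
      rw [div_pow, sq_abs]; nlinarith
    rw [this, Real.sqrt_sq (by positivity)]
  rcases le_total 0 b with hb | hb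
  · refine ⟨Real.sqrt ((1 + a) / 2), Real.sqrt ((1 - a) / 2), ?_, ?_, ?_⟩
    · rw [hu, hw]; ring
    · rw [hu, hw]; ring
    · rw [huw, abs_of_nonneg hb]; ring
  · refine ⟨Real.sqrt ((1 + a) / 2), -Real.sqrt ((1 - a) / 2), ?_, ?_, ?_⟩
    · rw [neg_sq, hu, hw]; ring
    · rw [neg_sq, hu, hw]; ring
    · rw [mul_neg, huw, abs_of_nonpos hb]; ring

/-- LEAF S9-SVD (~200 l.).  `G = D Dᵀ = [[p,r],[r,t]]` symmetric; eigenvalues `λ± = ((p+t) ± √((p-t)²+4r²))/2 ≥ 0`, `s = √λ₋`, `S = √λ₊`;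
eigenvector of `λ₋` : `(r, λ₋-p)` or `(λ₋-t, r)` normalised, any unit vector if `r = 0 ∧ p = t`.  Or: minimise `θ ↦ k9row (cos θ, sin θ) D` on `[0,2π]` (compactness), the derivative vanishes. -/
theorem k9_svd (D : K9M) : ∃ (n : K9V) (s S : ℝ), K9Svd D n s S := by
  set p := D 0 0 ^ 2 + D 0 1 ^ 2 with hp
  set t := D 1 0 ^ 2 + D 1 1 ^ 2 with ht
  set r := D 0 0 * D 1 0 + D 0 1 * D 1 1 with hr
  have hdet : p * t - r ^ 2 = D.det ^ 2 := by
    rw [Matrix.det_fin_two, hp, ht, hr]; ring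
  have hp0 : 0 ≤ p := by positivity
  have ht0 : 0 ≤ t := by positivity
  set δ := Real.sqrt ((p - t) ^ 2 + 4 * r ^ 2) with hδ
  have hδ0 : 0 ≤ δ := Real.sqrt_nonneg _
  have hδ2 : δ ^ 2 = (p - t) ^ 2 + 4 * r ^ 2 := Real.sq_sqrt (by positivity)
  have hδle : δ ≤ p + t := by
    refine (sq_le_sq₀ hδ0 (by positivity)).1 ?_
    nlinarith [sq_nonneg D.det]
  -- the doubled angle
  obtain ⟨a, b, hab, ha, hb⟩ : ∃ a b : ℝ, a ^ 2 + b ^ 2 = 1 ∧ δ * a = -(p - t) ∧ δ * b = -(2 * r) := by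
    rcases hδ0.eq_or_lt with h0 | h0
    · refine ⟨1, 0, by norm_num, ?_, ?_⟩
      · rw [← h0] at hδ2 ⊢
        have : (p - t) ^ 2 = 0 := by nlinarith [sq_nonneg (p - t), sq_nonneg r]
        have : p - t = 0 := by simpa using this
        rw [this]; ring
      · rw [← h0] at hδ2 ⊢
        have : r ^ 2 = 0 := by nlinarith [sq_nonneg (p - t), sq_nonneg r]
        have : r = 0 := by simpa using this
        rw [this]; ring
    · refine ⟨-(p - t) / δ, -(2 * r) / δ, ?_, ?_, ?_⟩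
      · field_simp
        rw [hδ2]; ring
      · field_simp
      · field_simp
  obtain ⟨x, y, hxy, hx, hy⟩ := k9_half_angle a b hab
  have hl0 : 0 ≤ (p + t - δ) / 2 := by linarith
  have hL0 : 0 ≤ (p + t + δ) / 2 := by linarith
  refine ⟨![x, y], Real.sqrt ((p + t - δ) / 2), Real.sqrt ((p + t + δ) / 2), ?_, Real.sqrt_nonneg _,
    Real.sqrt_le_sqrt (by linarith), ?_, ?_⟩
  · simpa [K9Unit] using hxy
  · rw [← Real.sqrt_mul hl0]
    have : (p + t - δ) / 2 * ((p + t + δ) / 2) = |D.det| ^ 2 := by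
      rw [sq_abs, ← hdet]; nlinarith
    rw [this, Real.sqrt_sq (abs_nonneg _)]
  · intro v
    rw [Real.sq_sqrt hl0, Real.sq_sqrt hL0]
    simp only [k9row, k9dot, k9crs, Matrix.cons_val_zero, Matrix.cons_val_one]
    have e1 : (v 0 * D 0 0 + v 1 * D 1 0) ^ 2 + (v 0 * D 0 1 + v 1 * D 1 1) ^ 2
        = p * v 0 ^ 2 + 2 * r * (v 0 * v 1) + t * v 1 ^ 2 := by
      rw [hp, ht, hr]; ring
    rw [e1]
    have e2 : (p + t - δ) / 2 * (v 0 * x + v 1 * y) ^ 2 + (p + t + δ) / 2 * (x * v 1 - y * v 0) ^ 2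
        = (p + t) / 2 * (x ^ 2 + y ^ 2) * (v 0 ^ 2 + v 1 ^ 2) - δ * (x ^ 2 - y ^ 2) / 2 * (v 0 ^ 2 - v 1 ^ 2)
          - δ * (2 * (x * y)) * (v 0 * v 1) := by ring
    rw [e2, hxy, hx, hy, ha, hb]; ring

theorem k9_unit_abs_le (n : K9V) (hn : K9Unit n) : ∀ i, |n i| ≤ 1 := by
  intro i
  unfold K9Unit at hn
  rw [abs_le]
  fin_cases i
  · constructor <;> simp only [Fin.zero_eta, Fin.isValue] <;> nlinarith [sq_nonneg (n 1), sq_nonneg (n 0 + 1), sq_nonneg (n 0 - 1)]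
  · constructor <;> simp only [Fin.mk_one, Fin.isValue] <;> nlinarith [sq_nonneg (n 0), sq_nonneg (n 1 + 1), sq_nonneg (n 1 - 1)]

/-- LEAF S9-FRAME (with the next four, ~150 l. together).  `S² = k9row (rot n) D`. -/
theorem k9_svd_le (D : K9M) (n : K9V) (s S : ℝ) (h : K9Svd D n s S) : S ≤ ∑ i, ∑ k, |D i k| := by
  obtain ⟨hn, hs, hsS, -, hq⟩ := h
  have hS0 : 0 ≤ S := hs.trans hsS
  have h1 := hq ![-n 1, n 0]
  have hn' : n 0 ^ 2 + n 1 ^ 2 = 1 := hn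
  simp only [k9row, k9dot, k9crs, Matrix.cons_val_zero, Matrix.cons_val_one] at h1
  have h2 : S ^ 2 = (-n 1 * D 0 0 + n 0 * D 1 0) ^ 2 + (-n 1 * D 0 1 + n 0 * D 1 1) ^ 2 := by
    rw [h1]
    have : n 0 * n 0 - n 1 * -n 1 = 1 := by nlinarith
    rw [this]; ring
  have ha0 := k9_unit_abs_le n hn 0
  have ha1 := k9_unit_abs_le n hn 1
  simp only [Fin.sum_univ_two]
  have e1 : |-n 1 * D 0 0 + n 0 * D 1 0| ≤ |D 0 0| + |D 1 0| := by
    calc |-n 1 * D 0 0 + n 0 * D 1 0| ≤ |-n 1 * D 0 0| + |n 0 * D 1 0| := abs_add_le _ _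
      _ = |n 1| * |D 0 0| + |n 0| * |D 1 0| := by rw [abs_mul, abs_mul, abs_neg]
      _ ≤ 1 * |D 0 0| + 1 * |D 1 0| := by gcongr
      _ = _ := by ring
  have e2 : |-n 1 * D 0 1 + n 0 * D 1 1| ≤ |D 0 1| + |D 1 1| := by
    calc |-n 1 * D 0 1 + n 0 * D 1 1| ≤ |-n 1 * D 0 1| + |n 0 * D 1 1| := abs_add_le _ _
      _ = |n 1| * |D 0 1| + |n 0| * |D 1 1| := by rw [abs_mul, abs_mul, abs_neg]
      _ ≤ 1 * |D 0 1| + 1 * |D 1 1| := by gcongr
      _ = _ := by ring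
  have p1 := abs_nonneg (D 0 0)
  have p2 := abs_nonneg (D 0 1)
  have p3 := abs_nonneg (D 1 0)
  have p4 := abs_nonneg (D 1 1)
  have q1 : (-n 1 * D 0 0 + n 0 * D 1 0) ^ 2 ≤ (|D 0 0| + |D 1 0|) ^ 2 := by
    rw [← sq_abs]; gcongr
  have q2 : (-n 1 * D 0 1 + n 0 * D 1 1) ^ 2 ≤ (|D 0 1| + |D 1 1|) ^ 2 := by
    rw [← sq_abs]; gcongr
  refine (sq_le_sq₀ hS0 (by positivity)).1 ?_
  nlinarith [mul_nonneg (add_nonneg p1 p3) (add_nonneg p2 p4)]

/-- nested angle (9.8): `D₂ = D₁ R`, entries of `R` at most `ρ`, `‖n₁ᵀ D₁‖ ≤ w`, major axis of `D₂` at least `M`. -/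
theorem k9_nested_angle (D1 R : K9M) (n1 n2 : K9V) (s S w ρ M : ℝ) (h2 : K9Svd (D1 * R) n2 s S) (hw0 : 0 ≤ w)
    (hw : k9row n1 D1 ≤ w ^ 2) (hR : ∀ i k, |R i k| ≤ ρ) (hM : 0 < M) (hS : M ≤ S) : |k9crs n2 n1| ≤ 2 * w * ρ / M := by
  obtain ⟨-, -, -, -, hq⟩ := h2
  have hρ : 0 ≤ ρ := (abs_nonneg _).trans (hR 0 0)
  have h1 := hq n1
  set u0 := n1 0 * D1 0 0 + n1 1 * D1 1 0 with hu0
  set u1 := n1 0 * D1 0 1 + n1 1 * D1 1 1 with hu1
  have hw' : u0 ^ 2 + u1 ^ 2 ≤ w ^ 2 := hw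
  have hrow : k9row n1 (D1 * R) = (u0 * R 0 0 + u1 * R 1 0) ^ 2 + (u0 * R 0 1 + u1 * R 1 1) ^ 2 := by
    simp only [k9row, Matrix.mul_apply, Fin.sum_univ_two, hu0, hu1]; ring
  have key : ∀ a b : ℝ, |a| ≤ ρ → |b| ≤ ρ → (u0 * a + u1 * b) ^ 2 ≤ 2 * w ^ 2 * ρ ^ 2 := by
    intro a b ha hb
    have ha2 : a ^ 2 ≤ ρ ^ 2 := by rw [← sq_abs a]; gcongr
    have hb2 : b ^ 2 ≤ ρ ^ 2 := by rw [← sq_abs b]; gcongr
    have cs : (u0 * a + u1 * b) ^ 2 ≤ (u0 ^ 2 + u1 ^ 2) * (a ^ 2 + b ^ 2) := by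
      nlinarith [sq_nonneg (u0 * b - u1 * a)]
    calc (u0 * a + u1 * b) ^ 2 ≤ (u0 ^ 2 + u1 ^ 2) * (a ^ 2 + b ^ 2) := cs
      _ ≤ w ^ 2 * (ρ ^ 2 + ρ ^ 2) := by gcongr
      _ = _ := by ring
  have hb : k9row n1 (D1 * R) ≤ 4 * w ^ 2 * ρ ^ 2 := by
    rw [hrow]
    have := key _ _ (hR 0 0) (hR 1 0)
    have := key _ _ (hR 0 1) (hR 1 1)
    linarith
  have hlow : M ^ 2 * k9crs n2 n1 ^ 2 ≤ k9row n1 (D1 * R) := by
    rw [h1]
    have : M ^ 2 ≤ S ^ 2 := by gcongr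
    nlinarith [sq_nonneg (k9crs n2 n1), mul_nonneg (sq_nonneg s) (sq_nonneg (k9dot n1 n2))]
  rw [le_div_iff₀ hM]
  refine (sq_le_sq₀ (by positivity) (by positivity)).1 ?_
  rw [mul_pow, sq_abs]
  nlinarith

/-- two transversal strips meet in a small ball (Cramer) -/
theorem k9_two_strips (n n' x : K9V) (w w' θ : ℝ) (hn : K9Unit n) (hn' : K9Unit n') (hθ : 0 < θ) (hc : θ ≤ |k9crs n n'|)
    (h : |k9dot n x| ≤ w) (h' : |k9dot n' x| ≤ w') : ∀ i, |x i| ≤ (w + w') / θ := by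
  have a0 := k9_unit_abs_le n hn 0
  have a1 := k9_unit_abs_le n hn 1
  have b0 := k9_unit_abs_le n' hn' 0
  have b1 := k9_unit_abs_le n' hn' 1
  have hw : 0 ≤ w := (abs_nonneg _).trans h
  have hw' : 0 ≤ w' := (abs_nonneg _).trans h'
  have key : ∀ i, |k9crs n n'| * |x i| ≤ w + w' := by
    intro i
    rw [← abs_mul]
    fin_cases i
    · have : k9crs n n' * x 0 = k9dot n x * n' 1 - k9dot n' x * n 1 := by
        simp only [k9crs, k9dot]; ring
      simp only [Fin.zero_eta]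
      rw [this]
      calc |k9dot n x * n' 1 - k9dot n' x * n 1| ≤ |k9dot n x * n' 1| + |k9dot n' x * n 1| := abs_sub _ _
        _ = |k9dot n x| * |n' 1| + |k9dot n' x| * |n 1| := by rw [abs_mul, abs_mul]
        _ ≤ w * 1 + w' * 1 := by gcongr
        _ = _ := by ring
    · have : k9crs n n' * x 1 = k9dot n' x * n 0 - k9dot n x * n' 0 := by
        simp only [k9crs, k9dot]; ring
      simp only [Fin.mk_one]
      rw [this]
      calc |k9dot n' x * n 0 - k9dot n x * n' 0| ≤ |k9dot n' x * n 0| + |k9dot n x * n' 0| := abs_sub _ _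
        _ = |k9dot n' x| * |n 0| + |k9dot n x| * |n' 0| := by rw [abs_mul, abs_mul]
        _ ≤ w' * 1 + w * 1 := by gcongr
        _ = _ := by ring
  intro i
  rw [le_div_iff₀ hθ]
  calc |x i| * θ ≤ |x i| * |k9crs n n'| := by gcongr
    _ = |k9crs n n'| * |x i| := mul_comm _ _
    _ ≤ _ := key i

/-- the centre of the intersection of two transversal lines -/
theorem k9_lines_meet (n n' : K9V) (b b' : ℝ) (hc : k9crs n n' ≠ 0) : ∃ c : K9V, k9dot n c = b ∧ k9dot n' c = b' := by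
  refine ⟨![(b * n' 1 - b' * n 1) / k9crs n n', (b' * n 0 - b * n' 0) / k9crs n n'], ?_, ?_⟩
  · simp only [k9dot, Matrix.cons_val_zero, Matrix.cons_val_one]
    field_simp
    simp only [k9crs]; ring
  · simp only [k9dot, Matrix.cons_val_zero, Matrix.cons_val_one]
    field_simp
    simp only [k9crs]; ring

/-- unit vectors with nonnegative scalar product: distance `≤ √2 |sin|` -/
theorem k9_unit_close (n n' : K9V) (hn : K9Unit n) (hn' : K9Unit n') (hpos : 0 ≤ k9dot n n') :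
    (n 0 - n' 0) ^ 2 + (n 1 - n' 1) ^ 2 ≤ 2 * k9crs n n' ^ 2 := by
  have h1 : n 0 ^ 2 + n 1 ^ 2 = 1 := hn
  have h2 : n' 0 ^ 2 + n' 1 ^ 2 = 1 := hn'
  have e1 : (n 0 - n' 0) ^ 2 + (n 1 - n' 1) ^ 2 = 2 - 2 * k9dot n n' := by
    simp only [k9dot]; nlinarith
  have e2 : k9crs n n' ^ 2 = 1 - k9dot n n' ^ 2 := by
    have : k9crs n n' ^ 2 + k9dot n n' ^ 2 = (n 0 ^ 2 + n 1 ^ 2) * (n' 0 ^ 2 + n' 1 ^ 2) := by
      simp only [k9crs, k9dot]; ring
    rw [h1, h2] at this; linarith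
  have h3 : k9dot n n' ≤ 1 := by nlinarith [sq_nonneg (k9crs n n'), sq_nonneg (k9dot n n' - 1)]
  rw [e1, e2]
  nlinarith

/-! ## §2 strips of a chart -/

/-- LEAF S9-STRIP (this section, ~200 l. together, all `nlinarith`/`abs` arithmetic).  (9.7), first line: `z = D (Di z)`. -/
theorem k9_normal_strip (D Di : K9M) (hinv : D * Di = 1) (n z : K9V) (K w : ℝ) (hw0 : 0 ≤ w) (hw : k9row n D ≤ w ^ 2)
    (hz : ∀ i, |Di.mulVec z i| ≤ K) : |k9dot n z| ≤ 2 * K * w := by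
  have hzz : D.mulVec (Di.mulVec z) = z := by
    rw [Matrix.mulVec_mulVec, hinv, Matrix.one_mulVec]
  set u := Di.mulVec z with hu
  have h0 : z 0 = D 0 0 * u 0 + D 0 1 * u 1 := by
    have := congrFun hzz 0
    simp only [Matrix.mulVec, dotProduct, Fin.sum_univ_two] at this
    exact this.symm
  have h1 : z 1 = D 1 0 * u 0 + D 1 1 * u 1 := by
    have := congrFun hzz 1
    simp only [Matrix.mulVec, dotProduct, Fin.sum_univ_two] at this
    exact this.symm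
  have hK : 0 ≤ K := le_trans (abs_nonneg _) (hz 0)
  unfold k9row at hw
  set r0 := n 0 * D 0 0 + n 1 * D 1 0 with hr0
  set r1 := n 0 * D 0 1 + n 1 * D 1 1 with hr1
  have e : k9dot n z = r0 * u 0 + r1 * u 1 := by
    unfold k9dot
    rw [h0, h1, hr0, hr1]
    ring
  have a0 : |r0| ≤ w := abs_le_of_sq_le_sq (by nlinarith [sq_nonneg r1]) hw0
  have a1 : |r1| ≤ w := abs_le_of_sq_le_sq (by nlinarith [sq_nonneg r0]) hw0
  rw [e]
  calc |r0 * u 0 + r1 * u 1| ≤ |r0 * u 0| + |r1 * u 1| := abs_add_le _ _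
    _ = |r0| * |u 0| + |r1| * |u 1| := by rw [abs_mul, abs_mul]
    _ ≤ w * K + w * K := by
        gcongr
        · exact hz 0
        · exact hz 1
    _ = 2 * K * w := by ring

/-- (9.7), second line: two position bounds give a velocity bound -/
theorem k9_velocity_strip (n y0 V c0 c1 : K9V) (t1 t2 b : ℝ) (h12 : t1 < t2)
    (h1 : |k9dot n (y0 + t1 • V - (c0 + t1 • c1))| ≤ b) (h2 : |k9dot n (y0 + t2 • V - (c0 + t2 • c1))| ≤ b) :
    |k9dot n (V - c1)| ≤ 2 * b / (t2 - t1) := by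
  have hpos : 0 < t2 - t1 := sub_pos.mpr h12
  rw [le_div_iff₀ hpos]
  have e : k9dot n (V - c1) * (t2 - t1)
      = k9dot n (y0 + t2 • V - (c0 + t2 • c1)) - k9dot n (y0 + t1 • V - (c0 + t1 • c1)) := by
    simp only [k9dot, Pi.sub_apply, Pi.add_apply, Pi.smul_apply, smul_eq_mul]
    ring
  calc |k9dot n (V - c1)| * (t2 - t1) = |k9dot n (V - c1) * (t2 - t1)| := by
        rw [abs_mul, abs_of_pos hpos]
    _ = |k9dot n (y0 + t2 • V - (c0 + t2 • c1)) - k9dot n (y0 + t1 • V - (c0 + t1 • c1))| := by rw [e]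
    _ ≤ |k9dot n (y0 + t2 • V - (c0 + t2 • c1))| + |k9dot n (y0 + t1 • V - (c0 + t1 • c1))| := abs_sub _ _
    _ ≤ 2 * b := by linarith

/-- extrapolation of a strip over the whole time interval -/
theorem k9_extrapolate (n y0 V c0 c1 : K9V) (t1 t b bv : ℝ) (h1 : |k9dot n (y0 + t1 • V - (c0 + t1 • c1))| ≤ b)
    (hv : |k9dot n (V - c1)| ≤ bv) : |k9dot n (y0 + t • V - (c0 + t • c1))| ≤ b + |t - t1| * bv := by
  have e : k9dot n (y0 + t • V - (c0 + t • c1))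
      = k9dot n (y0 + t1 • V - (c0 + t1 • c1)) + (t - t1) * k9dot n (V - c1) := by
    simp only [k9dot, Pi.sub_apply, Pi.add_apply, Pi.smul_apply, smul_eq_mul]
    ring
  rw [e]
  calc |k9dot n (y0 + t1 • V - (c0 + t1 • c1)) + (t - t1) * k9dot n (V - c1)|
      ≤ |k9dot n (y0 + t1 • V - (c0 + t1 • c1))| + |(t - t1) * k9dot n (V - c1)| := abs_add_le _ _
    _ = |k9dot n (y0 + t1 • V - (c0 + t1 • c1))| + |t - t1| * |k9dot n (V - c1)| := by rw [abs_mul]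
    _ ≤ b + |t - t1| * bv := by gcongr

/-- rounding the normal, the intercept and the velocity coefficient of a strip (l.232-238) -/
theorem k9_round_strip (n n' y : K9V) (al al' be be' t g w L : ℝ) (ht : t ∈ Set.Icc (0 : ℝ) 1) (hy : ∀ i, |y i| ≤ L)
    (hn : ∀ i, |n i - n' i| ≤ g) (hal : |al - al'| ≤ g) (hbe : |be - be'| ≤ g) (h : |k9dot n y - (al + be * t)| ≤ w) :
    |k9dot n' y - (al' + be' * t)| ≤ w + 2 * L * g + 2 * g := by
  have hg : 0 ≤ g := le_trans (abs_nonneg _) hal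
  have hL : 0 ≤ L := le_trans (abs_nonneg _) (hy 0)
  have e : k9dot n' y - (al' + be' * t)
      = (k9dot n y - (al + be * t)) + (-(n 0 - n' 0) * y 0) + (-(n 1 - n' 1) * y 1) + (al - al') + (be - be') * t := by
    simp only [k9dot]
    ring
  have ht' : |t| ≤ 1 := by rw [abs_of_nonneg ht.1]; exact ht.2
  have b0 : |(-(n 0 - n' 0) * y 0)| ≤ g * L := by
    rw [abs_mul, abs_neg]
    exact mul_le_mul (hn 0) (hy 0) (abs_nonneg _) hg
  have b1 : |(-(n 1 - n' 1) * y 1)| ≤ g * L := by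
    rw [abs_mul, abs_neg]
    exact mul_le_mul (hn 1) (hy 1) (abs_nonneg _) hg
  have b2 : |(be - be') * t| ≤ g * 1 := by
    rw [abs_mul]
    exact mul_le_mul hbe ht' (abs_nonneg _) hg
  rw [e]
  have t1 := abs_add_le ((k9dot n y - (al + be * t)) + (-(n 0 - n' 0) * y 0) + (-(n 1 - n' 1) * y 1) + (al - al')) ((be - be') * t)
  have t2 := abs_add_le ((k9dot n y - (al + be * t)) + (-(n 0 - n' 0) * y 0) + (-(n 1 - n' 1) * y 1)) (al - al')
  have t3 := abs_add_le ((k9dot n y - (al + be * t)) + (-(n 0 - n' 0) * y 0)) (-(n 1 - n' 1) * y 1)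
  have t4 := abs_add_le (k9dot n y - (al + be * t)) (-(n 0 - n' 0) * y 0)
  linarith

theorem k9_label_close_aux (n n' y : K9V) (al al' w e L : ℝ) (hy : ∀ i, |y i| ≤ L)
    (hn : ∀ i, |n i - n' i| ≤ e) (h0 : |k9dot n y - al| ≤ w) (h0' : |k9dot n' y - al'| ≤ w) :
    |al - al'| ≤ 2 * w + 2 * L * e := by
  have he : 0 ≤ e := le_trans (abs_nonneg _) (hn 0)
  have eq : al - al' = -(k9dot n y - al) + (k9dot n' y - al') + (n 0 - n' 0) * y 0 + (n 1 - n' 1) * y 1 := by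
    simp only [k9dot]
    ring
  have b0 : |(n 0 - n' 0) * y 0| ≤ e * L := by
    rw [abs_mul]
    exact mul_le_mul (hn 0) (hy 0) (abs_nonneg _) he
  have b1 : |(n 1 - n' 1) * y 1| ≤ e * L := by
    rw [abs_mul]
    exact mul_le_mul (hn 1) (hy 1) (abs_nonneg _) he
  rw [eq]
  have t1 := abs_add_le (-(k9dot n y - al) + (k9dot n' y - al') + (n 0 - n' 0) * y 0) ((n 1 - n' 1) * y 1)
  have t2 := abs_add_le (-(k9dot n y - al) + (k9dot n' y - al')) ((n 0 - n' 0) * y 0)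
  have t3 := abs_add_le (-(k9dot n y - al)) (k9dot n' y - al')
  rw [abs_neg] at t3
  linarith

/-- two strips containing the same bounded affine trajectory have close coefficients (l.244-254) -/
theorem k9_label_close (n n' y0 V : K9V) (al al' be be' w e L : ℝ) (hy : ∀ i, |y0 i| ≤ L) (hV : ∀ i, |V i| ≤ L)
    (hn : ∀ i, |n i - n' i| ≤ e) (h0 : |k9dot n y0 - al| ≤ w) (h1 : |k9dot n V - be| ≤ w) (h0' : |k9dot n' y0 - al'| ≤ w)
    (h1' : |k9dot n' V - be'| ≤ w) : |al - al'| ≤ 2 * w + 2 * L * e ∧ |be - be'| ≤ 2 * w + 2 * L * e := by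
  exact ⟨k9_label_close_aux n n' y0 al al' w e L hy hn h0 h0', k9_label_close_aux n n' V be be' w e L hV hn h1 h1'⟩

/-! ## §3 areas -/

/-- the preimage of a set under an affine map of the line -/
theorem k9_ar_line (lam mu : ℝ) (h : lam ≠ 0) (T : Set ℝ) :
    volume {x : ℝ | lam * x + mu ∈ T} = ENNReal.ofReal |lam⁻¹| * volume T := by
  have e : {x : ℝ | lam * x + mu ∈ T} = (lam * ·) ⁻¹' ((· + mu) ⁻¹' T) := rfl
  rw [e, Real.volume_preimage_mul_left h, measure_preimage_add_right]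

/-- Fubini, sections in the first coordinate -/
theorem k9_ar_prod1 (p0 p1 r K' : ℝ) (h0 : p0 ≠ 0) (hK' : 0 ≤ K') (T : Set ℝ) (hT : MeasurableSet T) :
    volume {z : ℝ × ℝ | |z.2| ≤ K' ∧ p0 * z.1 + p1 * z.2 + r ∈ T}
      ≤ ENNReal.ofReal (2 * K') * (ENNReal.ofReal |p0⁻¹| * volume T) := by
  have hm : MeasurableSet {z : ℝ × ℝ | |z.2| ≤ K' ∧ p0 * z.1 + p1 * z.2 + r ∈ T} := by
    have h1 : MeasurableSet {z : ℝ × ℝ | |z.2| ≤ K'} :=
      measurableSet_le (by fun_prop : Measurable fun z : ℝ × ℝ => |z.2|) measurable_const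
    have h2 : MeasurableSet {z : ℝ × ℝ | p0 * z.1 + p1 * z.2 + r ∈ T} :=
      (by fun_prop : Measurable fun z : ℝ × ℝ => p0 * z.1 + p1 * z.2 + r) hT
    exact h1.inter h2
  rw [Measure.volume_eq_prod, Measure.prod_apply_symm hm]
  calc ∫⁻ y, volume ((fun x => (x, y)) ⁻¹' {z : ℝ × ℝ | |z.2| ≤ K' ∧ p0 * z.1 + p1 * z.2 + r ∈ T})
      ≤ ∫⁻ y, (Set.Icc (-K') K').indicator (fun _ => ENNReal.ofReal |p0⁻¹| * volume T) y := by
        apply lintegral_mono
        intro y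
        beta_reduce
        by_cases hy : |y| ≤ K'
        · rw [Set.indicator_of_mem (show y ∈ Set.Icc (-K') K' from abs_le.1 hy)]
          refine le_trans (measure_mono ?_) (le_of_eq (k9_ar_line p0 (p1 * y + r) h0 T))
          intro x hx
          have h2 : p0 * x + p1 * y + r ∈ T := hx.2
          show p0 * x + (p1 * y + r) ∈ T
          rwa [← add_assoc]
        · have he : (fun x => (x, y)) ⁻¹' {z : ℝ × ℝ | |z.2| ≤ K' ∧ p0 * z.1 + p1 * z.2 + r ∈ T} = ∅ := by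
            ext x
            simp only [Set.mem_preimage, Set.mem_ofPred_eq, Set.mem_empty_iff_false, iff_false]
            exact fun h => hy h.1
          rw [he, measure_empty]
          exact zero_le
    _ = ENNReal.ofReal (2 * K') * (ENNReal.ofReal |p0⁻¹| * volume T) := by
        rw [lintegral_indicator_const measurableSet_Icc, Real.volume_Icc, mul_comm]
        congr 2
        ring

/-- Fubini, sections in the second coordinate -/
theorem k9_ar_prod2 (p0 p1 r K' : ℝ) (h1 : p1 ≠ 0) (hK' : 0 ≤ K') (T : Set ℝ) (hT : MeasurableSet T) :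
    volume {z : ℝ × ℝ | |z.1| ≤ K' ∧ p0 * z.1 + p1 * z.2 + r ∈ T}
      ≤ ENNReal.ofReal (2 * K') * (ENNReal.ofReal |p1⁻¹| * volume T) := by
  have hm : MeasurableSet {z : ℝ × ℝ | |z.2| ≤ K' ∧ p1 * z.1 + p0 * z.2 + r ∈ T} := by
    have h1 : MeasurableSet {z : ℝ × ℝ | |z.2| ≤ K'} :=
      measurableSet_le (by fun_prop : Measurable fun z : ℝ × ℝ => |z.2|) measurable_const
    have h2 : MeasurableSet {z : ℝ × ℝ | p1 * z.1 + p0 * z.2 + r ∈ T} :=
      (by fun_prop : Measurable fun z : ℝ × ℝ => p1 * z.1 + p0 * z.2 + r) hT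
    exact h1.inter h2
  have e : {z : ℝ × ℝ | |z.1| ≤ K' ∧ p0 * z.1 + p1 * z.2 + r ∈ T}
      = Prod.swap ⁻¹' {z : ℝ × ℝ | |z.2| ≤ K' ∧ p1 * z.1 + p0 * z.2 + r ∈ T} := by
    ext z
    simp only [Set.mem_preimage, Set.mem_ofPred_eq, Prod.fst_swap, Prod.snd_swap, add_comm (p0 * z.1)]
  have hsw : MeasurePreserving (Prod.swap : ℝ × ℝ → ℝ × ℝ) volume volume := by
    rw [Measure.volume_eq_prod]
    exact Measure.measurePreserving_swap
  rw [e, hsw.measure_preimage hm.nullMeasurableSet]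
  exact k9_ar_prod1 p1 p0 r K' h1 hK' T hT

/-- **the part of a square where an affine form lies in `T`** -/
theorem k9_ar_form (p : K9V) (r K' δ : ℝ) (hδ : 0 < δ) (hK' : 0 ≤ K') (hp : 2 * δ ^ 2 ≤ p 0 ^ 2 + p 1 ^ 2) (T : Set ℝ)
    (hT : MeasurableSet T) :
    volume {x : K9V | (∀ i, |x i| ≤ K') ∧ p 0 * x 0 + p 1 * x 1 + r ∈ T} ≤ ENNReal.ofReal (2 * K' / δ) * volume T := by
  have hm : MeasurableSet {z : ℝ × ℝ | (|z.1| ≤ K' ∧ |z.2| ≤ K') ∧ p 0 * z.1 + p 1 * z.2 + r ∈ T} := by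
    have h1 : MeasurableSet {z : ℝ × ℝ | |z.1| ≤ K'} :=
      measurableSet_le (by fun_prop : Measurable fun z : ℝ × ℝ => |z.1|) measurable_const
    have h1' : MeasurableSet {z : ℝ × ℝ | |z.2| ≤ K'} :=
      measurableSet_le (by fun_prop : Measurable fun z : ℝ × ℝ => |z.2|) measurable_const
    have h2 : MeasurableSet {z : ℝ × ℝ | p 0 * z.1 + p 1 * z.2 + r ∈ T} :=
      (by fun_prop : Measurable fun z : ℝ × ℝ => p 0 * z.1 + p 1 * z.2 + r) hT
    exact (h1.inter h1').inter h2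
  have e : {x : K9V | (∀ i, |x i| ≤ K') ∧ p 0 * x 0 + p 1 * x 1 + r ∈ T}
      = MeasurableEquiv.finTwoArrow ⁻¹' {z : ℝ × ℝ | (|z.1| ≤ K' ∧ |z.2| ≤ K') ∧ p 0 * z.1 + p 1 * z.2 + r ∈ T} := by
    ext x
    simp only [Set.mem_preimage, Set.mem_ofPred_eq, Fin.forall_fin_two]
    rfl
  rw [e, (volume_preserving_finTwoArrow ℝ).measure_preimage hm.nullMeasurableSet]
  have hfin : ∀ q : ℝ, δ ≤ |q| → ENNReal.ofReal (2 * K') * (ENNReal.ofReal |q⁻¹| * volume T) ≤ ENNReal.ofReal (2 * K' / δ) * volume T := by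
    intro q hq
    rw [← mul_assoc, ← ENNReal.ofReal_mul (by positivity)]
    refine mul_le_mul_left ?_ _
    apply ENNReal.ofReal_le_ofReal
    rw [abs_inv, div_eq_mul_inv]
    exact mul_le_mul_of_nonneg_left (inv_anti₀ hδ hq) (by positivity)
  by_cases h0 : δ ≤ |p 0|
  · have hne : p 0 ≠ 0 := fun h => by rw [h, abs_zero] at h0; linarith
    refine le_trans (measure_mono ?_) ((k9_ar_prod1 (p 0) (p 1) r K' hne hK' T hT).trans (hfin _ h0))
    exact fun z hz => ⟨hz.1.2, hz.2⟩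
  · have h1 : δ ≤ |p 1| := by
      by_contra h1
      push Not at h0 h1
      have a0 : p 0 ^ 2 < δ ^ 2 := by rw [← sq_abs]; exact pow_lt_pow_left₀ h0 (abs_nonneg _) two_ne_zero
      have a1 : p 1 ^ 2 < δ ^ 2 := by rw [← sq_abs]; exact pow_lt_pow_left₀ h1 (abs_nonneg _) two_ne_zero
      linarith
    have hne : p 1 ≠ 0 := fun h => by rw [h, abs_zero] at h1; linarith
    refine le_trans (measure_mono ?_) ((k9_ar_prod2 (p 0) (p 1) r K' hne hK' T hT).trans (hfin _ h1))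
    exact fun z hz => ⟨hz.1.1, hz.2⟩

/-- LEAF S9-AREA1 (~150 l.).  One of `|n i| ≥ 1/√2`; Fubini (`volume_preserving_finTwoArrow`, `Measure.prod_apply`), the section in the direction `i` is an interval of length `≤ 2√2 w`. -/
theorem k9_strip_area (n : K9V) (hn : K9Unit n) (c w L : ℝ) (hw : 0 ≤ w) (hL : 0 ≤ L) :
    volume {y : K9V | |k9dot n y - c| ≤ w ∧ ∀ i, |y i| ≤ L} ≤ ENNReal.ofReal (6 * w * L) := by
  have h := k9_ar_form n (-c) L (7 / 10) (by norm_num) hL (by unfold K9Unit at hn; rw [hn]; norm_num) (Set.Icc (-w) w)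
    measurableSet_Icc
  refine le_trans (measure_mono ?_) (h.trans ?_)
  · intro y hy
    refine ⟨hy.2, ?_⟩
    have := abs_le.1 hy.1
    unfold k9dot at this
    exact ⟨by linarith [this.1], by linarith [this.2]⟩
  · rw [Real.volume_Icc, ← ENNReal.ofReal_mul (by positivity)]
    apply ENNReal.ofReal_le_ofReal
    have : 0 ≤ w * L := mul_nonneg hw hL
    nlinarith

/-- LEAF S9-AREA2 (~80 l.): moving strip, from `k9_strip_area` (black box) by Tonelli in `t`. -/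
theorem k9_strip_vol (n : K9V) (hn : K9Unit n) (al be w L : ℝ) (hw : 0 ≤ w) (hL : 0 ≤ L) :
    volume {o : ℝ × K9V | o.1 ∈ Set.Icc (0 : ℝ) 1 ∧ |k9dot n o.2 - (al + be * o.1)| ≤ w ∧ ∀ i, |o.2 i| ≤ L} ≤ ENNReal.ofReal (6 * w * L) := by
  have hm : MeasurableSet {o : ℝ × K9V | o.1 ∈ Set.Icc (0 : ℝ) 1 ∧ |k9dot n o.2 - (al + be * o.1)| ≤ w ∧ ∀ i, |o.2 i| ≤ L} := by
    have h1 : MeasurableSet {o : ℝ × K9V | o.1 ∈ Set.Icc (0 : ℝ) 1} := measurable_fst measurableSet_Icc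
    have h2 : MeasurableSet {o : ℝ × K9V | |k9dot n o.2 - (al + be * o.1)| ≤ w} := by
      unfold k9dot
      exact measurableSet_le (by fun_prop : Measurable fun o : ℝ × K9V => |n 0 * o.2 0 + n 1 * o.2 1 - (al + be * o.1)|)
        measurable_const
    have h3 : MeasurableSet {o : ℝ × K9V | ∀ i, |o.2 i| ≤ L} := by
      have e : {o : ℝ × K9V | ∀ i, |o.2 i| ≤ L} = ⋂ i, {o : ℝ × K9V | |o.2 i| ≤ L} := by
        ext o; simp
      rw [e]
      exact MeasurableSet.iInter fun i =>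
        measurableSet_le (by fun_prop : Measurable fun o : ℝ × K9V => |o.2 i|) measurable_const
    exact h1.inter (h2.inter h3)
  rw [Measure.volume_eq_prod, Measure.prod_apply hm]
  calc ∫⁻ t, volume (Prod.mk t ⁻¹' {o : ℝ × K9V | o.1 ∈ Set.Icc (0 : ℝ) 1 ∧ |k9dot n o.2 - (al + be * o.1)| ≤ w ∧ ∀ i, |o.2 i| ≤ L})
      ≤ ∫⁻ t, (Set.Icc (0 : ℝ) 1).indicator (fun _ => ENNReal.ofReal (6 * w * L)) t := by
        apply lintegral_mono
        intro t
        beta_reduce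
        by_cases ht : t ∈ Set.Icc (0 : ℝ) 1
        · rw [Set.indicator_of_mem ht]
          refine le_trans (measure_mono ?_) (k9_strip_area n hn (al + be * t) w L hw hL)
          exact fun y hy => hy.2
        · have he : Prod.mk t ⁻¹' {o : ℝ × K9V | o.1 ∈ Set.Icc (0 : ℝ) 1 ∧ |k9dot n o.2 - (al + be * o.1)| ≤ w ∧ ∀ i, |o.2 i| ≤ L} = ∅ := by
            ext y
            simp only [Set.mem_preimage, Set.mem_ofPred_eq, Set.mem_empty_iff_false, iff_false]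
            exact fun h => ht h.1
          rw [he, measure_empty]
          exact zero_le
    _ = ENNReal.ofReal (6 * w * L) := by
        rw [lintegral_indicator_const measurableSet_Icc, Real.volume_Icc]
        simp

/-- LEAF S9-SLAB (~200 l.).  (l.741-747) `y = c + D x`, `|x| ≤ K'` (`Real.map_matrix_volume_pi_eq_smul_volume_pi`); the linear form `x ↦ (Dᵀe)·x/q` has a coefficient `≥ 1/(√2 K)`;
Fubini; the preimage of `T` under `x_i ↦ λ x_i + μ` has measure `|T|/|λ|`. -/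
theorem k9_slab (D Di : K9M) (hinv : D * Di = 1) (e c : K9V) (Zs q K K' : ℝ) (hq : 0 < q) (hK : 0 < K) (hK' : 0 ≤ K')
    (hfull : (q / K) ^ 2 ≤ k9row e D) (T : Set ℝ) (hT : MeasurableSet T) :
    volume {y : K9V | (∀ i, |Di.mulVec (y - c) i| ≤ K') ∧ (k9dot e y - Zs) / q ∈ T} ≤ ENNReal.ofReal (3 * K * K' * |D.det|) * volume T := by
  -- the coefficients of the form in the chart
  obtain ⟨p, hp⟩ : ∃ p : K9V, p = ![(e 0 * D 0 0 + e 1 * D 1 0) / q, (e 0 * D 0 1 + e 1 * D 1 1) / q] := ⟨_, rfl⟩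
  have hp0 : p 0 = (e 0 * D 0 0 + e 1 * D 1 0) / q := by rw [hp]; rfl
  have hp1 : p 1 = (e 0 * D 0 1 + e 1 * D 1 1) / q := by rw [hp]; rfl
  obtain ⟨r, hr⟩ : ∃ r : ℝ, r = (k9dot e c - Zs) / q := ⟨_, rfl⟩
  obtain ⟨S, hS⟩ : ∃ S : Set K9V, S = {x : K9V | (∀ i, |x i| ≤ K') ∧ p 0 * x 0 + p 1 * x 1 + r ∈ T} := ⟨_, rfl⟩
  have hSm : MeasurableSet S := by
    rw [hS]
    have h3 : MeasurableSet {x : K9V | ∀ i, |x i| ≤ K'} := by
      have e : {x : K9V | ∀ i, |x i| ≤ K'} = ⋂ i, {x : K9V | |x i| ≤ K'} := by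
        ext o; simp
      rw [e]
      exact MeasurableSet.iInter fun i =>
        measurableSet_le (by fun_prop : Measurable fun x : K9V => |x i|) measurable_const
    have h2 : MeasurableSet {x : K9V | p 0 * x 0 + p 1 * x 1 + r ∈ T} :=
      (by fun_prop : Measurable fun x : K9V => p 0 * x 0 + p 1 * x 1 + r) hT
    exact h3.inter h2
  have hdet : D.det * Di.det = 1 := by rw [← Matrix.det_mul, hinv, Matrix.det_one]
  have hDi : Di.det ≠ 0 := fun h => by rw [h, mul_zero] at hdet; exact zero_ne_one hdet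
  have hinvdet : (Di.det)⁻¹ = D.det := by
    field_simp
    linarith
  have hset : {y : K9V | (∀ i, |Di.mulVec (y - c) i| ≤ K') ∧ (k9dot e y - Zs) / q ∈ T}
      = (fun y => y + (-c)) ⁻¹' ((Matrix.toLin' Di) ⁻¹' S) := by
    ext y
    have hy : y = c + D.mulVec (Di.mulVec (y - c)) := by
      rw [Matrix.mulVec_mulVec, hinv, Matrix.one_mulVec]; abel
    have hval : (k9dot e y - Zs) / q = p 0 * (Di.mulVec (y - c)) 0 + p 1 * (Di.mulVec (y - c)) 1 + r := by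
      conv_lhs => rw [hy]
      generalize Di.mulVec (y - c) = x
      rw [hp0, hp1, hr]
      unfold k9dot
      simp only [Pi.add_apply, Matrix.mulVec, dotProduct, Fin.sum_univ_two]
      field_simp
      ring
    simp only [Set.mem_preimage, Set.mem_ofPred_eq, hS, Matrix.toLin'_apply, ← sub_eq_add_neg, hval]
  have hmap := Real.map_matrix_volume_pi_eq_smul_volume_pi hDi
  have hvol : volume ((Matrix.toLin' Di) ⁻¹' S) = ENNReal.ofReal |D.det| * volume S := by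
    have h1 : Measure.map (Matrix.toLin' Di) volume S = volume ((Matrix.toLin' Di) ⁻¹' S) :=
      Measure.map_apply (Matrix.toLin' Di).continuous_of_finiteDimensional.measurable hSm
    rw [← h1, hmap, hinvdet]
    rfl
  rw [hset, measure_preimage_add_right, hvol]
  have hform := k9_ar_form p r K' (7 / (10 * K)) (by positivity) hK' (by
    rw [hp0, hp1]
    unfold k9row at hfull
    generalize e 0 * D 0 0 + e 1 * D 1 0 = A at hfull ⊢
    generalize e 0 * D 0 1 + e 1 * D 1 1 = B at hfull ⊢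
    have h1 : (A / q) ^ 2 + (B / q) ^ 2 = (A ^ 2 + B ^ 2) / q ^ 2 := by rw [div_pow, div_pow, add_div]
    have h2 : 1 / K ^ 2 ≤ (A ^ 2 + B ^ 2) / q ^ 2 := by
      rw [le_div_iff₀ (by positivity)]
      calc 1 / K ^ 2 * q ^ 2 = (q / K) ^ 2 := by field_simp
        _ ≤ _ := hfull
    have h3 : 2 * (7 / (10 * K)) ^ 2 = 98 / 100 * (1 / K ^ 2) := by field_simp; ring
    have h4 : 0 < 1 / K ^ 2 := by positivity
    rw [h1, h3]
    linarith) T hT
  rw [← hS] at hform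
  calc ENNReal.ofReal |D.det| * volume S ≤ ENNReal.ofReal |D.det| * (ENNReal.ofReal (2 * K' / (7 / (10 * K))) * volume T) :=
        mul_le_mul_right hform _
    _ = ENNReal.ofReal (|D.det| * (2 * K' / (7 / (10 * K)))) * volume T := by
        rw [← mul_assoc, ← ENNReal.ofReal_mul (abs_nonneg _)]
    _ ≤ ENNReal.ofReal (3 * K * K' * |D.det|) * volume T := by
        refine mul_le_mul_left ?_ _
        apply ENNReal.ofReal_le_ofReal
        have e1 : 2 * K' / (7 / (10 * K)) = 20 / 7 * (K * K') := by field_simp; ring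
        rw [e1]
        have : 0 ≤ K * K' * |D.det| := by positivity
        nlinarith

/-! ## §4 angle failure and pair mass -/

/-- LEAF S9-FAIL (~200 l.; black boxes `k9_two_strips`, `k9_lines_meet`, `k9_strip_vol`).  **Core of P9.2** (l.176-224).
`F` = good incidences `x = (trajectory, t)` whose label `a1 x` at time `t` makes an angle `> θ` with the label `a0 x` of the same trajectory at the fixed time `t₀`.
Split `F` by the value `c₀` of `a0` (union bound, `measure_biUnion_finset_le` or `measure_iUnion_fintype_le`).  For fixed `c₀` apply `hcap` to the moving strip `R` of `c₀` (closed, hence measurable) and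
`ctr c` = intersection point of the lines `n0 c₀ · V = β0 c₀`, `n1 c · V = β1 c` (anything if parallel). -/
theorem k9_angle_failure {Ξ ι ι' O : Type*} [MeasurableSpace Ξ] [Fintype ι] (μ : Measure Ξ) (tm : Ξ → ℝ) (y V : Ξ → K9V)
    (a0 : Ξ → ι) (n0 : ι → K9V) (al0 be0 : ι → ℝ) (obs : Ξ → O) (Lst : O → Finset ι') (a1 : Ξ → ι') (n1 : ι' → K9V) (be1 : ι' → ℝ)
    (F : Set Ξ) (w θ ρ L κ : ℝ) (hw : 0 ≤ w) (hθ : 0 < θ) (hL : 0 ≤ L) (hρ : 2 * w / θ ≤ ρ)
    (hn0 : ∀ c, K9Unit (n0 c)) (hn1 : ∀ c, K9Unit (n1 c))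
    (htm : ∀ x ∈ F, tm x ∈ Set.Icc (0 : ℝ) 1) (hy : ∀ x ∈ F, ∀ i, |y x i| ≤ L)
    (hpos : ∀ x ∈ F, |k9dot (n0 (a0 x)) (y x) - (al0 (a0 x) + be0 (a0 x) * tm x)| ≤ w)
    (hv0 : ∀ x ∈ F, |k9dot (n0 (a0 x)) (V x) - be0 (a0 x)| ≤ w)
    (hv1 : ∀ x ∈ F, |k9dot (n1 (a1 x)) (V x) - be1 (a1 x)| ≤ w)
    (hlist : ∀ x ∈ F, a1 x ∈ Lst (obs x))
    (hfail : ∀ x ∈ F, θ < |k9crs (n0 (a0 x)) (n1 (a1 x))|)
    (hcap : ∀ R : Set (ℝ × K9V), MeasurableSet R → ∀ ctr : ι' → K9V,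
      μ {x | x ∈ F ∧ (tm x, y x) ∈ R ∧ ∃ c ∈ Lst (obs x), ∀ i, |V x i - ctr c i| ≤ ρ} ≤ ENNReal.ofReal κ * volume R) :
    μ F ≤ (Fintype.card ι : ℝ≥0∞) * (ENNReal.ofReal κ * ENNReal.ofReal (6 * w * L)) := by
  classical
  -- the moving strip of `c₀`
  let R : ι → Set (ℝ × K9V) := fun c₀ =>
    {o : ℝ × K9V | o.1 ∈ Set.Icc (0 : ℝ) 1 ∧ |k9dot (n0 c₀) o.2 - (al0 c₀ + be0 c₀ * o.1)| ≤ w ∧ ∀ i, |o.2 i| ≤ L}
  have hRm : ∀ c₀, MeasurableSet (R c₀) := by
    intro c₀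
    have h1 : MeasurableSet {o : ℝ × K9V | o.1 ∈ Set.Icc (0 : ℝ) 1} := measurableSet_Icc.preimage measurable_fst
    have hc : Continuous fun o : ℝ × K9V => |k9dot (n0 c₀) o.2 - (al0 c₀ + be0 c₀ * o.1)| := by
      unfold k9dot
      fun_prop
    have h2 : MeasurableSet {o : ℝ × K9V | |k9dot (n0 c₀) o.2 - (al0 c₀ + be0 c₀ * o.1)| ≤ w} :=
      (isClosed_le hc continuous_const).measurableSet
    have h3 : MeasurableSet {o : ℝ × K9V | ∀ i, |o.2 i| ≤ L} := by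
      have : {o : ℝ × K9V | ∀ i, |o.2 i| ≤ L} = ⋂ i, {o : ℝ × K9V | |o.2 i| ≤ L} := by
        ext o; simp
      rw [this]
      refine MeasurableSet.iInter fun i => ?_
      have hci : Continuous fun o : ℝ × K9V => |o.2 i| := by fun_prop
      exact (isClosed_le hci continuous_const).measurableSet
    exact h1.inter (h2.inter h3)
  have hRv : ∀ c₀, volume (R c₀) ≤ ENNReal.ofReal (6 * w * L) := fun c₀ =>
    k9_strip_vol (n0 c₀) (hn0 c₀) (al0 c₀) (be0 c₀) w L hw hL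
  -- the centres
  let ctr : ι → ι' → K9V := fun c₀ c =>
    if h : k9crs (n0 c₀) (n1 c) ≠ 0 then (k9_lines_meet (n0 c₀) (n1 c) (be0 c₀) (be1 c) h).choose else 0
  have hctr : ∀ c₀ c, k9crs (n0 c₀) (n1 c) ≠ 0 →
      k9dot (n0 c₀) (ctr c₀ c) = be0 c₀ ∧ k9dot (n1 c) (ctr c₀ c) = be1 c := by
    intro c₀ c h
    simp only [ctr, dif_pos h]
    exact (k9_lines_meet (n0 c₀) (n1 c) (be0 c₀) (be1 c) h).choose_spec
  let G : ι → Set Ξ := fun c₀ =>
    {x | x ∈ F ∧ (tm x, y x) ∈ R c₀ ∧ ∃ c ∈ Lst (obs x), ∀ i, |V x i - ctr c₀ c i| ≤ ρ}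
  have hsub : F ⊆ ⋃ c₀, G c₀ := by
    intro x hx
    refine Set.mem_iUnion.mpr ⟨a0 x, hx, ⟨htm x hx, hpos x hx, hy x hx⟩, a1 x, hlist x hx, ?_⟩
    have hne : k9crs (n0 (a0 x)) (n1 (a1 x)) ≠ 0 := by
      intro h0
      have := hfail x hx
      rw [h0, abs_zero] at this
      linarith
    obtain ⟨e0, e1⟩ := hctr (a0 x) (a1 x) hne
    have d0 : k9dot (n0 (a0 x)) (V x - ctr (a0 x) (a1 x)) = k9dot (n0 (a0 x)) (V x) - be0 (a0 x) := by
      rw [← e0]
      simp only [k9dot, Pi.sub_apply]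
      ring
    have d1 : k9dot (n1 (a1 x)) (V x - ctr (a0 x) (a1 x)) = k9dot (n1 (a1 x)) (V x) - be1 (a1 x) := by
      rw [← e1]
      simp only [k9dot, Pi.sub_apply]
      ring
    have := k9_two_strips (n0 (a0 x)) (n1 (a1 x)) (V x - ctr (a0 x) (a1 x)) w w θ (hn0 _) (hn1 _) hθ (hfail x hx).le
      (by rw [d0]; exact hv0 x hx) (by rw [d1]; exact hv1 x hx)
    intro i
    have hi := this i
    rw [Pi.sub_apply] at hi
    refine hi.trans (le_trans (le_of_eq ?_) hρ)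
    ring
  calc μ F ≤ μ (⋃ c₀, G c₀) := measure_mono hsub
    _ ≤ ∑ c₀, μ (G c₀) := measure_iUnion_fintype_le μ G
    _ ≤ ∑ _c₀ : ι, ENNReal.ofReal κ * ENNReal.ofReal (6 * w * L) := by
        refine Finset.sum_le_sum fun c₀ _ => ?_
        exact (hcap (R c₀) (hRm c₀) (ctr c₀)).trans (by gcongr; exact hRv c₀)
    _ = (Fintype.card ι : ℝ≥0∞) * (ENNReal.ofReal κ * ENNReal.ofReal (6 * w * L)) := by
        rw [Finset.sum_const, Finset.card_univ, nsmul_eq_mul]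

theorem k9_aux_sq_lintegral_le {Λ : Type*} [MeasurableSpace Λ] (ν : Measure Λ) [IsProbabilityMeasure ν] (f : Λ → ℝ≥0∞)
    (hf : Measurable f) : (∫⁻ l, f l ∂ν) ^ 2 ≤ ∫⁻ l, f l ^ 2 ∂ν := by
  have hpq : (2 : ℝ).HolderConjugate 2 := by
    rw [Real.holderConjugate_iff]
    constructor <;> norm_num
  have h := ENNReal.lintegral_mul_le_Lp_mul_Lq ν hpq hf.aemeasurable (aemeasurable_const (b := (1 : ℝ≥0∞)))
  simp only [Pi.mul_apply, mul_one, ENNReal.one_rpow, lintegral_const, measure_univ] at h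
  have h2 : (∫⁻ l, f l ∂ν) ^ 2 ≤ ((∫⁻ l, f l ^ (2 : ℝ) ∂ν) ^ (1 / (2 : ℝ))) ^ 2 := by gcongr
  refine h2.trans (le_of_eq ?_)
  rw [← ENNReal.rpow_natCast, ← ENNReal.rpow_mul]
  norm_num

/-- LEAF S9-PAIR (~100 l.).  Two independent times on the same trajectory (l.166-169): `∫ τ(E_l)² dν ≥ (∫ τ(E_l) dν)²` (Cauchy-Schwarz: `ENNReal.lintegral_mul_le_Lp_mul_Lq` with `p = q = 2`, `g = 1`; Tonelli). -/
theorem k9_pair_mass {Λ : Type*} [MeasurableSpace Λ] (ν : Measure Λ) [IsProbabilityMeasure ν] (τ : Measure ℝ) [IsProbabilityMeasure τ]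
    (E : Set (Λ × ℝ)) (hE : MeasurableSet E) :
    ((ν.prod τ) E) ^ 2 ≤ (ν.prod (τ.prod τ)) {z | (z.1, z.2.1) ∈ E ∧ (z.1, z.2.2) ∈ E} := by
  have hm1 : Measurable fun z : Λ × ℝ × ℝ => (z.1, z.2.1) := by fun_prop
  have hm2 : Measurable fun z : Λ × ℝ × ℝ => (z.1, z.2.2) := by fun_prop
  have hS : MeasurableSet {z : Λ × ℝ × ℝ | (z.1, z.2.1) ∈ E ∧ (z.1, z.2.2) ∈ E} := (hm1 hE).inter (hm2 hE)
  rw [Measure.prod_apply hE, Measure.prod_apply hS]
  have hsec : ∀ l : Λ, (τ.prod τ) (Prod.mk l ⁻¹' {z : Λ × ℝ × ℝ | (z.1, z.2.1) ∈ E ∧ (z.1, z.2.2) ∈ E})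
      = τ (Prod.mk l ⁻¹' E) ^ 2 := by
    intro l
    have : Prod.mk l ⁻¹' {z : Λ × ℝ × ℝ | (z.1, z.2.1) ∈ E ∧ (z.1, z.2.2) ∈ E}
        = (Prod.mk l ⁻¹' E) ×ˢ (Prod.mk l ⁻¹' E) := by
      ext ⟨a, b⟩
      simp
    rw [this, Measure.prod_prod, sq]
  simp only [hsec]
  exact k9_aux_sq_lintegral_le ν _ (measurable_measure_prodMk_left hE)

/-! ## §5 Lemma 9.5 -/

theorem k9_aux_dot_le_one (a b : K9V) (ha : K9Unit a) (hb : K9Unit b) : |k9dot a b| ≤ 1 := by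
  unfold K9Unit at ha hb
  apply abs_le_of_sq_le_sq _ zero_le_one
  unfold k9dot
  nlinarith [sq_nonneg (a 0 * b 1 - a 1 * b 0)]

theorem k9_aux_dot_le (n v : K9V) (K : ℝ) (hn : K9Unit n) (hv : ∀ i, |v i| ≤ K) : |k9dot n v| ≤ 2 * K := by
  unfold K9Unit at hn
  have hK : 0 ≤ K := le_trans (abs_nonneg _) (hv 0)
  have a0 : |n 0| ≤ 1 := abs_le_of_sq_le_sq (by nlinarith [sq_nonneg (n 1)]) zero_le_one
  have a1 : |n 1| ≤ 1 := abs_le_of_sq_le_sq (by nlinarith [sq_nonneg (n 0)]) zero_le_one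
  unfold k9dot
  calc |n 0 * v 0 + n 1 * v 1| ≤ |n 0 * v 0| + |n 1 * v 1| := abs_add_le _ _
    _ = |n 0| * |v 0| + |n 1| * |v 1| := by rw [abs_mul, abs_mul]
    _ ≤ 1 * K + 1 * K := by
        gcongr
        · exact hv 0
        · exact hv 1
    _ = 2 * K := by ring

theorem k9_aux_frame (nC eZ : K9V) (hnC : K9Unit nC) (heZ : K9Unit eZ) (horth : k9dot nC eZ = 0) (m u : K9V) :
    k9dot m u = k9dot m nC * k9dot nC u + k9dot m eZ * k9dot eZ u := by
  unfold K9Unit at hnC heZ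
  unfold k9dot at horth
  set a := nC 0
  set b := nC 1
  set c := eZ 0
  set d := eZ 1
  have hc : c = -b * (a * d - b * c) := by linear_combination (-c) * hnC + a * horth
  have hd : d = a * (a * d - b * c) := by linear_combination (-d) * hnC + b * horth
  have hs : (a * d - b * c) ^ 2 = 1 := by
    linear_combination (c ^ 2 + d ^ 2) * hnC + heZ - (a * c + b * d) * horth
  have e1 : a ^ 2 + c ^ 2 = 1 := by
    have : c ^ 2 = b ^ 2 * (a * d - b * c) ^ 2 := by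
      calc c ^ 2 = (-b * (a * d - b * c)) ^ 2 := by rw [← hc]
        _ = _ := by ring
    rw [this, hs]; linarith
  have e2 : b ^ 2 + d ^ 2 = 1 := by
    have : d ^ 2 = a ^ 2 * (a * d - b * c) ^ 2 := by
      calc d ^ 2 = (a * (a * d - b * c)) ^ 2 := by rw [← hd]
        _ = _ := by ring
    rw [this, hs]; linarith
  have e3 : a * b + c * d = 0 := by
    have : c * d = -(a * b) * (a * d - b * c) ^ 2 := by
      calc c * d = (-b * (a * d - b * c)) * (a * (a * d - b * c)) := by rw [← hc, ← hd]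
        _ = _ := by ring
    rw [this, hs]; ring
  simp only [k9dot]
  change m 0 * u 0 + m 1 * u 1 = (m 0 * a + m 1 * b) * (a * u 0 + b * u 1) + (m 0 * c + m 1 * d) * (c * u 0 + d * u 1)
  linear_combination (-(m 0 * u 0)) * e1 + (-(m 1 * u 1)) * e2 + (-(m 0 * u 1 + m 1 * u 0)) * e3

/-- LEAF S9-PREC (~120 l., `abs` arithmetic).  (9.23): two occurrences in one projected cell.  `nC, eZ` orthonormal frame of `C`; `n1 = c1 nC + c2 eZ`, `|c2| ≤ K g1`, `m1` = major direction of `Q₁`. -/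
theorem k9_coord_precision (nC eZ n1 m1 dy v1 vC : K9V) (dt c1 c2 K g1 gC h : ℝ) (hK : 1 ≤ K) (hg1 : 0 ≤ g1) (hgC : 0 ≤ gC) (hh : 0 ≤ h)
    (hnC : K9Unit nC) (heZ : K9Unit eZ) (horth : k9dot nC eZ = 0) (hm1 : K9Unit m1)
    (hn1 : ∀ i, n1 i = c1 * nC i + c2 * eZ i) (hc1 : |c1| ≤ 1) (hc2 : |c2| ≤ K * g1)
    (hdt : |dt| ≤ h) (hdZ : |k9dot eZ dy| ≤ h) (hC : |k9dot nC dy - k9dot nC vC * dt| ≤ K * gC)
    (hv : |k9dot nC (v1 - vC)| ≤ K * g1) (hv1 : ∀ i, |v1 i| ≤ K) (hvC : ∀ i, |vC i| ≤ K) :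
    |k9dot n1 (dy - dt • v1)| ≤ 5 * K ^ 2 * (g1 * h + gC) ∧ |k9dot m1 (dy - dt • v1)| ≤ 10 * K * (h + gC) := by
  have hK0 : 0 ≤ K := by linarith
  set u : K9V := dy - dt • v1 with hu
  -- the two coordinates of `u`
  have eP : k9dot nC u = (k9dot nC dy - k9dot nC vC * dt) + (-dt) * k9dot nC (v1 - vC) := by
    simp only [hu, k9dot, Pi.sub_apply, Pi.smul_apply, smul_eq_mul]
    ring
  have eQ : k9dot eZ u = k9dot eZ dy + (-dt) * k9dot eZ v1 := by
    simp only [hu, k9dot, Pi.sub_apply, Pi.smul_apply, smul_eq_mul]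
    ring
  have bQ : |k9dot eZ u| ≤ h + h * (2 * K) := by
    rw [eQ]
    calc |k9dot eZ dy + (-dt) * k9dot eZ v1| ≤ |k9dot eZ dy| + |(-dt) * k9dot eZ v1| := abs_add_le _ _
      _ = |k9dot eZ dy| + |dt| * |k9dot eZ v1| := by rw [abs_mul, abs_neg]
      _ ≤ h + h * (2 * K) := by
          gcongr
          exact k9_aux_dot_le eZ v1 K heZ hv1
  have bP1 : |k9dot nC u| ≤ K * gC + h * (K * g1) := by
    rw [eP]
    calc |(k9dot nC dy - k9dot nC vC * dt) + (-dt) * k9dot nC (v1 - vC)|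
        ≤ |k9dot nC dy - k9dot nC vC * dt| + |(-dt) * k9dot nC (v1 - vC)| := abs_add_le _ _
      _ = |k9dot nC dy - k9dot nC vC * dt| + |dt| * |k9dot nC (v1 - vC)| := by rw [abs_mul, abs_neg]
      _ ≤ K * gC + h * (K * g1) := by gcongr
  have bvv : |k9dot nC (v1 - vC)| ≤ 4 * K := by
    have : ∀ i, |(v1 - vC) i| ≤ 2 * K := by
      intro i
      rw [Pi.sub_apply]
      calc |v1 i - vC i| ≤ |v1 i| + |vC i| := abs_sub _ _
        _ ≤ 2 * K := by linarith [hv1 i, hvC i]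
    have := k9_aux_dot_le nC (v1 - vC) (2 * K) hnC this
    linarith
  have bP2 : |k9dot nC u| ≤ K * gC + h * (4 * K) := by
    rw [eP]
    calc |(k9dot nC dy - k9dot nC vC * dt) + (-dt) * k9dot nC (v1 - vC)|
        ≤ |k9dot nC dy - k9dot nC vC * dt| + |(-dt) * k9dot nC (v1 - vC)| := abs_add_le _ _
      _ = |k9dot nC dy - k9dot nC vC * dt| + |dt| * |k9dot nC (v1 - vC)| := by rw [abs_mul, abs_neg]
      _ ≤ K * gC + h * (4 * K) := by gcongr
  constructor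
  · have e : k9dot n1 u = c1 * k9dot nC u + c2 * k9dot eZ u := by
      simp only [k9dot, hn1]
      ring
    rw [e]
    have hKg : 0 ≤ K * g1 := mul_nonneg hK0 hg1
    calc |c1 * k9dot nC u + c2 * k9dot eZ u| ≤ |c1 * k9dot nC u| + |c2 * k9dot eZ u| := abs_add_le _ _
      _ = |c1| * |k9dot nC u| + |c2| * |k9dot eZ u| := by rw [abs_mul, abs_mul]
      _ ≤ 1 * (K * gC + h * (K * g1)) + (K * g1) * (h + h * (2 * K)) := by gcongr
      _ ≤ 5 * K ^ 2 * (g1 * h + gC) := by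
          have h1 : 0 ≤ g1 * h := mul_nonneg hg1 hh
          have h2 : K ≤ K ^ 2 := by nlinarith
          have h3 : K * gC ≤ K ^ 2 * gC := mul_le_mul_of_nonneg_right h2 hgC
          have h4 : K * (g1 * h) ≤ K ^ 2 * (g1 * h) := mul_le_mul_of_nonneg_right h2 h1
          have h5 : 0 ≤ K ^ 2 * gC := by positivity
          have h6 : 0 ≤ K ^ 2 * (g1 * h) := by positivity
          nlinarith
  · rw [k9_aux_frame nC eZ hnC heZ horth m1 u]
    calc |k9dot m1 nC * k9dot nC u + k9dot m1 eZ * k9dot eZ u|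
        ≤ |k9dot m1 nC * k9dot nC u| + |k9dot m1 eZ * k9dot eZ u| := abs_add_le _ _
      _ = |k9dot m1 nC| * |k9dot nC u| + |k9dot m1 eZ| * |k9dot eZ u| := by rw [abs_mul, abs_mul]
      _ ≤ 1 * (K * gC + h * (4 * K)) + 1 * (h + h * (2 * K)) := by
          gcongr
          · exact k9_aux_dot_le_one m1 nC hm1 hnC
          · exact k9_aux_dot_le_one m1 eZ hm1 heZ
      _ ≤ 10 * K * (h + gC) := by
          have h1 : h ≤ K * h := by nlinarith
          have h2 : 0 ≤ K * gC := mul_nonneg hK0 hgC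
          have h3 : 0 ≤ K * h := mul_nonneg hK0 hh
          nlinarith

theorem k9_aux_mulVec_le (D : K9M) (n x : K9V) (K w : ℝ) (hw0 : 0 ≤ w) (hw : k9row n D ≤ w ^ 2)
    (hx : ∀ i, |x i| ≤ K) : |k9dot n (D.mulVec x)| ≤ 2 * K * w := by
  have hK : 0 ≤ K := le_trans (abs_nonneg _) (hx 0)
  unfold k9row at hw
  set r0 := n 0 * D 0 0 + n 1 * D 1 0 with hr0
  set r1 := n 0 * D 0 1 + n 1 * D 1 1 with hr1
  have e : k9dot n (D.mulVec x) = r0 * x 0 + r1 * x 1 := by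
    simp only [k9dot, Matrix.mulVec, dotProduct, Fin.sum_univ_two, hr0, hr1]
    ring
  have a0 : |r0| ≤ w := abs_le_of_sq_le_sq (by nlinarith [sq_nonneg r1]) hw0
  have a1 : |r1| ≤ w := abs_le_of_sq_le_sq (by nlinarith [sq_nonneg r0]) hw0
  rw [e]
  calc |r0 * x 0 + r1 * x 1| ≤ |r0 * x 0| + |r1 * x 1| := abs_add_le _ _
    _ = |r0| * |x 0| + |r1| * |x 1| := by rw [abs_mul, abs_mul]
    _ ≤ w * K + w * K := by
        gcongr
        · exact hx 0
        · exact hx 1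
    _ = 2 * K * w := by ring

/-- LEAF S9-BOX (~150 l., `abs` arithmetic).  (l.783-808): the WHOLE domain of a compatible `Q₁`-chart, at every time of its block, lies in the common moving box.
`y = y₁(t) + D₁ x`, `|x| ≤ K`;  centre bounds at the occurrence time `ts`, rates, `|t - ts| ≤ q1`. -/
theorem k9_common_box (nC eZ n1 : K9V) (D1 : K9M) (s S : ℝ) (h1 : K9Svd D1 n1 s S) (x c0 c1 cC0 cC1 : K9V) (t ts Zc K q1 g1 : ℝ)
    (hK : 1 ≤ K) (hq1 : 0 ≤ q1) (hg1 : 0 ≤ g1) (hg1' : g1 ≤ 1) (hnC : K9Unit nC) (heZ : K9Unit eZ) (horth : k9dot nC eZ = 0)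
    (hs : s ≤ K * q1 * g1) (hS : S ≤ K * q1) (hang : |k9crs nC n1| ≤ K * g1) (hx : ∀ i, |x i| ≤ K) (ht : |t - ts| ≤ q1)
    (hZ : |k9dot eZ (c0 + ts • c1) - Zc| ≤ K * q1) (hN : |k9dot nC (c0 + ts • c1 - (cC0 + ts • cC1))| ≤ K * q1 * g1)
    (hrN : |k9dot nC (c1 - cC1)| ≤ K * g1) (hrZ : |k9dot eZ c1| ≤ K) :
    |k9dot eZ (c0 + t • c1 + D1.mulVec x) - Zc| ≤ 6 * K ^ 2 * q1 ∧
      |k9dot nC (c0 + t • c1 + D1.mulVec x - (cC0 + t • cC1))| ≤ 8 * K ^ 3 * q1 * g1 := by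
  obtain ⟨hn1, hs0, hsS, -, hrow⟩ := h1
  have hK0 : 0 ≤ K := by linarith
  have hS0 : 0 ≤ S := le_trans hs0 hsS
  have hKq : 0 ≤ K * q1 := mul_nonneg hK0 hq1
  have hKK : K ≤ K ^ 2 := by nlinarith
  -- Lagrange identity
  have lag : ∀ v : K9V, K9Unit v → k9dot v n1 ^ 2 + k9crs n1 v ^ 2 = 1 := by
    intro v hv
    unfold K9Unit at hv hn1
    simp only [k9dot, k9crs]
    linear_combination (n1 0 ^ 2 + n1 1 ^ 2) * hv + hn1
  constructor
  · have hrowZ : k9row eZ D1 ≤ (K * q1) ^ 2 := by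
      rw [hrow eZ]
      have l := lag eZ heZ
      have hs2 : s ^ 2 ≤ S ^ 2 := by gcongr
      have hS2 : S ^ 2 ≤ (K * q1) ^ 2 := by gcongr
      calc s ^ 2 * k9dot eZ n1 ^ 2 + S ^ 2 * k9crs n1 eZ ^ 2
          ≤ S ^ 2 * k9dot eZ n1 ^ 2 + S ^ 2 * k9crs n1 eZ ^ 2 := by gcongr
        _ = S ^ 2 * (k9dot eZ n1 ^ 2 + k9crs n1 eZ ^ 2) := by ring
        _ = S ^ 2 := by rw [l, mul_one]
        _ ≤ _ := hS2
    have b3 := k9_aux_mulVec_le D1 eZ x K (K * q1) hKq hrowZ hx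
    have e : k9dot eZ (c0 + t • c1 + D1.mulVec x) - Zc
        = (k9dot eZ (c0 + ts • c1) - Zc) + (t - ts) * k9dot eZ c1 + k9dot eZ (D1.mulVec x) := by
      simp only [k9dot, Pi.add_apply, Pi.smul_apply, smul_eq_mul]
      ring
    rw [e]
    have b2 : |(t - ts) * k9dot eZ c1| ≤ q1 * K := by
      rw [abs_mul]
      exact mul_le_mul ht hrZ (abs_nonneg _) hq1
    have t1 := abs_add_le ((k9dot eZ (c0 + ts • c1) - Zc) + (t - ts) * k9dot eZ c1) (k9dot eZ (D1.mulVec x))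
    have t2 := abs_add_le (k9dot eZ (c0 + ts • c1) - Zc) ((t - ts) * k9dot eZ c1)
    have h4 : K * q1 ≤ K ^ 2 * q1 := mul_le_mul_of_nonneg_right hKK hq1
    have h5 : 0 ≤ K ^ 2 * q1 := by positivity
    nlinarith
  · have hw0 : 0 ≤ 2 * K ^ 2 * q1 * g1 := by positivity
    have hrowN : k9row nC D1 ≤ (2 * K ^ 2 * q1 * g1) ^ 2 := by
      rw [hrow nC]
      have l := lag nC hnC
      have hd : k9dot nC n1 ^ 2 ≤ 1 := by nlinarith [sq_nonneg (k9crs n1 nC)]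
      have hcr : k9crs n1 nC ^ 2 ≤ (K * g1) ^ 2 := by
        have : k9crs n1 nC = -k9crs nC n1 := by simp only [k9crs]; ring
        rw [this, neg_sq, ← sq_abs]
        gcongr
      have hs2 : s ^ 2 ≤ (K * q1 * g1) ^ 2 := by gcongr
      have hS2 : S ^ 2 ≤ (K * q1) ^ 2 := by gcongr
      calc s ^ 2 * k9dot nC n1 ^ 2 + S ^ 2 * k9crs n1 nC ^ 2
          ≤ (K * q1 * g1) ^ 2 * 1 + (K * q1) ^ 2 * (K * g1) ^ 2 := by gcongr
        _ = (K ^ 2 + K ^ 4) * (q1 * g1) ^ 2 := by ring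
        _ ≤ (4 * K ^ 4) * (q1 * g1) ^ 2 := by
            gcongr
            have : K ^ 2 ≤ K ^ 4 := by nlinarith [sq_nonneg K, sq_nonneg (K ^ 2)]
            nlinarith [sq_nonneg (K ^ 2)]
        _ = _ := by ring
    have b3 := k9_aux_mulVec_le D1 nC x K _ hw0 hrowN hx
    have e : k9dot nC (c0 + t • c1 + D1.mulVec x - (cC0 + t • cC1))
        = k9dot nC (c0 + ts • c1 - (cC0 + ts • cC1)) + (t - ts) * k9dot nC (c1 - cC1) + k9dot nC (D1.mulVec x) := by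
      simp only [k9dot, Pi.add_apply, Pi.sub_apply, Pi.smul_apply, smul_eq_mul]
      ring
    rw [e]
    have b2 : |(t - ts) * k9dot nC (c1 - cC1)| ≤ q1 * (K * g1) := by
      rw [abs_mul]
      exact mul_le_mul ht hrN (abs_nonneg _) hq1
    have t1 := abs_add_le (k9dot nC (c0 + ts • c1 - (cC0 + ts • cC1)) + (t - ts) * k9dot nC (c1 - cC1)) (k9dot nC (D1.mulVec x))
    have t2 := abs_add_le (k9dot nC (c0 + ts • c1 - (cC0 + ts • cC1))) ((t - ts) * k9dot nC (c1 - cC1))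
    have hqg : 0 ≤ q1 * g1 := mul_nonneg hq1 hg1
    have hK3 : K ≤ K ^ 3 := by nlinarith [sq_nonneg K]
    have h4 : K * (q1 * g1) ≤ K ^ 3 * (q1 * g1) := mul_le_mul_of_nonneg_right hK3 hqg
    have h5 : 0 ≤ K ^ 3 * (q1 * g1) := by positivity
    nlinarith

/-! ## §6 Lemma 9.4: one quadratic equation `P(z) = A + B z + C z²/2` -/

/-- LEAF S9-ROOT (with the next one, ~150 l.).  Large curvature (l.629-637): `P_z = C (z - z_c)`, `z_c = -B/C`. -/
theorem k9_center_approx (B C z κ e K' : ℝ) (he : 0 < e) (hK' : 0 < K') (hC : 1 / (e * K') ≤ |C|) (hPz : |B + C * z| ≤ κ) :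
    |z - (-B / C)| ≤ κ * K' * e := by
  have hek : 0 < e * K' := mul_pos he hK'
  have hC0 : 0 < |C| := lt_of_lt_of_le (by positivity) hC
  have hCne : C ≠ 0 := abs_pos.1 hC0
  have hκ : 0 ≤ κ := (abs_nonneg _).trans hPz
  have e1 : z - (-B / C) = (B + C * z) / C := by
    field_simp
    ring
  rw [e1, abs_div, div_le_iff₀ hC0]
  have h1 : 1 ≤ |C| * (e * K') := by rwa [div_le_iff₀ hek] at hC
  calc |B + C * z| ≤ κ := hPz
    _ = κ * 1 := by ring
    _ ≤ κ * (|C| * (e * K')) := mul_le_mul_of_nonneg_left h1 hκ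
    _ = κ * K' * e * |C| := by ring

/-- Small curvature (l.638-660): the discriminant `Δ = B² - 2 A C = P_z² - 2 C P` is `≥ P_z²/2`, and the root branch with the sign `σ` of `P_z`,
`z_* = (σ √Δ - B)/C` (`C ≠ 0`) resp. `-A/B` (`C = 0`), satisfies `z_* - z = -2P/(σ √Δ + P_z)`. -/
theorem k9_root_approx (A B C z κ e : ℝ) (he : 0 ≤ e) (hκ : 0 < κ) (hP : |A + B * z + C * z ^ 2 / 2| ≤ e) (hPz : 1 / κ ≤ |B + C * z|)
    (hC : 4 * κ ^ 2 * |C| * e ≤ 1) :
    (B + C * z) ^ 2 / 2 ≤ B ^ 2 - 2 * A * C ∧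
      ∃ zs : ℝ, A + B * zs + C * zs ^ 2 / 2 = 0 ∧ |z - zs| ≤ 2 * κ * e ∧
        (C ≠ 0 → zs = (SignType.sign (B + C * z) * Real.sqrt (B ^ 2 - 2 * A * C) - B) / C) ∧ (C = 0 → zs = -A / B) := by
  obtain ⟨P, hPd⟩ : ∃ P, P = A + B * z + C * z ^ 2 / 2 := ⟨_, rfl⟩
  obtain ⟨Q, hQd⟩ : ∃ Q, Q = B + C * z := ⟨_, rfl⟩
  obtain ⟨Δ, hΔd⟩ : ∃ Δ, Δ = B ^ 2 - 2 * A * C := ⟨_, rfl⟩
  rw [← hPd] at hP
  rw [← hQd] at hPz
  rw [← hQd, ← hΔd]
  have hΔ : Δ = Q ^ 2 - 2 * C * P := by rw [hΔd, hPd, hQd]; ring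
  have hQ0 : 0 < |Q| := lt_of_lt_of_le (by positivity) hPz
  have hQne : Q ≠ 0 := abs_pos.1 hQ0
  have hκQ : 1 ≤ |Q| * κ := by rwa [div_le_iff₀ hκ] at hPz
  have hQ2 : 1 ≤ Q ^ 2 * κ ^ 2 := by
    have : 1 ≤ (|Q| * κ) ^ 2 := one_le_pow₀ hκQ
    rwa [mul_pow, sq_abs] at this
  have hCP : |2 * C * P| ≤ Q ^ 2 / 2 := by
    rw [abs_mul, abs_mul, abs_two]
    have h1 : 2 * |C| * |P| ≤ 2 * |C| * e := mul_le_mul_of_nonneg_left hP (by positivity)
    have h2 : κ ^ 2 * (2 * |C| * e) ≤ κ ^ 2 * (Q ^ 2 / 2) := by nlinarith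
    exact h1.trans (le_of_mul_le_mul_left h2 (by positivity))
  have hD : Q ^ 2 / 2 ≤ Δ := by
    rw [hΔ]
    have := (abs_le.1 hCP).2
    linarith
  refine ⟨hD, ?_⟩
  have hΔ0 : 0 ≤ Δ := le_trans (by positivity) hD
  have hs : Real.sqrt Δ ^ 2 = Δ := Real.sq_sqrt hΔ0
  have hs0 : 0 ≤ Real.sqrt Δ := Real.sqrt_nonneg _
  obtain ⟨σ, hσd⟩ : ∃ σ : ℝ, σ = (SignType.sign Q : ℝ) := ⟨_, rfl⟩
  rw [← hσd]
  have hσQ : σ * Q = |Q| := by rw [hσd]; exact sign_mul_self Q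
  have hσ2 : σ ^ 2 = 1 := by
    rcases lt_or_gt_of_ne hQne with h | h
    · rw [hσd, sign_neg h]; simp
    · rw [hσd, sign_pos h]; simp
  have hσa : |σ| = 1 := by
    have : |σ| ^ 2 = 1 := by rw [sq_abs]; exact hσ2
    nlinarith [abs_nonneg σ]
  by_cases hC0 : C = 0
  · have hBQ : B = Q := by rw [hQd, hC0]; ring
    have hBne : B ≠ 0 := hBQ ▸ hQne
    refine ⟨-A / B, ?_, ?_, fun h => absurd hC0 h, fun _ => rfl⟩
    · rw [hC0]
      field_simp
      ring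
    · have e1 : z - -A / B = P / Q := by
        rw [hPd, ← hBQ, hC0]
        field_simp
        ring
      rw [e1, abs_div, div_le_iff₀ hQ0]
      calc |P| ≤ e := hP
        _ = e * 1 := by ring
        _ ≤ e * (|Q| * κ) := mul_le_mul_of_nonneg_left hκQ he
        _ ≤ 2 * κ * e * |Q| := by nlinarith [mul_nonneg (mul_nonneg he hQ0.le) hκ.le]
  · refine ⟨(σ * Real.sqrt Δ - B) / C, ?_, ?_, fun _ => rfl, fun h => absurd h hC0⟩
    · have e1 : A + B * ((σ * Real.sqrt Δ - B) / C) + C * ((σ * Real.sqrt Δ - B) / C) ^ 2 / 2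
          = (σ ^ 2 * Real.sqrt Δ ^ 2 - (B ^ 2 - 2 * A * C)) / (2 * C) := by
        field_simp
        ring
      rw [e1, hσ2, hs, hΔd]
      simp
    · have hden : 0 < |Q| + Real.sqrt Δ := by positivity
      have e1 : z - (σ * Real.sqrt Δ - B) / C = 2 * σ * P / (|Q| + Real.sqrt Δ) := by
        rw [eq_div_iff hden.ne']
        have e2 : z - (σ * Real.sqrt Δ - B) / C = (Q - σ * Real.sqrt Δ) / C := by
          rw [hQd]
          field_simp
          ring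
        rw [e2, div_mul_eq_mul_div, div_eq_iff hC0, ← hσQ]
        have e3 : (Q - σ * Real.sqrt Δ) * (σ * Q + Real.sqrt Δ) = σ * (Q ^ 2 - Real.sqrt Δ ^ 2) + (1 - σ ^ 2) * (Q * Real.sqrt Δ) := by ring
        rw [e3, hs, hσ2, hΔ]
        ring
      rw [e1, abs_div, abs_of_pos hden, div_le_iff₀ hden, abs_mul, abs_mul, abs_two, hσa]
      calc 2 * 1 * |P| ≤ 2 * 1 * e := by linarith
        _ = 2 * e * 1 := by ring
        _ ≤ 2 * e * (|Q| * κ) := mul_le_mul_of_nonneg_left hκQ (by positivity)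
        _ ≤ 2 * κ * e * (|Q| + Real.sqrt Δ) := by nlinarith [mul_nonneg (mul_nonneg he hκ.le) hs0]

/-! ## §7 the final proof -/

/-- LEAF S9-GREEDY (~150 l.).  (l.925-949) greedy insertion.  `Sf f` = trajectories meeting the geometric fit of the test `f`; `m U` = residual incidence mass of a set of trajectories, `m U ≤ ν U`.
A maximal list exists because every insertion removes prior mass `≥ m₀` : induction on `⌊ν(univ)/m₀⌋`, or take a list of maximal length among the admissible ones (lengths are bounded). -/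
theorem k9_greedy {Λ 𝔉 : Type*} [MeasurableSpace Λ] (ν m : Measure Λ) [IsFiniteMeasure ν] (hm : m ≤ ν) (Sf : 𝔉 → Set Λ)
    (hS : ∀ f, MeasurableSet (Sf f)) (m0 : ℝ≥0∞) (h0 : m0 ≠ 0) :
    ∃ l : List 𝔉, (l.length : ℝ≥0∞) * m0 ≤ ν Set.univ ∧ (∀ f, m (Sf f \ ⋃ g ∈ l, Sf g) < m0) := by
  have hmeas : ∀ l : List 𝔉, MeasurableSet (⋃ g ∈ l, Sf g) := fun l =>
    MeasurableSet.biUnion (s := {g | g ∈ l}) (List.finite_toSet l).countable fun g _ => hS g
  have key : ∀ n : ℕ, (∃ l : List 𝔉, (l.length : ℝ≥0∞) * m0 ≤ ν (⋃ g ∈ l, Sf g) ∧ (∀ f, m (Sf f \ ⋃ g ∈ l, Sf g) < m0)) ∨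
      ∃ l : List 𝔉, l.length = n ∧ (l.length : ℝ≥0∞) * m0 ≤ ν (⋃ g ∈ l, Sf g) := by
    intro n
    induction n with
    | zero => exact Or.inr ⟨[], rfl, by simp⟩
    | succ n ih =>
      rcases ih with h | ⟨l, hl, hadm⟩
      · exact Or.inl h
      · by_cases hf : ∀ f, m (Sf f \ ⋃ g ∈ l, Sf g) < m0
        · exact Or.inl ⟨l, hadm, hf⟩
        · push Not at hf
          obtain ⟨f, hf⟩ := hf
          refine Or.inr ⟨f :: l, by simp [hl], ?_⟩
          have e1 : (⋃ g ∈ f :: l, Sf g) = (⋃ g ∈ l, Sf g) ∪ (Sf f \ ⋃ g ∈ l, Sf g) := by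
            rw [Set.union_sdiff_self, Set.union_comm]
            ext x
            simp
          rw [e1, measure_union Set.disjoint_sdiff_right ((hS f).diff (hmeas l))]
          have e2 : (((f :: l).length : ℕ) : ℝ≥0∞) * m0 = (l.length : ℝ≥0∞) * m0 + m0 := by
            rw [List.length_cons]
            push_cast
            ring
          rw [e2]
          exact add_le_add hadm (hf.trans (Measure.le_iff'.1 hm _))
  obtain ⟨n, hn⟩ := ENNReal.exists_nat_mul_gt h0 (measure_ne_top ν Set.univ)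
  rcases key n with ⟨l, h1, h2⟩ | ⟨l, hl, hadm⟩
  · exact ⟨l, h1.trans (measure_mono (Set.subset_univ _)), h2⟩
  · exfalso
    rw [hl] at hadm
    exact absurd (hadm.trans (measure_mono (Set.subset_univ _))) (not_le.2 hn)

/-- LEAF S9-POST (~200 l.).  (l.1075-1096) posterior lists without conditional kernels.  `m` = law of the observation, `β o b` = posterior weight of the coefficient bin `b` (finite set),
`Nb b` = neighbouring bins.  If posterior pairs match up to `ε`, the lists around a maximising centre keep the mass up to `ε`.  `ctr o` = argmax of `b ↦ ∑_{b' ∈ Nb b} β o b'` (measurable: finite comparisons). -/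
theorem k9_posterior_list {O 𝔅 : Type*} [MeasurableSpace O] [Fintype 𝔅] [Nonempty 𝔅] [DecidableEq 𝔅] (m : Measure O) (β : O → 𝔅 → ℝ≥0∞)
    (hβ : ∀ b, Measurable fun o => β o b) (h1 : ∀ o, ∑ b, β o b = 1) (Nb : 𝔅 → Finset 𝔅) :
    ∃ ctr : O → 𝔅, (∀ b, MeasurableSet (ctr ⁻¹' {b})) ∧
      ∫⁻ o, ∑ b, β o b * ∑ b' ∈ Nb b, β o b' ∂m ≤ ∫⁻ o, ∑ b' ∈ Nb (ctr o), β o b' ∂m := by
  classical
  obtain ⟨E, hE⟩ := exists_surjective_nat 𝔅
  have hg : ∀ b, Measurable fun o => ∑ b' ∈ Nb b, β o b' := fun b => Finset.measurable_sum _ fun b' _ => hβ b'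
  have hp : ∀ o, ∃ k : ℕ, ∀ b, ∑ b' ∈ Nb b, β o b' ≤ ∑ b' ∈ Nb (E k), β o b' := by
    intro o
    obtain ⟨b0, -, hb0⟩ := Finset.exists_max_image Finset.univ (fun b => ∑ b' ∈ Nb b, β o b') ⟨Classical.arbitrary 𝔅, Finset.mem_univ _⟩
    obtain ⟨k, rfl⟩ := hE b0
    exact ⟨k, fun b => hb0 b (Finset.mem_univ _)⟩
  have hN : Measurable fun o => Nat.find (hp o) := by
    refine measurable_find hp fun k => ?_
    have : {o | ∀ b, ∑ b' ∈ Nb b, β o b' ≤ ∑ b' ∈ Nb (E k), β o b'} = ⋂ b, {o | ∑ b' ∈ Nb b, β o b' ≤ ∑ b' ∈ Nb (E k), β o b'} := by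
      ext o
      simp
    rw [this]
    exact MeasurableSet.iInter fun b => measurableSet_le (hg b) (hg (E k))
  refine ⟨fun o => E (Nat.find (hp o)), fun b => ?_, lintegral_mono fun o => ?_⟩
  · exact hN (t := E ⁻¹' {b}) MeasurableSet.of_discrete
  · have hmax := Nat.find_spec (hp o)
    calc ∑ b, β o b * ∑ b' ∈ Nb b, β o b' ≤ ∑ b, β o b * ∑ b' ∈ Nb (E (Nat.find (hp o))), β o b' :=
          Finset.sum_le_sum fun b _ => mul_le_mul_right (hmax b) _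
      _ = ∑ b' ∈ Nb (E (Nat.find (hp o))), β o b' := by rw [← Finset.sum_mul, h1, one_mul]

/-- LEAF S9-QROUND (~40 l.).  rounding the six coefficients of a quadratic in `(τ, ζ)` (l.1117-1124) -/
theorem k9_quad_round (a a' : Fin 6 → ℝ) (τ ζ h L : ℝ) (hL : 1 ≤ L) (hτ : |τ| ≤ 1) (hζ : |ζ| ≤ L) (ha : ∀ i, |a i - a' i| ≤ h) :
    |(a 0 + a 1 * τ + a 2 * ζ + a 3 * τ ^ 2 + a 4 * τ * ζ + a 5 * ζ ^ 2) - (a' 0 + a' 1 * τ + a' 2 * ζ + a' 3 * τ ^ 2 + a' 4 * τ * ζ + a' 5 * ζ ^ 2)|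
      ≤ 6 * L ^ 2 * h := by
  have hL2 : 1 ≤ L ^ 2 := by nlinarith
  have hLL : L ≤ L ^ 2 := by nlinarith
  have key : ∀ (i : Fin 6) (x : ℝ), |x| ≤ L ^ 2 → |(a i - a' i) * x| ≤ L ^ 2 * h := by
    intro i x hx
    rw [abs_mul, mul_comm]
    exact mul_le_mul hx (ha i) (abs_nonneg _) (by positivity)
  have k0 := abs_le.1 (key 0 1 (by rw [abs_one]; exact hL2))
  have k1 := abs_le.1 (key 1 τ (hτ.trans hL2))
  have k2 := abs_le.1 (key 2 ζ (hζ.trans hLL))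
  have k3 := abs_le.1 (key 3 (τ ^ 2) (by rw [abs_pow]; exact (pow_le_one₀ (abs_nonneg _) hτ).trans hL2))
  have k4 := abs_le.1 (key 4 (τ * ζ) (by
    rw [abs_mul]
    calc |τ| * |ζ| ≤ 1 * L := mul_le_mul hτ hζ (abs_nonneg _) zero_le_one
      _ ≤ L ^ 2 := by linarith))
  have k5 := abs_le.1 (key 5 (ζ ^ 2) (by rw [abs_pow]; exact pow_le_pow_left₀ (abs_nonneg _) hζ 2))
  have e : (a 0 + a 1 * τ + a 2 * ζ + a 3 * τ ^ 2 + a 4 * τ * ζ + a 5 * ζ ^ 2) - (a' 0 + a' 1 * τ + a' 2 * ζ + a' 3 * τ ^ 2 + a' 4 * τ * ζ + a' 5 * ζ ^ 2)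
      = (a 0 - a' 0) * 1 + (a 1 - a' 1) * τ + (a 2 - a' 2) * ζ + (a 3 - a' 3) * τ ^ 2 + (a 4 - a' 4) * (τ * ζ) + (a 5 - a' 5) * ζ ^ 2 := by ring
  rw [e]
  exact abs_le.2 ⟨by linarith [k0.1, k1.1, k2.1, k3.1, k4.1, k5.1], by linarith [k0.2, k1.2, k2.2, k3.2, k4.2, k5.2]⟩

end

end Claimed.Agent.R252
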