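import Claimed.Agent.R252.Base.Sys
import Claimed.Agent.R252.S9.Geo

/-!
# ROW 252 (S0492), unit S9, file 2: **P9.2 FULL-TIME LOCALIZATION, ONE-SCALE CORE** over `Base/Pb`, `Base/Sys`.      CONTRACT file (architect helper233, post BP-252-S9)

09-unbounded-narrowness.tex l.68-283.   One scale, explicit slack `K ≥ 1`, conclusions `C * K ^ C`.   Dictionary: `θ = g₂ N^u` (angle test), `gC = g₂ N^{2u}`, `κ = K N^{-Su/2}`, `n2 = n_i(r₂)`, `ε0` = mass of the atypical entries.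
* `K9Node P Y K g`      a true node: WF, chart box and size (2.9), determinant `J ∼ q² g`, largest axis `∼ q`.
* `K9Nest Y1 Y2 par K`  `Q₂` is nested in `Q₁` (lift of a system of the normalised problem).
* `K9Cap P G aL ρ κ Kl` INTEGRATED angular cap on the good incidences `G` (to be supplied by S2a from `dn (hv aL b) ≤ K b^S dn (hid aL)`, `dn (hid 1) ≤ K`).
* `k9Csys Y2 t0 gC`     THE CONSTRUCTION: the system of full-time charts `C` (labels = bins of width `gC` of normal, intercept, velocity coefficient of the label `Q₂(t₀)`).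
* leaves FT1-FT7, glue `k9_full_time`.
-/

set_option autoImplicit false

namespace Claimed.Agent.R252

open MeasureTheory
open scoped ENNReal BigOperators
open Classical

noncomputable section

/-- problems of the second model -/
abbrev K9P := KbPb KbVer.two

/-- position at an incidence -/
def k9Y (P : K9P) (γ : P.W) (x : P.Lam × ℝ) : K9V := kbY (P.co γ x.1) x.2

/-- velocity at an incidence -/
def k9Vel (P : K9P) (γ : P.W) (x : P.Lam × ℝ) : K9V := kbV (P.co γ x.1)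

/-- a chosen unit left minor axis -/
def k9nrm (D : K9M) : K9V := Classical.choose (k9_svd D)

theorem k9nrm_spec (D : K9M) : ∃ s S : ℝ, K9Svd D (k9nrm D) s S := Classical.choose_spec (k9_svd D)

variable {P : K9P}

/-- spatial matrix of a chart, as a `K9M` -/
def k9D (Y : KbSys P) (c : Y.C) : K9M := (Y.ch c).D

/-- normal of a chart -/
def k9N (Y : KbSys P) (c : Y.C) : K9V := k9nrm (k9D Y c)

/-- intercept of the affine normal centre -/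
def k9Al (Y : KbSys P) (c : Y.C) : ℝ := k9dot (k9N Y c) (Y.ch c).y0

/-- velocity coefficient of the affine normal centre -/
def k9Be (Y : KbSys P) (c : Y.C) : ℝ := k9dot (k9N Y c) (Y.ch c).y1

/-- a node: chart box, size, determinant `∼ q² g`, largest axis `∼ q` -/
structure K9Node (P : K9P) (Y : KbSys P) (K g : ℝ) : Prop where
  wf : Y.WF
  size : ∀ c, kbMn (Y.ch c).D ≤ Y.q * K
  box : ∀ c, ∀ l ∈ Y.A c, ∀ t ∈ Y.I c, ‖(Y.ch c).Di.mulVec (kbY (P.co (Y.wd c) l) t - (Y.ch c).yc t)‖ ≤ K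
  det_le : ∀ c, (Y.ch c).J ≤ K * Y.q ^ 2 * g
  det_ge : ∀ c, Y.q ^ 2 * g ≤ K * (Y.ch c).J
  axis : ∀ c, Y.q ≤ K * kbMn (Y.ch c).D

/-- `Y2` is nested in `Y1` -/
structure K9Nest (Y1 Y2 : KbSys P) (par : Y2.C → Y1.C) (K : ℝ) : Prop where
  wd : ∀ c, Y1.wd (par c) = Y2.wd c
  sub : ∀ c, Y2.S c ⊆ Y1.S (par c)
  mat : ∀ c, ∃ R : K9M, k9D Y2 c = k9D Y1 (par c) * R ∧ ∀ i k, |R i k| ≤ K * Y2.q / Y1.q

/-- integrated angular cap on the good incidences  (`ι` countable: for uncountable `ι` the statement is false, the listed set need not be measurable) -/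
def K9Cap (P : K9P) (G : P.W → Set (P.Lam × ℝ)) (aL ρ κ Kl : ℝ) : Prop :=
  ∀ (γ : P.W) (ι : Type) [Countable ι] (Lst : ℤ → ℝ × K9V → Finset ι) (ctr : ι → K9V) (R : Set (ℝ × K9V)),
    (∀ d o, ((Lst d o).card : ℝ) ≤ Kl) → (∀ d c, MeasurableSet {o | c ∈ Lst d o}) → MeasurableSet R →
    P.mu γ {x | x ∈ G γ ∧ P.bs γ x ∈ R ∧ ∃ c ∈ Lst (P.hid aL γ x) (P.bs γ x), ∀ i, |k9Vel P γ x i - ctr c i| ≤ ρ}
      ≤ ENNReal.ofReal κ * volume R

/-! ## the construction -/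

/-- binned data of a label -/
def k9Bin (Y : KbSys P) (gC : ℝ) (c : Y.C) : ℤ × ℤ × ℤ × ℤ :=
  (⌊k9N Y c 0 / gC⌋, ⌊k9N Y c 1 / gC⌋, ⌊k9Al Y c / gC⌋, ⌊k9Be Y c / gC⌋)

/-- the labels of `Y` alive at the time `t0` -/
def k9At (Y : KbSys P) (t0 : ℝ) : Finset Y.C := Finset.univ.filter fun c => t0 ∈ Y.I c

/-- the occupied `C`-labels -/
def k9CLab (Y : KbSys P) (t0 gC : ℝ) : Finset (P.W × (ℤ × ℤ × ℤ × ℤ)) := (k9At Y t0).image fun c => (Y.wd c, k9Bin Y gC c)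

/-- a representative label of a bin -/
def k9Rep (Y : KbSys P) (t0 gC : ℝ) (b : {b // b ∈ k9CLab Y t0 gC}) : Y.C := Classical.choose (Finset.mem_image.1 b.2)

/-- the frame `(rot n | gC n)` -/
def k9Fr (n : K9V) (gC : ℝ) : K9M := !![-n 1, gC * n 0; n 0, gC * n 1]

/-- its inverse -/
def k9FrI (n : K9V) (gC : ℝ) : K9M := !![-n 1, n 0; n 0 / gC, n 1 / gC]

/-- the angle test between two labels -/
def K9Ang (Y : KbSys P) (θ : ℝ) (c c' : Y.C) : Prop := |k9crs (k9N Y c) (k9N Y c')| ≤ θ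

/-- **the system of full-time charts** -/
def k9Csys (Y : KbSys P) (t0 gC θ : ℝ) : KbSys P where
  n := 0
  C := {b // b ∈ k9CLab Y t0 gC}
  fC := inferInstance
  wd := fun b => b.1.1
  iv := fun _ => 0
  A := fun b => ⋃ c ∈ k9At Y t0, ⋃ (_ : (Y.wd c, k9Bin Y gC c) = b.1), Y.A c
  S := fun b => ⋃ c ∈ k9At Y t0, ⋃ (_ : (Y.wd c, k9Bin Y gC c) = b.1), ⋃ c' : Y.C, ⋃ (_ : Y.wd c' = Y.wd c ∧ K9Ang Y θ c c'),
    {x | (x.1, t0) ∈ Y.S c ∧ x ∈ Y.S c'}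
  ch := fun b =>
    { y0 := k9Al Y (k9Rep Y t0 gC b) • k9N Y (k9Rep Y t0 gC b)
      y1 := k9Be Y (k9Rep Y t0 gC b) • k9N Y (k9Rep Y t0 gC b)
      D := k9Fr (k9N Y (k9Rep Y t0 gC b)) gC
      Di := k9FrI (k9N Y (k9Rep Y t0 gC b)) gC
      T := P.Pst b.1.1 }

/-- the normal of a full-time chart -/
def k9NC (Y : KbSys P) (t0 gC θ : ℝ) (b : (k9Csys Y t0 gC θ).C) : K9V := k9N Y (k9Rep Y t0 gC b)

/-! ## leaves -/

/-- LEAF S9-FT0 (~60 l.): entries of `D` are at most the large singular value (`D i k = e_iᵀ D e_k`; use the form identity at `v = e_i`). -/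
theorem k9_svd_ge (D : K9M) (n : K9V) (s S : ℝ) (h : K9Svd D n s S) : ∑ i, ∑ k, |D i k| ≤ 4 * S := by
  obtain ⟨hn, hs, hsS, -, hq⟩ := h
  have hS0 : 0 ≤ S := hs.trans hsS
  have hn' : n 0 ^ 2 + n 1 ^ 2 = 1 := hn
  have h0 := hq ![1, 0]
  have h1 := hq ![0, 1]
  simp only [k9row, k9dot, k9crs, Matrix.cons_val_zero, Matrix.cons_val_one] at h0 h1
  have hs2 : s ^ 2 ≤ S ^ 2 := pow_le_pow_left₀ hs hsS 2
  have b0 : D 0 0 ^ 2 + D 0 1 ^ 2 ≤ S ^ 2 := by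
    nlinarith [mul_nonneg (sub_nonneg.2 hs2) (sq_nonneg (n 0))]
  have b1 : D 1 0 ^ 2 + D 1 1 ^ 2 ≤ S ^ 2 := by
    nlinarith [mul_nonneg (sub_nonneg.2 hs2) (sq_nonneg (n 1))]
  have a00 : |D 0 0| ≤ S := abs_le_of_sq_le_sq (by nlinarith [sq_nonneg (D 0 1)]) hS0
  have a01 : |D 0 1| ≤ S := abs_le_of_sq_le_sq (by nlinarith [sq_nonneg (D 0 0)]) hS0
  have a10 : |D 1 0| ≤ S := abs_le_of_sq_le_sq (by nlinarith [sq_nonneg (D 1 1)]) hS0
  have a11 : |D 1 1| ≤ S := abs_le_of_sq_le_sq (by nlinarith [sq_nonneg (D 1 0)]) hS0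
  simp only [Fin.sum_univ_two]
  linarith

theorem k9_aux_q_pos (Y : KbSys P) : 0 < Y.q := by
  unfold KbSys.q kbQ; positivity

theorem k9_aux_q_le (Y : KbSys P) : Y.q ≤ 1 := by
  unfold KbSys.q kbQ; exact pow_le_one₀ (by norm_num) (by norm_num)

theorem k9_aux_tc_mem (Y : KbSys P) (c : Y.C) : Y.tc c ∈ Y.I c := by
  have hq := k9_aux_q_pos Y
  unfold KbSys.q at hq
  unfold KbSys.tc KbSys.I kbI
  exact ⟨le_refl _, by nlinarith⟩

theorem k9_aux_tc_half_mem (Y : KbSys P) (c : Y.C) : Y.tc c + Y.q / 2 ∈ Y.I c := by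
  have hq := k9_aux_q_pos Y
  unfold KbSys.q at hq ⊢
  unfold KbSys.tc KbSys.I kbI
  exact ⟨by linarith, by nlinarith⟩

theorem k9_aux_tc_unit (Y : KbSys P) (hwf : Y.WF) (c : Y.C) : 0 ≤ Y.tc c ∧ Y.tc c ≤ 1 := by
  have hq := k9_aux_q_pos Y
  unfold KbSys.q at hq
  unfold KbSys.tc
  refine ⟨by positivity, ?_⟩
  have h1 : ((Y.iv c : ℕ) : ℝ) ≤ (2 : ℝ) ^ Y.n := by exact_mod_cast (hwf.iv_lt c).le
  have h2 : (2 : ℝ) ^ Y.n * kbQ Y.n = 1 := by
    unfold kbQ; rw [← mul_pow]; norm_num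
  calc ((Y.iv c : ℕ) : ℝ) * kbQ Y.n ≤ (2 : ℝ) ^ Y.n * kbQ Y.n := mul_le_mul_of_nonneg_right h1 hq.le
    _ = 1 := h2

/-- LEAF S9-FT1 (~200 l.; black boxes `k9_svd_ge`, `k9_normal_strip`, `k9_velocity_strip`, `k9_extrapolate`).  (9.7) and its extrapolation to the unit interval.
`s S = J ≤ K q² g`, `S ≥ q/(4K)` so `s ≤ 4 K² q g`; position bound `8 K³ q g` on the block; times `t_c`, `t_c + q/2` of the block give the velocity bound `32 K³ g`; `q ≤ 1`. -/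
theorem k9_node_strips (Y : KbSys P) (K g : ℝ) (hK : 1 ≤ K) (hg : 0 ≤ g) (h : K9Node P Y K g) (c : Y.C) (n : K9V) (s S : ℝ)
    (hn : K9Svd (k9D Y c) n s S) (l : P.Lam) (hl : l ∈ Y.A c) :
    |k9dot n (kbV (P.co (Y.wd c) l) - (Y.ch c).y1)| ≤ 32 * K ^ 3 * g ∧
      ∀ t ∈ Set.Icc (0 : ℝ) 1, |k9dot n (kbY (P.co (Y.wd c) l) t - (Y.ch c).yc t)| ≤ 40 * K ^ 3 * g := by
  have hge := k9_svd_ge (k9D Y c) n s S hn
  obtain ⟨hnu, hs0, hsS, hdet, hq⟩ := hn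
  have hq0 := k9_aux_q_pos Y
  have hq1 := k9_aux_q_le Y
  have hK0 : 0 < K := by linarith
  have hax : Y.q ≤ K * ∑ i, ∑ k, |k9D Y c i k| := h.axis c
  have hS : Y.q ≤ 4 * K * S := by nlinarith
  have hJ : s * S ≤ K * Y.q ^ 2 * g := by rw [hdet]; exact h.det_le c
  have hsb : s ≤ 4 * K ^ 2 * Y.q * g := by
    have h1 : s * Y.q ≤ s * (4 * K * S) := mul_le_mul_of_nonneg_left hS hs0
    have h2 : 4 * K * (s * S) ≤ 4 * K * (K * Y.q ^ 2 * g) := mul_le_mul_of_nonneg_left hJ (by positivity)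
    have h3 : s * Y.q ≤ 4 * K ^ 2 * Y.q * g * Y.q := by nlinarith
    exact le_of_mul_le_mul_right h3 hq0
  have hrow : k9row n (k9D Y c) ≤ s ^ 2 := by
    rw [hq n]
    have e1 : k9dot n n = 1 := by
      have : n 0 ^ 2 + n 1 ^ 2 = 1 := hnu
      unfold k9dot; nlinarith
    have e2 : k9crs n n = 0 := by unfold k9crs; ring
    rw [e1, e2]; simp
  have hpos : ∀ t ∈ Y.I c, |k9dot n (kbY (P.co (Y.wd c) l) t - (Y.ch c).yc t)| ≤ 8 * K ^ 3 * Y.q * g := by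
    intro t ht
    have hb := h.box c l hl t ht
    have h1 := k9_normal_strip (k9D Y c) (Y.ch c).Di (h.wf.inv c) n
      (kbY (P.co (Y.wd c) l) t - (Y.ch c).yc t) K s hs0 hrow (fun i => (norm_le_pi_norm _ i).trans hb)
    have h2 : 2 * K * s ≤ 2 * K * (4 * K ^ 2 * Y.q * g) := mul_le_mul_of_nonneg_left hsb (by positivity)
    calc _ ≤ 2 * K * s := h1
      _ ≤ 2 * K * (4 * K ^ 2 * Y.q * g) := h2
      _ = 8 * K ^ 3 * Y.q * g := by ring
  have h1 := hpos _ (k9_aux_tc_mem Y c)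
  have h2 := hpos _ (k9_aux_tc_half_mem Y c)
  have hv := k9_velocity_strip n (P.co (Y.wd c) l).1 (kbV (P.co (Y.wd c) l)) (Y.ch c).y0 (Y.ch c).y1
    (Y.tc c) (Y.tc c + Y.q / 2) (8 * K ^ 3 * Y.q * g) (by linarith) h1 h2
  have e : 2 * (8 * K ^ 3 * Y.q * g) / (Y.tc c + Y.q / 2 - Y.tc c) = 32 * K ^ 3 * g := by
    rw [add_sub_cancel_left]
    have := hq0.ne'
    field_simp
    ring
  rw [e] at hv
  refine ⟨hv, ?_⟩
  intro t ht
  have hx := k9_extrapolate n (P.co (Y.wd c) l).1 (kbV (P.co (Y.wd c) l)) (Y.ch c).y0 (Y.ch c).y1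
    (Y.tc c) t (8 * K ^ 3 * Y.q * g) (32 * K ^ 3 * g) h1 hv
  obtain ⟨u0, u1⟩ := k9_aux_tc_unit Y h.wf c
  have ha : |t - Y.tc c| ≤ 1 := by rw [abs_le]; constructor <;> linarith [ht.1, ht.2]
  have hKg : 0 ≤ K ^ 3 * g := by positivity
  have b1 : 8 * K ^ 3 * Y.q * g ≤ 8 * K ^ 3 * g := by nlinarith
  have b2 : |t - Y.tc c| * (32 * K ^ 3 * g) ≤ 1 * (32 * K ^ 3 * g) :=
    mul_le_mul_of_nonneg_right ha (by positivity)
  calc _ ≤ 8 * K ^ 3 * Y.q * g + |t - Y.tc c| * (32 * K ^ 3 * g) := hx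
    _ ≤ 40 * K ^ 3 * g := by linarith

/-- LEAF S9-FT1b (~100 l.): the centre velocity is close to the velocity of the trajectories: `|V - y₁| ≤ 2 (K · K q)/(q/2)`. -/
theorem k9_node_center_vel (Y : KbSys P) (K g : ℝ) (hK : 1 ≤ K) (h : K9Node P Y K g) (c : Y.C) (l : P.Lam) (hl : l ∈ Y.A c) :
    ∀ i, |(kbV (P.co (Y.wd c) l) - (Y.ch c).y1) i| ≤ 4 * K ^ 2 := by
  intro i
  have hq0 := k9_aux_q_pos Y
  have hK0 : 0 < K := by linarith
  have hpos : ∀ t ∈ Y.I c, |(kbY (P.co (Y.wd c) l) t - (Y.ch c).yc t) i| ≤ K ^ 2 * Y.q := by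
    intro t ht
    have hb := h.box c l hl t ht
    obtain ⟨z, hz⟩ : ∃ z, z = kbY (P.co (Y.wd c) l) t - (Y.ch c).yc t := ⟨_, rfl⟩
    rw [← hz] at hb ⊢
    have hzz : (Y.ch c).D.mulVec ((Y.ch c).Di.mulVec z) = z := by
      rw [Matrix.mulVec_mulVec, h.wf.inv c, Matrix.one_mulVec]
    obtain ⟨u, hu⟩ : ∃ u, u = (Y.ch c).Di.mulVec z := ⟨_, rfl⟩
    rw [← hu] at hb hzz
    have hui : ∀ k, |u k| ≤ K := fun k => (norm_le_pi_norm _ k).trans hb
    have e : z i = ∑ k, (Y.ch c).D i k * u k := by rw [← hzz]; rfl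
    rw [e]
    calc |∑ k, (Y.ch c).D i k * u k| ≤ ∑ k, |(Y.ch c).D i k * u k| := Finset.abs_sum_le_sum_abs _ _
      _ ≤ ∑ k, |(Y.ch c).D i k| * K := by
          refine Finset.sum_le_sum fun k _ => ?_
          rw [abs_mul]
          exact mul_le_mul_of_nonneg_left (hui k) (abs_nonneg _)
      _ = (∑ k, |(Y.ch c).D i k|) * K := by rw [Finset.sum_mul]
      _ ≤ kbMn (Y.ch c).D * K := by
          refine mul_le_mul_of_nonneg_right ?_ hK0.le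
          unfold kbMn
          exact Finset.single_le_sum (f := fun i => ∑ k, |(Y.ch c).D i k|)
            (fun j _ => Finset.sum_nonneg fun k _ => abs_nonneg _) (Finset.mem_univ i)
      _ ≤ (Y.q * K) * K := mul_le_mul_of_nonneg_right (h.size c) hK0.le
      _ = K ^ 2 * Y.q := by ring
  have h1 := hpos _ (k9_aux_tc_mem Y c)
  have h2 := hpos _ (k9_aux_tc_half_mem Y c)
  have e : (kbV (P.co (Y.wd c) l) - (Y.ch c).y1) i * (Y.q / 2)
      = (kbY (P.co (Y.wd c) l) (Y.tc c + Y.q / 2) - (Y.ch c).yc (Y.tc c + Y.q / 2)) i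
        - (kbY (P.co (Y.wd c) l) (Y.tc c) - (Y.ch c).yc (Y.tc c)) i := by
    simp only [kbY, kbV, KbChart.yc, Pi.sub_apply, Pi.add_apply, Pi.smul_apply, smul_eq_mul]
    ring
  have h3 : |(kbV (P.co (Y.wd c) l) - (Y.ch c).y1) i| * (Y.q / 2) ≤ 2 * (K ^ 2 * Y.q) := by
    calc |(kbV (P.co (Y.wd c) l) - (Y.ch c).y1) i| * (Y.q / 2)
        = |(kbV (P.co (Y.wd c) l) - (Y.ch c).y1) i * (Y.q / 2)| := by
          rw [abs_mul, abs_of_pos (by positivity : 0 < Y.q / 2)]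
      _ ≤ _ := by rw [e]; exact (abs_sub _ _).trans (by linarith)
  have h4 : |(kbV (P.co (Y.wd c) l) - (Y.ch c).y1) i| * (Y.q / 2) ≤ 4 * K ^ 2 * (Y.q / 2) := by
    linarith
  exact le_of_mul_le_mul_right h4 (by positivity)

/-- LEAF S9-FT2 (~120 l.): (9.10) number of labels of one world alive at one time (disjoint assignments, `ν_c ≥ n J/K ≥ n q² g/K²`, `ν_γ` probability). -/
theorem k9_label_count (hP : P.WF) (Y : KbSys P) (K g n2 t0 : ℝ) (hK : 1 ≤ K) (hg : 0 < g) (hn : 0 < n2) (h : K9Node P Y K g) (hs : Y.Sat K n2)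
    (γ : P.W) : (((k9At Y t0).filter fun c => Y.wd c = γ).card : ℝ) ≤ K ^ 2 / (n2 * Y.q ^ 2 * g) := by
  obtain ⟨F, hF⟩ : ∃ F, F = (k9At Y t0).filter fun c => Y.wd c = γ := ⟨_, rfl⟩
  rw [← hF]
  have hq0 := k9_aux_q_pos Y
  have hK0 : 0 < K := by linarith
  have := hP.prob γ
  have hmem : ∀ c ∈ F, t0 ∈ Y.I c ∧ Y.wd c = γ := by
    intro c hc
    rw [hF, Finset.mem_filter] at hc
    unfold k9At at hc
    rw [Finset.mem_filter] at hc
    exact ⟨hc.1.2, hc.2⟩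
  have hlt : ∀ c ∈ F, ∀ c' ∈ F, Y.iv c < Y.iv c' + 1 := by
    intro c hc c' hc'
    have h1 := (hmem c hc).1
    have h2 := (hmem c' hc').1
    unfold KbSys.I kbI at h1 h2
    have h3 : ((Y.iv c : ℕ) : ℝ) * kbQ Y.n < (((Y.iv c' : ℕ) : ℝ) + 1) * kbQ Y.n := lt_of_le_of_lt h1.1 h2.2
    have h4 := lt_of_mul_lt_mul_right h3 hq0.le
    exact_mod_cast h4
  have hdisj : (F : Set Y.C).PairwiseDisjoint Y.A := by
    intro c hc c' hc' hne
    have a1 := hlt c hc c' hc'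
    have a2 := hlt c' hc' c hc
    exact h.wf.A_disj c c' hne ((hmem c hc).2.trans (hmem c' hc').2.symm) (by omega)
  have hsum : ∑ c ∈ F, P.nu γ (Y.A c) ≤ 1 := by
    rw [← measure_biUnion_finset hdisj (fun c _ => h.wf.A_meas c)]
    exact prob_le_one
  have hr0 : 0 < n2 * Y.q ^ 2 * g / K ^ 2 := by positivity
  have hlow : ∀ c ∈ F, ENNReal.ofReal (n2 * Y.q ^ 2 * g / K ^ 2) ≤ P.nu γ (Y.A c) := by
    intro c hc
    have h3 := (hs c).2.2
    unfold KbSys.nuC at h3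
    rw [(hmem c hc).2] at h3
    have h4 : K * (n2 * Y.q ^ 2 * g / K ^ 2) ≤ n2 * (Y.ch c).J := by
      have h5 := h.det_ge c
      have e : K * (n2 * Y.q ^ 2 * g / K ^ 2) = n2 * (Y.q ^ 2 * g) / K := by field_simp
      rw [e, div_le_iff₀ hK0]
      calc n2 * (Y.q ^ 2 * g) ≤ n2 * (K * (Y.ch c).J) := mul_le_mul_of_nonneg_left h5 hn.le
        _ = n2 * (Y.ch c).J * K := by ring
    have h6 : ENNReal.ofReal K * ENNReal.ofReal (n2 * Y.q ^ 2 * g / K ^ 2)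
        ≤ ENNReal.ofReal K * P.nu γ (Y.A c) := by
      rw [← ENNReal.ofReal_mul hK0.le]
      exact (ENNReal.ofReal_le_ofReal h4).trans h3
    exact (ENNReal.mul_le_mul_iff_right (by simpa using hK0) ENNReal.ofReal_ne_top).1 h6
  have hc1 : (F.card : ℝ≥0∞) * ENNReal.ofReal (n2 * Y.q ^ 2 * g / K ^ 2) ≤ 1 := by
    calc (F.card : ℝ≥0∞) * ENNReal.ofReal (n2 * Y.q ^ 2 * g / K ^ 2)
        = ∑ _c ∈ F, ENNReal.ofReal (n2 * Y.q ^ 2 * g / K ^ 2) := by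
          rw [Finset.sum_const, nsmul_eq_mul]
      _ ≤ ∑ c ∈ F, P.nu γ (Y.A c) := Finset.sum_le_sum hlow
      _ ≤ 1 := hsum
  rw [← ENNReal.ofReal_natCast, ← ENNReal.ofReal_mul (Nat.cast_nonneg _), ENNReal.ofReal_le_one] at hc1
  rw [le_div_iff₀ (by positivity)]
  have e : (F.card : ℝ) * (n2 * Y.q ^ 2 * g / K ^ 2) = (F.card : ℝ) * (n2 * Y.q ^ 2 * g) / K ^ 2 := by ring
  rw [e, div_le_one (by positivity)] at hc1
  exact hc1

variable {P : K9P}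

theorem k9_ft3_unit (Y : KbSys P) (c : Y.C) : K9Unit (k9N Y c) := by
  obtain ⟨s, S, h⟩ := k9nrm_spec (k9D Y c)
  exact h.1

theorem k9_ft3_dot_sub (n a b : K9V) : k9dot n a - k9dot n b = k9dot n (a - b) := by
  simp only [k9dot, Pi.sub_apply]; ring

theorem k9_ft3_dot_aff (n y a b : K9V) (t : ℝ) :
    k9dot n y - (k9dot n a + k9dot n b * t) = k9dot n (y - (a + t • b)) := by
  simp only [k9dot, Pi.sub_apply, Pi.add_apply, Pi.smul_apply, smul_eq_mul]; ring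

theorem k9_ft3_strips (Y : KbSys P) (K g : ℝ) (hK : 1 ≤ K) (hg : 0 ≤ g) (h : K9Node P Y K g) (c : Y.C)
    (l : P.Lam) (hl : l ∈ Y.A c) :
    |k9dot (k9N Y c) (kbV (P.co (Y.wd c) l)) - k9Be Y c| ≤ 40 * K ^ 3 * g ∧
      ∀ t ∈ Set.Icc (0 : ℝ) 1, |k9dot (k9N Y c) (kbY (P.co (Y.wd c) l) t) - (k9Al Y c + k9Be Y c * t)| ≤ 40 * K ^ 3 * g := by
  obtain ⟨s, S, hsv⟩ := k9nrm_spec (k9D Y c)
  obtain ⟨h1, h2⟩ := k9_node_strips Y K g hK hg h c (k9N Y c) s S hsv l hl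
  have hKg : 0 ≤ K ^ 3 * g := by positivity
  constructor
  · have e : k9dot (k9N Y c) (kbV (P.co (Y.wd c) l)) - k9Be Y c
        = k9dot (k9N Y c) (kbV (P.co (Y.wd c) l) - (Y.ch c).y1) :=
      k9_ft3_dot_sub (k9N Y c) (kbV (P.co (Y.wd c) l)) (Y.ch c).y1
    rw [e]
    linarith
  · intro t ht
    have e : k9dot (k9N Y c) (kbY (P.co (Y.wd c) l) t) - (k9Al Y c + k9Be Y c * t)
        = k9dot (k9N Y c) (kbY (P.co (Y.wd c) l) t - (Y.ch c).yc t) :=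
      k9_ft3_dot_aff (k9N Y c) (kbY (P.co (Y.wd c) l) t) (Y.ch c).y0 (Y.ch c).y1 t
    rw [e]
    exact h2 t ht

/-- LEAF S9-FT3 (~250 l.; black boxes `k9_angle_failure`, `k9_node_strips`, `k9_label_count`).  (9.11): failure mass for fixed `t₀`, `γ`. -/
theorem k9_fail_mass (hP : P.WF) (Y : KbSys P) (G : P.W → Set (P.Lam × ℝ)) (K aL g n2 θ κ t0 : ℝ) (hK : 1 ≤ K) (hg : 0 < g) (hn : 0 < n2) (hθ : 0 < θ)
    (hκ : 0 ≤ κ) (hN : P.Ntv K) (h : K9Node P Y K g) (hs : Y.Sat K n2) (hk : Y.Known (P.hid aL) K) (hcap : K9Cap P G aL (80 * K ^ 3 * g / θ) κ K) (γ : P.W) :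
    P.mu γ {x | x ∈ G γ ∧ ∃ c ∈ k9At Y t0, ∃ c' : Y.C, Y.wd c = γ ∧ Y.wd c' = γ ∧ x.1 ∈ Y.A c ∧ x ∈ Y.S c' ∧ ¬ K9Ang Y θ c c'}
      ≤ ENNReal.ofReal (240 * K ^ 6 * κ / (n2 * Y.q ^ 2)) := by
  obtain ⟨F, hF⟩ : ∃ F : Set (P.Lam × ℝ), F = {x | x ∈ G γ ∧ ∃ c ∈ k9At Y t0, ∃ c' : Y.C, Y.wd c = γ ∧ Y.wd c' = γ ∧
      x.1 ∈ Y.A c ∧ x ∈ Y.S c' ∧ ¬ K9Ang Y θ c c'} := ⟨_, rfl⟩
  rw [← hF]
  have hFx : ∀ x ∈ F, x ∈ G γ ∧ ∃ c ∈ k9At Y t0, ∃ c' : Y.C, Y.wd c = γ ∧ Y.wd c' = γ ∧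
      x.1 ∈ Y.A c ∧ x ∈ Y.S c' ∧ ¬ K9Ang Y θ c c' := by
    intro x hx
    rw [hF] at hx
    exact hx
  rcases F.eq_empty_or_nonempty with hemp | ⟨x0, hx0⟩
  · rw [hemp, measure_empty]
    exact zero_le
  obtain ⟨Lst, hL1, hL2, hL3⟩ := hk
  -- choice of the labels
  have hch : ∀ x, ∃ p : {c // c ∈ (k9At Y t0).filter fun c => Y.wd c = γ} × Y.C, x ∈ F →
      (Y.wd p.2 = γ ∧ x.1 ∈ Y.A p.1.1 ∧ x ∈ Y.S p.2 ∧ ¬ K9Ang Y θ p.1.1 p.2) := by
    intro x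
    by_cases hx : x ∈ F
    · obtain ⟨_, c, hc, c', h1, h2, h3, h4, h5⟩ := hFx x hx
      exact ⟨(⟨c, Finset.mem_filter.2 ⟨hc, h1⟩⟩, c'), fun _ => ⟨h2, h3, h4, h5⟩⟩
    · obtain ⟨_, c, hc, c', h1, h2, h3, h4, h5⟩ := hFx x0 hx0
      exact ⟨(⟨c, Finset.mem_filter.2 ⟨hc, h1⟩⟩, c'), fun h => absurd h hx⟩
  choose p hp using hch
  have hwd0 : ∀ c : {c // c ∈ (k9At Y t0).filter fun c => Y.wd c = γ}, Y.wd c.1 = γ :=
    fun c => (Finset.mem_filter.1 c.2).2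
  have hw : 0 ≤ 40 * K ^ 3 * g := by positivity
  have hK0 : 0 ≤ K := by linarith
  -- membership facts
  have hEv : ∀ x ∈ F, x.1 ∈ P.Sp γ ∧ x.2 ∈ Set.Icc (0:ℝ) 1 ∧ x.1 ∈ Y.A (p x).2 := by
    intro x hx
    obtain ⟨h2, h3, h4, h5⟩ := hp x hx
    have h6 := h.wf.S_sub _ h4
    have h7 := hP.Ev_sub _ h6.1
    rw [h2] at h7
    exact ⟨h7.1, h7.2, h6.2.1⟩
  have key := k9_angle_failure (P.mu γ) (fun x => x.2) (k9Y P γ) (k9Vel P γ)
    (fun x => (p x).1) (fun c => k9N Y c.1) (fun c => k9Al Y c.1) (fun c => k9Be Y c.1)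
    (fun x => (P.hid aL γ x, P.bs γ x)) (fun o => Lst γ o.1 o.2) (fun x => (p x).2) (k9N Y) (k9Be Y)
    F (40 * K ^ 3 * g) θ (80 * K ^ 3 * g / θ) K κ hw hθ hK0 (le_of_eq (by ring))
    (fun c => k9_ft3_unit Y c.1) (k9_ft3_unit Y)
    (fun x hx => (hEv x hx).2.1)
    (by
      intro x hx i
      have h1 := hN.base γ x.1 (hEv x hx).1 x.2 (hEv x hx).2.1
      have h2 := norm_le_pi_norm (kbY (P.co γ x.1) x.2) i
      have h3 := norm_nonneg (kbV (P.co γ x.1))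
      rw [Real.norm_eq_abs] at h2
      show |kbY (P.co γ x.1) x.2 i| ≤ K
      linarith)
    (by
      intro x hx
      have h1 := (k9_ft3_strips Y K g hK hg.le h (p x).1.1 x.1 (hp x hx).2.1).2 x.2 (hEv x hx).2.1
      rw [hwd0] at h1
      exact h1)
    (by
      intro x hx
      have h1 := (k9_ft3_strips Y K g hK hg.le h (p x).1.1 x.1 (hp x hx).2.1).1
      rw [hwd0] at h1
      exact h1)
    (by
      intro x hx
      have h1 := (k9_ft3_strips Y K g hK hg.le h (p x).2 x.1 (hEv x hx).2.2).1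
      rw [(hp x hx).1] at h1
      exact h1)
    (by
      intro x hx
      have h1 := hL3 (p x).2 x (hp x hx).2.2.1
      rw [(hp x hx).1] at h1
      exact h1)
    (by
      intro x hx
      have h1 := (hp x hx).2.2.2
      unfold K9Ang at h1
      push Not at h1
      exact h1)
    (by
      intro R hR ctr
      refine le_trans (measure_mono ?_) (hcap γ Y.C (Lst γ) ctr R (hL1 γ) (hL2 γ) hR)
      intro x hx
      exact ⟨(hFx x hx.1).1, hx.2.1, hx.2.2⟩)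
  refine key.trans ?_
  have hcard := k9_label_count hP Y K g n2 t0 hK hg hn h hs γ
  have hq : 0 < Y.q := by
    unfold KbSys.q kbQ
    positivity
  rw [Fintype.card_coe, ← ENNReal.ofReal_mul hκ, ← ENNReal.ofReal_natCast, ← ENNReal.ofReal_mul (Nat.cast_nonneg _)]
  apply ENNReal.ofReal_le_ofReal
  calc ((((k9At Y t0).filter fun c => Y.wd c = γ).card : ℝ)) * (κ * (6 * (40 * K ^ 3 * g) * K))
      ≤ K ^ 2 / (n2 * Y.q ^ 2 * g) * (κ * (6 * (40 * K ^ 3 * g) * K)) := by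
        apply mul_le_mul_of_nonneg_right hcard (by positivity)
    _ = 240 * K ^ 6 * κ / (n2 * Y.q ^ 2) := by
        field_simp
        ring

/-- uniform time is a probability measure -/
theorem k9pt_tm_prob : IsProbabilityMeasure KbPb.tm := by
  constructor
  unfold KbPb.tm
  rw [Measure.restrict_apply_univ, Real.volume_Icc]
  norm_num

/-- the complement of `[0,1)` is null for the uniform time -/
theorem k9pt_tm_null : KbPb.tm (Set.Ico (0 : ℝ) 1)ᶜ = 0 := by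
  unfold KbPb.tm
  rw [Measure.restrict_apply measurableSet_Ico.compl]
  have : (Set.Ico (0 : ℝ) 1)ᶜ ∩ Set.Icc 0 1 ⊆ {1} := by
    rintro x ⟨h1, h2⟩
    rw [Set.mem_compl_iff, Set.mem_Ico, not_and, not_lt] at h1
    exact le_antisymm h2.2 (h1 h2.1)
  exact measure_mono_null this (by simp)

/-- measurability of the sections in the middle variable -/
theorem k9pt_meas {Λ : Type*} [MeasurableSpace Λ] (ν : Measure Λ) [SFinite ν] (τ : Measure ℝ) [SFinite τ]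
    (S : Set (Λ × ℝ × ℝ)) (hS : MeasurableSet S) :
    Measurable fun t0 : ℝ => (ν.prod τ) {x : Λ × ℝ | (x.1, t0, x.2) ∈ S} := by
  have hm : Measurable fun p : ℝ × (Λ × ℝ) => (p.2.1, p.1, p.2.2) := by fun_prop
  exact measurable_measure_prodMk_left (hm hS)

/-- Tonelli: the middle variable is integrated last -/
theorem k9pt_tonelli {Λ : Type*} [MeasurableSpace Λ] (ν : Measure Λ) [SFinite ν] (τ : Measure ℝ) [SFinite τ]
    (S : Set (Λ × ℝ × ℝ)) (hS : MeasurableSet S) :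
    (ν.prod (τ.prod τ)) S = ∫⁻ t0, (ν.prod τ) {x : Λ × ℝ | (x.1, t0, x.2) ∈ S} ∂τ := by
  have hm : ∀ t0 : ℝ, Measurable fun x : Λ × ℝ => (x.1, t0, x.2) := fun t0 => by fun_prop
  have h1 : ∀ t0 : ℝ, (ν.prod τ) {x : Λ × ℝ | (x.1, t0, x.2) ∈ S} = ∫⁻ l, τ {t | (l, t0, t) ∈ S} ∂ν := fun t0 => by
    exact Measure.prod_apply (hm t0 hS)
  have h2 : ∀ l : Λ, (τ.prod τ) (Prod.mk l ⁻¹' S) = ∫⁻ t0, τ {t | (l, t0, t) ∈ S} ∂τ := fun l => by
    exact Measure.prod_apply (measurable_prodMk_left hS)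
  rw [Measure.prod_apply hS]
  simp only [h1, h2]
  refine lintegral_lintegral_swap ?_
  have hm3 : Measurable fun p : (Λ × ℝ) × ℝ => (p.1.1, p.1.2, p.2) := by fun_prop
  exact (measurable_measure_prodMk_left (ν := τ) (hm3 hS)).aemeasurable

/-- Jensen over the worlds -/
theorem k9pt_jensen {W : Type} [Fintype W] (om m : W → ℝ≥0∞) (h1 : ∑ γ, om γ = 1) :
    (∑ γ, om γ * m γ) ^ 2 ≤ ∑ γ, om γ * m γ ^ 2 := by
  have h := ENNReal.rpow_arith_mean_le_arith_mean_rpow Finset.univ om m h1 (p := 2) (by norm_num)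
  simpa only [ENNReal.rpow_two] using h

/-- dyadic intervals of one level with different indices are disjoint -/
theorem k9pt_I_disj (n i i' : ℕ) (h : i ≠ i') : Disjoint (kbI n i) (kbI n i') := by
  have hq : 0 < kbQ n := by
    unfold kbQ
    positivity
  have key : ∀ a b : ℕ, a < b → Disjoint (kbI n a) (kbI n b) := by
    intro a b hab
    rw [Set.disjoint_left]
    intro t h1 h2
    have h3 : ((a : ℝ) + 1) ≤ b := by exact_mod_cast hab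
    have h4 : ((a : ℝ) + 1) * kbQ n ≤ b * kbQ n := mul_le_mul_of_nonneg_right h3 hq.le
    have h5 := h1.2
    have h6 := h2.1
    linarith
  rcases lt_or_gt_of_ne h with h | h
  · exact key i i' h
  · exact (key i' i h).symm

/-- the selections of different labels of one world are disjoint -/
theorem k9pt_S_disj (Y : KbSys P) (hY : Y.WF) (c c' : Y.C) (hne : c ≠ c') (hw : Y.wd c = Y.wd c') :
    Disjoint (Y.S c) (Y.S c') := by
  rw [Set.disjoint_left]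
  intro x h1 h2
  have a1 := (hY.S_sub c h1).2
  have a2 := (hY.S_sub c' h2).2
  by_cases hi : Y.iv c = Y.iv c'
  · exact Set.disjoint_left.1 (hY.A_disj c c' hne hw hi) a1.1 a2.1
  · exact Set.disjoint_left.1 (k9pt_I_disj Y.n _ _ hi) a1.2 a2.2

/-- the union of the selections is measurable -/
theorem k9pt_sel_meas (Y : KbSys P) (hY : Y.WF) (γ : P.W) : MeasurableSet (Y.sel γ) :=
  MeasurableSet.iUnion fun c => MeasurableSet.iUnion fun _ => hY.S_meas c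

/-- the union of the selections lies in the incidence selection -/
theorem k9pt_sel_sub (Y : KbSys P) (hY : Y.WF) (γ : P.W) : Y.sel γ ⊆ P.Ev γ := by
  intro x hx
  simp only [KbSys.sel, Set.mem_iUnion] at hx
  obtain ⟨c, rfl, hx⟩ := hx
  exact (hY.S_sub c hx).1

/-- the mass of a system is the mass of the union of its selections -/
theorem k9pt_mass_eq (Y : KbSys P) (hY : Y.WF) : Y.mass = P.mass Y.sel := by
  unfold KbSys.mass KbPb.mass KbSys.mC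
  have h1 : ∀ γ : P.W, P.mu γ (Y.sel γ) = ∑ c : Y.C, if Y.wd c = γ then P.mu γ (Y.S c) else 0 := by
    intro γ
    have e : Y.sel γ = ⋃ c ∈ Finset.univ.filter (fun c => Y.wd c = γ), Y.S c := by
      ext x
      simp [KbSys.sel]
    rw [e, measure_biUnion_finset _ (fun c _ => hY.S_meas c), Finset.sum_filter]
    intro c hc c' hc' hne
    have w1 : Y.wd c = γ := (Finset.mem_filter.1 hc).2
    have w2 : Y.wd c' = γ := (Finset.mem_filter.1 hc').2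
    exact k9pt_S_disj Y hY c c' hne (w1.trans w2.symm)
  simp only [h1, Finset.mul_sum]
  rw [Finset.sum_comm]
  refine Finset.sum_congr rfl fun c _ => ?_
  rw [Finset.sum_eq_single (Y.wd c)]
  · rw [if_pos rfl]
  · intro γ _ hγ
    rw [if_neg (Ne.symm hγ), mul_zero]
  · intro h
    exact absurd (Finset.mem_univ _) h

/-- regrouping a sum over labels by worlds -/
theorem k9pt_sum_swap (Y : KbSys P) :
    ∑ γ, P.om γ * ∑ c : Y.C, (if Y.wd c = γ then P.mu γ (Y.S c) else 0) = Y.mass := by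
  unfold KbSys.mass KbSys.mC
  simp only [Finset.mul_sum]
  rw [Finset.sum_comm]
  refine Finset.sum_congr rfl fun c _ => ?_
  rw [Finset.sum_eq_single (Y.wd c)]
  · rw [if_pos rfl]
  · intro γ _ hγ
    rw [if_neg (Ne.symm hγ), mul_zero]
  · intro h
    exact absurd (Finset.mem_univ _) h

/-- the mass of the union of the selections is at most the mass of the system (no structure needed) -/
theorem k9pt_mass_le (Y : KbSys P) : P.mass Y.sel ≤ Y.mass := by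
  rw [← k9pt_sum_swap Y]
  unfold KbPb.mass
  refine Finset.sum_le_sum fun γ _ => mul_le_mul' le_rfl ?_
  have e : Y.sel γ = ⋃ c ∈ Finset.univ.filter (fun c => Y.wd c = γ), Y.S c := by
    ext x
    simp [KbSys.sel]
  rw [e, ← Finset.sum_filter]
  exact measure_biUnion_finset_le _ _

/-- pair mass in one world -/
theorem k9pt_pair (hP : P.WF) (γ : P.W) (E : Set (P.Lam × ℝ)) (hE : MeasurableSet E) (hsub : E ⊆ P.Ev γ) :
    (P.mu γ E) ^ 2 ≤ ∫⁻ t0, P.mu γ {x | (x.1, t0) ∈ E ∧ x ∈ E} ∂KbPb.tm ∧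
      Measurable fun t0 : ℝ => P.mu γ {x | (x.1, t0) ∈ E ∧ x ∈ E} := by
  have := k9pt_tm_prob
  have := hP.prob γ
  have hm1 : Measurable fun z : P.Lam × ℝ × ℝ => (z.1, z.2.1) := by fun_prop
  have hm2 : Measurable fun z : P.Lam × ℝ × ℝ => (z.1, z.2.2) := by fun_prop
  have hS : MeasurableSet {z : P.Lam × ℝ × ℝ | (z.1, z.2.1) ∈ E ∧ (z.1, z.2.2) ∈ E} := (hm1 hE).inter (hm2 hE)
  have e1 : P.mu γ E = ((P.nu γ).prod KbPb.tm) E := Measure.restrict_eq_self _ hsub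
  have e2 : ∀ t0 : ℝ, P.mu γ {x | (x.1, t0) ∈ E ∧ x ∈ E} =
      ((P.nu γ).prod KbPb.tm) {x : P.Lam × ℝ | (x.1, t0, x.2) ∈ {z : P.Lam × ℝ × ℝ | (z.1, z.2.1) ∈ E ∧ (z.1, z.2.2) ∈ E}} :=
    fun t0 => Measure.restrict_eq_self _ fun x hx => hsub hx.2
  simp only [e2]
  refine ⟨?_, k9pt_meas _ _ _ hS⟩
  rw [e1, ← k9pt_tonelli _ _ _ hS]
  exact k9_pair_mass _ _ E hE

/-- membership in the selection of a full-time chart -/
theorem k9pt_mem_S (Y : KbSys P) (θ gC t0 : ℝ) (c c' : Y.C) (hat : c ∈ k9At Y t0) (hw : Y.wd c' = Y.wd c) (ha : K9Ang Y θ c c')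
    (x : P.Lam × ℝ) (h1 : (x.1, t0) ∈ Y.S c) (h2 : x ∈ Y.S c') : x ∈ (k9Csys Y t0 gC θ).sel (Y.wd c) := by
  have hb : (Y.wd c, k9Bin Y gC c) ∈ k9CLab Y t0 gC := Finset.mem_image.2 ⟨c, hat, rfl⟩
  have hx : x ∈ ⋃ c₁ ∈ k9At Y t0, ⋃ (_ : (Y.wd c₁, k9Bin Y gC c₁) = (Y.wd c, k9Bin Y gC c)), ⋃ c₂ : Y.C,
      ⋃ (_ : Y.wd c₂ = Y.wd c₁ ∧ K9Ang Y θ c₁ c₂), {x | (x.1, t0) ∈ Y.S c₁ ∧ x ∈ Y.S c₂} := by
    simp only [Set.mem_iUnion]
    exact ⟨c, hat, rfl, c', ⟨hw, ha⟩, h1, h2⟩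
  unfold KbSys.sel
  rw [Set.mem_iUnion]
  refine ⟨(⟨(Y.wd c, k9Bin Y gC c), hb⟩ : {b // b ∈ k9CLab Y t0 gC}), ?_⟩
  rw [Set.mem_iUnion]
  exact ⟨rfl, hx⟩

/-- a pair is selected by the full-time system, or atypical, or fails the angle test -/
theorem k9pt_cover (Y : KbSys P) (hY : Y.WF) (G : P.W → Set (P.Lam × ℝ)) (θ gC t0 : ℝ) (γ : P.W) :
    {x | (x.1, t0) ∈ Y.sel γ ∧ x ∈ Y.sel γ} ⊆
      ((k9Csys Y t0 gC θ).sel γ ∪ (Y.sel γ \ G γ)) ∪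
      {x | x ∈ G γ ∧ ∃ c ∈ k9At Y t0, ∃ c' : Y.C, Y.wd c = γ ∧ Y.wd c' = γ ∧ x.1 ∈ Y.A c ∧ x ∈ Y.S c' ∧ ¬ K9Ang Y θ c c'} := by
  rintro x ⟨h1, h2⟩
  have h2' := h2
  simp only [KbSys.sel, Set.mem_iUnion] at h1 h2'
  obtain ⟨c, hc, h1⟩ := h1
  obtain ⟨c', hc', h2'⟩ := h2'
  have hA := (hY.S_sub c h1).2
  have hat : c ∈ k9At Y t0 := Finset.mem_filter.2 ⟨Finset.mem_univ _, hA.2⟩
  by_cases hG : x ∈ G γ
  · by_cases ha : K9Ang Y θ c c'
    · left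
      left
      rw [← hc]
      exact k9pt_mem_S Y θ gC t0 c c' hat (hc'.trans hc.symm) ha x h1 h2'
    · right
      exact ⟨hG, c, hat, c', hc, hc', hA.1, h2', ha⟩
  · left
    right
    exact ⟨h2, hG⟩

/-- the arithmetic at the end of `k9_pick_t0` -/
theorem k9pt_arith (K δ : ℝ) (hK : 1 ≤ K) (hδ : δ ≤ 1 / (2 * K ^ 2)) (p M : ℝ≥0∞) (hp : 1 ≤ ENNReal.ofReal K * p)
    (hM : p ^ 2 ≤ M + ENNReal.ofReal δ) : 1 ≤ ENNReal.ofReal (2 * K ^ 2) * M := by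
  have hK0 : 0 < K := by linarith
  have h1 : (1 : ℝ≥0∞) ≤ ENNReal.ofReal (K ^ 2) * p ^ 2 := by
    rw [ENNReal.ofReal_pow hK0.le, ← mul_pow]
    exact one_le_pow₀ hp
  have h2 : ENNReal.ofReal (K ^ 2) * p ^ 2 ≤ ENNReal.ofReal (K ^ 2) * M + ENNReal.ofReal (1 / 2) := by
    calc ENNReal.ofReal (K ^ 2) * p ^ 2 ≤ ENNReal.ofReal (K ^ 2) * (M + ENNReal.ofReal (1 / (2 * K ^ 2))) :=
          mul_le_mul' le_rfl (hM.trans (add_le_add le_rfl (ENNReal.ofReal_le_ofReal hδ)))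
      _ = ENNReal.ofReal (K ^ 2) * M + ENNReal.ofReal (1 / 2) := by
          rw [mul_add, ← ENNReal.ofReal_mul (by positivity)]
          congr 2
          field_simp
  have h3 : ENNReal.ofReal (1 / 2) + ENNReal.ofReal (1 / 2) ≤ ENNReal.ofReal (K ^ 2) * M + ENNReal.ofReal (1 / 2) := by
    rw [← ENNReal.ofReal_add (by norm_num) (by norm_num)]
    norm_num
    have := h1.trans h2
    norm_num at this
    exact this
  have h4 : ENNReal.ofReal (1 / 2) ≤ ENNReal.ofReal (K ^ 2) * M :=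
    (ENNReal.add_le_add_iff_right ENNReal.ofReal_ne_top).1 h3
  rw [ENNReal.ofReal_mul (by norm_num), mul_assoc]
  calc (1 : ℝ≥0∞) = ENNReal.ofReal 2 * ENNReal.ofReal (1 / 2) := by
        rw [← ENNReal.ofReal_mul (by norm_num)]
        norm_num
    _ ≤ ENNReal.ofReal 2 * (ENNReal.ofReal (K ^ 2) * M) := mul_le_mul' le_rfl h4

/-- LEAF S9-FT4 (~250 l.; black boxes `k9_pair_mass`, `k9_fail_mass`).  Pair mass `≥ p²` (Jensen in the trajectory and in the worlds), removal of the atypical and failing pairs, choice of `t₀` by averaging. -/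
theorem k9_pick_t0 (hP : P.WF) (Y : KbSys P) (G : P.W → Set (P.Lam × ℝ)) (K aL g n2 θ κ ε0 gC : ℝ) (hK : 1 ≤ K) (hg : 0 < g) (hn : 0 < n2) (hθ : 0 < θ)
    (hκ : 0 ≤ κ) (hε0 : 0 ≤ ε0) (hN : P.Ntv K) (h : K9Node P Y K g) (hs : Y.Sat K n2) (hk : Y.Known (P.hid aL) K) (hb : Y.Big K) (hG : ∀ γ, MeasurableSet (G γ))
    (hε : P.mass (fun γ => Y.sel γ \ G γ) ≤ ENNReal.ofReal ε0) (hcap : K9Cap P G aL (80 * K ^ 3 * g / θ) κ K)
    (hsmall : ε0 + 240 * K ^ 6 * κ / (n2 * Y.q ^ 2) ≤ 1 / (2 * K ^ 2)) :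
    ∃ t0 ∈ Set.Ico (0 : ℝ) 1, (k9Csys Y t0 gC θ).Big (2 * K ^ 2) := by
  have := k9pt_tm_prob
  have hY := h.wf
  have hp : 1 ≤ ENNReal.ofReal K * P.mass Y.sel := by
    rw [← k9pt_mass_eq Y hY]
    exact hb
  have hpair := fun γ => k9pt_pair hP γ (Y.sel γ) (k9pt_sel_meas Y hY γ) (k9pt_sel_sub Y hY γ)
  have hint : (P.mass Y.sel) ^ 2 ≤ ∫⁻ t0, ∑ γ, P.om γ * P.mu γ {x | (x.1, t0) ∈ Y.sel γ ∧ x ∈ Y.sel γ} ∂KbPb.tm := by
    rw [lintegral_finsetSum _ fun γ _ => (hpair γ).2.const_mul _]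
    refine (k9pt_jensen _ _ hP.om_sum).trans (Finset.sum_le_sum fun γ _ => ?_)
    rw [lintegral_const_mul _ (hpair γ).2]
    exact mul_le_mul' le_rfl (hpair γ).1
  have hfin : ∫⁻ t0, ∑ γ, P.om γ * P.mu γ {x | (x.1, t0) ∈ Y.sel γ ∧ x ∈ Y.sel γ} ∂KbPb.tm ≠ ∞ := by
    refine ne_top_of_le_ne_top ENNReal.one_ne_top ?_
    calc ∫⁻ t0, ∑ γ, P.om γ * P.mu γ {x | (x.1, t0) ∈ Y.sel γ ∧ x ∈ Y.sel γ} ∂KbPb.tm ≤ ∫⁻ _t0, 1 ∂KbPb.tm := by
          refine lintegral_mono fun t0 => ?_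
          rw [← hP.om_sum]
          refine Finset.sum_le_sum fun γ _ => mul_le_of_le_one_right' ?_
          have := hP.prob γ
          exact (Measure.restrict_le_self _).trans prob_le_one
      _ = 1 := by rw [lintegral_one, measure_univ]
  obtain ⟨t0, ht0, hle⟩ := exists_notMem_null_lintegral_le hfin k9pt_tm_null
  refine ⟨t0, not_not.1 ht0, ?_⟩
  have hX0 : 0 ≤ 240 * K ^ 6 * κ / (n2 * Y.q ^ 2) := by
    have : 0 ≤ K := by linarith
    positivity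
  have hΦ : ∑ γ, P.om γ * P.mu γ {x | (x.1, t0) ∈ Y.sel γ ∧ x ∈ Y.sel γ} ≤
      (k9Csys Y t0 gC θ).mass + ENNReal.ofReal (ε0 + 240 * K ^ 6 * κ / (n2 * Y.q ^ 2)) := by
    have h1 : ∀ γ, P.mu γ {x | (x.1, t0) ∈ Y.sel γ ∧ x ∈ Y.sel γ} ≤
        P.mu γ ((k9Csys Y t0 gC θ).sel γ) + P.mu γ (Y.sel γ \ G γ) + ENNReal.ofReal (240 * K ^ 6 * κ / (n2 * Y.q ^ 2)) := fun γ =>
      calc P.mu γ {x | (x.1, t0) ∈ Y.sel γ ∧ x ∈ Y.sel γ} ≤ _ := measure_mono (k9pt_cover Y hY G θ gC t0 γ)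
        _ ≤ _ := measure_union_le _ _
        _ ≤ _ := add_le_add (measure_union_le _ _) (k9_fail_mass hP Y G K aL g n2 θ κ t0 hK hg hn hθ hκ hN h hs hk hcap γ)
    calc ∑ γ, P.om γ * P.mu γ {x | (x.1, t0) ∈ Y.sel γ ∧ x ∈ Y.sel γ}
        ≤ ∑ γ, P.om γ * (P.mu γ ((k9Csys Y t0 gC θ).sel γ) + P.mu γ (Y.sel γ \ G γ)
            + ENNReal.ofReal (240 * K ^ 6 * κ / (n2 * Y.q ^ 2))) := Finset.sum_le_sum fun γ _ => mul_le_mul' le_rfl (h1 γ)
      _ = P.mass (k9Csys Y t0 gC θ).sel + P.mass (fun γ => Y.sel γ \ G γ) + ENNReal.ofReal (240 * K ^ 6 * κ / (n2 * Y.q ^ 2)) := by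
          simp only [mul_add, Finset.sum_add_distrib, ← Finset.sum_mul, hP.om_sum, one_mul]
          rfl
      _ ≤ (k9Csys Y t0 gC θ).mass + ENNReal.ofReal ε0 + ENNReal.ofReal (240 * K ^ 6 * κ / (n2 * Y.q ^ 2)) :=
          add_le_add (add_le_add (k9pt_mass_le _) hε) le_rfl
      _ = _ := by rw [add_assoc, ← ENNReal.ofReal_add hε0 hX0]
  exact k9pt_arith K _ hK hsmall _ _ hp ((hint.trans hle).trans hΦ)

/-! ### auxiliary lemmas of FT5 -/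

theorem k9ft5_rep_spec (Y : KbSys P) (t0 gC : ℝ) (b : {b // b ∈ k9CLab Y t0 gC}) :
    k9Rep Y t0 gC b ∈ k9At Y t0 ∧ (Y.wd (k9Rep Y t0 gC b), k9Bin Y gC (k9Rep Y t0 gC b)) = b.1 :=
  Classical.choose_spec (Finset.mem_image.1 b.2)

theorem k9ft5_kbQ_pos (n : ℕ) : 0 < kbQ n := by
  unfold kbQ
  positivity

theorem k9ft5_kbI_inj (n i j : ℕ) (t : ℝ) (hi : t ∈ kbI n i) (hj : t ∈ kbI n j) : i = j := by
  have hq := k9ft5_kbQ_pos n
  have key : ∀ a b : ℕ, t ∈ kbI n a → t ∈ kbI n b → a ≤ b := by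
    intro a b ha hb
    have h1 : (a : ℝ) * kbQ n < ((b : ℝ) + 1) * kbQ n := lt_of_le_of_lt ha.1 hb.2
    have h2 : (a : ℝ) < (b : ℝ) + 1 := lt_of_mul_lt_mul_right h1 hq.le
    have h3 : a < b + 1 := by exact_mod_cast h2
    omega
  exact le_antisymm (key i j hi hj) (key j i hj hi)

theorem k9ft5_kbI_sub (n i : ℕ) (hi : i < 2 ^ n) : kbI n i ⊆ Set.Ico (0 : ℝ) 1 := by
  intro t ht
  have hq := k9ft5_kbQ_pos n
  refine ⟨le_trans (by positivity) ht.1, lt_of_lt_of_le ht.2 ?_⟩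
  have h1 : ((i : ℝ) + 1) ≤ 2 ^ n := by exact_mod_cast hi
  calc ((i : ℝ) + 1) * kbQ n ≤ 2 ^ n * kbQ n := by gcongr
    _ = 1 := by
      unfold kbQ
      rw [← mul_pow]
      norm_num

theorem k9ft5_floor_close (a b g : ℝ) (hg : 0 < g) (h : ⌊a / g⌋ = ⌊b / g⌋) : |a - b| ≤ g := by
  have h1 := Int.abs_sub_lt_one_of_floor_eq_floor h
  have e : a - b = (a / g - b / g) * g := by
    field_simp
  rw [e, abs_mul, abs_of_pos hg]
  nlinarith

theorem k9ft5_unit (Y : KbSys P) (c : Y.C) : K9Unit (k9N Y c) := by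
  obtain ⟨s, S, hs⟩ := k9nrm_spec (k9D Y c)
  exact hs.1

theorem k9ft5_inv (n : K9V) (gC : ℝ) (hn : K9Unit n) (hgC : 0 < gC) : k9Fr n gC * k9FrI n gC = 1 := by
  have hn' : n 0 ^ 2 + n 1 ^ 2 = 1 := hn
  ext i k
  fin_cases i <;> fin_cases k <;>
    simp only [k9Fr, k9FrI, Matrix.mul_apply, Fin.sum_univ_two, Matrix.of_apply, Matrix.cons_val_zero, Matrix.cons_val_one,
      Matrix.cons_val', Matrix.cons_val_fin_one, Fin.zero_eta, Fin.mk_one, Matrix.one_apply_eq, Matrix.one_apply_ne, ne_eq,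
      Fin.isValue, zero_ne_one, one_ne_zero, not_false_eq_true] <;>
    field_simp <;> nlinarith

theorem k9ft5_size (n : K9V) (gC : ℝ) (hn : K9Unit n) (hgC : 0 < gC) (hgC1 : gC ≤ 1) : kbMn (k9Fr n gC) ≤ 4 := by
  have a0 := k9_unit_abs_le n hn 0
  have a1 := k9_unit_abs_le n hn 1
  simp only [kbMn, k9Fr, Fin.sum_univ_two, Matrix.of_apply, Matrix.cons_val_zero, Matrix.cons_val_one,
      Matrix.cons_val', Matrix.cons_val_fin_one, abs_neg, abs_mul, abs_of_pos hgC]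
  nlinarith [abs_nonneg (n 0), abs_nonneg (n 1)]

theorem k9ft5_box (n z : K9V) (gC M : ℝ) (hgC : 0 < gC) (hM : 0 ≤ M) (h1 : |k9crs n z| ≤ M) (h2 : |k9dot n z| ≤ M * gC) :
    ‖(k9FrI n gC).mulVec z‖ ≤ M := by
  rw [pi_norm_le_iff_of_nonneg hM]
  intro i
  rw [Real.norm_eq_abs]
  fin_cases i
  · have e : (k9FrI n gC).mulVec z 0 = k9crs n z := by
      simp only [k9FrI, Matrix.mulVec, dotProduct, Fin.sum_univ_two, Matrix.of_apply, Matrix.cons_val_zero, Matrix.cons_val_one,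
        Matrix.cons_val', Matrix.cons_val_fin_one, k9crs]
      ring
    simp only [Fin.zero_eta]
    rw [e]; exact h1
  · have e : (k9FrI n gC).mulVec z 1 = k9dot n z / gC := by
      simp only [k9FrI, Matrix.mulVec, dotProduct, Fin.sum_univ_two, Matrix.of_apply, Matrix.cons_val_zero, Matrix.cons_val_one,
        Matrix.cons_val', Matrix.cons_val_fin_one, k9dot]
      ring
    simp only [Fin.mk_one]
    rw [e, abs_div, abs_of_pos hgC, div_le_iff₀ hgC]; exact h2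

theorem k9ft5_mem_A (Y : KbSys P) (t0 gC θ : ℝ) (b : (k9Csys Y t0 gC θ).C) (l : P.Lam) :
    l ∈ (k9Csys Y t0 gC θ).A b ↔ ∃ c ∈ k9At Y t0, (Y.wd c, k9Bin Y gC c) = b.1 ∧ l ∈ Y.A c := by
  show l ∈ (⋃ c ∈ k9At Y t0, ⋃ (_ : (Y.wd c, k9Bin Y gC c) = b.1), Y.A c) ↔ _
  simp only [Set.mem_iUnion, exists_prop]

theorem k9ft5_mem_S (Y : KbSys P) (t0 gC θ : ℝ) (b : (k9Csys Y t0 gC θ).C) (x : P.Lam × ℝ) :
    x ∈ (k9Csys Y t0 gC θ).S b ↔ ∃ c ∈ k9At Y t0, (Y.wd c, k9Bin Y gC c) = b.1 ∧ ∃ c' : Y.C, (Y.wd c' = Y.wd c ∧ K9Ang Y θ c c') ∧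
      (x.1, t0) ∈ Y.S c ∧ x ∈ Y.S c' := by
  simp only [k9Csys, Set.mem_iUnion, exists_prop, Set.mem_ofPred_eq]

theorem k9ft5_I (Y : KbSys P) (t0 gC θ : ℝ) (b : (k9Csys Y t0 gC θ).C) : (k9Csys Y t0 gC θ).I b = Set.Ico (0 : ℝ) 1 := by
  show kbI 0 0 = _
  simp [kbI, kbQ]

theorem k9ft5_abs_le_norm (y : KbB KbVer.two) (i : Fin 2) : |(y : K9V) i| ≤ ‖y‖ := by
  rw [← Real.norm_eq_abs]
  exact norm_le_pi_norm y i

theorem k9ft5_strip_eq (n y c0 c1 : K9V) (t : ℝ) :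
    k9dot n (y - (c0 + t • c1)) = k9dot n y - (k9dot n c0 + k9dot n c1 * t) := by
  simp only [k9dot, Pi.sub_apply, Pi.add_apply, Pi.smul_apply, smul_eq_mul]
  ring

/-- LEAF S9-FT5 (~300 l.; black boxes `k9_node_strips`, `k9_round_strip`).  Structure and geometry of the full-time charts. -/
theorem k9_Csys_geo (hP : P.WF) (Y : KbSys P) (K g θ gC t0 : ℝ) (hK : 1 ≤ K) (hg : 0 < g) (hgC : g ≤ gC) (hgC1 : gC ≤ 1) (hN : P.Ntv K) (h : K9Node P Y K g) :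
    (k9Csys Y t0 gC θ).WF ∧ (k9Csys Y t0 gC θ).Geo (50 * K ^ 3) 1 := by
  have hgC0 : 0 < gC := lt_of_lt_of_le hg hgC
  have hK0 : 0 < K := by linarith
  have hK3 : K ≤ K ^ 3 := by nlinarith [sq_nonneg K, mul_pos hK0 hK0]
  have hK50 : K ≤ 50 * K ^ 3 := by linarith
  have hAsub : ∀ b, (k9Csys Y t0 gC θ).A b ⊆ P.Sp ((k9Csys Y t0 gC θ).wd b) := by
    intro b l hl
    obtain ⟨c, -, hb, hl⟩ := (k9ft5_mem_A Y t0 gC θ b l).1 hl
    have hw : Y.wd c = b.1.1 := congrArg Prod.fst hb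
    show l ∈ P.Sp b.1.1
    rw [← hw]
    exact h.wf.A_sub c hl
  have hSsub : ∀ b, (k9Csys Y t0 gC θ).S b ⊆ P.Ev ((k9Csys Y t0 gC θ).wd b) ∩ (k9Csys Y t0 gC θ).A b ×ˢ (k9Csys Y t0 gC θ).I b := by
    intro b x hx
    obtain ⟨c, hc, hb, c', ⟨hw', -⟩, hx1, hx2⟩ := (k9ft5_mem_S Y t0 gC θ b x).1 hx
    have hw : Y.wd c = b.1.1 := congrArg Prod.fst hb
    have h1 := h.wf.S_sub c hx1
    have h2 := h.wf.S_sub c' hx2
    refine ⟨?_, ?_, ?_⟩
    · show x ∈ P.Ev b.1.1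
      rw [← hw, ← hw']
      exact h2.1
    · exact (k9ft5_mem_A Y t0 gC θ b x.1).2 ⟨c, hc, hb, h1.2.1⟩
    · rw [k9ft5_I]
      exact k9ft5_kbI_sub _ _ (h.wf.iv_lt c') h2.2.2
  refine ⟨⟨?_, ?_, hAsub, ?_, ?_, hSsub, ?_, ?_⟩, ⟨?_, ?_, ?_, ?_, ?_, ?_⟩⟩
  · intro b
    show (0 : ℕ) < 2 ^ 0
    norm_num
  · intro b
    show MeasurableSet (⋃ c ∈ k9At Y t0, ⋃ (_ : (Y.wd c, k9Bin Y gC c) = b.1), Y.A c)
    exact Finset.measurableSet_biUnion _ fun c _ => MeasurableSet.iUnion fun _ => h.wf.A_meas c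
  · intro b b' hne hwd _
    rw [Set.disjoint_left]
    intro l hl hl'
    obtain ⟨c, hc, hb, hl⟩ := (k9ft5_mem_A Y t0 gC θ b l).1 hl
    obtain ⟨c', hc', hb', hl'⟩ := (k9ft5_mem_A Y t0 gC θ b' l).1 hl'
    have hw : Y.wd c = b.1.1 := congrArg Prod.fst hb
    have hw' : Y.wd c' = b'.1.1 := congrArg Prod.fst hb'
    have hwd' : b.1.1 = b'.1.1 := hwd
    by_cases hcc : c = c'
    · subst hcc
      exact hne (Subtype.ext (hb.symm.trans hb'))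
    · have ht : t0 ∈ Y.I c := (Finset.mem_filter.1 hc).2
      have ht' : t0 ∈ Y.I c' := (Finset.mem_filter.1 hc').2
      have hiv : Y.iv c = Y.iv c' := k9ft5_kbI_inj _ _ _ t0 ht ht'
      exact Set.disjoint_left.1 (h.wf.A_disj c c' hcc (by rw [hw, hw', hwd']) hiv) hl hl'
  · intro b
    simp only [k9Csys]
    refine Finset.measurableSet_biUnion _ fun c _ => MeasurableSet.iUnion fun _ => MeasurableSet.iUnion fun c' =>
      MeasurableSet.iUnion fun _ => ?_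
    have hm : Measurable fun x : P.Lam × ℝ => (x.1, t0) := measurable_fst.prodMk measurable_const
    exact (hm (h.wf.S_meas c)).inter (h.wf.S_meas c')
  · intro b
    exact k9ft5_inv _ gC (k9ft5_unit Y _) hgC0
  · intro b
    exact hP.Pst_adm b.1.1
  · intro b
    have h1 : kbMn (k9Fr (k9N Y (k9Rep Y t0 gC b)) gC) ≤ 4 := k9ft5_size _ gC (k9ft5_unit Y _) hgC0 hgC1
    have h2 : (k9Csys Y t0 gC θ).q = 1 := by
      show kbQ 0 = 1
      simp [kbQ]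
    rw [h2]
    show kbMn (k9Fr (k9N Y (k9Rep Y t0 gC b)) gC) ≤ _
    nlinarith
  · intro b l hl t ht
    rw [k9ft5_I] at ht
    have ht' : t ∈ Set.Icc (0 : ℝ) 1 := ⟨ht.1, ht.2.le⟩
    have hlS := hAsub b hl
    obtain ⟨c, hc, hb, hlc⟩ := (k9ft5_mem_A Y t0 gC θ b l).1 hl
    obtain ⟨hr1, hr2⟩ := k9ft5_rep_spec Y t0 gC b
    obtain ⟨r, hr⟩ : ∃ r, r = k9Rep Y t0 gC b := ⟨_, rfl⟩
    rw [← hr] at hr1 hr2
    have hw : Y.wd c = b.1.1 := congrArg Prod.fst hb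
    have hbin : k9Bin Y gC c = k9Bin Y gC r := congrArg Prod.snd (hb.trans hr2.symm)
    obtain ⟨s, S, hsv⟩ := k9nrm_spec (k9D Y c)
    have hstrip := (k9_node_strips Y K g hK hg.le h c (k9N Y c) s S hsv l hlc).2 t ht'
    obtain ⟨y, hy⟩ : ∃ y : K9V, y = kbY (P.co b.1.1 l) t := ⟨_, rfl⟩
    have hyK : ∀ i, |y i| ≤ K := by
      intro i
      have h1 := hN.base b.1.1 l hlS t ht'
      have h2 : ‖kbY (P.co b.1.1 l) t‖ ≤ K := by
        linarith [norm_nonneg (kbV (P.co b.1.1 l))]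
      rw [hy]
      exact (k9ft5_abs_le_norm _ i).trans h2
    have hun := k9ft5_unit Y r
    have hstrip' : |k9dot (k9N Y c) y - (k9Al Y c + k9Be Y c * t)| ≤ 40 * K ^ 3 * g := by
      have e' : k9dot (k9N Y c) y - (k9Al Y c + k9Be Y c * t) = _ :=
        (k9ft5_strip_eq (k9N Y c) y (Y.ch c).y0 (Y.ch c).y1 t).symm
      rw [e', hy, ← hw]
      exact hstrip
    have hb0 : ⌊k9N Y c 0 / gC⌋ = ⌊k9N Y r 0 / gC⌋ := congrArg (fun z => z.1) hbin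
    have hb1 : ⌊k9N Y c 1 / gC⌋ = ⌊k9N Y r 1 / gC⌋ := congrArg (fun z => z.2.1) hbin
    have hb2 : ⌊k9Al Y c / gC⌋ = ⌊k9Al Y r / gC⌋ := congrArg (fun z => z.2.2.1) hbin
    have hb3 : ⌊k9Be Y c / gC⌋ = ⌊k9Be Y r / gC⌋ := congrArg (fun z => z.2.2.2) hbin
    have hnn : ∀ i, |k9N Y c i - k9N Y r i| ≤ gC := by
      intro i
      fin_cases i
      · exact k9ft5_floor_close _ _ gC hgC0 hb0
      · exact k9ft5_floor_close _ _ gC hgC0 hb1
    have hround := k9_round_strip (k9N Y c) (k9N Y r) y (k9Al Y c) (k9Al Y r) (k9Be Y c) (k9Be Y r) t gC (40 * K ^ 3 * g) K ht' hyK hnn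
      (k9ft5_floor_close _ _ gC hgC0 hb2) (k9ft5_floor_close _ _ gC hgC0 hb3) hstrip'
    have hun' : k9N Y r 0 ^ 2 + k9N Y r 1 ^ 2 = 1 := hun
    obtain ⟨z, hz⟩ : ∃ z : K9V, z = y - (k9Al Y r • k9N Y r + t • (k9Be Y r • k9N Y r)) := ⟨_, rfl⟩
    have ez1 : k9crs (k9N Y r) z = k9crs (k9N Y r) y := by
      rw [hz]
      simp only [k9crs, Pi.sub_apply, Pi.add_apply, Pi.smul_apply, smul_eq_mul]
      ring
    have ez2 : k9dot (k9N Y r) z = k9dot (k9N Y r) y - (k9Al Y r + k9Be Y r * t) := by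
      rw [hz]
      simp only [k9dot, Pi.sub_apply, Pi.add_apply, Pi.smul_apply, smul_eq_mul]
      linear_combination (-(k9Al Y r + k9Be Y r * t)) * hun'
    have hK3pos : 0 < K ^ 3 := by positivity
    have hfin : ‖(k9FrI (k9N Y r) gC).mulVec z‖ ≤ 50 * K ^ 3 := by
      refine k9ft5_box _ _ gC _ hgC0 (by positivity) ?_ ?_
      · rw [ez1]
        have a0 := k9_unit_abs_le _ hun 0
        have a1 := k9_unit_abs_le _ hun 1
        have : |k9crs (k9N Y r) y| ≤ 2 * K := by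
          unfold k9crs
          calc |k9N Y r 0 * y 1 - k9N Y r 1 * y 0| ≤ |k9N Y r 0 * y 1| + |k9N Y r 1 * y 0| := abs_sub _ _
            _ = |k9N Y r 0| * |y 1| + |k9N Y r 1| * |y 0| := by rw [abs_mul, abs_mul]
            _ ≤ 1 * K + 1 * K := by
                gcongr
                · exact hyK 1
                · exact hyK 0
            _ = 2 * K := by ring
        linarith
      · rw [ez2]
        refine hround.trans ?_
        have h1 : 40 * K ^ 3 * g ≤ 40 * K ^ 3 * gC := by gcongr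
        have h2 : 2 * K * gC ≤ 2 * K ^ 3 * gC := by gcongr
        have h3 : 2 * gC ≤ 2 * K ^ 3 * gC := by nlinarith
        nlinarith
    rw [hz, hy, hr] at hfin
    exact hfin
  · intro b l hl t ht
    rw [k9ft5_I] at ht
    have h1 := hN.sig b.1.1 l (hAsub b hl) t ⟨ht.1, ht.2.le⟩
    show |kbX (P.Pst b.1.1) (P.co b.1.1 l) t| ≤ _
    linarith
  · intro b l hl t ht
    rw [k9ft5_I] at ht
    have h1 := hN.dw b.1.1 l (hAsub b hl) t ⟨ht.1, ht.2.le⟩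
    have hB := hP.B_pos b.1.1
    show |kbX (kbDw (P.Pst b.1.1)) (P.co b.1.1 l) t| ≤ 50 * K ^ 3 * P.B b.1.1
    nlinarith
  · intro b x hx
    have h1 := hN.dw_low b.1.1 x (hSsub b hx).1
    show P.B b.1.1 ≤ 50 * K ^ 3 * |kbX (kbDw (P.Pst b.1.1)) (P.co b.1.1 x.1) x.2|
    nlinarith [abs_nonneg (kbX (kbDw (P.Pst b.1.1)) (P.co b.1.1 x.1) x.2)]
  · intro b t y w
    have h1 := hN.dww b.1.1 t y w
    show |kbDww (P.Pst b.1.1) t y w| * 1 ≤ 50 * K ^ 3 * P.B b.1.1 ^ 2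
    nlinarith [sq_nonneg (P.B b.1.1)]

/-- helper of FT6/FT7: membership in the selection of a full-time chart -/
theorem k9_ft7_mem (Y : KbSys P) (t0 gC θ : ℝ) (b : (k9Csys Y t0 gC θ).C) (x : P.Lam × ℝ) (hx : x ∈ (k9Csys Y t0 gC θ).S b) :
    ∃ c ∈ k9At Y t0, (Y.wd c, k9Bin Y gC c) = b.1 ∧ ∃ c' : Y.C, Y.wd c' = Y.wd c ∧ K9Ang Y θ c c' ∧ (x.1, t0) ∈ Y.S c ∧ x ∈ Y.S c' := by
  have hx' : x ∈ ⋃ c ∈ k9At Y t0, ⋃ (_ : (Y.wd c, k9Bin Y gC c) = b.1), ⋃ c' : Y.C, ⋃ (_ : Y.wd c' = Y.wd c ∧ K9Ang Y θ c c'),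
    {x | (x.1, t0) ∈ Y.S c ∧ x ∈ Y.S c'} := hx
  simp only [Set.mem_iUnion, Set.mem_ofPred_eq] at hx'
  obtain ⟨c, hc, hb, c', ⟨hw, ha⟩, h1, h2⟩ := hx'
  exact ⟨c, hc, hb, c', hw, ha, h1, h2⟩

/-- helper of FT6/FT7: the normal of a chart is a unit vector -/
theorem k9_ft7_unit (Y : KbSys P) (c : Y.C) : K9Unit (k9N Y c) := by
  obtain ⟨s, S, h⟩ := k9nrm_spec (k9D Y c)
  exact h.1

/-- helper of FT6/FT7: native bound of the velocity -/
theorem k9_ft7_vel (K : ℝ) (hN : P.Ntv K) (γ : P.W) (l : P.Lam) (hl : l ∈ P.Sp γ) (t : ℝ) (ht : t ∈ Set.Icc (0 : ℝ) 1) :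
    (∀ i, |kbY (P.co γ l) t i| ≤ K) ∧ ∀ i, |kbV (P.co γ l) i| ≤ K := by
  have h := hN.base γ l hl t ht
  have h1 := norm_nonneg (kbY (P.co γ l) t)
  have h2 := norm_nonneg (kbV (P.co γ l))
  constructor
  · intro i
    have := norm_le_pi_norm (kbY (P.co γ l) t) i
    rw [Real.norm_eq_abs] at this
    linarith
  · intro i
    have := norm_le_pi_norm (kbV (P.co γ l)) i
    rw [Real.norm_eq_abs] at this
    linarith

/-- helper of FT6: the bins near a point -/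
def k9Ft6Box (r : ℤ) (gC : ℝ) (n : K9V) (al be : ℝ) : Finset (ℤ × ℤ × ℤ × ℤ) :=
  Finset.Icc (⌊n 0 / gC⌋ - 3) (⌊n 0 / gC⌋ + 3) ×ˢ Finset.Icc (⌊n 1 / gC⌋ - 3) (⌊n 1 / gC⌋ + 3) ×ˢ
    Finset.Icc (⌊al / gC⌋ - r) (⌊al / gC⌋ + r) ×ˢ Finset.Icc (⌊be / gC⌋ - r) (⌊be / gC⌋ + r)

/-- helper of FT6: number of bins near a point -/
theorem k9_ft6_box_card (r : ℤ) (hr : 0 ≤ r) (gC : ℝ) (n : K9V) (al be : ℝ) :
    ((k9Ft6Box r gC n al be).card : ℝ) = 49 * (2 * (r : ℝ) + 1) ^ 2 := by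
  unfold k9Ft6Box
  rw [Finset.card_product, Finset.card_product, Finset.card_product, Int.card_Icc, Int.card_Icc, Int.card_Icc, Int.card_Icc]
  have e1 : ∀ a : ℤ, (a + 3 + 1 - (a - 3)).toNat = 7 := by
    intro a
    have : a + 3 + 1 - (a - 3) = 7 := by ring
    rw [this]; rfl
  have e2 : ∀ a : ℤ, ((a + r + 1 - (a - r)).toNat : ℝ) = 2 * r + 1 := by
    intro a
    have : a + r + 1 - (a - r) = 2 * r + 1 := by ring
    rw [this]
    have h : ((2 * r + 1).toNat : ℤ) = 2 * r + 1 := Int.toNat_of_nonneg (by omega)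
    have h' : (((2 * r + 1).toNat : ℤ) : ℝ) = ((2 * r + 1 : ℤ) : ℝ) := by rw [h]
    push_cast at h'
    exact h'
  push_cast
  rw [e1, e1, e2, e2]
  norm_num
  ring

/-- helper of FT6: floors of close numbers -/
theorem k9_ft6_floor (u v g ρ : ℝ) (r : ℤ) (hg : 0 < g) (h : |u - v| ≤ ρ * g) (hρ : ρ ≤ (r : ℝ) - 1) :
    ⌊u / g⌋ ∈ Finset.Icc (⌊v / g⌋ - r) (⌊v / g⌋ + r) := by
  have h' : |u / g - v / g| ≤ ρ := by
    rw [← sub_div, abs_div, abs_of_pos hg, div_le_iff₀ hg]; exact h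
  obtain ⟨h1, h2⟩ := abs_le.1 h'
  have a1 := Int.floor_le (u / g)
  have a2 := Int.lt_floor_add_one (u / g)
  have b1 := Int.floor_le (v / g)
  have b2 := Int.lt_floor_add_one (v / g)
  rw [Finset.mem_Icc]
  constructor
  · have : ((⌊v / g⌋ - r : ℤ) : ℝ) < (⌊u / g⌋ : ℝ) := by push_cast; linarith
    exact (Int.cast_lt.1 this).le
  · have : ((⌊u / g⌋ : ℤ) : ℝ) < ((⌊v / g⌋ + r : ℤ) : ℝ) := by push_cast; linarith
    exact (Int.cast_lt.1 this).le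

/-- helper of FT6: the bin of a close label lies in the box -/
theorem k9_ft6_box_mem (r : ℤ) (gC ρ : ℝ) (hgC : 0 < gC) (hρ : ρ ≤ (r : ℝ) - 1) (n m : K9V) (al be al' be' : ℝ)
    (hn : ∀ i, |n i - m i| ≤ 2 * gC) (hal : |al - al'| ≤ ρ * gC) (hbe : |be - be'| ≤ ρ * gC) :
    (⌊n 0 / gC⌋, ⌊n 1 / gC⌋, ⌊al / gC⌋, ⌊be / gC⌋) ∈ k9Ft6Box r gC m al' be' := by
  unfold k9Ft6Box
  simp only [Finset.mem_product]
  exact ⟨k9_ft6_floor _ _ gC 2 3 hgC (hn 0) (by norm_num), k9_ft6_floor _ _ gC 2 3 hgC (hn 1) (by norm_num),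
    k9_ft6_floor _ _ gC ρ r hgC hal hρ, k9_ft6_floor _ _ gC ρ r hgC hbe hρ⟩

/-- helper of FT6: counting the labels of one world whose bins lie in a union of boxes -/
theorem k9_ft6_count {W B ι : Type*} (T : Finset (W × B)) (γ : W) (L : Finset ι) (Box : ι → Finset B) (M : ℝ)
    (hM : ∀ c, ((Box c).card : ℝ) ≤ M) (F : Finset {b // b ∈ T}) (hF : ∀ b ∈ F, b.1.1 = γ ∧ ∃ c ∈ L, b.1.2 ∈ Box c) :
    (F.card : ℝ) ≤ L.card * M := by
  have h1 : F.card ≤ (L.biUnion Box).card := by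
    refine Finset.card_le_card_of_injOn (fun b => b.1.2) ?_ ?_
    · intro b hb
      obtain ⟨-, c, hc, hbc⟩ := hF b hb
      exact Finset.mem_coe.2 (Finset.mem_biUnion.2 ⟨c, hc, hbc⟩)
    · intro b hb b' hb' hbb
      have e1 := (hF b hb).1
      have e2 := (hF b' hb').1
      exact Subtype.ext (Prod.ext (e1.trans e2.symm) hbb)
  have h2 : (L.biUnion Box).card ≤ ∑ c ∈ L, (Box c).card := Finset.card_biUnion_le
  calc (F.card : ℝ) ≤ ((∑ c ∈ L, (Box c).card : ℕ) : ℝ) := by exact_mod_cast h1.trans h2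
    _ = ∑ c ∈ L, ((Box c).card : ℝ) := by push_cast; rfl
    _ ≤ ∑ _c ∈ L, M := Finset.sum_le_sum fun c _ => hM c
    _ = L.card * M := by rw [Finset.sum_const, nsmul_eq_mul]

/-- helper of FT6: the plane geometry -/
theorem k9_ft6_core (n m y0 V c0 c1 d0 d1 : K9V) (K g θ gC : ℝ) (hK : 1 ≤ K) (hg : 0 < g) (hθ : g ≤ θ) (hgC : θ ≤ gC)
    (un : K9Unit n) (um : K9Unit m) (hang : |k9crs n m| ≤ θ) (hy : ∀ i, |y0 i| ≤ K) (hV : ∀ i, |V i| ≤ K)
    (a0 : |k9dot n (y0 - c0)| ≤ 40 * K ^ 3 * g) (a1 : |k9dot n (V - c1)| ≤ 32 * K ^ 3 * g)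
    (b0 : |k9dot m (y0 - d0)| ≤ 40 * K ^ 3 * g) (b1 : |k9dot m (V - d1)| ≤ 32 * K ^ 3 * g) :
    ∃ σ : ℝ, (σ = 1 ∨ σ = -1) ∧ (∀ i, |n i - σ * m i| ≤ 2 * gC) ∧ |k9dot n c0 - σ * k9dot m d0| ≤ 84 * K ^ 3 * gC ∧
      |k9dot n c1 - σ * k9dot m d1| ≤ 84 * K ^ 3 * gC := by
  have hθp : 0 < θ := by linarith
  have hgCp : 0 < gC := by linarith
  have hK0 : 0 < K := by linarith
  obtain ⟨σ, hσ, hpos⟩ : ∃ σ : ℝ, (σ = 1 ∨ σ = -1) ∧ 0 ≤ σ * k9dot n m := by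
    rcases le_total 0 (k9dot n m) with h | h
    · exact ⟨1, Or.inl rfl, by linarith⟩
    · exact ⟨-1, Or.inr rfl, by linarith⟩
  have hσ2 : σ ^ 2 = 1 := by rcases hσ with rfl | rfl <;> norm_num
  have hσa : |σ| = 1 := by rcases hσ with rfl | rfl <;> simp
  set m' : K9V := fun i => σ * m i with hm'
  have um' : K9Unit m' := by
    have : m 0 ^ 2 + m 1 ^ 2 = 1 := um
    show (σ * m 0) ^ 2 + (σ * m 1) ^ 2 = 1
    rw [mul_pow, mul_pow, hσ2]; linarith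
  have hd : k9dot n m' = σ * k9dot n m := by simp only [k9dot, hm']; ring
  have hc : k9crs n m' = σ * k9crs n m := by simp only [k9crs, hm']; ring
  have hclose := k9_unit_close n m' un um' (by rw [hd]; exact hpos)
  have hc2 : k9crs n m' ^ 2 ≤ θ ^ 2 := by
    rw [hc, mul_pow, hσ2, one_mul, ← sq_abs]
    exact pow_le_pow_left₀ (abs_nonneg _) hang 2
  have hn : ∀ i, |n i - m' i| ≤ 2 * θ := by
    intro i
    apply abs_le_of_sq_le_sq _ (by positivity)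
    fin_cases i
    · simp only [Fin.zero_eta]
      nlinarith [sq_nonneg (n 1 - m' 1), sq_nonneg θ]
    · simp only [Fin.mk_one]
      nlinarith [sq_nonneg (n 0 - m' 0), sq_nonneg θ]
  have w32 : 32 * K ^ 3 * g ≤ 40 * K ^ 3 * g := by
    have : 0 ≤ K ^ 3 * g := by positivity
    linarith
  have A0 : |k9dot n y0 - k9dot n c0| ≤ 40 * K ^ 3 * g := by
    have : k9dot n y0 - k9dot n c0 = k9dot n (y0 - c0) := by simp only [k9dot, Pi.sub_apply]; ring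
    rw [this]; exact a0
  have A1 : |k9dot n V - k9dot n c1| ≤ 40 * K ^ 3 * g := by
    have : k9dot n V - k9dot n c1 = k9dot n (V - c1) := by simp only [k9dot, Pi.sub_apply]; ring
    rw [this]; exact a1.trans w32
  have B0 : |k9dot m' y0 - σ * k9dot m d0| ≤ 40 * K ^ 3 * g := by
    have : k9dot m' y0 - σ * k9dot m d0 = σ * k9dot m (y0 - d0) := by simp only [k9dot, Pi.sub_apply, hm']; ring
    rw [this, abs_mul, hσa, one_mul]; exact b0
  have B1 : |k9dot m' V - σ * k9dot m d1| ≤ 40 * K ^ 3 * g := by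
    have : k9dot m' V - σ * k9dot m d1 = σ * k9dot m (V - d1) := by simp only [k9dot, Pi.sub_apply, hm']; ring
    rw [this, abs_mul, hσa, one_mul]; exact b1.trans w32
  obtain ⟨r1, r2⟩ := k9_label_close n m' y0 V _ _ _ _ _ _ K hy hV hn A0 A1 B0 B1
  have fin : 2 * (40 * K ^ 3 * g) + 2 * K * (2 * θ) ≤ 84 * K ^ 3 * gC := by
    have k1 : K ^ 3 * g ≤ K ^ 3 * gC := mul_le_mul_of_nonneg_left (by linarith) (by positivity)
    have k2 : K * θ ≤ K ^ 3 * gC := by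
      have : K ≤ K ^ 3 := by
        calc K = K ^ 1 := (pow_one K).symm
          _ ≤ K ^ 3 := pow_le_pow_right₀ hK (by norm_num)
      exact mul_le_mul this hgC hθp.le (by positivity)
    linarith
  exact ⟨σ, hσ, fun i => (hn i).trans (by linarith), r1.trans fin, r2.trans fin⟩

/-- LEAF S9-FT6 (~350 l.; black boxes `k9_node_strips`, `k9_unit_close`, `k9_label_close`).  The `C`-label is known by `p_1` : each later label `c'` of the list determines, up to sign, `≤ (C K³)⁴` neighbouring bins. -/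
theorem k9_Csys_known (hP : P.WF) (Y : KbSys P) (K aL g θ gC t0 : ℝ) (hK : 1 ≤ K) (hg : 0 < g) (hθ : g ≤ θ) (hgC : θ ≤ gC) (hN : P.Ntv K) (h : K9Node P Y K g)
    (hk : Y.Known (P.hid aL) K) : (k9Csys Y t0 gC θ).Known (P.hid aL) (2 * (200 * K ^ 3) ^ 4 * K) := by
  obtain ⟨Lst0, hcard0, hmeas0, hmem0⟩ := hk
  have hgCp : 0 < gC := by linarith
  have hK0 : 0 < K := by linarith
  have hK3 : 1 ≤ K ^ 3 := one_le_pow₀ hK
  obtain ⟨r, hr⟩ : ∃ r : ℤ, r = ⌈84 * K ^ 3⌉ + 1 := ⟨_, rfl⟩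
  have hr0 : 0 ≤ r := by
    have : 0 ≤ ⌈84 * K ^ 3⌉ := Int.ceil_nonneg (by positivity)
    omega
  have hr1 : 84 * K ^ 3 ≤ (r : ℝ) - 1 := by
    rw [hr]; push_cast
    have := Int.le_ceil (84 * K ^ 3)
    linarith
  have hr2 : (r : ℝ) ≤ 86 * K ^ 3 := by
    rw [hr]; push_cast
    have := Int.ceil_lt_add_one (84 * K ^ 3)
    linarith
  obtain ⟨Box, hBox⟩ : ∃ Box : Y.C → Finset (ℤ × ℤ × ℤ × ℤ), Box = fun c' =>
      k9Ft6Box r gC (fun i => 1 * k9N Y c' i) (1 * k9Al Y c') (1 * k9Be Y c') ∪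
        k9Ft6Box r gC (fun i => -1 * k9N Y c' i) (-1 * k9Al Y c') (-1 * k9Be Y c') := ⟨_, rfl⟩
  have hBc : ∀ c', ((Box c').card : ℝ) ≤ 2 * (200 * K ^ 3) ^ 4 := by
    intro c'
    rw [hBox]
    have h1 := Finset.card_union_le (k9Ft6Box r gC (fun i => 1 * k9N Y c' i) (1 * k9Al Y c') (1 * k9Be Y c'))
      (k9Ft6Box r gC (fun i => -1 * k9N Y c' i) (-1 * k9Al Y c') (-1 * k9Be Y c'))
    have h2 : (((k9Ft6Box r gC (fun i => 1 * k9N Y c' i) (1 * k9Al Y c') (1 * k9Be Y c') ∪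
        k9Ft6Box r gC (fun i => -1 * k9N Y c' i) (-1 * k9Al Y c') (-1 * k9Be Y c')).card : ℕ) : ℝ)
        ≤ 49 * (2 * (r : ℝ) + 1) ^ 2 + 49 * (2 * (r : ℝ) + 1) ^ 2 := by
      rw [← k9_ft6_box_card r hr0 gC (fun i => 1 * k9N Y c' i) (1 * k9Al Y c') (1 * k9Be Y c')]
      nth_rewrite 2 [k9_ft6_box_card r hr0 gC (fun i => 1 * k9N Y c' i) (1 * k9Al Y c') (1 * k9Be Y c')]
      rw [← k9_ft6_box_card r hr0 gC (fun i => -1 * k9N Y c' i) (-1 * k9Al Y c') (-1 * k9Be Y c')]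
      exact_mod_cast h1
    refine h2.trans ?_
    have hrr : (0 : ℝ) ≤ r := by exact_mod_cast hr0
    have q1 : 2 * (r : ℝ) + 1 ≤ 200 * K ^ 3 := by linarith
    have q2 : (2 * (r : ℝ) + 1) ^ 2 ≤ (200 * K ^ 3) ^ 2 := pow_le_pow_left₀ (by linarith) q1 2
    have q3 : (49 : ℝ) ≤ (200 * K ^ 3) ^ 2 := by nlinarith
    have q4 : 49 * (2 * (r : ℝ) + 1) ^ 2 ≤ (200 * K ^ 3) ^ 2 * (200 * K ^ 3) ^ 2 := mul_le_mul q3 q2 (by positivity) (by positivity)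
    have q5 : (200 * K ^ 3) ^ 2 * (200 * K ^ 3) ^ 2 = (200 * K ^ 3) ^ 4 := by ring
    linarith
  refine ⟨fun γ d o => Finset.univ.filter (fun b : (k9Csys Y t0 gC θ).C => b.1.1 = γ ∧ ∃ c' ∈ Lst0 γ d o, b.1.2 ∈ Box c'), ?_, ?_, ?_⟩
  · intro γ d o
    have := k9_ft6_count (k9CLab Y t0 gC) γ (Lst0 γ d o) Box _ hBc
      (Finset.univ.filter (fun b : (k9Csys Y t0 gC θ).C => b.1.1 = γ ∧ ∃ c' ∈ Lst0 γ d o, b.1.2 ∈ Box c'))
      (fun b hb => (Finset.mem_filter.1 hb).2)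
    refine this.trans ?_
    calc ((Lst0 γ d o).card : ℝ) * (2 * (200 * K ^ 3) ^ 4) ≤ K * (2 * (200 * K ^ 3) ^ 4) :=
          mul_le_mul_of_nonneg_right (hcard0 γ d o) (by positivity)
      _ = _ := by ring
  · intro γ d b
    have e : {o | b ∈ Finset.univ.filter (fun b : (k9Csys Y t0 gC θ).C => b.1.1 = γ ∧ ∃ c' ∈ Lst0 γ d o, b.1.2 ∈ Box c')}
        = ⋃ c', {o | (b.1.1 = γ ∧ b.1.2 ∈ Box c') ∧ c' ∈ Lst0 γ d o} := by
      ext o
      simp only [Finset.mem_filter, Finset.mem_univ, true_and, Set.mem_ofPred_eq, Set.mem_iUnion]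
      constructor
      · rintro ⟨h1, c', h2, h3⟩
        exact ⟨c', ⟨h1, h3⟩, h2⟩
      · rintro ⟨c', ⟨h1, h3⟩, h2⟩
        exact ⟨h1, c', h2, h3⟩
    rw [e]
    refine MeasurableSet.iUnion fun c' => ?_
    by_cases hp : b.1.1 = γ ∧ b.1.2 ∈ Box c'
    · simp only [hp, true_and, and_self]
      exact hmeas0 γ d c'
    · simp only [hp, false_and]
      exact MeasurableSet.const _
  · intro b x hx
    obtain ⟨c, hc, hcb, c', hwc', hang, hxc, hxc'⟩ := k9_ft7_mem Y t0 gC θ b x hx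
    have hwc : Y.wd c = b.1.1 := by rw [← hcb]
    have hbin : k9Bin Y gC c = b.1.2 := by rw [← hcb]
    have hL := hmem0 c' x hxc'
    rw [hwc', hwc] at hL
    simp only [Finset.mem_filter, Finset.mem_univ, true_and]
    refine ⟨rfl, c', hL, ?_⟩
    rw [← hbin]
    have m1 := h.wf.S_sub _ hxc
    have m2 := h.wf.S_sub _ hxc'
    have hlA : x.1 ∈ Y.A c := m1.2.1
    have hlA' : x.1 ∈ Y.A c' := m2.2.1
    have hlSp : x.1 ∈ P.Sp (Y.wd c) := h.wf.A_sub _ hlA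
    obtain ⟨hy, hV⟩ := k9_ft7_vel K hN _ _ hlSp 0 ⟨le_rfl, zero_le_one⟩
    obtain ⟨s, S, hsv⟩ := k9nrm_spec (k9D Y c)
    obtain ⟨s', S', hsv'⟩ := k9nrm_spec (k9D Y c')
    obtain ⟨a1, a0⟩ := k9_node_strips Y K g hK hg.le h c _ s S hsv x.1 hlA
    obtain ⟨b1, b0⟩ := k9_node_strips Y K g hK hg.le h c' _ s' S' hsv' x.1 hlA'
    have a0' := a0 0 ⟨le_rfl, zero_le_one⟩
    have b0' := b0 0 ⟨le_rfl, zero_le_one⟩
    rw [hwc'] at b1 b0'
    have e0 : ∀ c, (Y.ch c).yc 0 = (Y.ch c).y0 := by intro c; simp [KbChart.yc]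
    rw [e0] at a0' b0'
    obtain ⟨σ, hσ, hn, hal, hbe⟩ := k9_ft6_core (k9N Y c) (k9N Y c') (kbY (P.co (Y.wd c) x.1) 0) (kbV (P.co (Y.wd c) x.1))
      (Y.ch c).y0 (Y.ch c).y1 (Y.ch c').y0 (Y.ch c').y1 K g θ gC hK hg hθ hgC (k9_ft7_unit _ _) (k9_ft7_unit _ _) hang hy hV a0' a1 b0' b1
    have hbox : k9Bin Y gC c ∈ k9Ft6Box r gC (fun i => σ * k9N Y c' i) (σ * k9Al Y c') (σ * k9Be Y c') :=
      k9_ft6_box_mem r gC (84 * K ^ 3) hgCp hr1 (k9N Y c) (fun i => σ * k9N Y c' i) (k9Al Y c) (k9Be Y c) _ _ hn hal hbe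
    rw [hBox]
    rcases hσ with rfl | rfl
    · exact Finset.mem_union_left _ hbox
    · exact Finset.mem_union_right _ hbox

/-- helper of FT7: chain rule of the cross product through a unit vector -/
theorem k9_ft7_crs_chain (a b c : K9V) (hb : K9Unit b) : k9crs a c = k9crs a b * k9dot b c + k9dot a b * k9crs b c := by
  unfold K9Unit at hb
  simp only [k9crs, k9dot]
  linear_combination (-(a 0 * c 1 - a 1 * c 0)) * hb

/-- helper of FT7: triangle inequality of the sine -/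
theorem k9_ft7_crs_tri (a b c : K9V) (ha : K9Unit a) (hb : K9Unit b) (hc : K9Unit c) : |k9crs a c| ≤ |k9crs a b| + |k9crs b c| := by
  rw [k9_ft7_crs_chain a b c hb]
  have h1 := k9_aux_dot_le_one b c hb hc
  have h2 := k9_aux_dot_le_one a b ha hb
  calc |k9crs a b * k9dot b c + k9dot a b * k9crs b c| ≤ |k9crs a b * k9dot b c| + |k9dot a b * k9crs b c| := abs_add_le _ _
    _ = |k9crs a b| * |k9dot b c| + |k9dot a b| * |k9crs b c| := by rw [abs_mul, abs_mul]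
    _ ≤ |k9crs a b| * 1 + 1 * |k9crs b c| := by gcongr
    _ = _ := by ring

/-- helper of FT7: splitting a scalar product in the frame of a unit vector -/
theorem k9_ft7_dot_split (n a z : K9V) (hn : K9Unit n) : k9dot a z = k9dot a n * k9dot n z + k9crs n a * k9crs n z := by
  unfold K9Unit at hn
  simp only [k9crs, k9dot]
  linear_combination (-(a 0 * z 0 + a 1 * z 1)) * hn

/-- helper of FT7: cross product with a unit vector -/
theorem k9_ft7_crs_le (n v : K9V) (K : ℝ) (hn : K9Unit n) (hv : ∀ i, |v i| ≤ K) : |k9crs n v| ≤ 2 * K := by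
  have a0 := k9_unit_abs_le n hn 0
  have a1 := k9_unit_abs_le n hn 1
  have hK : 0 ≤ K := le_trans (abs_nonneg _) (hv 0)
  unfold k9crs
  calc |n 0 * v 1 - n 1 * v 0| ≤ |n 0 * v 1| + |n 1 * v 0| := abs_sub _ _
    _ = |n 0| * |v 1| + |n 1| * |v 0| := by rw [abs_mul, abs_mul]
    _ ≤ 1 * K + 1 * K := by
        gcongr
        · exact hv 1
        · exact hv 0
    _ = 2 * K := by ring

/-- helper of FT7: the plane geometry -/
theorem k9_ft7_core (Nr Nc Np n1 V y1c y1 : K9V) (Ber Bec K g1 g2 θ gC : ℝ) (hK : 1 ≤ K) (hg2 : 0 < g2) (hθ : g2 ≤ θ) (hgC : θ ≤ gC) (hg1 : gC ≤ g1)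
    (uNr : K9Unit Nr) (uNc : K9Unit Nc) (uNp : K9Unit Np) (un1 : K9Unit n1)
    (hang : |k9crs Nc Np| ≤ θ) (hnest : |k9crs Np n1| ≤ 32 * K ^ 4 * g1)
    (hbinN : ∀ i, |Nr i - Nc i| ≤ gC) (hbinB : |Ber - Bec| ≤ gC) (hBec : Bec = k9dot Nc y1c) (hV : ∀ i, |V i| ≤ K)
    (hs2 : |k9dot Nc (V - y1c)| ≤ 32 * K ^ 3 * g2) (hs1 : |k9dot n1 (V - y1)| ≤ 32 * K ^ 3 * g1)
    (hcv : ∀ i, |(V - y1) i| ≤ 4 * K ^ 2) :
    |k9crs Nr n1| ≤ 200 * K ^ 4 * g1 ∧ |k9dot Nr (y1 - Ber • Nr)| ≤ 4000 * K ^ 6 * g1 := by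
  have hg1p : 0 < g1 := by linarith
  have hgCp : 0 < gC := by linarith
  have hK0 : 0 ≤ K := by linarith
  have pw : ∀ m : ℕ, 1 ≤ K ^ m := fun m => one_le_pow₀ hK
  have pm : ∀ m k : ℕ, m ≤ k → K ^ m ≤ K ^ k := fun m k h => pow_le_pow_right₀ hK h
  -- first claim
  have c1 : |k9crs Nc n1| ≤ θ + 32 * K ^ 4 * g1 := (k9_ft7_crs_tri Nc Np n1 uNc uNp un1).trans (add_le_add hang hnest)
  have c2 : |k9crs Nr n1| ≤ 35 * K ^ 4 * g1 := by
    have e : k9crs Nr n1 = k9crs Nc n1 - k9crs n1 (fun i => Nr i - Nc i) := by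
      simp only [k9crs]; ring
    have := k9_ft7_crs_le n1 (fun i => Nr i - Nc i) gC un1 hbinN
    rw [e]
    have t := abs_sub (k9crs Nc n1) (k9crs n1 (fun i => Nr i - Nc i))
    have : g1 ≤ K ^ 4 * g1 := le_mul_of_one_le_left hg1p.le (pw 4)
    linarith
  refine ⟨c2.trans (by nlinarith [mul_pos (pow_pos (lt_of_lt_of_le one_pos hK) 4) hg1p]), ?_⟩
  -- second claim
  have e : k9dot Nr (y1 - Ber • Nr) = -(k9dot Nr n1 * k9dot n1 (V - y1) + k9crs n1 Nr * k9crs n1 (V - y1))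
      + k9dot Nc (V - y1c) + k9dot V (fun i => Nr i - Nc i) + (Bec - Ber) := by
    rw [← k9_ft7_dot_split n1 Nr (V - y1) un1, hBec]
    unfold K9Unit at uNr
    simp only [k9dot, Pi.sub_apply, Pi.smul_apply, smul_eq_mul]
    linear_combination (-Ber) * uNr
  have b1 : |k9dot Nr n1 * k9dot n1 (V - y1)| ≤ 1 * (32 * K ^ 3 * g1) := by
    rw [abs_mul]
    exact mul_le_mul (k9_aux_dot_le_one Nr n1 uNr un1) hs1 (abs_nonneg _) zero_le_one
  have b2 : |k9crs n1 Nr * k9crs n1 (V - y1)| ≤ (35 * K ^ 4 * g1) * (2 * (4 * K ^ 2)) := by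
    rw [abs_mul]
    have : k9crs n1 Nr = -k9crs Nr n1 := by simp only [k9crs]; ring
    rw [this, abs_neg]
    exact mul_le_mul c2 (k9_ft7_crs_le n1 (V - y1) _ un1 hcv) (abs_nonneg _) (by positivity)
  have b3 : |k9dot V (fun i => Nr i - Nc i)| ≤ 2 * K * gC := by
    unfold k9dot
    calc |V 0 * (Nr 0 - Nc 0) + V 1 * (Nr 1 - Nc 1)| ≤ |V 0 * (Nr 0 - Nc 0)| + |V 1 * (Nr 1 - Nc 1)| := abs_add_le _ _
      _ = |V 0| * |Nr 0 - Nc 0| + |V 1| * |Nr 1 - Nc 1| := by rw [abs_mul, abs_mul]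
      _ ≤ K * gC + K * gC := by
          gcongr
          · exact hV 0
          · exact hbinN 0
          · exact hV 1
          · exact hbinN 1
      _ = _ := by ring
  have b4 : |Bec - Ber| ≤ gC := by rw [abs_sub_comm]; exact hbinB
  rw [e]
  have t1 := abs_add_le (-(k9dot Nr n1 * k9dot n1 (V - y1) + k9crs n1 Nr * k9crs n1 (V - y1)) + k9dot Nc (V - y1c) + k9dot V (fun i => Nr i - Nc i)) (Bec - Ber)
  have t2 := abs_add_le (-(k9dot Nr n1 * k9dot n1 (V - y1) + k9crs n1 Nr * k9crs n1 (V - y1)) + k9dot Nc (V - y1c)) (k9dot V (fun i => Nr i - Nc i))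
  have t3 := abs_add_le (-(k9dot Nr n1 * k9dot n1 (V - y1) + k9crs n1 Nr * k9crs n1 (V - y1))) (k9dot Nc (V - y1c))
  rw [abs_neg] at t3
  have t4 := abs_add_le (k9dot Nr n1 * k9dot n1 (V - y1)) (k9crs n1 Nr * k9crs n1 (V - y1))
  have k3 : K ^ 3 * g1 ≤ K ^ 6 * g1 := mul_le_mul_of_nonneg_right (pm 3 6 (by norm_num)) hg1p.le
  have k3' : K ^ 3 * g2 ≤ K ^ 6 * g1 := mul_le_mul (pm 3 6 (by norm_num)) (by linarith) hg2.le (by positivity)
  have k1 : K * gC ≤ K ^ 6 * g1 := by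
    have := mul_le_mul (pm 1 6 (by norm_num)) hg1 hgCp.le (by positivity)
    simpa using this
  have k0 : gC ≤ K ^ 6 * g1 := hg1.trans (le_mul_of_one_le_left hg1p.le (pw 6))
  have k6 : (35 * K ^ 4 * g1) * (2 * (4 * K ^ 2)) = 280 * (K ^ 6 * g1) := by ring
  have kp : 0 ≤ K ^ 6 * g1 := by positivity
  linarith


/-- helper of FT7: singular values of a node -/
theorem k9_ft7_node (Y : KbSys P) (K g : ℝ) (hK : 1 ≤ K) (h : K9Node P Y K g) (c : Y.C) (n : K9V) (s S : ℝ)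
    (hn : K9Svd (k9D Y c) n s S) : 0 < Y.q ∧ Y.q ≤ 4 * K * S ∧ s ≤ 4 * K ^ 2 * Y.q * g ∧ k9row n (k9D Y c) = s ^ 2 := by
  have hq : 0 < Y.q := by unfold KbSys.q kbQ; positivity
  have hK0 : 0 < K := by linarith
  have h1 : Y.q ≤ 4 * K * S := by
    have a := h.axis c
    have b := k9_svd_ge (k9D Y c) n s S hn
    have b' : kbMn (Y.ch c).D ≤ 4 * S := b
    calc Y.q ≤ K * kbMn (Y.ch c).D := a
      _ ≤ K * (4 * S) := by gcongr
      _ = _ := by ring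
  obtain ⟨un, hs0, hsS, hdet, hform⟩ := hn
  have hJ : s * S ≤ K * Y.q ^ 2 * g := by
    have := h.det_le c
    have e : (Y.ch c).J = |(k9D Y c).det| := rfl
    rw [e, ← hdet] at this
    exact this
  refine ⟨hq, h1, ?_, ?_⟩
  · have : s * Y.q ≤ (4 * K ^ 2 * Y.q * g) * Y.q := by
      calc s * Y.q ≤ s * (4 * K * S) := by gcongr
        _ = 4 * K * (s * S) := by ring
        _ ≤ 4 * K * (K * Y.q ^ 2 * g) := by gcongr
        _ = _ := by ring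
    exact le_of_mul_le_mul_right this hq
  · rw [hform n]
    have e1 : k9dot n n = 1 := by
      have : n 0 ^ 2 + n 1 ^ 2 = 1 := un
      simp only [k9dot]; nlinarith
    have e2 : k9crs n n = 0 := by simp only [k9crs]; ring
    rw [e1, e2]; ring

/-- helper of FT7: two dyadic intervals of the same level with a common point coincide -/
theorem k9_ft7_iv (n i j : ℕ) (t : ℝ) (hi : t ∈ kbI n i) (hj : t ∈ kbI n j) : i = j := by
  have hq : 0 < kbQ n := by unfold kbQ; positivity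
  unfold kbI at hi hj
  have h1 : (i : ℝ) < (j : ℝ) + 1 := lt_of_mul_lt_mul_right (lt_of_le_of_lt hi.1 hj.2) hq.le
  have h2 : (j : ℝ) < (i : ℝ) + 1 := lt_of_mul_lt_mul_right (lt_of_le_of_lt hj.1 hi.2) hq.le
  have h1' : i < j + 1 := by exact_mod_cast h1
  have h2' : j < i + 1 := by exact_mod_cast h2
  omega

/-- helper of FT7: equal bins -/
theorem k9_ft7_bin (u v g : ℝ) (hg : 0 < g) (h : ⌊u / g⌋ = ⌊v / g⌋) : |u - v| ≤ g := by
  have := Int.abs_sub_lt_one_of_floor_eq_floor h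
  rw [← sub_div, abs_div, abs_of_pos hg, div_lt_one hg] at this
  exact this.le

/-- helper of FT7: the nested angle (9.8) between a node and its parent -/
theorem k9_ft7_nest (Y1 Y2 : KbSys P) (par : Y2.C → Y1.C) (K g1 g2 : ℝ) (hK : 1 ≤ K) (hg1 : 0 ≤ g1)
    (h1 : K9Node P Y1 K g1) (h2 : K9Node P Y2 K g2) (hn : K9Nest Y1 Y2 par K) (c' : Y2.C) (n1 : K9V) (s S : ℝ)
    (hs : K9Svd (k9D Y1 (par c')) n1 s S) : |k9crs (k9N Y2 c') n1| ≤ 32 * K ^ 4 * g1 := by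
  obtain ⟨R, hR, hRb⟩ := hn.mat c'
  obtain ⟨s2, S2, hsv2⟩ := k9nrm_spec (k9D Y2 c')
  obtain ⟨hq1, -, hs1, hrow⟩ := k9_ft7_node Y1 K g1 hK h1 (par c') n1 s S hs
  obtain ⟨hq2, hS2, -, -⟩ := k9_ft7_node Y2 K g2 hK h2 c' _ s2 S2 hsv2
  have hK0 : 0 < K := by linarith
  have hsv2' : K9Svd (k9D Y1 (par c') * R) (k9N Y2 c') s2 S2 := by rw [← hR]; exact hsv2
  have hw0 : 0 ≤ 4 * K ^ 2 * Y1.q * g1 := by positivity
  have hw : k9row n1 (k9D Y1 (par c')) ≤ (4 * K ^ 2 * Y1.q * g1) ^ 2 := by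
    rw [hrow]
    exact pow_le_pow_left₀ hs.2.1 hs1 2
  have hM : 0 < Y2.q / (4 * K) := by positivity
  have hS : Y2.q / (4 * K) ≤ S2 := by
    rw [div_le_iff₀ (by positivity)]; linarith
  have := k9_nested_angle (k9D Y1 (par c')) R n1 (k9N Y2 c') s2 S2 _ _ _ hsv2' hw0 hw hRb hM hS
  refine this.trans (le_of_eq ?_)
  field_simp
  ring


/-- helper of FT6/FT7: the representative of a bin -/
theorem k9_ft7_rep (Y : KbSys P) (t0 gC : ℝ) (b : {b // b ∈ k9CLab Y t0 gC}) :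
    k9Rep Y t0 gC b ∈ k9At Y t0 ∧ (Y.wd (k9Rep Y t0 gC b), k9Bin Y gC (k9Rep Y t0 gC b)) = b.1 :=
  Classical.choose_spec (Finset.mem_image.1 b.2)

/-- LEAF S9-FT7 (~300 l.; black boxes `k9_nested_angle`, `k9_svd_ge`, `k9_node_strips`, `k9_node_center_vel`, `k9_unit_close`).  (9.9): comparison with the earlier node. -/
theorem k9_Csys_Q1 (hP : P.WF) (Y1 Y2 : KbSys P) (par : Y2.C → Y1.C) (K g1 g2 θ gC t0 : ℝ) (hK : 1 ≤ K) (hg2 : 0 < g2) (hθ : g2 ≤ θ) (hgC : θ ≤ gC) (hg1 : gC ≤ g1)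
    (hN : P.Ntv K) (h1 : K9Node P Y1 K g1) (h2 : K9Node P Y2 K g2) (hn : K9Nest Y1 Y2 par K) (b : (k9Csys Y2 t0 gC θ).C) (c1 : Y1.C)
    (hw : Y1.wd c1 = (k9Csys Y2 t0 gC θ).wd b) (hne : ((k9Csys Y2 t0 gC θ).S b ∩ Y1.S c1).Nonempty) (n1 : K9V) (s S : ℝ) (hs : K9Svd (k9D Y1 c1) n1 s S) :
    |k9crs (k9NC Y2 t0 gC θ b) n1| ≤ 200 * K ^ 4 * g1 ∧
      |k9dot (k9NC Y2 t0 gC θ b) ((Y1.ch c1).y1 - ((k9Csys Y2 t0 gC θ).ch b).y1)| ≤ 4000 * K ^ 6 * g1 := by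
  obtain ⟨x, hxb, hx1⟩ := hne
  obtain ⟨c, hc, hcb, c', hwc', hang, hxc, hxc'⟩ := k9_ft7_mem Y2 t0 gC θ b x hxb
  obtain ⟨-, hrep⟩ := k9_ft7_rep Y2 t0 gC b
  have hgCp : 0 < gC := by linarith
  have hg1p : 0 < g1 := by linarith
  have hw' : Y1.wd c1 = b.1.1 := hw
  have hwc : Y2.wd c = b.1.1 := by rw [← hcb]
  -- the parent of `c'` is `c1`
  have hxp := hn.sub c' hxc'
  have m1 := h1.wf.S_sub _ hxp
  have m2 := h1.wf.S_sub _ hx1
  have hpar : par c' = c1 := by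
    by_contra hne
    have hd := h1.wf.A_disj (par c') c1 hne (by rw [hn.wd, hwc', hwc, hw']) (k9_ft7_iv _ _ _ x.2 m1.2.2 m2.2.2)
    exact Set.disjoint_left.1 hd m1.2.1 m2.2.1
  subst hpar
  have hnest := k9_ft7_nest Y1 Y2 par K g1 g2 hK hg1p.le h1 h2 hn c' n1 s S hs
  -- bins
  have hbin : k9Bin Y2 gC (k9Rep Y2 t0 gC b) = k9Bin Y2 gC c := by
    have := hrep.trans hcb.symm
    exact (Prod.ext_iff.1 this).2
  simp only [k9Bin, Prod.mk.injEq] at hbin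
  obtain ⟨hb0, hb1, -, hb3⟩ := hbin
  have hbinN : ∀ i, |k9N Y2 (k9Rep Y2 t0 gC b) i - k9N Y2 c i| ≤ gC := by
    intro i
    fin_cases i
    · exact k9_ft7_bin _ _ gC hgCp hb0
    · exact k9_ft7_bin _ _ gC hgCp hb1
  have hbinB := k9_ft7_bin _ _ gC hgCp hb3
  -- the trajectory
  have m3 := h2.wf.S_sub _ hxc
  have hlA2 : x.1 ∈ Y2.A c := m3.2.1
  have hlA1 : x.1 ∈ Y1.A (par c') := m2.2.1
  have hlSp : x.1 ∈ P.Sp (Y2.wd c) := h2.wf.A_sub _ hlA2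
  have hV := (k9_ft7_vel K hN _ _ hlSp 0 ⟨le_rfl, zero_le_one⟩).2
  obtain ⟨s2, S2, hsv2⟩ := k9nrm_spec (k9D Y2 c)
  have hs2 := (k9_node_strips Y2 K g2 hK hg2.le h2 c _ s2 S2 hsv2 x.1 hlA2).1
  have hs1 := (k9_node_strips Y1 K g1 hK hg1p.le h1 (par c') n1 s S hs x.1 hlA1).1
  have hcv := k9_node_center_vel Y1 K g1 hK h1 (par c') x.1 hlA1
  have hww : Y1.wd (par c') = Y2.wd c := by rw [hw', hwc]
  rw [hww] at hs1 hcv
  exact k9_ft7_core (k9N Y2 (k9Rep Y2 t0 gC b)) (k9N Y2 c) (k9N Y2 c') n1 (kbV (P.co (Y2.wd c) x.1)) (Y2.ch c).y1 (Y1.ch (par c')).y1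
    (k9Be Y2 (k9Rep Y2 t0 gC b)) (k9Be Y2 c) K g1 g2 θ gC hK hg2 hθ hgC hg1 (k9_ft7_unit _ _) (k9_ft7_unit _ _) (k9_ft7_unit _ _) hs.1
    hang hnest hbinN hbinB rfl hV hs2 hs1 hcv

/-- **P9.2, one-scale core** (glue of FT4-FT7; the construction is `k9Csys`) -/
theorem k9_full_time (hP : P.WF) (Y1 Y2 : KbSys P) (par : Y2.C → Y1.C) (G : P.W → Set (P.Lam × ℝ)) (K aL g1 g2 n2 θ gC κ ε0 : ℝ) (hK : 1 ≤ K)
    (hg2 : 0 < g2) (hθ : g2 ≤ θ) (hgC : θ ≤ gC) (hg1 : gC ≤ g1) (hgC1 : gC ≤ 1) (hn2 : 0 < n2) (hκ : 0 ≤ κ) (hε0 : 0 ≤ ε0) (hN : P.Ntv K)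
    (h1 : K9Node P Y1 K g1) (h2 : K9Node P Y2 K g2) (hn : K9Nest Y1 Y2 par K) (hs : Y2.Sat K n2) (hk : Y2.Known (P.hid aL) K) (hb : Y2.Big K)
    (hG : ∀ γ, MeasurableSet (G γ)) (hε : P.mass (fun γ => Y2.sel γ \ G γ) ≤ ENNReal.ofReal ε0) (hcap : K9Cap P G aL (80 * K ^ 3 * g2 / θ) κ K)
    (hsmall : ε0 + 240 * K ^ 6 * κ / (n2 * Y2.q ^ 2) ≤ 1 / (2 * K ^ 2)) :
    ∃ t0 ∈ Set.Ico (0 : ℝ) 1,
      (k9Csys Y2 t0 gC θ).WF ∧ (k9Csys Y2 t0 gC θ).Geo (50 * K ^ 3) 1 ∧ (k9Csys Y2 t0 gC θ).Big (2 * K ^ 2) ∧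
      (k9Csys Y2 t0 gC θ).Known (P.hid aL) (2 * (200 * K ^ 3) ^ 4 * K) ∧
      ∀ (b : (k9Csys Y2 t0 gC θ).C) (c1 : Y1.C), Y1.wd c1 = (k9Csys Y2 t0 gC θ).wd b → ((k9Csys Y2 t0 gC θ).S b ∩ Y1.S c1).Nonempty →
        ∀ (n1 : K9V) (s S : ℝ), K9Svd (k9D Y1 c1) n1 s S →
          |k9crs (k9NC Y2 t0 gC θ b) n1| ≤ 200 * K ^ 4 * g1 ∧
            |k9dot (k9NC Y2 t0 gC θ b) ((Y1.ch c1).y1 - ((k9Csys Y2 t0 gC θ).ch b).y1)| ≤ 4000 * K ^ 6 * g1 := by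
  obtain ⟨t0, ht0, hbig⟩ := k9_pick_t0 hP Y2 G K aL g2 n2 θ κ ε0 gC hK hg2 hn2 (lt_of_lt_of_le hg2 hθ) hκ hε0 hN h2 hs hk hb hG hε hcap hsmall
  obtain ⟨hwf, hgeo⟩ := k9_Csys_geo hP Y2 K g2 θ gC t0 hK hg2 (hθ.trans hgC) hgC1 hN h2
  refine ⟨t0, ht0, hwf, hgeo, hbig, k9_Csys_known hP Y2 K aL g2 θ gC t0 hK hg2 hθ hgC hN h2 hk, ?_⟩
  intro b c1 hw hne n1 s S hsv
  exact k9_Csys_Q1 hP Y1 Y2 par K g1 g2 θ gC t0 hK hg2 hθ hgC hg1 hN h1 h2 hn b c1 hw hne n1 s S hsv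

end

end Claimed.Agent.R252

/-!
# ROW 252 (S0492), unit S9, file 4: **L9.5 PROJECTED CAPS AND SUPPORT, L9.3 TANGENTIAL FULLNESS: ONE-SCALE CORES** over `Base/Pb`, `Base/Sys`.      CONTRACT file (architect helper233)

09-unbounded-narrowness.tex l.405-425 (tangential fullness), l.709-880 (L9.5).   One scale, slack `K ≥ 1`.
Dictionary: `nC` unit normal of the full-time chart `C`, `eZ = rot nC` so that `eZ · y = k9crs nC y`; normal centre `alC + beC t`; `h = K q_A σ` size of a projected cell in original units; `a = N^{-s₁}`; `n1 = n_i(r₁)`.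
* §1 paper-free leaves: inverse matrix in a singular frame, volume of a moving rotated rectangle, volume of the preimage of a set of projected coordinates `(τ, ζ)`;
* §2 `k9U` normalised base coordinates of `Q₁`; (9.24) `k9_cell_du`; (9.22) `k9_compatible_count`; cellwise support bound `k9_cell_support`;
* §3 projected cap `k9_proj_cap`;   §4 thin charts carry small mass `k9_thin_mass`.
-/

set_option autoImplicit false

namespace Claimed.Agent.R252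

open MeasureTheory
open scoped ENNReal BigOperators
open Classical

noncomputable section

/-! ## §1 paper-free -/

theorem k9_inv_aux (a b c d x0 x1 s S : ℝ) (hs : 0 < s) (hS : 0 < S) (ha : a ^ 2 + b ^ 2 = s ^ 2)
    (hc : c ^ 2 + d ^ 2 = S ^ 2) (hac : a * c + b * d = 0) :
    |x0| ≤ |a * x0 + b * x1| / s + |c * x0 + d * x1| / S := by
  have key : x0 * (s ^ 2 * S ^ 2) = (a * x0 + b * x1) * a * S ^ 2 + (c * x0 + d * x1) * c * s ^ 2 := by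
    rw [← ha, ← hc]
    linear_combination (-(x0 * (a * c - b * d)) - x1 * (a * d + b * c)) * hac
  have has : |a| ≤ s := abs_le_of_sq_le_sq (by nlinarith [sq_nonneg b]) hs.le
  have hcS : |c| ≤ S := abs_le_of_sq_le_sq (by nlinarith [sq_nonneg d]) hS.le
  have e : x0 = (a * x0 + b * x1) * a / s ^ 2 + (c * x0 + d * x1) * c / S ^ 2 := by
    field_simp
    linarith
  have h1 : |(a * x0 + b * x1) * a / s ^ 2| ≤ |a * x0 + b * x1| / s := by
    rw [abs_div, abs_mul, abs_of_pos (by positivity : 0 < s ^ 2), div_le_div_iff₀ (by positivity) hs]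
    nlinarith [abs_nonneg (a * x0 + b * x1), mul_le_mul_of_nonneg_left has (abs_nonneg (a * x0 + b * x1))]
  have h2 : |(c * x0 + d * x1) * c / S ^ 2| ≤ |c * x0 + d * x1| / S := by
    rw [abs_div, abs_mul, abs_of_pos (by positivity : 0 < S ^ 2), div_le_div_iff₀ (by positivity) hS]
    nlinarith [abs_nonneg (c * x0 + d * x1), mul_le_mul_of_nonneg_left hcS (abs_nonneg (c * x0 + d * x1))]
  calc |x0| = |(a * x0 + b * x1) * a / s ^ 2 + (c * x0 + d * x1) * c / S ^ 2| := by rw [← e]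
    _ ≤ _ := (abs_add_le _ _).trans (add_le_add h1 h2)

/-- LEAF S9-INV (~150 l.).  `x = Di v`, `v = D x`.  Polarise the form identity of `K9Svd` : the rows `nᵀD`, `(rot n)ᵀD` are orthogonal of lengths `s`, `S`; so `n·v = (nᵀD)·x`, `crs n v = ((rot n)ᵀD)·x` and
`|x|² = (n·v)²/s² + (crs n v)²/S²`. -/
theorem k9_inv_bound (D Di : K9M) (hinv : D * Di = 1) (n : K9V) (s S : ℝ) (h : K9Svd D n s S) (hs : 0 < s) (v : K9V) :
    ∀ i, |Di.mulVec v i| ≤ |k9dot n v| / s + |k9crs n v| / S := by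
  obtain ⟨hn, -, hsS, -, hq⟩ := h
  have hS : 0 < S := hs.trans_le hsS
  have hn' : n 0 ^ 2 + n 1 ^ 2 = 1 := hn
  have hv : D.mulVec (Di.mulVec v) = v := by rw [Matrix.mulVec_mulVec, hinv, Matrix.one_mulVec]
  set x := Di.mulVec v with hx
  have v0 : v 0 = D 0 0 * x 0 + D 0 1 * x 1 := by
    have := congrFun hv 0
    simpa [Matrix.mulVec, dotProduct, Fin.sum_univ_two] using this.symm
  have v1 : v 1 = D 1 0 * x 0 + D 1 1 * x 1 := by
    have := congrFun hv 1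
    simpa [Matrix.mulVec, dotProduct, Fin.sum_univ_two] using this.symm
  have h1 := hq n
  have h2 := hq ![-n 1, n 0]
  have h3 := hq ![n 0 - n 1, n 1 + n 0]
  simp only [k9row, k9dot, k9crs, Matrix.cons_val_zero, Matrix.cons_val_one] at h1 h2 h3
  set a := n 0 * D 0 0 + n 1 * D 1 0 with ha
  set b := n 0 * D 0 1 + n 1 * D 1 1 with hb
  set c := -n 1 * D 0 0 + n 0 * D 1 0 with hc
  set d := -n 1 * D 0 1 + n 0 * D 1 1 with hd
  have e1 : a ^ 2 + b ^ 2 = s ^ 2 := by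
    rw [h1]
    have : n 0 * n 0 + n 1 * n 1 = 1 := by rw [← hn']; ring
    rw [this]
    ring
  have e2 : c ^ 2 + d ^ 2 = S ^ 2 := by
    rw [h2]
    have : n 0 * n 0 - n 1 * -n 1 = 1 := by rw [← hn']; ring
    rw [this]
    ring
  have e3 : a * c + b * d = 0 := by
    have t1 : (n 0 - n 1) * n 0 + (n 1 + n 0) * n 1 = 1 := by rw [← hn']; ring
    have t2 : n 0 * (n 1 + n 0) - n 1 * (n 0 - n 1) = 1 := by rw [← hn']; ring
    rw [t1, t2] at h3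
    have t3 : (n 0 - n 1) * D 0 0 + (n 1 + n 0) * D 1 0 = a + c := by rw [ha, hc]; ring
    have t4 : (n 0 - n 1) * D 0 1 + (n 1 + n 0) * D 1 1 = b + d := by rw [hb, hd]; ring
    rw [t3, t4] at h3
    nlinarith
  have d1 : k9dot n v = a * x 0 + b * x 1 := by
    simp only [k9dot, v0, v1, ha, hb]; ring
  have d2 : k9crs n v = c * x 0 + d * x 1 := by
    simp only [k9crs, v0, v1, hc, hd]; ring
  intro i
  rw [d1, d2]
  fin_cases i
  · exact k9_inv_aux a b c d (x 0) (x 1) s S hs hS e1 e2 e3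
  · have := k9_inv_aux b a d c (x 1) (x 0) s S hs hS (by linarith) (by linarith) (by linarith)
    simpa [add_comm] using this

theorem k9_rect_sec (n : K9V) (hn : K9Unit n) (Zs g a b : ℝ) (ha : 0 ≤ a) (hb : 0 ≤ b) :
    volume {y : K9V | |k9crs n y - Zs| ≤ a ∧ |k9dot n y - g| ≤ b} ≤ ENNReal.ofReal (6 * b * (a + b)) := by
  have hn' : n 0 ^ 2 + n 1 ^ 2 = 1 := hn
  set ys : K9V := ![-(Zs * n 1) + g * n 0, Zs * n 0 + g * n 1] with hys
  have h := k9_strip_area n hn 0 b (a + b) hb (by positivity)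
  rw [← measure_preimage_add_right volume (-ys)] at h
  refine (measure_mono ?_).trans h
  intro y hy
  obtain ⟨h1, h2⟩ := hy
  have n0 : |n 0| ≤ 1 := abs_le_of_sq_le_sq (by nlinarith [sq_nonneg (n 1)]) zero_le_one
  have n1 : |n 1| ≤ 1 := abs_le_of_sq_le_sq (by nlinarith [sq_nonneg (n 0)]) zero_le_one
  set p := k9crs n y - Zs with hp
  set r := k9dot n y - g with hr
  have e0 : (y + -ys) 0 = r * n 0 - p * n 1 := by
    simp only [Pi.add_apply, Pi.neg_apply, hys, Matrix.cons_val_zero, hp, hr, k9crs, k9dot]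
    linear_combination (-(y 0)) * hn'
  have e1 : (y + -ys) 1 = r * n 1 + p * n 0 := by
    simp only [Pi.add_apply, Pi.neg_apply, hys, Matrix.cons_val_one, Matrix.cons_val_fin_one, hp, hr, k9crs, k9dot]
    linear_combination (-(y 1)) * hn'
  have ed : k9dot n (y + -ys) - 0 = r := by
    simp only [k9dot, e0, e1]
    linear_combination r * hn'
  refine ⟨by rw [ed]; exact h2, fun i => ?_⟩
  have b1 : ∀ u : ℝ, |u| ≤ 1 → |r * u| ≤ b := fun u hu => by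
    rw [abs_mul]
    calc |r| * |u| ≤ b * 1 := mul_le_mul h2 hu (abs_nonneg _) hb
      _ = b := mul_one b
  have b2 : ∀ u : ℝ, |u| ≤ 1 → |p * u| ≤ a := fun u hu => by
    rw [abs_mul]
    calc |p| * |u| ≤ a * 1 := mul_le_mul h1 hu (abs_nonneg _) ha
      _ = a := mul_one a
  fin_cases i
  · show |(y + -ys) 0| ≤ a + b
    rw [e0]
    have := abs_sub (r * n 0) (p * n 1)
    linarith [b1 _ n0, b2 _ n1]
  · show |(y + -ys) 1| ≤ a + b
    rw [e1]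
    have := abs_add_le (r * n 1) (p * n 0)
    linarith [b1 _ n1, b2 _ n0]

/-- LEAF S9-RECT (~150 l.; black box `k9_strip_area`).  A moving rotated rectangle.  For fixed `t` translate by `y* = Zs (rot n) + (al + be t) n` : the rectangle lies in `{|n·y'| ≤ b} ∩ {|y'_i| ≤ a + b}`; Tonelli in `t`. -/
theorem k9_rect_vol (n : K9V) (hn : K9Unit n) (Zs al be ts T a b : ℝ) (hT : 0 ≤ T) (ha : 0 ≤ a) (hb : 0 ≤ b) :
    volume {o : ℝ × K9V | |o.1 - ts| ≤ T ∧ |k9crs n o.2 - Zs| ≤ a ∧ |k9dot n o.2 - (al + be * o.1)| ≤ b} ≤ ENNReal.ofReal (12 * T * b * (a + b)) := by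
  set A := {o : ℝ × K9V | |o.1 - ts| ≤ T ∧ |k9crs n o.2 - Zs| ≤ a ∧ |k9dot n o.2 - (al + be * o.1)| ≤ b} with hA
  have mA : MeasurableSet A := by
    have m1 : Measurable fun o : ℝ × K9V => |o.1 - ts| := by fun_prop
    have m2 : Measurable fun o : ℝ × K9V => |k9crs n o.2 - Zs| := by unfold k9crs; fun_prop
    have m3 : Measurable fun o : ℝ × K9V => |k9dot n o.2 - (al + be * o.1)| := by
      unfold k9dot; fun_prop
    exact (measurableSet_le m1 measurable_const).inter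
      ((measurableSet_le m2 measurable_const).inter (measurableSet_le m3 measurable_const))
  rw [Measure.volume_eq_prod, Measure.prod_apply mA]
  have sec : ∀ t, volume (Prod.mk t ⁻¹' A)
      ≤ (Set.Icc (ts - T) (ts + T)).indicator (fun _ => ENNReal.ofReal (6 * b * (a + b))) t := by
    intro t
    by_cases ht : t ∈ Set.Icc (ts - T) (ts + T)
    · rw [Set.indicator_of_mem ht]
      refine (measure_mono ?_).trans (k9_rect_sec n hn Zs (al + be * t) a b ha hb)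
      intro y hy
      exact hy.2
    · rw [Set.indicator_of_notMem ht]
      have : Prod.mk t ⁻¹' A = ∅ := by
        ext y
        simp only [Set.mem_preimage, Set.mem_empty_iff_false, iff_false]
        intro hy
        apply ht
        have := abs_le.1 hy.1
        exact ⟨by linarith [this.1], by linarith [this.2]⟩
      rw [this, measure_empty]
  calc ∫⁻ t, volume (Prod.mk t ⁻¹' A)
      ≤ ∫⁻ t, (Set.Icc (ts - T) (ts + T)).indicator (fun _ => ENNReal.ofReal (6 * b * (a + b))) t :=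
        lintegral_mono sec
    _ = ENNReal.ofReal (6 * b * (a + b)) * volume (Set.Icc (ts - T) (ts + T)) := by
        rw [lintegral_indicator measurableSet_Icc, setLIntegral_const]
    _ = ENNReal.ofReal (12 * T * b * (a + b)) := by
        rw [Real.volume_Icc, ← ENNReal.ofReal_mul (by positivity)]
        congr 1
        ring

/-- LEAF S9-PVOL (~200 l.; black box `k9_slab`).  (l.741-757) base volume of the incidences of a chart `A` whose projected coordinates `(τ, ζ) = ((t - tA)/q, (e·y - Zs)/q)` lie in `T`.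
Tonelli in `t`, `k9_slab` for the section `T_τ` and the centre `c0 + t c1`, change of variable `t = tA + q τ`. -/
theorem k9_proj_vol (D Di : K9M) (hinv : D * Di = 1) (e c0 c1 : K9V) (Zs tA q K K' : ℝ) (hq : 0 < q) (hK : 0 < K) (hK' : 0 ≤ K')
    (hfull : (q / K) ^ 2 ≤ k9row e D) (T : Set (ℝ × ℝ)) (hT : MeasurableSet T) :
    volume {o : ℝ × K9V | (∀ i, |Di.mulVec (o.2 - (c0 + o.1 • c1)) i| ≤ K') ∧ ((o.1 - tA) / q, (k9dot e o.2 - Zs) / q) ∈ T}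
      ≤ ENNReal.ofReal (3 * K * K' * |D.det| * q) * volume T := by
  set A := {o : ℝ × K9V | (∀ i, |Di.mulVec (o.2 - (c0 + o.1 • c1)) i| ≤ K') ∧ ((o.1 - tA) / q, (k9dot e o.2 - Zs) / q) ∈ T} with hA
  have mA : MeasurableSet A := by
    have m1 : MeasurableSet {o : ℝ × K9V | ∀ i, |Di.mulVec (o.2 - (c0 + o.1 • c1)) i| ≤ K'} := by
      rw [Set.ofPred_forall]
      refine MeasurableSet.iInter fun i => measurableSet_le ?_ measurable_const
      simp only [Matrix.mulVec, dotProduct, Fin.sum_univ_two, Pi.sub_apply, Pi.add_apply, Pi.smul_apply, smul_eq_mul]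
      fun_prop
    have m2 : Measurable fun o : ℝ × K9V => ((o.1 - tA) / q, (k9dot e o.2 - Zs) / q) := by
      unfold k9dot; fun_prop
    exact m1.inter (m2 hT)
  rw [Measure.volume_eq_prod, Measure.prod_apply mA]
  set g : ℝ → ℝ≥0∞ := fun τ => volume (Prod.mk τ ⁻¹' T) with hg
  have mg : Measurable g := measurable_measure_prodMk_left hT
  have sec : ∀ t, volume (Prod.mk t ⁻¹' A) ≤ ENNReal.ofReal (3 * K * K' * |D.det|) * g ((t - tA) / q) := by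
    intro t
    exact k9_slab D Di hinv e (c0 + t • c1) Zs q K K' hq hK hK' hfull (Prod.mk ((t - tA) / q) ⁻¹' T)
      (measurable_prodMk_left hT)
  have cv : ∫⁻ t, g ((t - tA) / q) = ENNReal.ofReal q * ∫⁻ τ, g τ := by
    have m1 : Measure.map (fun t : ℝ => (t - tA) / q) volume = ENNReal.ofReal q • volume := by
      have e1 : (fun t : ℝ => (t - tA) / q) = (fun u => q⁻¹ * u) ∘ fun t => t - tA := by
        funext t
        simp [div_eq_inv_mul]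
      rw [e1, ← Measure.map_map (by fun_prop) (by fun_prop), map_sub_right_eq_self,
        Real.map_volume_mul_left (inv_ne_zero hq.ne'), inv_inv, abs_of_pos hq]
    rw [← lintegral_map mg (by fun_prop), m1, lintegral_smul_measure, smul_eq_mul]
  calc ∫⁻ t, volume (Prod.mk t ⁻¹' A)
      ≤ ∫⁻ t, ENNReal.ofReal (3 * K * K' * |D.det|) * g ((t - tA) / q) := lintegral_mono sec
    _ = ENNReal.ofReal (3 * K * K' * |D.det|) * (ENNReal.ofReal q * ∫⁻ τ, g τ) := by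
        have mg' : Measurable fun t : ℝ => g ((t - tA) / q) := mg.comp (by fun_prop)
        rw [lintegral_const_mul _ mg', cv]
    _ = ENNReal.ofReal (3 * K * K' * |D.det| * q) * volume T := by
        rw [← mul_assoc, ← ENNReal.ofReal_mul (by positivity), Measure.volume_eq_prod,
          Measure.prod_apply hT]

/-! ## §2 support -/

variable {P : K9P}

/-- normalised spatial coordinates `D⁻¹ (y - y_c(t))` of an incidence in the chart `c` -/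
def k9Z (Y : KbSys P) (c : Y.C) (x : P.Lam × ℝ) : K9V := (Y.ch c).Di.mulVec (kbY (P.co (Y.wd c) x.1) x.2 - (Y.ch c).yc x.2)

/-- normalised base coordinates `û = ((t - t₁)/q₁, D₁⁻¹ (y - y₁(t)))` of an incidence in the chart `c` -/
def k9U (Y : KbSys P) (c : Y.C) (x : P.Lam × ℝ) : Fin 3 → ℝ :=
  ![(x.2 - Y.tc c) / Y.q, k9Z Y c x 0, k9Z Y c x 1]

/-- the occurrences of one projected cell inside one full-time chart `C` -/
structure K9Cell (P : K9P) (γ : P.W) (nC : K9V) (alC beC gC ts Zs h K : ℝ) (x : P.Lam × ℝ) : Prop where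
  time : |x.2 - ts| ≤ h
  tang : |k9crs nC (k9Y P γ x) - Zs| ≤ h
  norm : |k9dot nC (k9Y P γ x) - (alC + beC * x.2)| ≤ K * gC

/-- the comparison (9.9) of a chart of `Y1` with `C` -/
def K9Cmp (Y1 : KbSys P) (nC : K9V) (beC g1 K : ℝ) (c : Y1.C) : Prop :=
  |k9crs nC (k9N Y1 c)| ≤ K * g1 ∧ |k9dot nC (Y1.ch c).y1 - beC| ≤ K * g1

theorem k9du_unit_rot (n : K9V) (hn : K9Unit n) : K9Unit ![-n 1, n 0] := by
  unfold K9Unit at hn ⊢
  simp only [Matrix.cons_val_zero, Matrix.cons_val_one]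
  nlinarith

theorem k9du_dot_rot (n y : K9V) : k9dot ![-n 1, n 0] y = k9crs n y := by
  simp only [k9dot, k9crs, Matrix.cons_val_zero, Matrix.cons_val_one]
  ring

theorem k9du_frame (nC n1 : K9V) (hnC : K9Unit nC) :
    ∀ i, n1 i = k9dot nC n1 * nC i + k9crs nC n1 * (![-nC 1, nC 0] : K9V) i := by
  unfold K9Unit at hnC
  intro i
  fin_cases i
  · simp only [k9dot, k9crs, Fin.zero_eta, Matrix.cons_val_zero]
    linear_combination (-(n1 0)) * hnC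
  · simp only [k9dot, k9crs, Fin.mk_one, Matrix.cons_val_one, Matrix.cons_val_fin_one]
    linear_combination (-(n1 1)) * hnC

theorem k9du_Z_sub (Di : K9M) (a a' w : K9V) (h : ∀ k, a k - a' k = w k) (i : Fin 2) :
    Di.mulVec a i - Di.mulVec a' i = Di.mulVec w i := by
  simp only [Matrix.mulVec, dotProduct, Fin.sum_univ_two, ← h]
  ring

/-- the purely geometric core of (9.23)-(9.24) -/
theorem k9du_core (D Di : K9M) (hinv : D * Di = 1) (n1 nC dy y1 : K9V) (s S q K g1 gC h beC dt : ℝ) (hsvd : K9Svd D n1 s S)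
    (hK : 1 ≤ K) (hq : 0 < q) (hg1 : 0 < g1) (hg1' : g1 ≤ 1) (hgC : 0 ≤ gC) (hh : 0 ≤ h) (hnC : K9Unit nC) (hbeC : |beC| ≤ K)
    (hsge : q * g1 ≤ K ^ 2 * s) (hSge : q ≤ 4 * K * S) (hc1 : |k9crs nC n1| ≤ K * g1) (hc2 : |k9dot nC y1 - beC| ≤ K * g1)
    (hy1 : ∀ i, |y1 i| ≤ 5 * K ^ 2) (hdt : |dt| ≤ 2 * h) (hdZ : |k9crs nC dy| ≤ 2 * h) (hdN : |k9dot nC dy - beC * dt| ≤ 2 * (K * gC)) :
    ∀ i, |Di.mulVec (dy - dt • y1) i| ≤ 650 * K ^ 6 * (h / q + gC / (q * g1)) := by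
  have hK0 : 0 < K := by linarith
  have hn1u : K9Unit n1 := hsvd.1
  have hK2 : K ≤ K ^ 2 := by nlinarith
  have h1K2 : 1 ≤ K ^ 2 := by nlinarith
  have hs0 : 0 < s := by
    have : 0 < q * g1 := mul_pos hq hg1
    have h2 : 0 < K ^ 2 * s := lt_of_lt_of_le this hsge
    exact (pos_iff_pos_of_mul_pos h2).1 (by positivity)
  have hS0 : 0 < S := lt_of_lt_of_le hs0 hsvd.2.2.1
  have hdotC : k9dot nC (beC • nC) = beC := by
    have : nC 0 ^ 2 + nC 1 ^ 2 = 1 := hnC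
    simp only [k9dot, Pi.smul_apply, smul_eq_mul]
    linear_combination beC * this
  have hprec := k9_coord_precision nC ![-nC 1, nC 0] n1 ![-n1 1, n1 0] dy y1 (beC • nC) dt (k9dot nC n1) (k9crs nC n1)
    (5 * K ^ 2) g1 gC (2 * h) (by linarith) hg1.le hgC (by linarith) hnC (k9du_unit_rot nC hnC)
    (by rw [k9dot]; simp only [Matrix.cons_val_zero, Matrix.cons_val_one]; ring) (k9du_unit_rot n1 hn1u)
    (k9du_frame nC n1 hnC) (k9_aux_dot_le_one nC n1 hnC hn1u)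
    (hc1.trans (mul_le_mul_of_nonneg_right (by linarith) hg1.le)) hdt (by rw [k9du_dot_rot]; exact hdZ)
    (by
      rw [hdotC]
      refine hdN.trans ?_
      have : K * gC ≤ K ^ 2 * gC := mul_le_mul_of_nonneg_right hK2 hgC
      have h0 : 0 ≤ K ^ 2 * gC := by positivity
      linarith)
    (by
      have e : k9dot nC (y1 - beC • nC) = k9dot nC y1 - beC := by
        have : nC 0 ^ 2 + nC 1 ^ 2 = 1 := hnC
        simp only [k9dot, Pi.sub_apply, Pi.smul_apply, smul_eq_mul]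
        linear_combination (-beC) * this
      rw [e]
      exact hc2.trans (mul_le_mul_of_nonneg_right (by linarith) hg1.le))
    hy1
    (fun i => by
      rw [Pi.smul_apply, smul_eq_mul, abs_mul]
      have := k9_unit_abs_le nC hnC i
      calc |beC| * |nC i| ≤ K * 1 := mul_le_mul hbeC this (abs_nonneg _) hK0.le
        _ ≤ 5 * K ^ 2 := by linarith)
  obtain ⟨p1, p2⟩ := hprec
  rw [k9du_dot_rot] at p2
  intro i
  have hinvb := k9_inv_bound D Di hinv n1 s S hsvd hs0 (dy - dt • y1) i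
  have hqg : 0 < q * g1 := mul_pos hq hg1
  -- the two quotients
  have a1 : |k9dot n1 (dy - dt • y1)| / s ≤ 125 * K ^ 6 * (2 * (h / q) + gC / (q * g1)) := by
    rw [div_le_iff₀ hs0]
    have e1 : 125 * K ^ 6 * (2 * (h / q) + gC / (q * g1)) * s = 125 * K ^ 4 * ((2 * (g1 * h) + gC) / (q * g1)) * (K ^ 2 * s) := by
      field_simp
    rw [e1]
    have h0 : 0 ≤ 125 * K ^ 4 * ((2 * (g1 * h) + gC) / (q * g1)) := by positivity
    calc |k9dot n1 (dy - dt • y1)| ≤ 5 * (5 * K ^ 2) ^ 2 * (g1 * (2 * h) + gC) := p1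
      _ = 125 * K ^ 4 * ((2 * (g1 * h) + gC) / (q * g1)) * (q * g1) := by field_simp; ring
      _ ≤ 125 * K ^ 4 * ((2 * (g1 * h) + gC) / (q * g1)) * (K ^ 2 * s) := mul_le_mul_of_nonneg_left hsge h0
  have a2 : |k9crs n1 (dy - dt • y1)| / S ≤ 200 * K ^ 3 * (2 * (h / q) + gC / q) := by
    rw [div_le_iff₀ hS0]
    have e1 : 200 * K ^ 3 * (2 * (h / q) + gC / q) * S = 50 * K ^ 2 * ((2 * h + gC) / q) * (4 * K * S) := by
      field_simp
      ring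
    rw [e1]
    have h0 : 0 ≤ 50 * K ^ 2 * ((2 * h + gC) / q) := by positivity
    calc |k9crs n1 (dy - dt • y1)| ≤ 10 * (5 * K ^ 2) * (2 * h + gC) := p2
      _ = 50 * K ^ 2 * ((2 * h + gC) / q) * q := by field_simp; ring
      _ ≤ 50 * K ^ 2 * ((2 * h + gC) / q) * (4 * K * S) := mul_le_mul_of_nonneg_left hSge h0
  have a3 : gC / q ≤ gC / (q * g1) := by
    refine div_le_div_of_nonneg_left hgC hqg ?_
    calc q * g1 ≤ q * 1 := mul_le_mul_of_nonneg_left hg1' hq.le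
      _ = q := mul_one q
  have hA : 0 ≤ h / q := by positivity
  have hB : 0 ≤ gC / (q * g1) := by positivity
  have hB' : 0 ≤ gC / q := by positivity
  have hK36 : K ^ 3 ≤ K ^ 6 := pow_le_pow_right₀ hK (by norm_num)
  have hK6 : 0 < K ^ 6 := by positivity
  have a4 : 200 * K ^ 3 * (2 * (h / q) + gC / q) ≤ 200 * K ^ 6 * (2 * (h / q) + gC / (q * g1)) := by
    have h1 : 2 * (h / q) + gC / q ≤ 2 * (h / q) + gC / (q * g1) := by linarith
    exact mul_le_mul (by linarith) h1 (by positivity) (by positivity)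
  calc |Di.mulVec (dy - dt • y1) i| ≤ |k9dot n1 (dy - dt • y1)| / s + |k9crs n1 (dy - dt • y1)| / S := hinvb
    _ ≤ 125 * K ^ 6 * (2 * (h / q) + gC / (q * g1)) + 200 * K ^ 6 * (2 * (h / q) + gC / (q * g1)) := add_le_add a1 (a2.trans a4)
    _ ≤ 650 * K ^ 6 * (h / q + gC / (q * g1)) := by nlinarith [mul_nonneg hK6.le hA, mul_nonneg hK6.le hB]

/-- LEAF S9-DU (~300 l.; black boxes `k9_coord_precision`, `k9_inv_bound`, `k9_svd_ge`, `k9_node_center_vel`).  (9.23)-(9.24).  `s ≥ q₁ g₁/K²` (`s S = J ≥ q₁² g₁/K`, `S ≤ K q₁`), `S ≥ q₁/(4K)`. -/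
theorem k9_cell_du (hP : P.WF) (Y1 : KbSys P) (K g1 gC h alC beC ts Zs : ℝ) (nC : K9V) (hK : 1 ≤ K) (hg1 : 0 < g1) (hg1' : g1 ≤ 1) (hgC : 0 ≤ gC) (hh : 0 ≤ h)
    (hnC : K9Unit nC) (hbeC : |beC| ≤ K) (hN : P.Ntv K) (h1 : K9Node P Y1 K g1) (c : Y1.C) (hc : K9Cmp Y1 nC beC g1 K c) (x x' : P.Lam × ℝ) (hx : x ∈ Y1.S c) (hx' : x' ∈ Y1.S c)
    (hcx : K9Cell P (Y1.wd c) nC alC beC gC ts Zs h K x) (hcx' : K9Cell P (Y1.wd c) nC alC beC gC ts Zs h K x') :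
    ∀ i, |k9U Y1 c x i - k9U Y1 c x' i| ≤ 4000 * K ^ 8 * (h / Y1.q + gC / (Y1.q * g1)) := by
  obtain ⟨s, S, hsvd⟩ := k9nrm_spec (k9D Y1 c)
  have hq0 := k9_aux_q_pos Y1
  have hK0 : 0 < K := by linarith
  have hs0 : 0 ≤ s := hsvd.2.1
  have hSle : S ≤ Y1.q * K := (k9_svd_le _ _ _ _ hsvd).trans (h1.size c)
  have hSge : Y1.q ≤ 4 * K * S := by
    have a1 : Y1.q ≤ K * ∑ i, ∑ k, |k9D Y1 c i k| := h1.axis c
    have a2 := k9_svd_ge _ _ _ _ hsvd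
    have a3 : K * ∑ i, ∑ k, |k9D Y1 c i k| ≤ K * (4 * S) := mul_le_mul_of_nonneg_left a2 hK0.le
    linarith
  have hJ : Y1.q ^ 2 * g1 ≤ K * (s * S) := by
    rw [hsvd.2.2.2.1]
    exact h1.det_ge c
  have hsge : Y1.q * g1 ≤ K ^ 2 * s := by
    have a1 : K * (s * S) ≤ K * (s * (Y1.q * K)) :=
      mul_le_mul_of_nonneg_left (mul_le_mul_of_nonneg_left hSle hs0) hK0.le
    have a2 : Y1.q * g1 * Y1.q ≤ K ^ 2 * s * Y1.q := by nlinarith
    exact le_of_mul_le_mul_right a2 hq0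
  -- the centre velocity
  have hl : x.1 ∈ Y1.A c := (h1.wf.S_sub c hx).2.1
  have hy1 : ∀ i, |(Y1.ch c).y1 i| ≤ 5 * K ^ 2 := by
    intro i
    have a1 := k9_node_center_vel Y1 K g1 hK h1 c x.1 hl i
    have a2 := hN.base (Y1.wd c) x.1 (h1.wf.A_sub c hl) 0 ⟨le_refl _, zero_le_one⟩
    have a3 : |kbV (P.co (Y1.wd c) x.1) i| ≤ K := by
      have b1 : ‖kbV (P.co (Y1.wd c) x.1) i‖ ≤ ‖kbV (P.co (Y1.wd c) x.1)‖ := norm_le_pi_norm _ i
      have b2 : 0 ≤ ‖kbY (P.co (Y1.wd c) x.1) 0‖ := norm_nonneg _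
      rw [Real.norm_eq_abs] at b1
      linarith
    rw [Pi.sub_apply] at a1
    have a4 : |(Y1.ch c).y1 i| ≤ |kbV (P.co (Y1.wd c) x.1) i| + |kbV (P.co (Y1.wd c) x.1) i - (Y1.ch c).y1 i| := by
      have := abs_sub_abs_le_abs_sub ((Y1.ch c).y1 i) (kbV (P.co (Y1.wd c) x.1) i)
      rw [abs_sub_comm] at this
      linarith
    have hK2 : K ≤ K ^ 2 := by nlinarith
    linarith
  -- the differences
  have hdt : |x.2 - x'.2| ≤ 2 * h := by
    have := abs_sub_le x.2 ts x'.2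
    have b := hcx'.time
    rw [abs_sub_comm] at b
    linarith [hcx.time]
  have hdZ : |k9crs nC (k9Y P (Y1.wd c) x - k9Y P (Y1.wd c) x')| ≤ 2 * h := by
    have e : k9crs nC (k9Y P (Y1.wd c) x - k9Y P (Y1.wd c) x') = k9crs nC (k9Y P (Y1.wd c) x) - k9crs nC (k9Y P (Y1.wd c) x') := by
      simp only [k9crs, Pi.sub_apply]
      ring
    rw [e]
    have := abs_sub_le (k9crs nC (k9Y P (Y1.wd c) x)) Zs (k9crs nC (k9Y P (Y1.wd c) x'))
    have b := hcx'.tang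
    rw [abs_sub_comm] at b
    linarith [hcx.tang]
  have hdN : |k9dot nC (k9Y P (Y1.wd c) x - k9Y P (Y1.wd c) x') - beC * (x.2 - x'.2)| ≤ 2 * (K * gC) := by
    have e : k9dot nC (k9Y P (Y1.wd c) x - k9Y P (Y1.wd c) x') - beC * (x.2 - x'.2)
        = (k9dot nC (k9Y P (Y1.wd c) x) - (alC + beC * x.2)) - (k9dot nC (k9Y P (Y1.wd c) x') - (alC + beC * x'.2)) := by
      simp only [k9dot, Pi.sub_apply]
      ring
    rw [e]
    have := abs_sub (k9dot nC (k9Y P (Y1.wd c) x) - (alC + beC * x.2)) (k9dot nC (k9Y P (Y1.wd c) x') - (alC + beC * x'.2))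
    linarith [hcx.norm, hcx'.norm]
  have hcore := k9du_core (k9D Y1 c) (Y1.ch c).Di (h1.wf.inv c) (k9N Y1 c) nC (k9Y P (Y1.wd c) x - k9Y P (Y1.wd c) x') (Y1.ch c).y1
    s S Y1.q K g1 gC h beC (x.2 - x'.2) hsvd hK hq0 hg1 hg1' hgC hh hnC hbeC hsge hSge hc.1 hc.2 hy1 hdt hdZ hdN
  obtain ⟨y1, hy1def⟩ : ∃ y1 : K9V, y1 = (Y1.ch c).y1 := ⟨_, rfl⟩
  rw [← hy1def] at hcore
  have hZ : ∀ i, k9Z Y1 c x i - k9Z Y1 c x' i
      = (Y1.ch c).Di.mulVec (k9Y P (Y1.wd c) x - k9Y P (Y1.wd c) x' - (x.2 - x'.2) • y1) i := by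
    intro i
    refine k9du_Z_sub (Y1.ch c).Di _ _ _ (fun k => ?_) i
    rw [hy1def]
    show ((P.co (Y1.wd c) x.1).1 k + x.2 * (P.co (Y1.wd c) x.1).2.1 k - ((Y1.ch c).y0 k + x.2 * (Y1.ch c).y1 k))
        - ((P.co (Y1.wd c) x'.1).1 k + x'.2 * (P.co (Y1.wd c) x'.1).2.1 k - ((Y1.ch c).y0 k + x'.2 * (Y1.ch c).y1 k))
      = ((P.co (Y1.wd c) x.1).1 k + x.2 * (P.co (Y1.wd c) x.1).2.1 k)
        - ((P.co (Y1.wd c) x'.1).1 k + x'.2 * (P.co (Y1.wd c) x'.1).2.1 k) - (x.2 - x'.2) * (Y1.ch c).y1 k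
    ring
  have hA : 0 ≤ h / Y1.q := by positivity
  have hB : 0 ≤ gC / (Y1.q * g1) := by positivity
  have hK68 : K ^ 6 ≤ K ^ 8 := pow_le_pow_right₀ hK (by norm_num)
  have hK8 : 1 ≤ K ^ 8 := one_le_pow₀ hK
  have hfin : 650 * K ^ 6 * (h / Y1.q + gC / (Y1.q * g1)) ≤ 4000 * K ^ 8 * (h / Y1.q + gC / (Y1.q * g1)) :=
    mul_le_mul_of_nonneg_right (by linarith) (by positivity)
  intro i
  fin_cases i
  · show |(x.2 - Y1.tc c) / Y1.q - (x'.2 - Y1.tc c) / Y1.q| ≤ _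
    have e : (x.2 - Y1.tc c) / Y1.q - (x'.2 - Y1.tc c) / Y1.q = (x.2 - x'.2) / Y1.q := by ring
    rw [e, abs_div, abs_of_pos hq0]
    calc |x.2 - x'.2| / Y1.q ≤ 2 * h / Y1.q := div_le_div_of_nonneg_right hdt hq0.le
      _ = 2 * (h / Y1.q) := by ring
      _ ≤ 4000 * K ^ 8 * (h / Y1.q + gC / (Y1.q * g1)) := by nlinarith [mul_nonneg (by linarith : (0:ℝ) ≤ K ^ 8 - 1) hA, mul_nonneg (by linarith : (0:ℝ) ≤ K ^ 8) hB]
  · show |k9Z Y1 c x 0 - k9Z Y1 c x' 0| ≤ _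
    rw [hZ]
    exact (hcore 0).trans hfin
  · show |k9Z Y1 c x 1 - k9Z Y1 c x' 1| ≤ _
    rw [hZ]
    exact (hcore 1).trans hfin

/-- helper of S9-COUNT: pure geometry of one compatible chart -/
theorem k9cc_box (nC n1 : K9V) (D Di : K9M) (s S : ℝ) (hsvd : K9Svd D n1 s S) (hinv : D * Di = 1) (y0c y1c : K9V)
    (K q g1 gC h alC beC ts Zs : ℝ) (hK : 1 ≤ K) (hq : 0 < q) (hg1 : 0 < g1) (hg1' : g1 ≤ 1) (hgC' : gC ≤ q * g1) (hh' : h ≤ q)
    (hnC : K9Unit nC) (hs : s ≤ 4 * K ^ 2 * q * g1) (hS : S ≤ K * q) (hang : |k9crs nC n1| ≤ K * g1) (hvel : |k9dot nC y1c - beC| ≤ K * g1)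
    (hy1 : ∀ i, |y1c i| ≤ 5 * K ^ 2) (Y0 : K9V) (t0 : ℝ) (hb0 : ∀ i, |Di.mulVec (Y0 - (y0c + t0 • y1c)) i| ≤ K)
    (h1 : |t0 - ts| ≤ h) (h2 : |k9crs nC Y0 - Zs| ≤ h) (h3 : |k9dot nC Y0 - (alC + beC * t0)| ≤ K * gC)
    (y : K9V) (t : ℝ) (hb : ∀ i, |Di.mulVec (y - (y0c + t • y1c)) i| ≤ K) (ht : |t - t0| ≤ q) :
    |t - ts| ≤ 2 * q ∧ |k9crs nC y - Zs| ≤ 726 * K ^ 6 * q ∧ |k9dot nC y - (alC + beC * t)| ≤ 10648 * K ^ 9 * q * g1 := by
  have hsvd' := hsvd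
  obtain ⟨hn1, hs0, hsS, -, hrow⟩ := hsvd
  have hK0 : 0 < K := by linarith
  have hS0 : 0 ≤ S := le_trans hs0 hsS
  have hKq : 0 ≤ K * q := by positivity
  have hK2 : 1 ≤ K ^ 2 := one_le_pow₀ hK
  have hK3 : 1 ≤ K ^ 3 := one_le_pow₀ hK
  have hKK3 : K ≤ K ^ 3 := by nlinarith
  have hK23 : K ^ 2 ≤ K ^ 3 := by nlinarith
  have hnC' : nC 0 ^ 2 + nC 1 ^ 2 = 1 := hnC
  obtain ⟨eZ, heZd⟩ : ∃ eZ : K9V, eZ = ![-(nC 1), nC 0] := ⟨_, rfl⟩
  have e0 : eZ 0 = -(nC 1) := by rw [heZd]; rfl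
  have e1 : eZ 1 = nC 0 := by rw [heZd]; rfl
  have heZ : K9Unit eZ := by
    unfold K9Unit
    rw [e0, e1]
    nlinarith
  have horth : k9dot nC eZ = 0 := by
    unfold k9dot
    rw [e0, e1]
    ring
  have hcrs : ∀ v : K9V, k9crs nC v = k9dot eZ v := by
    intro v
    unfold k9crs k9dot
    rw [e0, e1]
    ring
  have lag : ∀ v : K9V, K9Unit v → k9dot v n1 ^ 2 + k9crs n1 v ^ 2 = 1 := by
    intro v hv
    unfold K9Unit at hv hn1
    simp only [k9dot, k9crs]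
    linear_combination (n1 0 ^ 2 + n1 1 ^ 2) * hv + hn1
  have hrowZ : k9row eZ D ≤ (K * q) ^ 2 := by
    rw [hrow eZ]
    have l := lag eZ heZ
    have hs2 : s ^ 2 ≤ S ^ 2 := by gcongr
    have hS2 : S ^ 2 ≤ (K * q) ^ 2 := by gcongr
    calc s ^ 2 * k9dot eZ n1 ^ 2 + S ^ 2 * k9crs n1 eZ ^ 2
        ≤ S ^ 2 * k9dot eZ n1 ^ 2 + S ^ 2 * k9crs n1 eZ ^ 2 := by gcongr
      _ = S ^ 2 * (k9dot eZ n1 ^ 2 + k9crs n1 eZ ^ 2) := by ring
      _ = S ^ 2 := by rw [l, mul_one]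
      _ ≤ _ := hS2
  have hw0 : 0 ≤ 5 * K ^ 2 * q * g1 := by positivity
  have hrowN : k9row nC D ≤ (5 * K ^ 2 * q * g1) ^ 2 := by
    rw [hrow nC]
    have l := lag nC hnC
    have hd : k9dot nC n1 ^ 2 ≤ 1 := by nlinarith [sq_nonneg (k9crs n1 nC)]
    have hcr : k9crs n1 nC ^ 2 ≤ (K * g1) ^ 2 := by
      have : k9crs n1 nC = -k9crs nC n1 := by simp only [k9crs]; ring
      rw [this, neg_sq, ← sq_abs]
      gcongr
    have hs2 : s ^ 2 ≤ (4 * K ^ 2 * q * g1) ^ 2 := by gcongr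
    have hS2 : S ^ 2 ≤ (K * q) ^ 2 := by gcongr
    calc s ^ 2 * k9dot nC n1 ^ 2 + S ^ 2 * k9crs n1 nC ^ 2
        ≤ (4 * K ^ 2 * q * g1) ^ 2 * 1 + (K * q) ^ 2 * (K * g1) ^ 2 := by gcongr
      _ = 17 * K ^ 4 * (q * g1) ^ 2 := by ring
      _ ≤ 25 * K ^ 4 * (q * g1) ^ 2 := by
          have : 0 ≤ K ^ 4 * (q * g1) ^ 2 := by positivity
          nlinarith
      _ = _ := by ring
  -- the occurrence
  obtain ⟨u0, hu0⟩ : ∃ u0, u0 = Di.mulVec (Y0 - (y0c + t0 • y1c)) := ⟨_, rfl⟩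
  have hD0 : D.mulVec u0 = Y0 - (y0c + t0 • y1c) := by
    rw [hu0, Matrix.mulVec_mulVec, hinv, Matrix.one_mulVec]
  rw [← hu0] at hb0
  have bZ0 := k9_aux_mulVec_le D eZ u0 K (K * q) hKq hrowZ hb0
  have bN0 := k9_aux_mulVec_le D nC u0 K _ hw0 hrowN hb0
  rw [hD0] at bZ0 bN0
  have hqg : 0 < q * g1 := by positivity
  have hZ : |k9dot eZ (y0c + t0 • y1c) - Zs| ≤ 11 * K ^ 3 * q := by
    have e : k9dot eZ (y0c + t0 • y1c) - Zs = (k9crs nC Y0 - Zs) - k9dot eZ (Y0 - (y0c + t0 • y1c)) := by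
      rw [hcrs]
      simp only [k9dot, Pi.add_apply, Pi.sub_apply, Pi.smul_apply, smul_eq_mul]
      ring
    rw [e]
    have t1 := abs_sub (k9crs nC Y0 - Zs) (k9dot eZ (Y0 - (y0c + t0 • y1c)))
    have a1 : K ^ 2 * q ≤ K ^ 3 * q := mul_le_mul_of_nonneg_right hK23 hq.le
    have a2 : 1 * q ≤ K ^ 3 * q := mul_le_mul_of_nonneg_right hK3 hq.le
    have a3 : 2 * K * (K * q) = 2 * (K ^ 2 * q) := by ring
    have a4 : 0 ≤ K ^ 3 * q := by positivity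
    linarith
  have hN : |k9dot nC (y0c + t0 • y1c - (alC • nC + t0 • (beC • nC)))| ≤ 11 * K ^ 3 * q * g1 := by
    have e : k9dot nC (y0c + t0 • y1c - (alC • nC + t0 • (beC • nC)))
        = (k9dot nC Y0 - (alC + beC * t0)) - k9dot nC (Y0 - (y0c + t0 • y1c)) := by
      simp only [k9dot, Pi.add_apply, Pi.sub_apply, Pi.smul_apply, smul_eq_mul]
      linear_combination (-(alC + beC * t0)) * hnC'
    rw [e]
    have t1 := abs_sub (k9dot nC Y0 - (alC + beC * t0)) (k9dot nC (Y0 - (y0c + t0 • y1c)))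
    have a1 : K * gC ≤ K * (q * g1) := mul_le_mul_of_nonneg_left hgC' hK0.le
    have a2 : K * (q * g1) ≤ K ^ 3 * (q * g1) := mul_le_mul_of_nonneg_right hKK3 hqg.le
    have a3 : 2 * K * (5 * K ^ 2 * q * g1) = 10 * (K ^ 3 * (q * g1)) := by ring
    have a4 : 11 * K ^ 3 * q * g1 = 11 * (K ^ 3 * (q * g1)) := by ring
    linarith
  have hrN : |k9dot nC (y1c - beC • nC)| ≤ 11 * K ^ 3 * g1 := by
    have e : k9dot nC (y1c - beC • nC) = k9dot nC y1c - beC := by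
      simp only [k9dot, Pi.sub_apply, Pi.smul_apply, smul_eq_mul]
      linear_combination (-beC) * hnC'
    rw [e]
    have a2 : K * g1 ≤ K ^ 3 * g1 := mul_le_mul_of_nonneg_right hKK3 hg1.le
    have a3 : 0 ≤ K ^ 3 * g1 := by positivity
    linarith
  have hrZ : |k9dot eZ y1c| ≤ 11 * K ^ 3 := by
    have := k9_aux_dot_le eZ y1c _ heZ hy1
    linarith
  obtain ⟨u, hu⟩ : ∃ u, u = Di.mulVec (y - (y0c + t • y1c)) := ⟨_, rfl⟩
  have hDu : D.mulVec u = y - (y0c + t • y1c) := by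
    rw [hu, Matrix.mulVec_mulVec, hinv, Matrix.one_mulVec]
  rw [← hu] at hb
  have hbox := k9_common_box nC eZ n1 D s S hsvd' u y0c y1c (alC • nC) (beC • nC) t t0 Zs (11 * K ^ 3) q g1
    (by linarith) hq.le hg1.le hg1' hnC heZ horth
    (by
      have a1 : K ^ 2 * (q * g1) ≤ K ^ 3 * (q * g1) := mul_le_mul_of_nonneg_right hK23 hqg.le
      have a3 : 0 ≤ K ^ 3 * (q * g1) := by positivity
      have a4 : 4 * K ^ 2 * q * g1 = 4 * (K ^ 2 * (q * g1)) := by ring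
      have a5 : 11 * K ^ 3 * q * g1 = 11 * (K ^ 3 * (q * g1)) := by ring
      linarith)
    (by
      have a1 : K * q ≤ K ^ 3 * q := mul_le_mul_of_nonneg_right hKK3 hq.le
      have a3 : 0 ≤ K ^ 3 * q := by positivity
      linarith)
    (by
      have a2 : K * g1 ≤ K ^ 3 * g1 := mul_le_mul_of_nonneg_right hKK3 hg1.le
      have a3 : 0 ≤ K ^ 3 * g1 := by positivity
      linarith)
    (fun i => (hb i).trans (by linarith)) ht hZ hN hrN hrZ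
  have ey : y0c + t • y1c + D.mulVec u = y := by rw [hDu]; abel
  rw [ey] at hbox
  refine ⟨?_, ?_, ?_⟩
  · have t1 := abs_add_le (t - t0) (t0 - ts)
    have e : t - t0 + (t0 - ts) = t - ts := by ring
    rw [e] at t1
    linarith
  · rw [hcrs]
    refine hbox.1.trans (le_of_eq ?_)
    ring
  · have e : k9dot nC y - (alC + beC * t) = k9dot nC (y - (alC • nC + t • (beC • nC))) := by
      simp only [k9dot, Pi.add_apply, Pi.sub_apply, Pi.smul_apply, smul_eq_mul]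
      linear_combination (alC + beC * t) * hnC'
    rw [e]
    refine hbox.2.trans (le_of_eq ?_)
    ring

/-- helper of S9-COUNT: singular values of a node chart -/
theorem k9cc_sv (Y : KbSys P) (K g : ℝ) (hK : 1 ≤ K) (h : K9Node P Y K g) (c : Y.C) (n : K9V) (s S : ℝ)
    (hn : K9Svd (k9D Y c) n s S) : s ≤ 4 * K ^ 2 * Y.q * g ∧ S ≤ K * Y.q := by
  have hge := k9_svd_ge (k9D Y c) n s S hn
  have hle := k9_svd_le (k9D Y c) n s S hn
  obtain ⟨hnu, hs0, hsS, hdet, hq⟩ := hn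
  have hq0 := k9_aux_q_pos Y
  have hK0 : 0 < K := by linarith
  have hax : Y.q ≤ K * ∑ i, ∑ k, |k9D Y c i k| := h.axis c
  have hsz : ∑ i, ∑ k, |k9D Y c i k| ≤ Y.q * K := h.size c
  have hS : Y.q ≤ 4 * K * S := by nlinarith
  have hJ : s * S ≤ K * Y.q ^ 2 * g := by rw [hdet]; exact h.det_le c
  refine ⟨?_, by linarith⟩
  have h1 : s * Y.q ≤ s * (4 * K * S) := mul_le_mul_of_nonneg_left hS hs0
  have h2 : 4 * K * (s * S) ≤ 4 * K * (K * Y.q ^ 2 * g) := mul_le_mul_of_nonneg_left hJ (by positivity)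
  have h3 : s * Y.q ≤ 4 * K ^ 2 * Y.q * g * Y.q := by nlinarith
  exact le_of_mul_le_mul_right h3 hq0

/-- helper of S9-COUNT: two times of one block -/
theorem k9cc_time (Y : KbSys P) (c : Y.C) (t t0 : ℝ) (ht : t ∈ Y.I c) (ht0 : t0 ∈ Y.I c) : |t - t0| ≤ Y.q := by
  unfold KbSys.I kbI at ht ht0
  unfold KbSys.q
  rw [abs_le]
  constructor <;> nlinarith [ht.1, ht.2, ht0.1, ht0.2]

/-- helper of S9-COUNT: the whole domain of a compatible chart lies in the common moving rectangle -/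
theorem k9cc_chart (Y1 : KbSys P) (K g1 gC h alC beC ts Zs : ℝ) (nC : K9V) (hK : 1 ≤ K) (hg1 : 0 < g1) (hg1' : g1 ≤ 1)
    (hgC' : gC ≤ Y1.q * g1) (hh' : h ≤ Y1.q) (hnC : K9Unit nC) (hN : P.Ntv K) (h1 : K9Node P Y1 K g1) (c : Y1.C) (hc : K9Cmp Y1 nC beC g1 K c)
    (x0 : P.Lam × ℝ) (hx0 : x0 ∈ Y1.S c) (hcell : K9Cell P (Y1.wd c) nC alC beC gC ts Zs h K x0) (x : P.Lam × ℝ) (hx : x ∈ Y1.A c ×ˢ Y1.I c) :
    |x.2 - ts| ≤ 2 * Y1.q ∧ |k9crs nC (k9Y P (Y1.wd c) x) - Zs| ≤ 726 * K ^ 6 * Y1.q ∧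
      |k9dot nC (k9Y P (Y1.wd c) x) - (alC + beC * x.2)| ≤ 10648 * K ^ 9 * Y1.q * g1 := by
  obtain ⟨s, S, hsvd⟩ := k9nrm_spec (k9D Y1 c)
  obtain ⟨hs, hS⟩ := k9cc_sv Y1 K g1 hK h1 c _ s S hsvd
  have hx0' := (h1.wf.S_sub c hx0).2
  have hK2 : 1 ≤ K ^ 2 := one_le_pow₀ hK
  have hy1 : ∀ i, |((Y1.ch c).y1 : K9V) i| ≤ 5 * K ^ 2 := by
    intro i
    have a1 := k9_node_center_vel Y1 K g1 hK h1 c x.1 hx.1 i
    have a2 := (k9_ft7_vel K hN (Y1.wd c) x.1 (h1.wf.A_sub c hx.1) 0 ⟨le_rfl, zero_le_one⟩).2 i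
    rw [Pi.sub_apply] at a1
    have a3 : |((Y1.ch c).y1 : K9V) i| ≤ |kbV (P.co (Y1.wd c) x.1) i| + |kbV (P.co (Y1.wd c) x.1) i - (Y1.ch c).y1 i| := by
      have := abs_sub (kbV (P.co (Y1.wd c) x.1) i) (kbV (P.co (Y1.wd c) x.1) i - (Y1.ch c).y1 i)
      rwa [sub_sub_cancel] at this
    have a4 : K ≤ K ^ 2 := by nlinarith
    linarith
  exact k9cc_box nC (k9N Y1 c) (k9D Y1 c) (Y1.ch c).Di s S hsvd (h1.wf.inv c) (Y1.ch c).y0 (Y1.ch c).y1 K Y1.q g1 gC h alC beC ts Zs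
    hK (k9_aux_q_pos Y1) hg1 hg1' hgC' hh' hnC hs hS hc.1 hc.2 hy1 (k9Y P (Y1.wd c) x0) x0.2
    (fun i => (norm_le_pi_norm _ i).trans (h1.box c x0.1 hx0'.1 x0.2 hx0'.2)) hcell.time hcell.tang hcell.norm
    (k9Y P (Y1.wd c) x) x.2 (fun i => (norm_le_pi_norm _ i).trans (h1.box c x.1 hx.1 x.2 hx.2)) (k9cc_time Y1 c _ _ hx.2 hx0'.2)

/-- LEAF S9-COUNT (~400 l.; black boxes `k9_common_box`, `k9_rect_vol`, `k9_svd_ge`, `k9_node_center_vel`).  (9.22): number of charts of `Y1` compatible with one projected cell.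
`k9_common_box` with `K̂ = 10 K³` : all whole domains lie in the moving rectangle `|t - ts| ≤ 2q₁`, `a = 600 K⁶ q₁`, `b = 8000 K⁹ q₁ g₁`, of volume `≤ 1.7·10⁹ K¹⁸ q₁³ g₁`; the witnesses are disjoint, obey the base cap `K`, and have mass `≥ q₁ ν_c/K ≥ n1 q₁³ g₁/K³`. -/
theorem k9_compatible_count (hP : P.WF) (Y1 : KbSys P) (γ : P.W) (K g1 gC n1 h alC beC ts Zs : ℝ) (nC : K9V) (hK : 1 ≤ K) (hg1 : 0 < g1) (hg1' : g1 ≤ 1) (hgC : 0 ≤ gC)
    (hgC' : gC ≤ Y1.q * g1) (hh : 0 ≤ h) (hh' : h ≤ Y1.q) (hn1 : 0 < n1) (hnC : K9Unit nC) (hbeC : |beC| ≤ K) (hN : P.Ntv K) (h1 : K9Node P Y1 K g1) (hs : Y1.Sat K n1)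
    (G0 : Set (P.Lam × ℝ)) (hG0 : ∀ R : Set (ℝ × K9V), MeasurableSet R → P.mu γ {x | x ∈ G0 ∧ P.bs γ x ∈ R} ≤ ENNReal.ofReal K * volume R)
    (Wt : Y1.C → Set (P.Lam × ℝ)) (hWm : ∀ c, MeasurableSet (Wt c)) (hWs : ∀ c, Wt c ⊆ G0 ∩ Y1.A c ×ˢ Y1.I c)
    (hWf : ∀ c, ENNReal.ofReal Y1.q * Y1.nuC c ≤ ENNReal.ofReal K * P.mu γ (Wt c))
    (Lc : Finset Y1.C) (hL : ∀ c ∈ Lc, Y1.wd c = γ ∧ K9Cmp Y1 nC beC g1 K c ∧ ∃ x ∈ Y1.S c, K9Cell P γ nC alC beC gC ts Zs h K x) :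
    (Lc.card : ℝ) ≤ 10 ^ 10 * K ^ 24 / n1 := by
  have hq0 := k9_aux_q_pos Y1
  have hK0 : 0 < K := by linarith
  obtain ⟨q, hq⟩ : ∃ q, q = Y1.q := ⟨_, rfl⟩
  rw [← hq] at hq0
  obtain ⟨Rect, hRect⟩ : ∃ Rect : Set (ℝ × K9V), Rect = {o : ℝ × K9V | |o.1 - ts| ≤ 2 * q ∧ |k9crs nC o.2 - Zs| ≤ 726 * K ^ 6 * q ∧
      |k9dot nC o.2 - (alC + beC * o.1)| ≤ 10648 * K ^ 9 * q * g1} := ⟨_, rfl⟩
  have hRm : MeasurableSet Rect := by
    rw [hRect]
    have m1 : MeasurableSet {o : ℝ × K9V | |o.1 - ts| ≤ 2 * q} := measurableSet_le (by fun_prop) measurable_const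
    have m2 : MeasurableSet {o : ℝ × K9V | |k9crs nC o.2 - Zs| ≤ 726 * K ^ 6 * q} := by
      unfold k9crs
      exact measurableSet_le (by fun_prop) measurable_const
    have m3 : MeasurableSet {o : ℝ × K9V | |k9dot nC o.2 - (alC + beC * o.1)| ≤ 10648 * K ^ 9 * q * g1} := by
      unfold k9dot
      exact measurableSet_le (by fun_prop) measurable_const
    exact m1.inter (m2.inter m3)
  have hin : ∀ c ∈ Lc, ∀ x ∈ Wt c, x ∈ G0 ∧ P.bs γ x ∈ Rect := by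
    intro c hc x hx
    obtain ⟨hw, hcmp, x0, hx0, hcell⟩ := hL c hc
    have hx' := hWs c hx
    have h3 := k9cc_chart Y1 K g1 gC h alC beC ts Zs nC hK hg1 hg1' hgC' hh' hnC hN h1 c hcmp x0 hx0 (by rw [hw]; exact hcell) x hx'.2
    rw [hw, ← hq] at h3
    refine ⟨hx'.1, ?_⟩
    rw [hRect]
    exact h3
  have hdisj : (Lc : Set Y1.C).PairwiseDisjoint Wt := by
    intro c hc c' hc' hne
    rw [Function.onFun, Set.disjoint_left]
    intro x a1 a2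
    have b1 := (hWs c a1).2
    have b2 := (hWs c' a2).2
    by_cases hi : Y1.iv c = Y1.iv c'
    · exact Set.disjoint_left.1 (h1.wf.A_disj c c' hne ((hL c hc).1.trans (hL c' hc').1.symm) hi) b1.1 b2.1
    · exact Set.disjoint_left.1 (k9pt_I_disj Y1.n _ _ hi) b1.2 b2.2
  obtain ⟨Vl, hVl⟩ : ∃ Vl, Vl = 12 * (2 * q) * (10648 * K ^ 9 * q * g1) * (726 * K ^ 6 * q + 10648 * K ^ 9 * q * g1) := ⟨_, rfl⟩
  have hVl0 : 0 ≤ Vl := by rw [hVl]; positivity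
  have hsum : ∑ c ∈ Lc, P.mu γ (Wt c) ≤ ENNReal.ofReal K * ENNReal.ofReal Vl := by
    rw [← measure_biUnion_finset hdisj (fun c _ => hWm c)]
    have hv := k9_rect_vol nC hnC Zs alC beC ts (2 * q) (726 * K ^ 6 * q) (10648 * K ^ 9 * q * g1) (by positivity) (by positivity) (by positivity)
    rw [← hRect, ← hVl] at hv
    refine (measure_mono ?_).trans ((hG0 Rect hRm).trans (mul_le_mul' le_rfl hv))
    intro x hx
    obtain ⟨c, hc, hxc⟩ := Set.mem_iUnion₂.1 hx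
    exact hin c hc x hxc
  have hlow : ∀ c ∈ Lc, ENNReal.ofReal (n1 * q ^ 3 * g1 / K) ≤ ENNReal.ofReal (K ^ 2) * P.mu γ (Wt c) := by
    intro c hc
    have a1 := hWf c
    have a2 := (hs c).2.2
    have a3 := h1.det_ge c
    rw [← hq] at a1 a3
    have a4 : n1 * q ^ 3 * g1 / K ≤ q * (n1 * (Y1.ch c).J) := by
      rw [div_le_iff₀ hK0]
      have : n1 * q * (q ^ 2 * g1) ≤ n1 * q * (K * (Y1.ch c).J) := mul_le_mul_of_nonneg_left a3 (by positivity)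
      nlinarith
    calc ENNReal.ofReal (n1 * q ^ 3 * g1 / K) ≤ ENNReal.ofReal (q * (n1 * (Y1.ch c).J)) := ENNReal.ofReal_le_ofReal a4
      _ = ENNReal.ofReal q * ENNReal.ofReal (n1 * (Y1.ch c).J) := ENNReal.ofReal_mul hq0.le
      _ ≤ ENNReal.ofReal q * (ENNReal.ofReal K * Y1.nuC c) := mul_le_mul' le_rfl a2
      _ = ENNReal.ofReal K * (ENNReal.ofReal q * Y1.nuC c) := by ring
      _ ≤ ENNReal.ofReal K * (ENNReal.ofReal K * P.mu γ (Wt c)) := mul_le_mul' le_rfl a1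
      _ = ENNReal.ofReal (K ^ 2) * P.mu γ (Wt c) := by
          rw [← mul_assoc, ← ENNReal.ofReal_mul hK0.le, sq]
  have hfin : (Lc.card : ℝ≥0∞) * ENNReal.ofReal (n1 * q ^ 3 * g1 / K) ≤ ENNReal.ofReal (K ^ 2) * (ENNReal.ofReal K * ENNReal.ofReal Vl) := by
    calc (Lc.card : ℝ≥0∞) * ENNReal.ofReal (n1 * q ^ 3 * g1 / K) = ∑ _c ∈ Lc, ENNReal.ofReal (n1 * q ^ 3 * g1 / K) := by
          rw [Finset.sum_const, nsmul_eq_mul]
      _ ≤ ∑ c ∈ Lc, ENNReal.ofReal (K ^ 2) * P.mu γ (Wt c) := Finset.sum_le_sum hlow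
      _ = ENNReal.ofReal (K ^ 2) * ∑ c ∈ Lc, P.mu γ (Wt c) := by rw [Finset.mul_sum]
      _ ≤ _ := mul_le_mul' le_rfl hsum
  rw [← ENNReal.ofReal_natCast, ← ENNReal.ofReal_mul (Nat.cast_nonneg _), ← ENNReal.ofReal_mul hK0.le, ← ENNReal.ofReal_mul (by positivity),
    ENNReal.ofReal_le_ofReal_iff (by positivity)] at hfin
  rw [le_div_iff₀ hn1]
  have hqg : 0 < q ^ 3 * g1 := by positivity
  have hK9 : K ^ 6 ≤ K ^ 9 := pow_le_pow_right₀ hK (by norm_num)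
  have b1 : 726 * K ^ 6 * q + 10648 * K ^ 9 * q * g1 ≤ 11374 * K ^ 9 * q := by
    have c1 : K ^ 6 * q ≤ K ^ 9 * q := mul_le_mul_of_nonneg_right hK9 hq0.le
    have c2 : K ^ 9 * q * g1 ≤ K ^ 9 * q * 1 := mul_le_mul_of_nonneg_left hg1' (by positivity)
    linarith
  have b2 : Vl ≤ 12 * (2 * q) * (10648 * K ^ 9 * q * g1) * (11374 * K ^ 9 * q) := by
    rw [hVl]
    exact mul_le_mul_of_nonneg_left b1 (by positivity)
  have b3 : (Lc.card : ℝ) * (n1 * q ^ 3 * g1 / K) ≤ K ^ 2 * (K * (12 * (2 * q) * (10648 * K ^ 9 * q * g1) * (11374 * K ^ 9 * q))) :=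
    hfin.trans (mul_le_mul_of_nonneg_left (mul_le_mul_of_nonneg_left b2 hK0.le) (by positivity))
  have b4 : (Lc.card : ℝ) * n1 * (q ^ 3 * g1) ≤ 2906648448 * K ^ 22 * (q ^ 3 * g1) := by
    have e1 : (Lc.card : ℝ) * (n1 * q ^ 3 * g1 / K) * K = (Lc.card : ℝ) * n1 * (q ^ 3 * g1) := by
      field_simp
    have e2 : K ^ 2 * (K * (12 * (2 * q) * (10648 * K ^ 9 * q * g1) * (11374 * K ^ 9 * q))) * K = 2906648448 * K ^ 22 * (q ^ 3 * g1) := by
      ring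
    rw [← e1, ← e2]
    exact mul_le_mul_of_nonneg_right b3 hK0.le
  have b5 := le_of_mul_le_mul_right b4 hqg
  have b6 : K ^ 22 ≤ K ^ 24 := pow_le_pow_right₀ hK (by norm_num)
  have b7 : 0 ≤ K ^ 24 := by positivity
  linarith

/-- LEAF S9-SUPP (~200 l.; black boxes `k9_cell_du`, `k9_compatible_count`).  **L9.5 (2), cellwise support bound.**
`gr x < ng` = index of the graph used by the incidence `x` in its chart; `hgr` = consequence of L9.4 (fit `K a`, Lipschitz constant `K`).  One value `z` per (compatible chart, graph index). -/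
theorem k9_cell_support (hP : P.WF) (Y1 : KbSys P) (γ : P.W) (K g1 gC n1 a h alC beC ts Zs : ℝ) (nC : K9V) (hK : 1 ≤ K) (hg1 : 0 < g1) (hg1' : g1 ≤ 1) (hgC : 0 ≤ gC)
    (hgC' : gC ≤ Y1.q * g1) (hh : 0 ≤ h) (hh' : h ≤ Y1.q) (hn1 : 0 < n1) (ha : 0 < a) (hnC : K9Unit nC) (hbeC : |beC| ≤ K) (hN : P.Ntv K) (h1 : K9Node P Y1 K g1) (hs : Y1.Sat K n1)
    (hprec : h / Y1.q + gC / (Y1.q * g1) ≤ a)
    (G0 : Set (P.Lam × ℝ)) (hG0 : ∀ R : Set (ℝ × K9V), MeasurableSet R → P.mu γ {x | x ∈ G0 ∧ P.bs γ x ∈ R} ≤ ENNReal.ofReal K * volume R)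
    (Wt : Y1.C → Set (P.Lam × ℝ)) (hWm : ∀ c, MeasurableSet (Wt c)) (hWs : ∀ c, Wt c ⊆ G0 ∩ Y1.A c ×ˢ Y1.I c)
    (hWf : ∀ c, ENNReal.ofReal Y1.q * Y1.nuC c ≤ ENNReal.ofReal K * P.mu γ (Wt c))
    (Cell : Set (P.Lam × ℝ)) (hCell : ∀ x ∈ Cell, K9Cell P γ nC alC beC gC ts Zs h K x ∧ ∃ c, Y1.wd c = γ ∧ x ∈ Y1.S c ∧ K9Cmp Y1 nC beC g1 K c)
    (gr : P.Lam × ℝ → ℕ) (ng : ℕ) (hng : (ng : ℝ) ≤ K) (hgr_lt : ∀ x ∈ Cell, gr x < ng)
    (hgr : ∀ c, ∀ x ∈ Cell ∩ Y1.S c, ∀ x' ∈ Cell ∩ Y1.S c, gr x = gr x' → ∀ d : ℝ, (∀ i, |k9U Y1 c x i - k9U Y1 c x' i| ≤ d) → |P.sig γ x - P.sig γ x'| ≤ K * (a + d)) :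
    ∃ Z : Finset ℝ, (Z.card : ℝ) ≤ 10 ^ 10 * K ^ 25 / n1 ∧ ∀ x ∈ Cell, ∃ z ∈ Z, |P.sig γ x - z| ≤ 5000 * K ^ 9 * a := by
  have hK0 : 0 < K := by linarith
  have hq0 := k9_aux_q_pos Y1
  -- the compatible charts
  obtain ⟨Lc, hLc⟩ : ∃ Lc : Finset Y1.C, Lc = Finset.univ.filter fun c =>
    Y1.wd c = γ ∧ K9Cmp Y1 nC beC g1 K c ∧ ∃ x ∈ Y1.S c, x ∈ Cell := ⟨_, rfl⟩
  have hcount := k9_compatible_count hP Y1 γ K g1 gC n1 h alC beC ts Zs nC hK hg1 hg1' hgC hgC' hh hh' hn1 hnC hbeC hN h1 hs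
    G0 hG0 Wt hWm hWs hWf Lc (fun c hc => by
      rw [hLc, Finset.mem_filter] at hc
      obtain ⟨-, hw, hcmp, x, hxS, hxC⟩ := hc
      exact ⟨hw, hcmp, x, hxS, (hCell x hxC).1⟩)
  -- one value per chart and graph index
  obtain ⟨z, hz⟩ : ∃ z : Y1.C × ℕ → ℝ, ∀ p : Y1.C × ℕ, (∃ x ∈ Cell ∩ Y1.S p.1, gr x = p.2) →
      ∃ x ∈ Cell ∩ Y1.S p.1, gr x = p.2 ∧ z p = P.sig γ x := by
    refine ⟨fun p => if hp : ∃ x ∈ Cell ∩ Y1.S p.1, gr x = p.2 then P.sig γ (Classical.choose hp) else 0, ?_⟩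
    intro p hp
    refine ⟨Classical.choose hp, (Classical.choose_spec hp).1, (Classical.choose_spec hp).2, ?_⟩
    simp only [dif_pos hp]
  refine ⟨(Lc ×ˢ Finset.range ng).image z, ?_, ?_⟩
  · have c1 : (((Lc ×ˢ Finset.range ng).image z).card : ℝ) ≤ (Lc.card : ℝ) * ng := by
      have : ((Lc ×ˢ Finset.range ng).image z).card ≤ Lc.card * ng := by
        refine Finset.card_image_le.trans ?_
        rw [Finset.card_product, Finset.card_range]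
      exact_mod_cast this
    calc (((Lc ×ˢ Finset.range ng).image z).card : ℝ) ≤ (Lc.card : ℝ) * ng := c1
      _ ≤ (10 ^ 10 * K ^ 24 / n1) * K := mul_le_mul hcount hng (Nat.cast_nonneg _) (by positivity)
      _ = 10 ^ 10 * K ^ 25 / n1 := by ring
  · intro x hx
    obtain ⟨hcx, c, hw, hxS, hcmp⟩ := hCell x hx
    have hcL : c ∈ Lc := by
      rw [hLc, Finset.mem_filter]
      exact ⟨Finset.mem_univ _, hw, hcmp, x, hxS, hx⟩
    obtain ⟨x', hx', hgr', hzx'⟩ := hz (c, gr x) ⟨x, ⟨hx, hxS⟩, rfl⟩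
    refine ⟨z (c, gr x), Finset.mem_image_of_mem _ (Finset.mem_product.2 ⟨hcL, Finset.mem_range.2 (hgr_lt x hx)⟩), ?_⟩
    rw [hzx']
    have hcx' := (hCell x' hx'.1).1
    have hdu := k9_cell_du hP Y1 K g1 gC h alC beC ts Zs nC hK hg1 hg1' hgC hh hnC hbeC hN h1 c hcmp x x' hxS hx'.2
      (hw.symm ▸ hcx) (hw.symm ▸ hcx')
    have h2 := hgr c x ⟨hx, hxS⟩ x' hx' hgr'.symm _ hdu
    have hK8 : 1 ≤ K ^ 8 := one_le_pow₀ hK
    have h3 : 4000 * K ^ 8 * (h / Y1.q + gC / (Y1.q * g1)) ≤ 4000 * K ^ 8 * a :=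
      mul_le_mul_of_nonneg_left hprec (by positivity)
    calc |P.sig γ x - P.sig γ x'| ≤ K * (a + 4000 * K ^ 8 * (h / Y1.q + gC / (Y1.q * g1))) := h2
      _ ≤ K * (a + 4000 * K ^ 8 * a) := mul_le_mul_of_nonneg_left (by linarith) hK0.le
      _ ≤ K * (K ^ 8 * a + 4000 * K ^ 8 * a) := by
          refine mul_le_mul_of_nonneg_left ?_ hK0.le
          have : a ≤ K ^ 8 * a := le_mul_of_one_le_left ha.le hK8
          linarith
      _ = 4001 * K ^ 9 * a := by ring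
      _ ≤ 5000 * K ^ 9 * a := by
          have : 0 < K ^ 9 * a := by positivity
          linarith

/-! ## §3 projected cap -/

theorem k9_proj_meas (Di : K9M) (e c0 c1 : K9V) (Zs tA q K' : ℝ) (T : Set (ℝ × ℝ)) (hT : MeasurableSet T) :
    MeasurableSet {o : ℝ × K9V | (∀ i, |Di.mulVec (o.2 - (c0 + o.1 • c1)) i| ≤ K') ∧ ((o.1 - tA) / q, (k9dot e o.2 - Zs) / q) ∈ T} := by
  have m1 : MeasurableSet {o : ℝ × K9V | ∀ i, |Di.mulVec (o.2 - (c0 + o.1 • c1)) i| ≤ K'} := by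
    rw [Set.ofPred_forall]
    refine MeasurableSet.iInter fun i => measurableSet_le ?_ measurable_const
    simp only [Matrix.mulVec, dotProduct, Fin.sum_univ_two, Pi.sub_apply, Pi.add_apply, Pi.smul_apply, smul_eq_mul]
    fun_prop
  have m2 : Measurable fun o : ℝ × K9V => ((o.1 - tA) / q, (k9dot e o.2 - Zs) / q) := by
    unfold k9dot; fun_prop
  exact m1.inter (m2 hT)

/-- LEAF S9-PCAP (~150 l.; black box `k9_proj_vol`).  **L9.5 (1).**  `hcap` = prepared pure cap in integrated form (`Gp` prepared incidences, `J` an `X`-bin, `κp = K p^d`, or with a velocity bin `K p^d N^{-Sv}`: put the velocity condition into `Gp`). -/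
theorem k9_proj_cap (YA : KbSys P) (c : YA.C) (K κp Zs : ℝ) (e : K9V) (hK : 1 ≤ K) (hwf : YA.WF)
    (hbox : ∀ l ∈ YA.A c, ∀ t ∈ YA.I c, ‖(YA.ch c).Di.mulVec (kbY (P.co (YA.wd c) l) t - (YA.ch c).yc t)‖ ≤ K)
    (hfull : (YA.q / K) ^ 2 ≤ k9row e (k9D YA c)) (Gp : Set (P.Lam × ℝ))
    (hcap : ∀ R : Set (ℝ × K9V), MeasurableSet R → P.mu (YA.wd c) {x | x ∈ Gp ∧ P.bs (YA.wd c) x ∈ R} ≤ ENNReal.ofReal κp * volume R)
    (T : Set (ℝ × ℝ)) (hT : MeasurableSet T) :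
    P.mu (YA.wd c) {x | x ∈ Gp ∧ x ∈ YA.A c ×ˢ YA.I c ∧ ((x.2 - YA.tc c) / YA.q, (k9dot e (k9Y P (YA.wd c) x) - Zs) / YA.q) ∈ T}
      ≤ ENNReal.ofReal (κp * (3 * K ^ 2 * (YA.ch c).J * YA.q)) * volume T := by
  have hq : 0 < YA.q := by unfold KbSys.q kbQ; positivity
  have hK0 : 0 < K := zero_lt_one.trans_le hK
  let y0 : K9V := (YA.ch c).y0
  let y1 : K9V := (YA.ch c).y1
  let D : K9M := (YA.ch c).D
  let Di : K9M := (YA.ch c).Di
  let R : Set (ℝ × K9V) := {o : ℝ × K9V | (∀ i, |Di.mulVec (o.2 - (y0 + o.1 • y1)) i| ≤ K)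
    ∧ ((o.1 - YA.tc c) / YA.q, (k9dot e o.2 - Zs) / YA.q) ∈ T}
  have mR : MeasurableSet R := k9_proj_meas Di e y0 y1 Zs (YA.tc c) YA.q K T hT
  have vR : volume R ≤ ENNReal.ofReal (3 * K * K * |D.det| * YA.q) * volume T :=
    k9_proj_vol D Di (hwf.inv c) e y0 y1 Zs (YA.tc c) YA.q K K hq hK0 hK0.le hfull T hT
  have sub : {x | x ∈ Gp ∧ x ∈ YA.A c ×ˢ YA.I c ∧ ((x.2 - YA.tc c) / YA.q, (k9dot e (k9Y P (YA.wd c) x) - Zs) / YA.q) ∈ T}
      ⊆ {x | x ∈ Gp ∧ P.bs (YA.wd c) x ∈ R} := by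
    intro x hx
    obtain ⟨h1, h2, h3⟩ := hx
    refine ⟨h1, fun i => ?_, h3⟩
    exact (norm_le_pi_norm _ i).trans (hbox x.1 h2.1 x.2 h2.2)
  calc P.mu (YA.wd c) {x | x ∈ Gp ∧ x ∈ YA.A c ×ˢ YA.I c ∧ ((x.2 - YA.tc c) / YA.q, (k9dot e (k9Y P (YA.wd c) x) - Zs) / YA.q) ∈ T}
      ≤ P.mu (YA.wd c) {x | x ∈ Gp ∧ P.bs (YA.wd c) x ∈ R} := measure_mono sub
    _ ≤ ENNReal.ofReal κp * volume R := hcap R mR
    _ ≤ ENNReal.ofReal κp * (ENNReal.ofReal (3 * K * K * |D.det| * YA.q) * volume T) := by gcongr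
    _ = ENNReal.ofReal (κp * (3 * K ^ 2 * (YA.ch c).J * YA.q)) * volume T := by
        have h0 : 0 ≤ 3 * K ^ 2 * (YA.ch c).J * YA.q := by unfold KbChart.J; positivity
        have e1 : 3 * K * K * |D.det| * YA.q = 3 * K ^ 2 * (YA.ch c).J * YA.q := by
          show 3 * K * K * |D.det| * YA.q = 3 * K ^ 2 * |D.det| * YA.q
          ring
        rw [e1, ENNReal.ofReal_mul' h0, mul_assoc (ENNReal.ofReal κp)]

/-! ## §4 tangential fullness -/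

/-- helper of S9-THIN: coordinates from the two frame components -/
theorem k9th_frame (n z : K9V) (b : ℝ) (hn : K9Unit n) (h1 : |k9dot n z| ≤ b) (h2 : |k9dot ![-n 1, n 0] z| ≤ b) : ∀ i, |z i| ≤ 2 * b := by
  have hn' : n 0 ^ 2 + n 1 ^ 2 = 1 := hn
  have hb : 0 ≤ b := le_trans (abs_nonneg _) h1
  have n0 : |n 0| ≤ 1 := abs_le_of_sq_le_sq (by nlinarith [sq_nonneg (n 1)]) zero_le_one
  have n1 : |n 1| ≤ 1 := abs_le_of_sq_le_sq (by nlinarith [sq_nonneg (n 0)]) zero_le_one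
  obtain ⟨p, hp⟩ : ∃ p, p = k9dot n z := ⟨_, rfl⟩
  obtain ⟨r, hr⟩ : ∃ r, r = k9dot ![-n 1, n 0] z := ⟨_, rfl⟩
  rw [← hp] at h1
  rw [← hr] at h2
  have e0 : z 0 = p * n 0 - r * n 1 := by
    rw [hp, hr]
    simp only [k9dot, Matrix.cons_val_zero, Matrix.cons_val_one]
    linear_combination (-(z 0)) * hn'
  have e1 : z 1 = p * n 1 + r * n 0 := by
    rw [hp, hr]
    simp only [k9dot, Matrix.cons_val_zero, Matrix.cons_val_one]
    linear_combination (-(z 1)) * hn'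
  have m : ∀ u w : ℝ, |u| ≤ b → |w| ≤ 1 → |u * w| ≤ b := by
    intro u w hu hw
    rw [abs_mul]
    calc |u| * |w| ≤ b * 1 := mul_le_mul hu hw (abs_nonneg _) hb
      _ = b := mul_one _
  intro i
  fin_cases i
  · show |z 0| ≤ 2 * b
    rw [e0]
    have := abs_sub (p * n 0) (r * n 1)
    linarith [m p (n 0) h1 n0, m r (n 1) h2 n1]
  · show |z 1| ≤ 2 * b
    rw [e1]
    have := abs_add_le (p * n 1) (r * n 0)
    linarith [m p (n 1) h1 n1, m r (n 0) h2 n0]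

/-- helper of S9-THIN: one direction -/
theorem k9th_dir (Y : KbSys P) (K ε : ℝ) (hε : 0 ≤ ε) (hwf : Y.WF)
    (hbox : ∀ c, ∀ l ∈ Y.A c, ∀ t ∈ Y.I c, ‖(Y.ch c).Di.mulVec (kbY (P.co (Y.wd c) l) t - (Y.ch c).yc t)‖ ≤ K)
    (c : Y.C) (n : K9V) (hrow : k9row n (k9D Y c) ≤ (Y.q * ε) ^ 2) (l : P.Lam) (hl : l ∈ Y.A c) :
    |k9dot n (kbV (P.co (Y.wd c) l) - (Y.ch c).y1)| ≤ 8 * K * ε := by
  have hq0 := k9_aux_q_pos Y
  have hpos : ∀ t ∈ Y.I c, |k9dot n (kbY (P.co (Y.wd c) l) t - (Y.ch c).yc t)| ≤ 2 * K * (Y.q * ε) := by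
    intro t ht
    have hb := hbox c l hl t ht
    exact k9_normal_strip (k9D Y c) (Y.ch c).Di (hwf.inv c) n
      (kbY (P.co (Y.wd c) l) t - (Y.ch c).yc t) K (Y.q * ε) (by positivity) hrow (fun i => (norm_le_pi_norm _ i).trans hb)
  have h1 := hpos _ (k9_aux_tc_mem Y c)
  have h2 := hpos _ (k9_aux_tc_half_mem Y c)
  have hv := k9_velocity_strip n (P.co (Y.wd c) l).1 (kbV (P.co (Y.wd c) l)) (Y.ch c).y0 (Y.ch c).y1
    (Y.tc c) (Y.tc c + Y.q / 2) (2 * K * (Y.q * ε)) (by linarith) h1 h2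
  have e : 2 * (2 * K * (Y.q * ε)) / (Y.tc c + Y.q / 2 - Y.tc c) = 8 * K * ε := by
    rw [add_sub_cancel_left]
    have := hq0.ne'
    field_simp
    ring
  rw [e] at hv
  exact hv

/-- helper of S9-THIN: the volume of the box -/
theorem k9th_vol (K : ℝ) (hK : 0 ≤ K) :
    volume (Set.Icc (0 : ℝ) 1 ×ˢ {y : K9V | ∀ i, |y i| ≤ K}) = ENNReal.ofReal (4 * K ^ 2) := by
  have e : {y : K9V | ∀ i, |y i| ≤ K} = Set.Icc (fun _ => -K) (fun _ => K) := by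
    ext y
    simp only [Set.mem_ofPred_eq, Set.mem_Icc, Pi.le_def, abs_le]
    exact forall_and
  rw [e, Measure.volume_eq_prod, Measure.prod_prod, Real.volume_Icc, Real.volume_Icc_pi, Fin.prod_univ_two, ← ENNReal.ofReal_mul (by linarith)]
  simp only [sub_zero, ENNReal.ofReal_one, one_mul]
  congr 1
  ring

/-- LEAF S9-THIN (~250 l.; black boxes `k9_velocity_strip`, `k9_normal_strip`).  (l.405-425): the charts of a known system whose domain is thin in BOTH directions of the frame `(rot nC, nC)`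
(`‖Dᵀ e_Z‖ ≤ q ε`, `‖Dᵀ n_C‖ ≤ q ε`) confine the velocity to the ball of radius `16 K ε` about the centre velocity; `K9Cap` with `ctr c = y₁(c)` and `R = [0,1] × [-K,K]²` (volume `4K²`). -/
theorem k9_thin_mass (hP : P.WF) (Y : KbSys P) (G : P.W → Set (P.Lam × ℝ)) (K aL ε κ : ℝ) (hK : 1 ≤ K) (hε : 0 ≤ ε) (hN : P.Ntv K) (hwf : Y.WF)
    (hbox : ∀ c, ∀ l ∈ Y.A c, ∀ t ∈ Y.I c, ‖(Y.ch c).Di.mulVec (kbY (P.co (Y.wd c) l) t - (Y.ch c).yc t)‖ ≤ K)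
    (hk : Y.Known (P.hid aL) K) (hcap : K9Cap P G aL (16 * K * ε) κ K) (nC : Y.C → K9V) (hnC : ∀ c, K9Unit (nC c)) (γ : P.W) :
    P.mu γ {x | x ∈ G γ ∧ ∃ c, Y.wd c = γ ∧ x ∈ Y.S c ∧ k9row (nC c) (k9D Y c) ≤ (Y.q * ε) ^ 2 ∧ k9row ![-(nC c) 1, (nC c) 0] (k9D Y c) ≤ (Y.q * ε) ^ 2}
      ≤ ENNReal.ofReal (κ * (4 * K ^ 2)) := by
  have hK0 : 0 ≤ K := by linarith
  obtain ⟨Lst, hL1, hL2, hL3⟩ := hk
  have hRm : MeasurableSet (Set.Icc (0 : ℝ) 1 ×ˢ {y : K9V | ∀ i, |y i| ≤ K}) := by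
    refine measurableSet_Icc.prod ?_
    rw [Set.ofPred_forall]
    exact MeasurableSet.iInter fun i => measurableSet_le (by fun_prop) measurable_const
  have h := hcap γ Y.C (Lst γ) (fun c => (Y.ch c).y1) (Set.Icc (0 : ℝ) 1 ×ˢ {y : K9V | ∀ i, |y i| ≤ K}) (hL1 γ) (hL2 γ) hRm
  rw [k9th_vol K hK0, ← ENNReal.ofReal_mul' (by positivity)] at h
  refine (measure_mono ?_).trans h
  rintro x ⟨hxG, c, hw, hxS, hr1, hr2⟩
  have h6 := hwf.S_sub _ hxS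
  have h7 := hP.Ev_sub _ h6.1
  rw [hw] at h7
  refine ⟨hxG, ⟨h7.2, (k9_ft7_vel K hN γ x.1 h7.1 x.2 h7.2).1⟩, c, ?_, ?_⟩
  · have h1 := hL3 c x hxS
    rw [hw] at h1
    exact h1
  · have d1 := k9th_dir Y K ε hε hwf hbox c (nC c) hr1 x.1 h6.2.1
    have d2 := k9th_dir Y K ε hε hwf hbox c _ hr2 x.1 h6.2.1
    have d3 := k9th_frame (nC c) _ _ (hnC c) d1 d2
    rw [hw] at d3
    intro i
    have d4 : |k9Vel P γ x i - (Y.ch c).y1 i| ≤ 2 * (8 * K * ε) := d3 i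
    refine d4.trans (le_of_eq ?_)
    ring

end

end Claimed.Agent.R252
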