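import Claimed.Agent.R252.S4.Crit
import Claimed.Agent.R252.S9.Full
import Claimed.Agent.R252.S2a.PbContract
import Claimed.Agent.R252.S2s.Sat
import Claimed.Agent.R252.S2a.SeqContract
import Claimed.Agent.R252.S2s.SeqS
import Claimed.Agent.R252.Norm.Seq

/-!
# ROW 252 (S0492), unit S9a (post BP-252-S9a, sub-architect helper197; chief helper233), file 2: THE CONTEXT OF SEC. 9 AT THE SEQUENCE LEVEL.      Definitions only (no `sorry`).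

09-unbounded-narrowness.tex l.33-133 (nested true systems), l.142-160 (statement of P9.2).   Language: `Base/Lang`, `Base/Seq`.
* `K9aNodes E`        DATA: two nested systems `Y1 = Q₁`, `Y2 = Q₂` of ONE exact problem `E` (both in the coordinates of `E`), parent map `up`, depths `r_j`, time costs `h_j`, narrowness exponents `al_j` (`g_j = N^{-al_j}`, `J = q² g`).
* `X.Ok f`            prepared true systems (true floor, saturation, own-depth knowledge, homogeneous narrowness), nested; `rel` = relative matrix `‖D₁⁻¹ D₂‖ ≤ K₀ q₂/q₁` (09 l.127).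
* `X.Full`            the largest axes are `≥ q / K₀` (09 l.107-109, from L2.12).      `X.cut ρ` = deletion of the thin charts (and of the children of thin parents).
* `X.Cs u t0`         THE FULL-TIME CHARTS: `k9Csys (Y2 k) (t0 k) (gC k) (θ k)`, `θ = g₂ N^u`, `gC = g₂ N^{2u}`.      `X.Cmp u t0` = (9.9).
* `K9aCtx`, `Z.Ok`    the outer sequence `i ↦ (E i, f i, X i)` with tolerances `ζ i → 0`.   LENGTHS ARE NOT RESCALED (as in `KpPath`): `1/2 ≤ (E i).L ≤ 1`; "`p_1`" of the paper is `p_L`.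
-/

set_option autoImplicit false

namespace Claimed.Agent.R252

open MeasureTheory Filter Topology
open Claimed.Agent.R255 (uf)
open scoped ENNReal BigOperators

noncomputable section

/-- exact problems of the second model -/
abbrev K9E := KbEx KbVer.two

/-- **two nested nodes of an exact problem** (data only) -/
structure K9aNodes (E : K9E) where
  /-- the earlier node `Q₁` -/
  Y1 : E.Sys
  /-- the later node `Q₂` -/
  Y2 : E.Sys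
  /-- the parent of a later label -/
  up : ∀ k, (Y2 k).C → (Y1 k).C
  r1 : ℝ
  r2 : ℝ
  h1 : ℝ
  h2 : ℝ
  al1 : ℝ
  al2 : ℝ

namespace K9aNodes

variable {E : K9E} (X : K9aNodes E)

/-- `g₁ = N^{-α₁}` -/
def g1 (k : ℕ) : ℝ := E.R.N k ^ (-X.al1)

/-- `g₂ = N^{-α₂}` -/
def g2 (k : ℕ) : ℝ := E.R.N k ^ (-X.al2)

/-- the angle threshold `θ = g₂ N^u` -/
def th (u : ℝ) (k : ℕ) : ℝ := E.R.N k ^ (-(X.al2 - u))

/-- the normal width `g_C = g₂ N^{2u}`, (9.8') -/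
def gC (u : ℝ) (k : ℕ) : ℝ := E.R.N k ^ (-(X.al2 - 2 * u))

/-- the requirements -/
structure Ok (f : ℝ → ℝ → ℝ) : Prop where
  r1_pos : 0 < X.r1
  r12 : X.r1 < X.r2
  r2_lt : X.r2 < E.L
  sys1 : E.IsTrueSys f X.Y1 X.r1 X.h1
  sys2 : E.IsTrueSys f X.Y2 X.r2 X.h2
  sat1 : E.IsSat X.Y1 (f X.r1 0)
  sat2 : E.IsSat X.Y2 (f X.r2 0)
  own1 : E.IsKnown X.Y1 X.r1
  own2 : E.IsKnown X.Y2 X.r2
  nar1 : E.Narrow X.Y1 X.al1
  nar2 : E.Narrow X.Y2 X.al2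
  nest : ∀ᶠ k in uf, ∀ c, (X.Y1 k).wd (X.up k c) = (X.Y2 k).wd c ∧ (X.Y2 k).I c ⊆ (X.Y1 k).I (X.up k c) ∧
    (X.Y2 k).A c ⊆ (X.Y1 k).A (X.up k c) ∧ (X.Y2 k).S c ⊆ (X.Y1 k).S (X.up k c)
  rel : ∀ τ : ℝ, 0 < τ → ∀ᶠ k in uf, ∀ c,
    kbMn (((X.Y1 k).ch (X.up k c)).Di * ((X.Y2 k).ch c).D) ≤ E.R.N k ^ τ * (X.Y2 k).q / (X.Y1 k).q

/-- the largest axes are full -/
def Full : Prop :=
  ∀ τ : ℝ, 0 < τ → ∀ᶠ k in uf, (∀ c, (X.Y1 k).q ≤ E.R.N k ^ τ * kbMn ((X.Y1 k).ch c).D) ∧ ∀ c, (X.Y2 k).q ≤ E.R.N k ^ τ * kbMn ((X.Y2 k).ch c).D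

/-- the earlier labels which are not thin -/
def keep1 (ρ : ℕ → ℝ) (k : ℕ) : Set (X.Y1 k).C := {c | ρ k * (X.Y1 k).q < kbMn ((X.Y1 k).ch c).D}

/-- the later labels which are not thin and whose parent is not thin -/
def keep2 (ρ : ℕ → ℝ) (k : ℕ) : Set (X.Y2 k).C := {c | ρ k * (X.Y2 k).q < kbMn ((X.Y2 k).ch c).D ∧ X.up k c ∈ X.keep1 ρ k}

/-- deletion of the thin charts -/
def cut (ρ : ℕ → ℝ) : K9aNodes E where
  Y1 := fun k => (X.Y1 k).restr (X.keep1 ρ k) fun _ => Set.univ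
  Y2 := fun k => (X.Y2 k).restr (X.keep2 ρ k) fun _ => Set.univ
  up := fun k (c : X.keep2 ρ k) => (⟨X.up k c.1, c.2.2⟩ : X.keep1 ρ k)
  r1 := X.r1
  r2 := X.r2
  h1 := X.h1
  h2 := X.h2
  al1 := X.al1
  al2 := X.al2

/-- **the full-time charts** -/
def Cs (u : ℝ) (t0 : ℕ → ℝ) : E.Sys := fun k => k9Csys (X.Y2 k) (t0 k) (X.gC u k) (X.th u k)

/-- the normal of a full-time chart -/
def nC (u : ℝ) (t0 : ℕ → ℝ) (k : ℕ) (b : (X.Cs u t0 k).C) : K9V := k9NC (X.Y2 k) (t0 k) (X.gC u k) (X.th u k) b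

/-- **(9.9)**: comparison of the full-time charts with the earlier node (`n1` = ANY unit left minor axis of `D₁`; "after a consistent choice of signs" = the cross product) -/
def Cmp (u : ℝ) (t0 : ℕ → ℝ) : Prop :=
  ∀ τ : ℝ, 0 < τ → ∀ᶠ k in uf, ∀ (b : (X.Cs u t0 k).C) (c1 : (X.Y1 k).C), (X.Y1 k).wd c1 = (X.Cs u t0 k).wd b →
    ((X.Cs u t0 k).S b ∩ (X.Y1 k).S c1).Nonempty → ∀ (n1 : K9V) (s S : ℝ), K9Svd (k9D (X.Y1 k) c1) n1 s S →
      |k9crs (X.nC u t0 k b) n1| ≤ E.R.N k ^ τ * X.g1 k ∧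
        |k9dot (X.nC u t0 k b) (((X.Y1 k).ch c1).y1 - ((X.Cs u t0 k).ch b).y1)| ≤ E.R.N k ^ τ * X.g1 k

end K9aNodes

/-- **the context of Sec. 9** (data only) -/
structure K9aCtx where
  S : ℝ
  η : ℝ
  d : ℝ
  k : ℝ
  u : ℝ
  s1 : ℝ
  s2 : ℝ
  E : ℕ → K9E
  f : ℕ → ℝ → ℝ → ℝ
  dd : ℕ → ℝ
  X : ∀ i, K9aNodes (E i)
  /-- the tolerance of the stage `i` -/
  ζ : ℕ → ℝ

/-- the requirements: (9.1)-(9.6) -/
structure K9aCtx.Ok (Z : K9aCtx) : Prop where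
  S_pos : 0 < Z.S
  η_pos : 0 < Z.η
  d_nonneg : 0 ≤ Z.d
  d_lt : Z.d < 1
  k_pos : 0 < Z.k
  k_le : Z.k ≤ 1
  u_pos : 0 < Z.u
  u_lt : Z.u < Z.η
  s1_pos : 0 < Z.s1
  s12 : Z.s1 < Z.s2
  s2_lt : Z.s2 < 1 / 2
  /-- (9.3) -/
  choice : (Z.d + 2 * Z.k) * Z.s2 < Z.S * Z.u / 4
  ζ_pos : ∀ i, 0 < Z.ζ i
  ζ_lim : Tendsto Z.ζ atTop (𝓝 0)
  len : ∀ i, 1 / 2 ≤ (Z.E i).L ∧ (Z.E i).L ≤ 1
  cap : ∀ i, (Z.E i).Cap (Z.dd i) Z.S Z.η (Z.f i)
  dd_le : ∀ i, Z.dd i ≤ Z.d + Z.ζ i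
  /-- `n_i(0) ∼ 1` -/
  zero : ∀ i, Z.f i 0 0 = 0
  /-- (9.1) -/
  prof : ∀ i, ∀ r ∈ Set.Icc (0 : ℝ) (Z.E i).L, |Z.f i r 0 - Z.d * r| ≤ Z.ζ i
  /-- `H(E_i) → k`, in the form in which it is used: (9.18) -/
  excl : ∀ i, KpExcl1 (Z.E i) Z.k (Z.ζ i)
  nodes : ∀ i, (Z.X i).Ok (Z.f i)
  full : ∀ i, (Z.X i).Full
  dep : ∀ i, |(Z.X i).r1 - Z.s1| ≤ Z.ζ i ∧ |(Z.X i).r2 - Z.s2| ≤ Z.ζ i
  /-- (9.4) -/
  hor : ∀ i, |(Z.X i).h1 - Z.k * Z.s1| ≤ Z.ζ i ∧ |(Z.X i).h2 - Z.k * Z.s2| ≤ Z.ζ i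
  nar : ∀ i : ℕ, (i : ℝ) ≤ (Z.X i).al1 ∧ (Z.X i).al1 + (i : ℝ) ≤ (Z.X i).al2

end

end Claimed.Agent.R252

/-!
# ROW 252 (S0492), unit S9a (post BP-252-S9a, sub-architect helper197; chief helper233), file 1: THE INTEGRATED ANGULAR CAP `K9Cap` AT ONE SCALE.      CONTRACT file: the `sorry`s are the leaves L-252-S9a-C*.

09-unbounded-narrowness.tex l.57-68 (only `K₀` hidden bins of width `1/B` at an exact base), l.174-200 (removal of the atypical entries; numerator `≤ K₀ N^{-Su/2}` pure density; the denominator is summed over the good zero-depth ancestors).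
PAPER-FREE.  ONE scale, explicit slacks.  STATEMENTS ARE FROZEN (defects: one line to helper197).  Provers replace the `sorry`s IN PLACE, helper lemmas directly above, prefix `k9a_`.   All statements of the imported contract files may be cited even while they are `sorry`.

* s1  abstract layer (language of `S2a/DenContract`): `k9a_count`, `k9a_cap_num`, `k9a_cap_den`, glue `k9a_cap_abs`.
* s2  the native depth-zero system `k9aNat P K` (one chart per world, whole time interval, test `P_*`): it turns `k2s_cross_meas/mem/bins` of `S2s/Sat` into "at an exact base only `64 K²` hidden bins of width `1/B` occur".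
* s3  the good incidences `k9aGood` (three density thresholds) and **`k9a_cap`**.
-/

set_option autoImplicit false

namespace Claimed.Agent.R252

open MeasureTheory
open scoped ENNReal BigOperators

noncomputable section

/-! ## 1. The abstract layer -/

section abs

variable {Ω O : Type} [MeasurableSpace Ω] [MeasurableSpace O] {D D' E : Type}

variable {vol : Measure O} {μ : Measure Ω} {b : Ω → O} {ℓ : Ω → D}

/-- LEAF C1 (~60 l.).  **Counting.**  Measurable sets `Z i`, every point lies in at most `m` of them.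
PLAN: `∑' i, vol (U ∩ Z i) = ∑' i, ∫⁻ o in U, (Z i).indicator 1 o = ∫⁻ o in U, ∑' i, (Z i).indicator 1 o` (`lintegral_tsum`, `lintegral_indicator_one`, `Measure.restrict_apply`);
pointwise `∑' i, (Z i).indicator 1 o ≤ m` : the summand vanishes outside the list `L` (`tsum_eq_sum`), each term is `≤ 1`;  `setLIntegral_const`. -/
theorem k9a_count {ι : Type} [Countable ι] (vol : Measure O) (Z : ι → Set O) (hZ : ∀ i, MeasurableSet (Z i)) (m : ℕ)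
    (hm : ∀ o, ∃ L : Finset ι, L.card ≤ m ∧ ∀ i, o ∈ Z i → i ∈ L) (U : Set O) : ∑' i, vol (U ∩ Z i) ≤ m * vol U := by
  have h1 : ∀ i, vol (U ∩ Z i) = ∫⁻ o in U, (Z i).indicator 1 o ∂vol := fun i => by
    rw [lintegral_indicator_one (hZ i), Measure.restrict_apply (hZ i), Set.inter_comm]
  simp_rw [h1]
  rw [← lintegral_tsum (fun i => (measurable_one.indicator (hZ i)).aemeasurable)]
  calc ∫⁻ o in U, ∑' i, (Z i).indicator 1 o ∂vol ≤ ∫⁻ _o in U, (m : ℝ≥0∞) ∂vol := by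
        refine lintegral_mono fun o => ?_
        obtain ⟨L, hL, hmem⟩ := hm o
        rw [tsum_eq_sum (s := L) (fun i hi => Set.indicator_of_notMem (fun h => hi (hmem i h)) _)]
        calc ∑ i ∈ L, (Z i).indicator (1 : O → ℝ≥0∞) o ≤ ∑ _i ∈ L, (1 : ℝ≥0∞) :=
              Finset.sum_le_sum fun i _ => Set.indicator_le_self' (fun _ _ => zero_le) o
          _ = L.card := by simp
          _ ≤ m := by exact_mod_cast hL
    _ = m * vol U := by rw [setLIntegral_const]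

/-- LEAF C2 (~120 l.).  **The numerator.**  `ℓ` = fine hidden bin, `β` = angular bin, `ZV d e` = bases at which the angular bin `e` is listed at the hidden bin `d` (at most `n1` of them), `U d` = any measurable sets of bases.
PLAN: the set is `{x | b x ∈ T (k2aPair ℓ β x)}`, `T (d,e) = U d ∩ ZV d e ∩ {o | den (d,e) o ≤ hiJ}` (measurable: `k2a_den_meas`);  `k2a_measure h (k2a_lab_pair hℓ hβ)`;
`∫⁻ o in T (d,e), den (d,e) ≤ hiJ * vol (U d ∩ ZV d e)` (`setLIntegral_mono'`/`lintegral_mono` + `setLIntegral_const`, `measure_mono`);  `ENNReal.tsum_prod`, `ENNReal.tsum_mul_left`;  `k9a_count` in `e` for each `d`. -/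
theorem k9a_cap_num [Countable D] [Countable D'] (h : K2aFr vol μ b) (hℓ : K2aLab ℓ) {β : Ω → D'} (hβ : K2aLab β)
    (ZV : D → D' → Set O) (hZV : ∀ d e, MeasurableSet (ZV d e)) (n1 : ℕ) (h1 : ∀ d o, ∃ L : Finset D', L.card ≤ n1 ∧ ∀ e, o ∈ ZV d e → e ∈ L)
    (U : D → Set O) (hU : ∀ d, MeasurableSet (U d)) (hiJ : ℝ≥0∞) :
    μ {x | b x ∈ U (ℓ x) ∧ b x ∈ ZV (ℓ x) (β x) ∧ k2aDn vol μ b (k2aPair ℓ β) x ≤ hiJ} ≤ n1 * hiJ * ∑' d, vol (U d) := by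
  set T : D × D' → Set O := fun p => U p.1 ∩ ZV p.1 p.2 ∩ {o | k2aDen vol μ b (k2aPair ℓ β) p o ≤ hiJ} with hTdef
  have hT : ∀ p, MeasurableSet (T p) := fun p =>
    ((hU _).inter (hZV _ _)).inter (measurableSet_le (k2a_den_meas _ _ _ _ _) measurable_const)
  have hset : {x | b x ∈ U (ℓ x) ∧ b x ∈ ZV (ℓ x) (β x) ∧ k2aDn vol μ b (k2aPair ℓ β) x ≤ hiJ} = {x | b x ∈ T (k2aPair ℓ β x)} := by
    ext x
    constructor
    · rintro ⟨a1, a2, a3⟩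
      exact ⟨⟨a1, a2⟩, a3⟩
    · rintro ⟨⟨a1, a2⟩, a3⟩
      exact ⟨a1, a2, a3⟩
  rw [hset, k2a_measure h (k2a_lab_pair hℓ hβ) hT]
  have h2 : ∀ p : D × D', ∫⁻ o in T p, k2aDen vol μ b (k2aPair ℓ β) p o ∂vol ≤ hiJ * vol (U p.1 ∩ ZV p.1 p.2) := by
    intro p
    calc ∫⁻ o in T p, k2aDen vol μ b (k2aPair ℓ β) p o ∂vol ≤ ∫⁻ _o in T p, hiJ ∂vol := setLIntegral_mono' (hT p) fun o ho => ho.2
      _ = hiJ * vol (T p) := setLIntegral_const _ _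
      _ ≤ hiJ * vol (U p.1 ∩ ZV p.1 p.2) := mul_le_mul_right (measure_mono Set.inter_subset_left) _
  calc ∑' p, ∫⁻ o in T p, k2aDen vol μ b (k2aPair ℓ β) p o ∂vol ≤ ∑' p : D × D', hiJ * vol (U p.1 ∩ ZV p.1 p.2) := ENNReal.tsum_le_tsum h2
    _ = ∑' d, ∑' e, hiJ * vol (U d ∩ ZV d e) := ENNReal.tsum_prod (f := fun d e => hiJ * vol (U d ∩ ZV d e))
    _ = ∑' d, hiJ * ∑' e, vol (U d ∩ ZV d e) := by simp_rw [ENNReal.tsum_mul_left]
    _ ≤ ∑' d, hiJ * (n1 * vol (U d)) := ENNReal.tsum_le_tsum fun d => mul_le_mul_right (k9a_count vol (ZV d) (hZV d) n1 (h1 d) (U d)) _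
    _ = n1 * hiJ * ∑' d, vol (U d) := by
        rw [← ENNReal.tsum_mul_left]
        exact tsum_congr fun d => by ring

/-- LEAF C3 (~150 l.).  **The denominator.**  `φ ∘ ℓ` = zero-depth ancestor; `ZE e` = bases at which the ancestor `e` is permitted (at most `n0` of them).
PLAN: `W e := R ∩ ZE e ∩ {o | den (φ∘ℓ) e o ≤ hi0}`.   (i) `loL * vol (W (φ d) ∩ {loL ≤ den d}) ≤ ∫⁻ o in W (φ d), den d o` (`setLIntegral_const` + monotonicity).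
(ii) `∑' d, ∫⁻ o in W (φ d), den d o = ∑' e, ∫⁻ o in W e, ∑' d, (φ ⁻¹' {e}).indicator (den · o) d` (insert `∑' e, if φ d = e ..` : `tsum_ite_eq`-type step, `ENNReal.tsum_comm`, `lintegral_tsum`).
(iii) `= ∑' e, ∫⁻ o in W e, den (φ∘ℓ) e o` by `k2a_den_comp h hℓ φ e` (`lintegral_congr_ae`, `ae_restrict_of_ae`) `≤ hi0 * ∑' e, vol (R ∩ ZE e) ≤ hi0 * (n0 * vol R)` (`k9a_count`). -/
theorem k9a_cap_den [Countable D] [Countable E] (h : K2aFr vol μ b) (hℓ : K2aLab ℓ) (φ : D → E)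
    (ZE : E → Set O) (hZE : ∀ e, MeasurableSet (ZE e)) (n0 : ℕ) (h0 : ∀ o, ∃ L : Finset E, L.card ≤ n0 ∧ ∀ e, o ∈ ZE e → e ∈ L)
    {R : Set O} (hR : MeasurableSet R) (loL hi0 : ℝ≥0∞) :
    loL * ∑' d, vol (R ∩ ZE (φ d) ∩ {o | loL ≤ k2aDen vol μ b ℓ d o ∧ k2aDen vol μ b (φ ∘ ℓ) (φ d) o ≤ hi0}) ≤ n0 * hi0 * vol R := by
  classical
  set W : E → Set O := fun e => R ∩ ZE e ∩ {o | k2aDen vol μ b (φ ∘ ℓ) e o ≤ hi0} with hWdef
  have hWm : ∀ e, MeasurableSet (W e) := fun e =>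
    (hR.inter (hZE e)).inter (measurableSet_le (k2a_den_meas _ _ _ _ _) measurable_const)
  have h1 : ∀ d, loL * vol (R ∩ ZE (φ d) ∩ {o | loL ≤ k2aDen vol μ b ℓ d o ∧ k2aDen vol μ b (φ ∘ ℓ) (φ d) o ≤ hi0})
      ≤ ∫⁻ o in W (φ d), k2aDen vol μ b ℓ d o ∂vol := by
    intro d
    have hA : MeasurableSet (R ∩ ZE (φ d) ∩ {o | loL ≤ k2aDen vol μ b ℓ d o ∧ k2aDen vol μ b (φ ∘ ℓ) (φ d) o ≤ hi0}) :=
      (hR.inter (hZE _)).inter ((measurableSet_le measurable_const (k2a_den_meas _ _ _ _ _)).inter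
        (measurableSet_le (k2a_den_meas _ _ _ _ _) measurable_const))
    calc loL * vol (R ∩ ZE (φ d) ∩ {o | loL ≤ k2aDen vol μ b ℓ d o ∧ k2aDen vol μ b (φ ∘ ℓ) (φ d) o ≤ hi0})
        = ∫⁻ _o in R ∩ ZE (φ d) ∩ {o | loL ≤ k2aDen vol μ b ℓ d o ∧ k2aDen vol μ b (φ ∘ ℓ) (φ d) o ≤ hi0}, loL ∂vol := (setLIntegral_const _ _).symm
      _ ≤ ∫⁻ o in R ∩ ZE (φ d) ∩ {o | loL ≤ k2aDen vol μ b ℓ d o ∧ k2aDen vol μ b (φ ∘ ℓ) (φ d) o ≤ hi0}, k2aDen vol μ b ℓ d o ∂vol :=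
          setLIntegral_mono' hA fun o ho => ho.2.1
      _ ≤ ∫⁻ o in W (φ d), k2aDen vol μ b ℓ d o ∂vol := lintegral_mono_set fun o ho => ⟨ho.1, ho.2.2⟩
  have hm : ∀ e d, Measurable fun o => (φ ⁻¹' {e}).indicator (fun d => k2aDen vol μ b ℓ d o) d := by
    intro e d
    by_cases hd : d ∈ φ ⁻¹' {e}
    · simp only [Set.indicator_of_mem hd]
      exact k2a_den_meas _ _ _ _ _
    · simp only [Set.indicator_of_notMem hd]
      exact measurable_const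
  have h2 : ∑' d, ∫⁻ o in W (φ d), k2aDen vol μ b ℓ d o ∂vol
      = ∑' e, ∫⁻ o in W e, ∑' d, (φ ⁻¹' {e}).indicator (fun d => k2aDen vol μ b ℓ d o) d ∂vol := by
    have h3 : ∀ e, ∫⁻ o in W e, ∑' d, (φ ⁻¹' {e}).indicator (fun d => k2aDen vol μ b ℓ d o) d ∂vol
        = ∑' d, ∫⁻ o in W e, (φ ⁻¹' {e}).indicator (fun d => k2aDen vol μ b ℓ d o) d ∂vol :=
      fun e => lintegral_tsum fun d => (hm e d).aemeasurable
    simp_rw [h3]
    rw [ENNReal.tsum_comm]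
    refine tsum_congr fun d => ?_
    rw [tsum_eq_single (φ d)]
    · have hd : d ∈ φ ⁻¹' {φ d} := rfl
      simp only [Set.indicator_of_mem hd]
    · intro e he
      have hd : d ∉ φ ⁻¹' {e} := fun hh => he (Eq.symm hh)
      simp only [Set.indicator_of_notMem hd, lintegral_zero]
  have h3 : ∀ e, ∫⁻ o in W e, ∑' d, (φ ⁻¹' {e}).indicator (fun d => k2aDen vol μ b ℓ d o) d ∂vol ≤ hi0 * vol (R ∩ ZE e) := by
    intro e
    rw [← lintegral_congr_ae (ae_restrict_of_ae (k2a_den_comp h hℓ φ e))]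
    calc ∫⁻ o in W e, k2aDen vol μ b (φ ∘ ℓ) e o ∂vol ≤ ∫⁻ _o in W e, hi0 ∂vol := setLIntegral_mono' (hWm e) fun o ho => ho.2
      _ = hi0 * vol (W e) := setLIntegral_const _ _
      _ ≤ hi0 * vol (R ∩ ZE e) := mul_le_mul_right (measure_mono Set.inter_subset_left) _
  calc loL * ∑' d, vol (R ∩ ZE (φ d) ∩ {o | loL ≤ k2aDen vol μ b ℓ d o ∧ k2aDen vol μ b (φ ∘ ℓ) (φ d) o ≤ hi0})
      = ∑' d, loL * vol (R ∩ ZE (φ d) ∩ {o | loL ≤ k2aDen vol μ b ℓ d o ∧ k2aDen vol μ b (φ ∘ ℓ) (φ d) o ≤ hi0}) := ENNReal.tsum_mul_left.symm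
    _ ≤ ∑' d, ∫⁻ o in W (φ d), k2aDen vol μ b ℓ d o ∂vol := ENNReal.tsum_le_tsum h1
    _ = ∑' e, ∫⁻ o in W e, ∑' d, (φ ⁻¹' {e}).indicator (fun d => k2aDen vol μ b ℓ d o) d ∂vol := h2
    _ ≤ ∑' e, hi0 * vol (R ∩ ZE e) := ENNReal.tsum_le_tsum h3
    _ = hi0 * ∑' e, vol (R ∩ ZE e) := ENNReal.tsum_mul_left
    _ ≤ hi0 * (n0 * vol R) := mul_le_mul_right (k9a_count vol ZE hZE n0 h0 R) _
    _ = n0 * hi0 * vol R := by ring

/-- **the integrated cap, abstract form** (glue of C2, C3) -/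
theorem k9a_cap_abs [Countable D] [Countable D'] [Countable E] (h : K2aFr vol μ b) (hℓ : K2aLab ℓ) {β : Ω → D'} (hβ : K2aLab β) (φ : D → E)
    (ZV : D → D' → Set O) (hZV : ∀ d e, MeasurableSet (ZV d e)) (n1 : ℕ) (h1 : ∀ d o, ∃ L : Finset D', L.card ≤ n1 ∧ ∀ e, o ∈ ZV d e → e ∈ L)
    (ZE : E → Set O) (hZE : ∀ e, MeasurableSet (ZE e)) (n0 : ℕ) (h0 : ∀ o, ∃ L : Finset E, L.card ≤ n0 ∧ ∀ e, o ∈ ZE e → e ∈ L)
    {R : Set O} (hR : MeasurableSet R) (hiJ loL hi0 : ℝ≥0∞) :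
    loL * μ {x | b x ∈ R ∧ b x ∈ ZV (ℓ x) (β x) ∧ b x ∈ ZE (φ (ℓ x)) ∧ k2aDn vol μ b (k2aPair ℓ β) x ≤ hiJ ∧ loL ≤ k2aDn vol μ b ℓ x ∧
        k2aDn vol μ b (φ ∘ ℓ) x ≤ hi0} ≤ n1 * hiJ * (n0 * hi0 * vol R) := by
  set U : D → Set O := fun d => R ∩ ZE (φ d) ∩ {o | loL ≤ k2aDen vol μ b ℓ d o ∧ k2aDen vol μ b (φ ∘ ℓ) (φ d) o ≤ hi0} with hUdef
  have hU : ∀ d, MeasurableSet (U d) := fun d =>
    (hR.inter (hZE _)).inter ((measurableSet_le measurable_const (k2a_den_meas _ _ _ _ _)).inter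
      (measurableSet_le (k2a_den_meas _ _ _ _ _) measurable_const))
  have hsub : {x | b x ∈ R ∧ b x ∈ ZV (ℓ x) (β x) ∧ b x ∈ ZE (φ (ℓ x)) ∧ k2aDn vol μ b (k2aPair ℓ β) x ≤ hiJ ∧ loL ≤ k2aDn vol μ b ℓ x ∧
      k2aDn vol μ b (φ ∘ ℓ) x ≤ hi0} ⊆ {x | b x ∈ U (ℓ x) ∧ b x ∈ ZV (ℓ x) (β x) ∧ k2aDn vol μ b (k2aPair ℓ β) x ≤ hiJ} := by
    rintro x ⟨a1, a2, a3, a4, a5, a6⟩
    exact ⟨⟨⟨a1, a3⟩, a5, a6⟩, a2, a4⟩
  calc loL * μ _ ≤ loL * (n1 * hiJ * ∑' d, vol (U d)) := by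
        gcongr
        exact (measure_mono hsub).trans (k9a_cap_num h hℓ hβ ZV hZV n1 h1 U hU hiJ)
    _ = n1 * hiJ * (loL * ∑' d, vol (U d)) := by ring
    _ ≤ n1 * hiJ * (n0 * hi0 * vol R) :=
        mul_le_mul_right (k9a_cap_den h hℓ φ ZE hZE n0 h0 hR loL hi0) _

end abs

/-! ## 2. The native depth-zero system -/

section nat

variable {v : KbVer} (P : KbPb v)

/-- **the native system**: one chart per world, the whole time interval, the box `‖y‖ ≤ K`, the native test -/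
def k9aNat (K : ℝ) : KbSys P where
  n := 0
  C := P.W
  fC := P.fW
  wd := fun γ => γ
  iv := fun _ => 0
  A := P.Sp
  S := fun γ => P.Ev γ ∩ {x | x.2 < 1}
  ch := fun γ =>
    { y0 := 0
      y1 := 0
      D := K • (1 : Matrix (Fin v.j) (Fin v.j) ℝ)
      Di := K⁻¹ • (1 : Matrix (Fin v.j) (Fin v.j) ℝ)
      T := P.Pst γ }

variable {P}

theorem k9a_nat_I (K : ℝ) (γ : P.W) : (k9aNat P K).I γ = Set.Ico (0 : ℝ) 1 := by
  show kbI 0 0 = Set.Ico (0 : ℝ) 1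
  unfold kbI kbQ
  norm_num

theorem k9a_nat_q (K : ℝ) : (k9aNat P K).q = 1 := by
  show kbQ 0 = 1
  unfold kbQ
  norm_num

/-- LEAF C4 (with the next two, ~150 l. together).  (`I c = kbI 0 0 = Ico 0 1`; `hP.Ev_sub`; two different labels have different worlds.) -/
theorem k9a_nat_wf (hP : P.WF) {K : ℝ} (hK : 0 < K) : (k9aNat P K).WF where
  iv_lt := fun _ => by
    show 0 < 2 ^ 0
    norm_num
  A_meas := fun γ => hP.Sp_meas γ
  A_sub := fun _ => subset_rfl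
  A_disj := fun c c' hne hw _ => absurd hw hne
  S_meas := fun γ => (hP.Ev_meas γ).inter (measurableSet_lt measurable_snd measurable_const)
  S_sub := fun γ x hx => by
    have h1 : x ∈ P.Ev γ := hx.1
    have h2 : x.2 < 1 := hx.2
    have h3 := hP.Ev_sub γ h1
    refine ⟨h1, h3.1, ?_⟩
    have e : (k9aNat P K).I γ = Set.Ico (0 : ℝ) 1 := k9a_nat_I K γ
    rw [e]
    exact ⟨h3.2.1, h2⟩
  inv := fun _ => by
    show (K • (1 : Matrix (Fin v.j) (Fin v.j) ℝ)) * (K⁻¹ • (1 : Matrix (Fin v.j) (Fin v.j) ℝ)) = 1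
    rw [Matrix.smul_mul, Matrix.mul_smul, smul_smul, mul_inv_cancel₀ hK.ne', one_smul, mul_one]
  adm := fun γ => hP.Pst_adm γ

theorem k9a_nat_mn (K : ℝ) (hK : 0 ≤ K) : kbMn (K • (1 : Matrix (Fin v.j) (Fin v.j) ℝ)) ≤ 2 * K := by
  unfold kbMn
  have h1 : ∀ i : Fin v.j, ∑ k, |(K • (1 : Matrix (Fin v.j) (Fin v.j) ℝ)) i k| = K := by
    intro i
    rw [Finset.sum_eq_single i]
    · rw [Matrix.smul_apply, Matrix.one_apply_eq, smul_eq_mul, mul_one, abs_of_nonneg hK]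
    · intro k _ hk
      rw [Matrix.smul_apply, Matrix.one_apply_ne (Ne.symm hk), smul_zero, abs_zero]
    · intro h
      exact absurd (Finset.mem_univ i) h
  rw [Finset.sum_congr rfl fun i _ => h1 i, Finset.sum_const, Finset.card_univ, Fintype.card_fin, nsmul_eq_mul]
  have hj : (v.j : ℝ) ≤ 2 := by
    cases v
    · show ((1 : ℕ) : ℝ) ≤ 2
      norm_num
    · show ((2 : ℕ) : ℝ) ≤ 2
      norm_num
  exact mul_le_mul_of_nonneg_right hj hK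

/-- (`q = 1`; `kbMn (K • 1) = j K ≤ 2 K`; `Di.mulVec y = K⁻¹ • y`, `‖y(t)‖ ≤ K` by `hN.base`; the other four fields are `hN.sig`, `hN.dw`, `hN.dw_low`, `hN.dww` with `K ≤ 2 K`, `hP.B_pos`.) -/
theorem k9a_nat_geo (hP : P.WF) {K : ℝ} (hK : 1 ≤ K) (hN : P.Ntv K) : (k9aNat P K).Geo (2 * K) 1 := by
  have hK0 : 0 < K := by linarith
  have hI : ∀ γ : P.W, ∀ t ∈ (k9aNat P K).I γ, t ∈ Set.Icc (0 : ℝ) 1 := by
    intro γ t ht
    rw [k9a_nat_I] at ht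
    exact ⟨ht.1, ht.2.le⟩
  refine ⟨fun γ => ?_, fun γ l hl t ht => ?_, fun γ l hl t ht => ?_, fun γ l hl t ht => ?_, fun γ x hx => ?_, fun γ t y w => ?_⟩
  · rw [k9a_nat_q, one_mul]
    exact k9a_nat_mn K hK0.le
  · show ‖(K⁻¹ • (1 : Matrix (Fin v.j) (Fin v.j) ℝ)).mulVec (kbY (P.co γ l) t - ((0 : KbB v) + t • (0 : KbB v)))‖ ≤ 2 * K
    rw [smul_zero, add_zero, sub_zero, Matrix.smul_mulVec, Matrix.one_mulVec, norm_smul, norm_inv, Real.norm_eq_abs,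
      abs_of_pos hK0]
    have h1 := hN.base γ l hl t (hI γ t ht)
    have h2 : ‖kbY (P.co γ l) t‖ ≤ K := by
      have := norm_nonneg (kbV (P.co γ l))
      linarith
    calc K⁻¹ * ‖kbY (P.co γ l) t‖ ≤ K⁻¹ * K := mul_le_mul_of_nonneg_left h2 (by positivity)
      _ = 1 := inv_mul_cancel₀ hK0.ne'
      _ ≤ 2 * K := by linarith
  · have h1 := hN.sig γ l hl t (hI γ t ht)
    show |kbX (P.Pst γ) (P.co γ l) t| ≤ 2 * K * 1
    linarith
  · have h1 := hN.dw γ l hl t (hI γ t ht)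
    have h2 := hP.B_pos γ
    show |kbX (kbDw (P.Pst γ)) (P.co γ l) t| ≤ 2 * K * P.B γ
    have : 0 ≤ K * P.B γ := by positivity
    linarith
  · have h1 := hN.dw_low γ x hx.1
    show P.B γ ≤ 2 * K * |kbX (kbDw (P.Pst γ)) (P.co γ x.1) x.2|
    have : 0 ≤ K * |kbX (kbDw (P.Pst γ)) (P.co γ x.1) x.2| := by positivity
    linarith
  · have h1 := hN.dww γ t y w
    show |kbDww (P.Pst γ) t y w| * 1 ≤ 2 * K * P.B γ ^ 2
    have : 0 ≤ K * P.B γ ^ 2 := by positivity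
    linarith

/-- almost every incidence is selected by the native system (`mu γ` lives on `Ev γ`: `k2s_mu_compl`; `{x | x.2 = 1}` is null for `ν × dt`; `hP.Ev_sub` gives `x.2 ≤ 1`) -/
theorem k9a_nat_ae (hP : P.WF) (K : ℝ) (γ : P.W) : ∀ᵐ x ∂P.mu γ, x ∈ (k9aNat P K).S γ := by
  rw [ae_iff]
  have hsub : {x | ¬ x ∈ (k9aNat P K).S γ} ⊆ (P.Ev γ)ᶜ ∪ (Set.univ : Set P.Lam) ×ˢ ({1} : Set ℝ) := by
    intro x hx
    by_cases hE : x ∈ P.Ev γ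
    · right
      refine ⟨Set.mem_univ _, ?_⟩
      have h1 := (hP.Ev_sub γ hE).2.2
      have h2 : ¬ x.2 < 1 := fun h => hx ⟨hE, h⟩
      exact le_antisymm h1 (not_lt.1 h2)
    · left
      exact hE
  have h1 : P.mu γ ((Set.univ : Set P.Lam) ×ˢ ({1} : Set ℝ)) = 0 := by
    have h2 : P.mu γ ((Set.univ : Set P.Lam) ×ˢ ({1} : Set ℝ)) ≤ ((P.nu γ).prod KbPb.tm) ((Set.univ : Set P.Lam) ×ˢ ({1} : Set ℝ)) :=
      Measure.restrict_apply_le _ _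
    have h3 : KbPb.tm ({1} : Set ℝ) = 0 := by
      have : KbPb.tm ({1} : Set ℝ) ≤ volume ({1} : Set ℝ) := Measure.restrict_apply_le _ _
      rw [Real.volume_singleton] at this
      exact le_antisymm this zero_le
    have : SFinite KbPb.tm := by unfold KbPb.tm; infer_instance
    rw [Measure.prod_prod, h3, mul_zero] at h2
    exact le_antisymm h2 zero_le
  exact measure_mono_null hsub (measure_union_null (k2s_mu_compl _ hP γ) h1)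

end nat

/-! ## 3. The good incidences and the cap -/

variable {P : K9P}

/-- the good incidences (09 l.174-178): joint angular ceiling, pure terminal floor, zero-depth ceiling -/
def k9aGood (P : K9P) (aL b hiJ loL hi0 : ℝ) : P.W → Set (P.Lam × ℝ) := fun γ =>
  {x | P.dn (P.hv aL b) γ x ≤ ENNReal.ofReal hiJ ∧ ENNReal.ofReal loL ≤ P.dn (P.hid aL) γ x ∧ P.dn (P.hid 1) γ x ≤ ENNReal.ofReal hi0}

/-- LEAF C5 (with the next one, ~60 l.).  (`k2a_dn_measurable`, `k2a_hv_meas`, `k2a_hid_meas`, `measurableSet_le`) -/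
theorem k9a_good_meas (hP : P.WF) (aL b hiJ loL hi0 : ℝ) (γ : P.W) : MeasurableSet (k9aGood P aL b hiJ loL hi0 γ) := by
  exact (measurableSet_le (k2a_dn_measurable hP (k2a_hv_meas hP aL b) γ) measurable_const).inter
    ((measurableSet_le measurable_const (k2a_dn_measurable hP (k2a_hid_meas hP aL) γ)).inter
      (measurableSet_le (k2a_dn_measurable hP (k2a_hid_meas hP 1) γ) measurable_const))

/-- the atypical entries (`k2a_mass_mono`, `k2a_mass_union`; `not_le`) -/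
theorem k9a_good_compl (P : K9P) (aL b hiJ loL hi0 : ℝ) :
    P.mass (fun γ => (k9aGood P aL b hiJ loL hi0 γ)ᶜ) ≤ P.mass (P.above (P.hv aL b) hiJ) + P.mass (P.below (P.hid aL) loL) + P.mass (P.above (P.hid 1) hi0) := by
  refine le_trans (k2a_mass_mono (A' := fun γ => (P.above (P.hv aL b) hiJ γ ∪ P.below (P.hid aL) loL γ) ∪ P.above (P.hid 1) hi0 γ) fun γ x hx => ?_)
    ((k2a_mass_union _ _).trans (add_le_add (k2a_mass_union _ _) le_rfl))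
  by_contra hcon
  simp only [Set.mem_union, not_or] at hcon
  exact hx ⟨not_lt.1 hcon.1.1, not_lt.1 hcon.1.2, not_lt.1 hcon.2⟩

/-- the velocity bins of width `b` which meet the `ρ`-ball about `z` -/
def k9aVB (b ρ : ℝ) (z : K9V) : Set (Fin KbVer.two.j → ℤ) := {e | ∃ V : K9V, (∀ i, |V i - z i| ≤ ρ) ∧ ∀ i, kbBin b (V i) = e i}

/-- LEAF C6 (~40 l.).  (`k2s_bin_ball_pi` with `m = 2`: `(2 ρ / b + 2)² ≤ 16`; `pi_norm_le_iff_of_nonneg`) -/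
theorem k9a_VB_card {b ρ : ℝ} (hρ : 0 ≤ ρ) (hb : ρ ≤ b) (hb0 : 0 < b) (z : K9V) : ∃ L : Finset (Fin KbVer.two.j → ℤ), L.card ≤ 16 ∧ ∀ e ∈ k9aVB b ρ z, e ∈ L := by
  obtain ⟨S, hS, hmem⟩ := k2s_bin_ball_pi (m := 2) hb0 hρ z
  refine ⟨S, ?_, ?_⟩
  · have h1 : 2 * ρ / b + 2 ≤ 4 := by
      have : 2 * ρ / b ≤ 2 := by
        rw [div_le_iff₀ hb0]
        linarith
      linarith
    have h0 : 0 ≤ 2 * ρ / b + 2 := by positivity
    have h2 : (S.card : ℝ) ≤ 16 := by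
      calc (S.card : ℝ) ≤ (2 * ρ / b + 2) ^ 2 := hS
        _ ≤ 4 ^ 2 := pow_le_pow_left₀ h0 h1 2
        _ = 16 := by norm_num
    exact_mod_cast h2
  · rintro e ⟨V, hV, he⟩
    have h3 := hmem V ((pi_norm_le_iff_of_nonneg hρ).2 fun i => by simpa [Real.norm_eq_abs] using hV i)
    have h4 : (fun i => kbBin b (V i)) = e := funext he
    rwa [h4] at h3

/-- LEAF C7 (~250 l.).  **THE INTEGRATED ANGULAR CAP.**
PLAN.  Fix `γ, ι, Lst, ctr, R`.   `Y₀ := k9aNat P K`.   Apply `k9a_cap_abs (k2a_fr hP γ) (k2a_hid_meas hP aL γ) (β := P.vel b γ) (k2a_vel_meas hP b γ) φ` with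
* `φ` from `k2a_bin_nest` (`x = aL / B γ ≤ y = 1 / B γ`, as in the proof of `k2a_angular_pb`): `P.hid 1 γ = φ ∘ P.hid aL γ`;
* `ZV d e := ⋃ c, ⋃ (_ : e ∈ k9aVB b ρ (ctr c)), {o | c ∈ Lst d o}` (countable union), `n1 := 16 * ⌊Kl⌋₊` : at `(d, o)` the list is `(Lst d o).biUnion` of the lists of `k9a_VB_card`;
* `ZE e := k2sCross Y₀ (2 * K) 1 γ e`, `n0 := ⌊16 * (2 * K) ^ 2⌋₊` (`k2s_cross_meas`, `k2s_cross_bins`, with `k9a_nat_wf`).
The set of `K9Cap` is a.e. contained in the set of `k9a_cap_abs` (`measure_mono_ae`): `b x ∈ ZE (φ (ℓ x))` for a.e. `x` by `k9a_nat_ae` and `k2s_cross_mem` (`k9a_nat_geo`), `b x ∈ ZV ..` by the definition of `P.vel`; the three density conditions are `k9aGood`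
(`P.dn = k2aDn`, `P.hv = k2aPair` by `rfl`: `k2a_dn_eq`, `k2a_lpair_eq`).   Finally divide by `loL` : `ENNReal.ofReal loL * m ≤ X → m ≤ ofReal (../loL) * vol R` (`ENNReal.ofReal_mul`, `ENNReal.le_div_iff_mul_le` or multiply by `ofReal loL⁻¹`). -/
theorem k9a_cap (hP : P.WF) {K aL b ρ hiJ loL hi0 Kl : ℝ} (hK : 1 ≤ K) (hN : P.Ntv K) (haL : 0 < aL) (haL1 : aL ≤ 1) (hρ : 0 ≤ ρ) (hρb : ρ ≤ b) (hb : 0 < b)
    (hlo : 0 < loL) (hhiJ : 0 ≤ hiJ) (hhi0 : 0 ≤ hi0) (hKl : 0 ≤ Kl) :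
    K9Cap P (k9aGood P aL b hiJ loL hi0) aL ρ (1024 * K ^ 2 * Kl * hiJ * hi0 / loL) Kl := by
  classical
  intro γ ι _ Lst ctr R hcard hmeas hR
  have hB := hP.B_pos γ
  have hK0 : 0 < K := by linarith
  obtain ⟨n, -, hn⟩ := k2a_bin_nest (x := aL / P.B γ) (y := 1 / P.B γ) (by positivity) (by gcongr)
  have hφ : P.hid 1 γ = (fun z : ℤ => z / (2 ^ n : ℤ)) ∘ P.hid aL γ := by
    funext x
    exact hn _
  have hY := k9a_nat_wf hP hK0
  have hG := k9a_nat_geo hP hK hN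
  obtain ⟨ZV, hZVdef⟩ : ∃ ZV : ℤ → (Fin KbVer.two.j → ℤ) → Set (ℝ × KbB KbVer.two),
      ZV = fun d e => ⋃ c ∈ {c | e ∈ k9aVB b ρ (ctr c)}, {o | c ∈ Lst d o} := ⟨_, rfl⟩
  have hZV : ∀ d e, MeasurableSet (ZV d e) := fun d e => by
    rw [hZVdef]
    exact MeasurableSet.biUnion (Set.to_countable _) fun c _ => hmeas d c
  have h1 : ∀ d o, ∃ L : Finset (Fin KbVer.two.j → ℤ), L.card ≤ 16 * ⌊Kl⌋₊ ∧ ∀ e, o ∈ ZV d e → e ∈ L := by
    intro d o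
    choose Lc hLc1 hLc2 using fun c => k9a_VB_card hρ hρb hb (ctr c)
    refine ⟨(Lst d o).biUnion Lc, ?_, ?_⟩
    · calc ((Lst d o).biUnion Lc).card ≤ ∑ c ∈ Lst d o, (Lc c).card := Finset.card_biUnion_le
        _ ≤ ∑ _c ∈ Lst d o, 16 := Finset.sum_le_sum fun c _ => hLc1 c
        _ = (Lst d o).card * 16 := by simp
        _ ≤ ⌊Kl⌋₊ * 16 := Nat.mul_le_mul_right _ (Nat.le_floor (hcard d o))
        _ = 16 * ⌊Kl⌋₊ := mul_comm _ _
    · intro e he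
      rw [hZVdef] at he
      obtain ⟨c, hc, hco⟩ := Set.mem_iUnion₂.1 he
      exact Finset.mem_biUnion.2 ⟨c, hco, hLc2 c e hc⟩
  have hZE : ∀ e, MeasurableSet (k2sCross (k9aNat P K) (2 * K) 1 γ e) := fun e => k2s_cross_meas _ hY _ _ _ _
  have h0 : ∀ o, ∃ L : Finset ℤ, L.card ≤ ⌊16 * (2 * K) ^ 2⌋₊ ∧ ∀ e, o ∈ k2sCross (k9aNat P K) (2 * K) 1 γ e → e ∈ L :=
    fun o => k2s_cross_bins _ hP hY (by linarith) one_pos γ o
  have key := k9a_cap_abs (k2a_fr hP γ) (k2a_hid_meas hP aL γ) (β := P.vel b γ) (k2a_vel_meas hP b γ) (fun z : ℤ => z / (2 ^ n : ℤ)) ZV hZV _ h1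
    (fun e => k2sCross (k9aNat P K) (2 * K) 1 γ e) hZE _ h0 hR (ENNReal.ofReal hiJ) (ENNReal.ofReal loL) (ENNReal.ofReal hi0)
  rw [← hφ] at key
  have hsub : P.mu γ {x | x ∈ k9aGood P aL b hiJ loL hi0 γ ∧ P.bs γ x ∈ R ∧ ∃ c ∈ Lst (P.hid aL γ x) (P.bs γ x), ∀ i, |k9Vel P γ x i - ctr c i| ≤ ρ}
      ≤ P.mu γ {x | P.bs γ x ∈ R ∧ P.bs γ x ∈ ZV (P.hid aL γ x) (P.vel b γ x) ∧ P.bs γ x ∈ k2sCross (k9aNat P K) (2 * K) 1 γ ((P.hid aL γ x) / (2 ^ n : ℤ)) ∧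
        k2aDn volume (P.mu γ) (P.bs γ) (k2aPair (P.hid aL γ) (P.vel b γ)) x ≤ ENNReal.ofReal hiJ ∧ ENNReal.ofReal loL ≤ k2aDn volume (P.mu γ) (P.bs γ) (P.hid aL γ) x ∧
        k2aDn volume (P.mu γ) (P.bs γ) (P.hid 1 γ) x ≤ ENNReal.ofReal hi0} := by
    refine measure_mono_ae ?_
    filter_upwards [k9a_nat_ae hP K γ] with x hx hmem
    obtain ⟨hg, hRx, c, hc, hv⟩ := hmem
    refine ⟨hRx, ?_, ?_, hg.1, hg.2.1, hg.2.2⟩
    · rw [hZVdef]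
      exact Set.mem_biUnion (show c ∈ {c | P.vel b γ x ∈ k9aVB b ρ (ctr c)} from ⟨k9Vel P γ x, hv, fun i => rfl⟩) hc
    · have h2 := k2s_cross_mem (k9aNat P K) hY hG γ x hx
      have h3 : P.hid 1 γ x = (P.hid aL γ x) / (2 ^ n : ℤ) := congrFun hφ x
      rw [← h3]
      exact h2
  have hc1 : ((16 * ⌊Kl⌋₊ : ℕ) : ℝ≥0∞) ≤ ENNReal.ofReal (16 * Kl) := by
    rw [← ENNReal.ofReal_natCast]
    refine ENNReal.ofReal_le_ofReal ?_
    push_cast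
    exact mul_le_mul_of_nonneg_left (Nat.floor_le hKl) (by norm_num)
  have hc2 : ((⌊16 * (2 * K) ^ 2⌋₊ : ℕ) : ℝ≥0∞) ≤ ENNReal.ofReal (64 * K ^ 2) := by
    rw [← ENNReal.ofReal_natCast]
    refine ENNReal.ofReal_le_ofReal ((Nat.floor_le (by positivity)).trans (le_of_eq ?_))
    ring
  have key2 : ENNReal.ofReal loL * P.mu γ {x | x ∈ k9aGood P aL b hiJ loL hi0 γ ∧ P.bs γ x ∈ R ∧ ∃ c ∈ Lst (P.hid aL γ x) (P.bs γ x), ∀ i, |k9Vel P γ x i - ctr c i| ≤ ρ}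
      ≤ ENNReal.ofReal (1024 * K ^ 2 * Kl * hiJ * hi0) * volume R := by
    refine (mul_le_mul_right hsub _).trans (key.trans ?_)
    calc ((16 * ⌊Kl⌋₊ : ℕ) : ℝ≥0∞) * ENNReal.ofReal hiJ * (((⌊16 * (2 * K) ^ 2⌋₊ : ℕ) : ℝ≥0∞) * ENNReal.ofReal hi0 * volume R)
        ≤ ENNReal.ofReal (16 * Kl) * ENNReal.ofReal hiJ * (ENNReal.ofReal (64 * K ^ 2) * ENNReal.ofReal hi0 * volume R) := by
          gcongr
      _ = ENNReal.ofReal (1024 * K ^ 2 * Kl * hiJ * hi0) * volume R := by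
          rw [← ENNReal.ofReal_mul (by positivity), ← ENNReal.ofReal_mul (by positivity), ← mul_assoc, ← ENNReal.ofReal_mul (by positivity)]
          congr 2
          ring
  have hinv : ENNReal.ofReal loL⁻¹ * ENNReal.ofReal loL = 1 := by
    rw [← ENNReal.ofReal_mul (by positivity), inv_mul_cancel₀ hlo.ne', ENNReal.ofReal_one]
  calc P.mu γ {x | x ∈ k9aGood P aL b hiJ loL hi0 γ ∧ P.bs γ x ∈ R ∧ ∃ c ∈ Lst (P.hid aL γ x) (P.bs γ x), ∀ i, |k9Vel P γ x i - ctr c i| ≤ ρ}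
      = ENNReal.ofReal loL⁻¹ * (ENNReal.ofReal loL * P.mu γ {x | x ∈ k9aGood P aL b hiJ loL hi0 γ ∧ P.bs γ x ∈ R ∧
          ∃ c ∈ Lst (P.hid aL γ x) (P.bs γ x), ∀ i, |k9Vel P γ x i - ctr c i| ≤ ρ}) := by
        rw [← mul_assoc, hinv, one_mul]
    _ ≤ ENNReal.ofReal loL⁻¹ * (ENNReal.ofReal (1024 * K ^ 2 * Kl * hiJ * hi0) * volume R) := mul_le_mul_right key2 _
    _ = ENNReal.ofReal (1024 * K ^ 2 * Kl * hiJ * hi0 / loL) * volume R := by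
        rw [← mul_assoc, ← ENNReal.ofReal_mul (by positivity)]
        congr 2
        rw [div_eq_mul_inv, mul_comm]

end

end Claimed.Agent.R252

/-!
# ROW 252 (S0492), unit S9, file 6: **INTEGRATED CAPS IN THE ORIGINAL PROBLEM** (tools of `S9c/GraphSysContract` s1; helper233; prefix `k9p_`).      NO `sorry`.

09-unbounded-narrowness.tex l.738-778.   PAPER-FREE.
Caps in the ORIGINAL problem, integrated over an arbitrary set `R` of exact bases, for the incidences with `|X - xs| ≤ K a'`: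
* `k9pNat P K xs` = native system with the shifted test `P_* - xs` (turns `k2sCross` of `S2s/Sat` into "the incidences with `|X - xs| ≤ K a'` need only `16 K²` hidden bins of width `a'/B` at an exact base");
* `k9p_pure_cap` (pure ceiling at depth `a'`),   `k9p_ang_cap` (terminal joint ceiling / terminal pure floor / ceiling of the ancestors at depth `a'`; velocity in ONE ball of radius `ρ ≤ 2 b`) `= k9a_cap_abs` again.
(The former sections 2-4 and `S9/CapExit.lean` are superseded by `S9c/ProjSysContract`, `S9c/ExitContract` of helper285.)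
-/

set_option autoImplicit false

namespace Claimed.Agent.R252

open MeasureTheory
open scoped ENNReal BigOperators

noncomputable section

variable {P : K9P}

/-- the native system with the shifted test `P_* - xs` -/
def k9pNat (P : K9P) (K xs : ℝ) : KbSys P where
  n := 0
  C := P.W
  fC := P.fW
  wd := fun γ => γ
  iv := fun _ => 0
  A := P.Sp
  S := fun γ => P.Ev γ ∩ {x | x.2 < 1}
  ch := fun γ =>
    { y0 := 0
      y1 := 0
      D := K • (1 : Matrix (Fin KbVer.two.j) (Fin KbVer.two.j) ℝ)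
      Di := K⁻¹ • (1 : Matrix (Fin KbVer.two.j) (Fin KbVer.two.j) ℝ)
      T := fun t y w => P.Pst γ t y w - xs }

theorem k9p_P1_I (K xs : ℝ) (γ : P.W) : (k9pNat P K xs).I γ = Set.Ico (0 : ℝ) 1 := by
  show kbI 0 0 = Set.Ico (0 : ℝ) 1
  unfold kbI kbQ
  norm_num

theorem k9p_P1_quad {T : KbTest KbVer.two} (hT : KbIsQuad T) (xs : ℝ) : KbIsQuad (fun t y w => T t y w - xs) := by
  obtain ⟨Q, hQ⟩ := hT
  refine ⟨{ Q with c0 := Q.c0 - xs }, fun t y w => ?_⟩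
  show T t y w - xs = _
  rw [hQ]
  unfold KbQuad.ev
  ring

theorem k9p_nat_wf (hP : P.WF) {K : ℝ} (hK : 0 < K) (xs : ℝ) : (k9pNat P K xs).WF where
  iv_lt := fun _ => by
    show 0 < 2 ^ 0
    norm_num
  A_meas := fun γ => hP.Sp_meas γ
  A_sub := fun _ => subset_rfl
  A_disj := fun c c' hne hw _ => absurd hw hne
  S_meas := fun γ => (hP.Ev_meas γ).inter (measurableSet_lt measurable_snd measurable_const)
  S_sub := fun γ x hx => by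
    have h1 : x ∈ P.Ev γ := hx.1
    have h2 : x.2 < 1 := hx.2
    have h3 := hP.Ev_sub γ h1
    refine ⟨h1, h3.1, ?_⟩
    have e : (k9pNat P K xs).I γ = Set.Ico (0 : ℝ) 1 := k9p_P1_I K xs γ
    rw [e]
    exact ⟨h3.2.1, h2⟩
  inv := fun _ => by
    show (K • (1 : Matrix (Fin KbVer.two.j) (Fin KbVer.two.j) ℝ)) * (K⁻¹ • (1 : Matrix (Fin KbVer.two.j) (Fin KbVer.two.j) ℝ)) = 1
    rw [Matrix.smul_mul, Matrix.mul_smul, smul_smul, mul_inv_cancel₀ hK.ne', one_smul, mul_one]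
  adm := fun γ => ⟨k9p_P1_quad (hP.Pst_adm γ).1 xs, fun h => absurd h (by decide)⟩

/-- As `k2s_cross_mem`, pointwise: time `x.2 ∈ Ico 0 1 = I`, box `K⁻¹ ‖y‖ ≤ 1 ≤ K`, `w = P.hw γ x` lies in its closed bin, `kbDw (P_* - xs) = kbDw P_*`, `hN.dw_low`. -/
theorem k9p_cross_mem (hP : P.WF) {K a' : ℝ} (hK : 1 ≤ K) (hN : P.Ntv K) (xs : ℝ) (γ : P.W) (x : P.Lam × ℝ) (hx : x ∈ P.Ev γ) (hx1 : x.2 < 1)
    (hs : |P.sig γ x - xs| ≤ K * a') : P.bs γ x ∈ k2sCross (k9pNat P K xs) K a' γ (P.hid a' γ x) := by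
  have hK0 : 0 < K := by linarith
  have h3 := hP.Ev_sub γ hx
  have hSp : x.1 ∈ P.Sp γ := h3.1
  have hI : x.2 ∈ Set.Icc (0 : ℝ) 1 := h3.2
  have hδ : 0 < kbDy (a' / P.B γ) := by
    unfold kbDy
    positivity
  refine ⟨⟨?_, ?_⟩, P.hw γ x, ?_, ?_, ?_, ?_⟩
  · show x.2 ∈ (k9pNat P K xs).I γ
    rw [k9p_P1_I]
    exact ⟨hI.1, hx1⟩
  · show ‖(K⁻¹ • (1 : Matrix (Fin KbVer.two.j) (Fin KbVer.two.j) ℝ)).mulVec (kbY (P.co γ x.1) x.2 - ((0 : KbB KbVer.two) + x.2 • (0 : KbB KbVer.two)))‖ ≤ K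
    rw [smul_zero, add_zero, sub_zero, Matrix.smul_mulVec, Matrix.one_mulVec, norm_smul, norm_inv, Real.norm_eq_abs,
      abs_of_pos hK0]
    have h1 := hN.base γ x.1 hSp x.2 hI
    have h2 : ‖kbY (P.co γ x.1) x.2‖ ≤ K := by
      have := norm_nonneg (kbV (P.co γ x.1))
      linarith
    calc K⁻¹ * ‖kbY (P.co γ x.1) x.2‖ ≤ K⁻¹ * K := mul_le_mul_of_nonneg_left h2 (by positivity)
      _ = 1 := inv_mul_cancel₀ hK0.ne'
      _ ≤ K := hK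
  · have := Int.floor_le (P.hw γ x / kbDy (a' / P.B γ))
    rwa [le_div_iff₀ hδ] at this
  · have := (Int.lt_floor_add_one (P.hw γ x / kbDy (a' / P.B γ))).le
    rwa [div_le_iff₀ hδ] at this
  · show |P.Pst γ x.2 (kbY (P.co γ x.1) x.2) (P.hw γ x) - xs| ≤ K * a'
    exact hs
  · have h1 := hN.dw_low γ x hx
    show P.B γ ≤ K * |kbDw (fun t y w => P.Pst γ t y w - xs) x.2 (kbY (P.co γ x.1) x.2) (P.hw γ x)|
    have e : kbDw (fun t y w => P.Pst γ t y w - xs) x.2 (kbY (P.co γ x.1) x.2) (P.hw γ x) = kbX (kbDw (P.Pst γ)) (P.co γ x.1) x.2 := by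
      unfold kbDw kbX
      show _ = (P.Pst γ x.2 (kbY (P.co γ x.1) x.2) (kbW (P.co γ x.1) x.2 + 1) - P.Pst γ x.2 (kbY (P.co γ x.1) x.2) (kbW (P.co γ x.1) x.2 - 1)) / 2
      show (P.Pst γ x.2 (kbY (P.co γ x.1) x.2) (kbW (P.co γ x.1) x.2 + 1) - xs - (P.Pst γ x.2 (kbY (P.co γ x.1) x.2) (kbW (P.co γ x.1) x.2 - 1) - xs)) / 2 = _
      ring
    rw [e]
    exact h1

theorem k9p_floor_le {K : ℝ} (hK : 1 ≤ K) : ((⌊16 * K ^ 2⌋₊ : ℕ) : ℝ≥0∞) ≤ ENNReal.ofReal (16 * K ^ 2) := by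
  rw [← ENNReal.ofReal_natCast]
  exact ENNReal.ofReal_le_ofReal (Nat.floor_le (by positivity))

/-- **Integrated pure cap of the incidences with `|X - xs| ≤ K a'`.** -/
theorem k9p_pure_cap (hP : P.WF) {K a' : ℝ} (hK : 1 ≤ K) (hN : P.Ntv K) (ha : 0 < a') (hi : ℝ≥0∞) (xs : ℝ) (γ : P.W)
    (R : Set (ℝ × K9V)) (hR : MeasurableSet R) :
    P.mu γ {x | P.dn (P.hid a') γ x ≤ hi ∧ |P.sig γ x - xs| ≤ K * a' ∧ P.bs γ x ∈ R} ≤ ENNReal.ofReal (16 * K ^ 2) * hi * volume R := by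
  have hK0 : 0 < K := by linarith
  have hY := k9p_nat_wf hP hK0 xs
  have h1 := k2s_cap_count P hP (P.hid a') γ hi ⌊16 * K ^ 2⌋₊ (fun d => R ∩ k2sCross (k9pNat P K xs) K a' γ d)
    (fun d => hR.inter (k2s_cross_meas _ hY _ _ _ _)) R hR (fun d => Set.inter_subset_left)
    (fun o => by
      obtain ⟨L, hL, hmem⟩ := k2s_cross_bins (k9pNat P K xs) hP hY (K := K) (a := a') hK ha γ o
      exact ⟨L, hL, fun d hd => hmem d hd.2⟩)
  have hsub : P.mu γ {x | P.dn (P.hid a') γ x ≤ hi ∧ |P.sig γ x - xs| ≤ K * a' ∧ P.bs γ x ∈ R}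
      ≤ P.mu γ {x | P.dn (P.hid a') γ x ≤ hi ∧ P.bs γ x ∈ R ∩ k2sCross (k9pNat P K xs) K a' γ (P.hid a' γ x)} := by
    refine measure_mono_ae ?_
    filter_upwards [k9a_nat_ae hP K γ] with x hx hmem
    obtain ⟨h1, h2, h3⟩ := hmem
    exact ⟨h1, h3, k9p_cross_mem hP hK hN xs γ x hx.1 hx.2 h2⟩
  refine hsub.trans (h1.trans ?_)
  exact mul_le_mul' (mul_le_mul' (k9p_floor_le hK) le_rfl) le_rfl

/-- the good incidences: terminal joint ceiling, terminal pure floor, ceiling at the depth `a'` -/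
def k9pGood (P : K9P) (aL b a' hiJ loL hi0 : ℝ) : P.W → Set (P.Lam × ℝ) := fun γ =>
  {x | P.dn (P.hv aL b) γ x ≤ ENNReal.ofReal hiJ ∧ ENNReal.ofReal loL ≤ P.dn (P.hid aL) γ x ∧ P.dn (P.hid a') γ x ≤ ENNReal.ofReal hi0}

theorem k9p_P3_VB {b ρ : ℝ} (hρ : 0 ≤ ρ) (hb : ρ ≤ 2 * b) (hb0 : 0 < b) (z : K9V) : ∃ L : Finset (Fin KbVer.two.j → ℤ), L.card ≤ 36 ∧ ∀ e ∈ k9aVB b ρ z, e ∈ L := by
  obtain ⟨S, hS, hmem⟩ := k2s_bin_ball_pi (m := 2) hb0 hρ z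
  refine ⟨S, ?_, ?_⟩
  · have h1 : 2 * ρ / b + 2 ≤ 6 := by
      have : 2 * ρ / b ≤ 4 := by
        rw [div_le_iff₀ hb0]
        linarith
      linarith
    have h0 : 0 ≤ 2 * ρ / b + 2 := by positivity
    have h2 : (S.card : ℝ) ≤ 36 := by
      calc (S.card : ℝ) ≤ (2 * ρ / b + 2) ^ 2 := hS
        _ ≤ 6 ^ 2 := pow_le_pow_left₀ h0 h1 2
        _ = 36 := by norm_num
    exact_mod_cast h2
  · rintro e ⟨V, hV, he⟩
    have h3 := hmem V ((pi_norm_le_iff_of_nonneg hρ).2 fun i => by simpa [Real.norm_eq_abs] using hV i)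
    have h4 : (fun i => kbBin b (V i)) = e := funext he
    rwa [h4] at h3

/-- **Integrated angular cap of the incidences with `|X - xs| ≤ K a'`** (copy of the proof of `k9a_cap`). -/
theorem k9p_ang_cap (hP : P.WF) {K aL b a' ρ hiJ loL hi0 : ℝ} (hK : 1 ≤ K) (hN : P.Ntv K) (haL : 0 < aL) (haLa : aL ≤ a') (hρ : 0 ≤ ρ) (hρb : ρ ≤ 2 * b) (hb : 0 < b)
    (hlo : 0 < loL) (hhiJ : 0 ≤ hiJ) (xs : ℝ) (ctr : K9V) (γ : P.W) (R : Set (ℝ × K9V)) (hR : MeasurableSet R) :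
    P.mu γ {x | x ∈ k9pGood P aL b a' hiJ loL hi0 γ ∧ |P.sig γ x - xs| ≤ K * a' ∧ (∀ i, |k9Vel P γ x i - ctr i| ≤ ρ) ∧ P.bs γ x ∈ R}
      ≤ ENNReal.ofReal (576 * K ^ 2 * hiJ * hi0 / loL) * volume R := by
  classical
  have hB := hP.B_pos γ
  have hK0 : 0 < K := by linarith
  have ha : 0 < a' := lt_of_lt_of_le haL haLa
  obtain ⟨n, -, hn⟩ := k2a_bin_nest (x := aL / P.B γ) (y := a' / P.B γ) (by positivity) (by gcongr)
  have hφ : P.hid a' γ = (fun z : ℤ => z / (2 ^ n : ℤ)) ∘ P.hid aL γ := by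
    funext x
    exact hn _
  have hY := k9p_nat_wf hP hK0 xs
  obtain ⟨ZV, hZVdef⟩ : ∃ ZV : ℤ → (Fin KbVer.two.j → ℤ) → Set (ℝ × KbB KbVer.two),
      ZV = fun _ e => if e ∈ k9aVB b ρ ctr then Set.univ else ∅ := ⟨_, rfl⟩
  have hZV : ∀ d e, MeasurableSet (ZV d e) := fun d e => by
    rw [hZVdef]
    by_cases h : e ∈ k9aVB b ρ ctr
    · simp only [if_pos h]; exact MeasurableSet.univ
    · simp only [if_neg h]; exact MeasurableSet.empty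
  have h1 : ∀ d o, ∃ L : Finset (Fin KbVer.two.j → ℤ), L.card ≤ 36 ∧ ∀ e, o ∈ ZV d e → e ∈ L := by
    intro d o
    obtain ⟨L, hL, hmem⟩ := k9p_P3_VB hρ hρb hb ctr
    refine ⟨L, hL, fun e he => ?_⟩
    rw [hZVdef] at he
    by_cases h : e ∈ k9aVB b ρ ctr
    · exact hmem e h
    · simp only [if_neg h] at he
      exact absurd he (Set.notMem_empty _)
  have hZE : ∀ e, MeasurableSet (k2sCross (k9pNat P K xs) K a' γ e) := fun e => k2s_cross_meas _ hY _ _ _ _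
  have h0 : ∀ o, ∃ L : Finset ℤ, L.card ≤ ⌊16 * K ^ 2⌋₊ ∧ ∀ e, o ∈ k2sCross (k9pNat P K xs) K a' γ e → e ∈ L :=
    fun o => k2s_cross_bins _ hP hY hK ha γ o
  have key := k9a_cap_abs (k2a_fr hP γ) (k2a_hid_meas hP aL γ) (β := P.vel b γ) (k2a_vel_meas hP b γ) (fun z : ℤ => z / (2 ^ n : ℤ)) ZV hZV _ h1
    (fun e => k2sCross (k9pNat P K xs) K a' γ e) hZE _ h0 hR (ENNReal.ofReal hiJ) (ENNReal.ofReal loL) (ENNReal.ofReal hi0)
  rw [← hφ] at key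
  have hsub : P.mu γ {x | x ∈ k9pGood P aL b a' hiJ loL hi0 γ ∧ |P.sig γ x - xs| ≤ K * a' ∧ (∀ i, |k9Vel P γ x i - ctr i| ≤ ρ) ∧ P.bs γ x ∈ R}
      ≤ P.mu γ {x | P.bs γ x ∈ R ∧ P.bs γ x ∈ ZV (P.hid aL γ x) (P.vel b γ x) ∧ P.bs γ x ∈ k2sCross (k9pNat P K xs) K a' γ ((P.hid aL γ x) / (2 ^ n : ℤ)) ∧
        k2aDn volume (P.mu γ) (P.bs γ) (k2aPair (P.hid aL γ) (P.vel b γ)) x ≤ ENNReal.ofReal hiJ ∧ ENNReal.ofReal loL ≤ k2aDn volume (P.mu γ) (P.bs γ) (P.hid aL γ) x ∧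
        k2aDn volume (P.mu γ) (P.bs γ) (P.hid a' γ) x ≤ ENNReal.ofReal hi0} := by
    refine measure_mono_ae ?_
    filter_upwards [k9a_nat_ae hP K γ] with x hx hmem
    obtain ⟨hg, hsx, hv, hRx⟩ := hmem
    refine ⟨hRx, ?_, ?_, hg.1, hg.2.1, hg.2.2⟩
    · rw [hZVdef]
      have : P.vel b γ x ∈ k9aVB b ρ ctr := ⟨k9Vel P γ x, hv, fun i => rfl⟩
      simp only [if_pos this]
      exact Set.mem_univ _
    · have h2 := k9p_cross_mem hP hK hN xs γ x hx.1 hx.2 hsx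
      have h3 : P.hid a' γ x = (P.hid aL γ x) / (2 ^ n : ℤ) := congrFun hφ x
      rw [← h3]
      exact h2
  have hc2 := k9p_floor_le hK
  have hc1 : ((36 : ℕ) : ℝ≥0∞) = ENNReal.ofReal 36 := by
    rw [← ENNReal.ofReal_natCast]
    norm_num
  have key2 : ENNReal.ofReal loL * P.mu γ {x | x ∈ k9pGood P aL b a' hiJ loL hi0 γ ∧ |P.sig γ x - xs| ≤ K * a' ∧ (∀ i, |k9Vel P γ x i - ctr i| ≤ ρ) ∧ P.bs γ x ∈ R}
      ≤ ENNReal.ofReal (576 * K ^ 2 * hiJ * hi0) * volume R := by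
    refine (mul_le_mul_right hsub _).trans (key.trans ?_)
    calc ((36 : ℕ) : ℝ≥0∞) * ENNReal.ofReal hiJ * (((⌊16 * K ^ 2⌋₊ : ℕ) : ℝ≥0∞) * ENNReal.ofReal hi0 * volume R)
        ≤ ENNReal.ofReal 36 * ENNReal.ofReal hiJ * (ENNReal.ofReal (16 * K ^ 2) * ENNReal.ofReal hi0 * volume R) := by
          rw [hc1]
          gcongr
      _ = ENNReal.ofReal (576 * K ^ 2 * hiJ * hi0) * volume R := by
          rw [← ENNReal.ofReal_mul (by positivity), ← ENNReal.ofReal_mul (by positivity), ← mul_assoc, ← ENNReal.ofReal_mul (by positivity)]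
          congr 2
          ring
  have hinv : ENNReal.ofReal loL⁻¹ * ENNReal.ofReal loL = 1 := by
    rw [← ENNReal.ofReal_mul (by positivity), inv_mul_cancel₀ hlo.ne', ENNReal.ofReal_one]
  calc P.mu γ {x | x ∈ k9pGood P aL b a' hiJ loL hi0 γ ∧ |P.sig γ x - xs| ≤ K * a' ∧ (∀ i, |k9Vel P γ x i - ctr i| ≤ ρ) ∧ P.bs γ x ∈ R}
      = ENNReal.ofReal loL⁻¹ * (ENNReal.ofReal loL * P.mu γ {x | x ∈ k9pGood P aL b a' hiJ loL hi0 γ ∧ |P.sig γ x - xs| ≤ K * a' ∧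
          (∀ i, |k9Vel P γ x i - ctr i| ≤ ρ) ∧ P.bs γ x ∈ R}) := by
        rw [← mul_assoc, hinv, one_mul]
    _ ≤ ENNReal.ofReal loL⁻¹ * (ENNReal.ofReal (576 * K ^ 2 * hiJ * hi0) * volume R) := mul_le_mul_right key2 _
    _ = ENNReal.ofReal (576 * K ^ 2 * hiJ * hi0 / loL) * volume R := by
        rw [← mul_assoc, ← ENNReal.ofReal_mul (by positivity)]
        congr 2
        rw [div_eq_mul_inv, mul_comm]

theorem k9p_eqns_cite : True := by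
  have := @k9pNat.eq_1; have := @k9pGood.eq_1
  trivial

end

end Claimed.Agent.R252

/-!
# ROW 252 (S0492), unit S9a (post BP-252-S9a, sub-architect helper197; chief helper233), file 3: **P9.2 FULL-TIME LOCALIZATION AT THE SEQUENCE LEVEL** (EXIT 2 of S9a).      CONTRACT file: the `sorry`s are the leaves L-252-S9a-Q*.

09-unbounded-narrowness.tex l.107-133, l.142-283.   PAPER-FREE (language `Base/Lang`, `Base/Seq`; one-scale core `k9_full_time` of `S9/FullContract`, PROVED; cap `k9a_cap` of `S9a/CapContract`).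
STATEMENTS ARE FROZEN (defects: one line to helper197).  Provers replace the `sorry`s IN PLACE, helper lemmas directly above, prefix `k9a_`.   All statements of the imported contract files may be cited even while they are `sorry`.

## The argument
* s1  `k9a_prep` : deletion of the thin charts (L2.12 = `k2s_axis_seq`, slow threshold `ρ k`) gives `Full` nodes.
* s2  `k9a_node`, `k9a_nest` : the one-scale hypotheses `K9Node`, `K9Nest` with slack `N^τ`.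
* s3  the good incidences with a FIXED tolerance `σ` (the power gain `N^{-Su/2}` pays for it; the masks are not part of the output): `k9a_good_pow`.
* s4  `X.Hyp f u σ k K` = all hypotheses of `k9_full_time` at the scale `k` with slack `K`;  `k9a_hyp` : they hold eventually with `K = N^τ`, `τ ≤ τ₀`.
* s5  `X.Con u k K t0` = its conclusions;  `k9a_con` (one scale), `k9a_con_mono`, `k9a_Csys_tmp`.
* s6  `k9a_full_time` : `kb_slow` chooses ONE subpower slack `K k`, hence ONE time `t0 k`.      `k9a_ctx_full_time` : the same for all late stages of a context.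
-/

set_option autoImplicit false

namespace Claimed.Agent.R252

open MeasureTheory Filter Topology
open Claimed.Agent.R255 (uf)
open scoped ENNReal BigOperators

noncomputable section

variable {E : K9E} (X : K9aNodes E)

/-! ## 1. Deletion of the thin charts -/

open Classical in
/-- LEAF Q1 (~120 l.).  **One scale: the children of a set of parents weigh at most the parents.**
PLAN: group the children by the parent: `∑_{c : par c ∈ B} ω m_c = ∑_{c1 ∈ B} ∑_{c : par c = c1} ω_{c1} μ (S2 c)` (`Finset.sum_fiberwise`-type step, `hwd`);  for fixed `c1` the `S2 c` are pairwise disjoint (`k2s_S_disj`: same world), measurable (`h2.S_meas`),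
contained in `S1 c1` : `∑ μ (S2 c) = μ (⋃ S2 c) ≤ μ (S1 c1)` (`measure_biUnion_finset`, `measure_mono`). -/
theorem k9a_child_mass {P : K9P} (Y1 Y2 : KbSys P) (par : Y2.C → Y1.C) (h2 : Y2.WF) (hwd : ∀ c, Y1.wd (par c) = Y2.wd c) (hsub : ∀ c, Y2.S c ⊆ Y1.S (par c))
    (B : Set Y1.C) : ∑ c with par c ∈ B, P.om (Y2.wd c) * Y2.mC c ≤ ∑ c1 with c1 ∈ B, P.om (Y1.wd c1) * Y1.mC c1 := by
  rw [← Finset.sum_fiberwise_of_maps_to (s := Finset.univ.filter fun c => par c ∈ B) (t := Finset.univ.filter fun c1 => c1 ∈ B) (g := par)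
    (fun c hc => by simpa using hc)]
  refine Finset.sum_le_sum fun c1 _ => ?_
  set T := (Finset.univ.filter fun c => par c ∈ B).filter fun c => par c = c1 with hT
  have hpar : ∀ c ∈ T, par c = c1 := fun c hc => (Finset.mem_filter.1 hc).2
  have e1 : ∑ c ∈ T, P.om (Y2.wd c) * Y2.mC c = P.om (Y1.wd c1) * ∑ c ∈ T, P.mu (Y1.wd c1) (Y2.S c) := by
    rw [Finset.mul_sum]
    refine Finset.sum_congr rfl fun c hc => ?_
    have : Y2.wd c = Y1.wd c1 := by rw [← hwd c, hpar c hc]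
    unfold KbSys.mC
    rw [this]
  rw [e1]
  gcongr
  rw [← measure_biUnion_finset]
  · unfold KbSys.mC
    refine measure_mono ?_
    intro x hx
    simp only [Set.mem_iUnion] at hx
    obtain ⟨c, hc, hx⟩ := hx
    have := hsub c hx
    rwa [hpar c hc] at this
  · intro c hc c' hc' hne
    refine k2s_S_disj Y2 h2 hne ?_
    rw [← hwd c, ← hwd c', hpar c hc, hpar c' hc']
  · intro c _
    exact h2.S_meas c

open Classical in
/-- one scale: the mass of the later node after the deletion -/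
theorem k9a_prep_mass2 {P : K9P} (Y1 Y2 : KbSys P) (par : Y2.C → Y1.C) (h2 : Y2.WF) (hwd : ∀ c, Y1.wd (par c) = Y2.wd c) (hsub : ∀ c, Y2.S c ⊆ Y1.S (par c))
    (ρ : ℝ) : Y2.mass ≤ (Y2.restr {c | ρ * Y2.q < kbMn (Y2.ch c).D ∧ par c ∈ {c1 | ρ * Y1.q < kbMn (Y1.ch c1).D}} fun _ => Set.univ).mass
      + (k2sThin Y1 ρ + k2sThin Y2 ρ) := by
  have hch := k9a_child_mass Y1 Y2 par h2 hwd hsub {c1 | kbMn (Y1.ch c1).D ≤ ρ * Y1.q}
  have e1 : ∑ c1 with c1 ∈ {c1 | kbMn (Y1.ch c1).D ≤ ρ * Y1.q}, P.om (Y1.wd c1) * Y1.mC c1 = k2sThin Y1 ρ := by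
    rw [k2sThin_eqns_cite]
    rfl
  rw [e1] at hch
  refine le_trans ?_ (add_le_add le_rfl (add_le_add hch le_rfl))
  rw [k2s_restr_mass, k2sThin_eqns_cite, Finset.sum_filter, Finset.sum_filter, ← Finset.sum_add_distrib, ← Finset.sum_add_distrib]
  unfold KbSys.mass
  refine Finset.sum_le_sum fun c _ => ?_
  by_cases hc : kbMn (Y2.ch c).D ≤ ρ * Y2.q
  · rw [if_pos hc]
    exact le_add_left (le_add_left le_rfl)
  · by_cases hp : par c ∈ {c1 | kbMn (Y1.ch c1).D ≤ ρ * Y1.q}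
    · rw [if_pos hp]
      exact le_add_left (le_add_right le_rfl)
    · have hk : c ∈ {c | ρ * Y2.q < kbMn (Y2.ch c).D ∧ par c ∈ {c1 | ρ * Y1.q < kbMn (Y1.ch c1).D}} :=
        ⟨not_le.1 hc, (not_le.1 hp : ρ * Y1.q < kbMn (Y1.ch (par c)).D)⟩
      rw [if_pos hk, Set.inter_univ]
      exact le_add_right le_rfl

/-- power small quantities are eventually below one half of the mass of a chart system -/
theorem k9a_prep_half (Y : E.Sys) (hB : ∀ τ : ℝ, 0 < τ → ∀ᶠ k in uf, (Y k).Big (E.R.N k ^ τ)) (x : ℕ → ℝ≥0∞) (hfin : ∀ᶠ k in uf, x k ≠ ⊤)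
    (hx : KbPow E.R fun k => (x k).toReal) : ∀ᶠ k in uf, 2 * x k ≤ (Y k).mass := by
  obtain ⟨c, hc, h1⟩ := hx
  filter_upwards [h1, hfin, hB (c / 2) (by positivity), (kb_rpow_tendsto E.R (half_pos hc)).eventually_ge_atTop 2] with k a1 a2 a4 a5
  have hN0 : 0 < E.R.N k := kb_res_pos E.R k
  have hthin : x k ≤ ENNReal.ofReal (E.R.N k ^ (-c)) :=
    (ENNReal.le_ofReal_iff_toReal_le a2 (Real.rpow_pos_of_pos hN0 _).le).2 a1
  have hbig : 1 ≤ ENNReal.ofReal (E.R.N k ^ (c / 2)) * (Y k).mass := a4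
  have hp : 0 < E.R.N k ^ (c / 2) := Real.rpow_pos_of_pos hN0 _
  have hnum : 2 * E.R.N k ^ (-c) * E.R.N k ^ (c / 2) ≤ 1 := by
    have e : E.R.N k ^ (-c) * E.R.N k ^ (c / 2) = (E.R.N k ^ (c / 2))⁻¹ := by
      rw [← Real.rpow_add hN0, ← Real.rpow_neg hN0.le]
      congr 1
      ring
    rw [mul_assoc, e, ← div_eq_mul_inv, div_le_one hp]
    exact a5
  calc 2 * x k ≤ 2 * ENNReal.ofReal (E.R.N k ^ (-c)) := by gcongr
    _ = 2 * ENNReal.ofReal (E.R.N k ^ (-c)) * 1 := (mul_one _).symm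
    _ ≤ 2 * ENNReal.ofReal (E.R.N k ^ (-c)) * (ENNReal.ofReal (E.R.N k ^ (c / 2)) * (Y k).mass) := by gcongr
    _ = ENNReal.ofReal (2 * E.R.N k ^ (-c) * E.R.N k ^ (c / 2)) * (Y k).mass := by
        rw [ENNReal.ofReal_mul (by positivity), ENNReal.ofReal_mul (by norm_num), ← mul_assoc]
        norm_num
    _ ≤ 1 * (Y k).mass := by
        gcongr
        exact ENNReal.ofReal_le_one.2 hnum
    _ = (Y k).mass := one_mul _

/-- half of the mass is enough -/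
theorem k9a_prep_big (Y Y' : E.Sys) (hB : ∀ τ : ℝ, 0 < τ → ∀ᶠ k in uf, (Y k).Big (E.R.N k ^ τ)) (hm : ∀ᶠ k in uf, (Y k).mass ≤ 2 * (Y' k).mass) :
    ∀ τ : ℝ, 0 < τ → ∀ᶠ k in uf, (Y' k).Big (E.R.N k ^ τ) := by
  intro τ hτ
  filter_upwards [hm, hB (τ / 2) (by positivity), (kb_rpow_tendsto E.R (half_pos hτ)).eventually_ge_atTop 2] with k a1 a2 a3
  have hp : 0 < E.R.N k ^ (τ / 2) := Real.rpow_pos_of_pos (kb_res_pos E.R k) _
  have hbig : 1 ≤ ENNReal.ofReal (E.R.N k ^ (τ / 2)) * (Y k).mass := a2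
  show 1 ≤ ENNReal.ofReal (E.R.N k ^ τ) * _
  calc (1 : ℝ≥0∞) ≤ ENNReal.ofReal (E.R.N k ^ (τ / 2)) * (Y k).mass := hbig
    _ ≤ ENNReal.ofReal (E.R.N k ^ (τ / 2)) * (2 * (Y' k).mass) := by gcongr
    _ = ENNReal.ofReal (E.R.N k ^ (τ / 2) * 2) * (Y' k).mass := by
        rw [ENNReal.ofReal_mul hp.le, ← mul_assoc]
        norm_num
    _ ≤ _ := by
        gcongr
        rw [← kb_rpow_half E.R τ k]
        exact mul_le_mul_of_nonneg_left a3 hp.le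

/-- cancellation: `m ≤ m' + x`, `2 x ≤ m` give `m ≤ 2 m'` -/
theorem k9a_prep_cancel {m m' x : ℝ≥0∞} (hm : m ≠ ⊤) (h1 : m ≤ m' + x) (h2 : 2 * x ≤ m) : m ≤ 2 * m' := by
  have h3 : 2 * m ≤ 2 * m' + m := by
    calc 2 * m ≤ 2 * (m' + x) := by gcongr
      _ = 2 * m' + 2 * x := mul_add _ _ _
      _ ≤ _ := by gcongr
  rw [two_mul m] at h3
  exact (ENNReal.add_le_add_iff_right hm).1 h3

/-- LEAF Q2 (~300 l.).  **Deletion of the thin charts.**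
PLAN.  `Y1`, `Y2` are atlases (`hX.sys_j.1`, `k2s_isKnown_mono` from `hX.own_j`).   For fixed `α > 0` : `k2sThin (Y_j k) (N^{-α})` are power small (`k2s_axis_seq`), the masses `(Y_j k).mass` are `≥ N^{-τ}` for every `τ`; hence eventually
`4 * (k2sThin (Y1 k) (N^{-α}) + k2sThin (Y2 k) (N^{-α})) ≤ min (Y1 k).mass (Y2 k).mass`.   `kb_slow` gives `α k → 0`;  `ρ k := N^{-α k}` (`1/ρ = N^{α k}` subpower).
Masses: `(Y2 k).mass ≤ (cut).mass + thin₂ + ∑_{parent thin} ≤ (cut).mass + thin₂ + thin₁` (`k2s_restr_mass`, split of the sum, `k9a_child_mass` with `B` = thin parents), so `(cut Y2).Big (2 K)`; the same (without children) for `Y1` (`k2s_axis_restr`).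
`IsSys` : `k2s_isSys_restr`;   `IsTrue`, `IsSat`, `IsKnown` : `kb_restr_keep` (or `k2s_restr_univ_tru/sat`, `k2s_restr_known`);   `Narrow`, `nest`, `rel` : restriction of `∀ c` to a subtype (`(Y.restr ..).S c = Y.S c ∩ univ`, the other fields are `rfl`).
`Full` : `ρ q < |D|` and `1/ρ k ≤ N^τ` eventually. -/
theorem k9a_prep {d' S η : ℝ} {f : ℝ → ℝ → ℝ} (hS : 0 < S) (hη : 0 < η) (hE : E.Cap d' S η f) (hX : X.Ok f) :
    ∃ ρ : ℕ → ℝ, (∀ k, 0 < ρ k) ∧ (KbSubP E.R fun k => 1 / ρ k) ∧ (X.cut ρ).Ok f ∧ (X.cut ρ).Full := by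
  obtain ⟨hL, ⟨MP, hMP⟩, -⟩ := id hE.ok
  have hA1 : E.IsAtlas X.Y1 X.r1 X.h1 := ⟨hX.sys1.1, k2s_isKnown_mono E hE.ok _ (hX.r12.le.trans hX.r2_lt.le) hX.own1⟩
  have hA2 : E.IsAtlas X.Y2 X.r2 X.h2 := ⟨hX.sys2.1, k2s_isKnown_mono E hE.ok _ hX.r2_lt.le hX.own2⟩
  obtain ⟨⟨M1, hM1⟩, hGB1, -⟩ := id hX.sys1.1
  obtain ⟨⟨M2, hM2⟩, hGB2, -⟩ := id hX.sys2.1
  have hB1 : ∀ τ : ℝ, 0 < τ → ∀ᶠ k in uf, (X.Y1 k).Big (E.R.N k ^ τ) := fun τ hτ => (hGB1 τ hτ).mono fun _ h => h.2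
  have hB2 : ∀ τ : ℝ, 0 < τ → ∀ᶠ k in uf, (X.Y2 k).Big (E.R.N k ^ τ) := fun τ hτ => (hGB2 τ hτ).mono fun _ h => h.2
  have hfm1 : ∀ᶠ k in uf, (X.Y1 k).mass ≠ ⊤ := by
    filter_upwards [hMP, hM1] with k a2 a3
    exact ne_top_of_le_ne_top ENNReal.one_ne_top (k2s_mass_le_one (X.Y1 k) a2.1 a3.1)
  have hfm2 : ∀ᶠ k in uf, (X.Y2 k).mass ≠ ⊤ := by
    filter_upwards [hMP, hM2] with k a2 a3
    exact ne_top_of_le_ne_top ENNReal.one_ne_top (k2s_mass_le_one (X.Y2 k) a2.1 a3.1)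
  obtain ⟨α, hα0, -, hsub, hhalf⟩ := kb_slow E.R
    (fun k α => 2 * (k2sThin (X.Y1 k) (E.R.N k ^ (-α)) + k2sThin (X.Y2 k) (E.R.N k ^ (-α))) ≤ (X.Y1 k).mass ∧
      2 * (k2sThin (X.Y1 k) (E.R.N k ^ (-α)) + k2sThin (X.Y2 k) (E.R.N k ^ (-α))) ≤ (X.Y2 k).mass)
    (fun α hα => by
      have p1 := k2s_axis_seq E hS hη hE X.Y1 hA1 hα
      have p2 := k2s_axis_seq E hS hη hE X.Y2 hA2 hα
      have p : KbPow E.R fun k => (k2sThin (X.Y1 k) (E.R.N k ^ (-α)) + k2sThin (X.Y2 k) (E.R.N k ^ (-α))).toReal :=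
        k2s_pow_mono E.R (kb_pow_add E.R p1 p2) (Eventually.of_forall fun k => ENNReal.toReal_add_le)
      have hfin : ∀ᶠ k in uf, k2sThin (X.Y1 k) (E.R.N k ^ (-α)) + k2sThin (X.Y2 k) (E.R.N k ^ (-α)) ≠ ⊤ := by
        filter_upwards [hfm1, hfm2] with k a1 a2
        exact ENNReal.add_ne_top.2 ⟨ne_top_of_le_ne_top a1 (k2s_thin_le_mass _ _), ne_top_of_le_ne_top a2 (k2s_thin_le_mass _ _)⟩
      filter_upwards [k9a_prep_half X.Y1 hB1 _ hfin p, k9a_prep_half X.Y2 hB2 _ hfin p] with k a1 a2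
      exact ⟨a1, a2⟩)
  set ρ : ℕ → ℝ := fun k => E.R.N k ^ (-(α k)) with hρ
  have hρ0 : ∀ k, 0 < ρ k := fun k => Real.rpow_pos_of_pos (kb_res_pos E.R k) _
  have hinv : (fun k => 1 / ρ k) = fun k => E.R.N k ^ α k := by
    funext k
    rw [hρ]
    simp only
    rw [Real.rpow_neg (kb_res_pos E.R k).le, one_div, inv_inv]
  have hsubρ : KbSubP E.R fun k => 1 / ρ k := by rw [hinv]; exact hsub
  -- masses
  have hmass1 : ∀ᶠ k in uf, (X.Y1 k).mass ≤ 2 * ((X.cut ρ).Y1 k).mass := by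
    filter_upwards [hhalf, hfm1] with k a1 a2
    have hr := k2s_axis_restr (X.Y1 k) (ρ k)
    rw [← k2sThin_eqns_cite] at hr
    refine k9a_prep_cancel a2 (x := k2sThin (X.Y1 k) (ρ k) + k2sThin (X.Y2 k) (ρ k)) (hr.trans ?_) a1.1
    exact add_le_add le_rfl (le_add_right le_rfl)
  have hmass2 : ∀ᶠ k in uf, (X.Y2 k).mass ≤ 2 * ((X.cut ρ).Y2 k).mass := by
    filter_upwards [hhalf, hfm2, hM2, hX.nest] with k a1 a2 a3 a4
    exact k9a_prep_cancel a2 (k9a_prep_mass2 (X.Y1 k) (X.Y2 k) (X.up k) a3.1 (fun c => (a4 c).1) (fun c => (a4 c).2.2.2) (ρ k)) a1.2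
  have hS1 : E.IsSys (X.cut ρ).Y1 X.r1 X.h1 := by
    refine k2s_isSys_restr_ev E X.Y1 hX.sys1.1 _ _ ?_ (k9a_prep_big X.Y1 (X.cut ρ).Y1 hB1 hmass1)
    filter_upwards [hM1] with k a1
    exact k2s_restr_wf (X.Y1 k) _ _ a1.1 fun _ => MeasurableSet.univ
  have hS2 : E.IsSys (X.cut ρ).Y2 X.r2 X.h2 := by
    refine k2s_isSys_restr_ev E X.Y2 hX.sys2.1 _ _ ?_ (k9a_prep_big X.Y2 (X.cut ρ).Y2 hB2 hmass2)
    filter_upwards [hM2] with k a1
    exact k2s_restr_wf (X.Y2 k) _ _ a1.1 fun _ => MeasurableSet.univ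
  refine ⟨ρ, hρ0, hsubρ, ?_, ?_⟩
  · refine ⟨hX.r1_pos, hX.r12, hX.r2_lt, ⟨hS1, ?_⟩, ⟨hS2, ?_⟩, ?_, ?_, ?_, ?_, ?_, ?_, ?_, ?_⟩
    · intro τ hτ
      filter_upwards [hX.sys1.2 τ hτ] with k a1
      exact k2s_restr_univ_tru (X.Y1 k) _ a1
    · intro τ hτ
      filter_upwards [hX.sys2.2 τ hτ] with k a1
      exact k2s_restr_univ_tru (X.Y2 k) _ a1
    · intro τ hτ
      filter_upwards [hX.sat1 τ hτ] with k a1
      exact k2s_restr_univ_sat (X.Y1 k) _ a1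
    · intro τ hτ
      filter_upwards [hX.sat2 τ hτ] with k a1
      exact k2s_restr_univ_sat (X.Y2 k) _ a1
    · intro τ hτ
      filter_upwards [hX.own1 τ hτ] with k a1
      exact k2s_restr_known (X.Y1 k) _ _ a1
    · intro τ hτ
      filter_upwards [hX.own2 τ hτ] with k a1
      exact k2s_restr_known (X.Y2 k) _ _ a1
    · intro τ hτ
      filter_upwards [hX.nar1 τ hτ] with k a1
      exact fun c => a1 (c : X.keep1 ρ k).1
    · intro τ hτ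
      filter_upwards [hX.nar2 τ hτ] with k a1
      exact fun c => a1 (c : X.keep2 ρ k).1
    · filter_upwards [hX.nest] with k a1
      intro c
      obtain ⟨b1, b2, b3, b4⟩ := a1 (c : X.keep2 ρ k).1
      exact ⟨b1, b2, b3, Set.inter_subset_inter_left _ b4⟩
    · intro τ hτ
      filter_upwards [hX.rel τ hτ] with k a1
      exact fun c => a1 (c : X.keep2 ρ k).1
  · intro τ hτ
    filter_upwards [hsubρ τ hτ] with k a1
    have key : ∀ (q : ℝ) (D : Matrix (Fin KbVer.two.j) (Fin KbVer.two.j) ℝ), ρ k * q < kbMn D → q ≤ E.R.N k ^ τ * kbMn D := by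
      intro q D h
      have h0 : 0 ≤ kbMn D := Finset.sum_nonneg fun _ _ => Finset.sum_nonneg fun _ _ => abs_nonneg _
      have hD : q < 1 / ρ k * kbMn D := by
        rw [one_div, ← div_eq_inv_mul, lt_div_iff₀ (hρ0 k), mul_comm]
        exact h
      exact hD.le.trans (mul_le_mul_of_nonneg_right a1.2 h0)
    exact ⟨fun c => key _ _ (c : X.keep1 ρ k).2, fun c => key _ _ (c : X.keep2 ρ k).2.1⟩

/-! ## 2. The one-scale hypotheses on the nodes -/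

/-- LEAF Q3 (with the next one, ~200 l. together).  `wf`, `size`, `box` from `hY`;  `Narrow` is `N^{al - τ} ≤ q²/J ≤ N^{al + τ}`, `J > 0` (`k2s_J_pos`). -/
theorem k9a_node (Y : E.Sys) {r h al : ℝ} (hY : E.IsSys Y r h) (hn : E.Narrow Y al)
    (hF : ∀ τ : ℝ, 0 < τ → ∀ᶠ k in uf, ∀ c, (Y k).q ≤ E.R.N k ^ τ * kbMn ((Y k).ch c).D) (τ : ℝ) (hτ : 0 < τ) :
    ∀ᶠ k in uf, K9Node (E.P k) (Y k) (E.R.N k ^ τ) (E.R.N k ^ (-al)) := by
  obtain ⟨M, hM⟩ := hY.1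
  filter_upwards [hM, hY.2.1 τ hτ, hn τ hτ, hF τ hτ] with k a1 a2 a3 a4
  have hn0 := kb_res_pos E.R k
  have hpos : ∀ x : ℝ, 0 < E.R.N k ^ x := fun x => Real.rpow_pos_of_pos hn0 x
  refine ⟨a1.1, a2.1.size, a2.1.box, fun c => ?_, fun c => ?_, a4⟩
  · have hJ := k2s_J_pos (Y k) a1.1 c
    have b1 := (a3 c).1
    rw [le_div_iff₀ hJ] at b1
    have e : E.R.N k ^ τ * (Y k).q ^ 2 * E.R.N k ^ (-al) = (Y k).q ^ 2 * E.R.N k ^ (-(-(-al) - τ)) := by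
      have : E.R.N k ^ (-(-(-al) - τ)) = E.R.N k ^ τ * E.R.N k ^ (-al) := by
        rw [← Real.rpow_add hn0]
        congr 1
        ring
      rw [this]
      ring
    rw [e, Real.rpow_neg hn0.le, ← div_eq_mul_inv, le_div_iff₀ (hpos _)]
    linarith
  · have hJ := k2s_J_pos (Y k) a1.1 c
    have b1 := (a3 c).2
    rw [div_le_iff₀ hJ] at b1
    have e : E.R.N k ^ (-(-al) + τ) = E.R.N k ^ τ * (E.R.N k ^ (-al))⁻¹ := by
      rw [← Real.rpow_neg hn0.le, ← Real.rpow_add hn0]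
      congr 1
      ring
    rw [e] at b1
    have b2 := mul_le_mul_of_nonneg_right b1 (hpos (-al)).le
    have e2 : E.R.N k ^ τ * (E.R.N k ^ (-al))⁻¹ * ((Y k).ch c).J * E.R.N k ^ (-al) = E.R.N k ^ τ * ((Y k).ch c).J := by
      have := (hpos (-al)).ne'
      field_simp
    rw [e2] at b2
    exact b2

/-- `R := D₁⁻¹ D₂`;  `D₁ R = D₂` by `WF.inv`;  `|R i k| ≤ kbMn R` (`Finset.single_le_sum` twice). -/
theorem k9a_nest {f : ℝ → ℝ → ℝ} (hX : X.Ok f) (τ : ℝ) (hτ : 0 < τ) : ∀ᶠ k in uf, K9Nest (X.Y1 k) (X.Y2 k) (X.up k) (E.R.N k ^ τ) := by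
  obtain ⟨M, hM⟩ := hX.sys1.1.1
  filter_upwards [hM, hX.nest, hX.rel τ hτ] with k a1 a2 a3
  refine ⟨fun c => (a2 c).1, fun c => (a2 c).2.2.2, fun c => ?_⟩
  refine ⟨((X.Y1 k).ch (X.up k c)).Di * ((X.Y2 k).ch c).D, ?_, fun i j => ?_⟩
  · show ((X.Y2 k).ch c).D = ((X.Y1 k).ch (X.up k c)).D * (((X.Y1 k).ch (X.up k c)).Di * ((X.Y2 k).ch c).D)
    rw [← Matrix.mul_assoc, a1.1.inv, Matrix.one_mul]
  · refine le_trans ?_ (a3 c)
    unfold kbMn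
    refine le_trans ?_ (Finset.single_le_sum (f := fun i => ∑ j, |(((X.Y1 k).ch (X.up k c)).Di * ((X.Y2 k).ch c).D) i j|)
      (fun i _ => Finset.sum_nonneg fun j _ => abs_nonneg _) (Finset.mem_univ i))
    exact Finset.single_le_sum (f := fun j => |(((X.Y1 k).ch (X.up k c)).Di * ((X.Y2 k).ch c).D) i j|)
      (fun j _ => abs_nonneg _) (Finset.mem_univ j)

/-! ## 3. The good incidences -/

/-- the good incidences: thresholds `N^{-f(L,u/2)+σ}`, `N^{-f(L,0)-σ}`, `N^{-f(0,0)+σ}` -/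
def k9aG (E : K9E) (f : ℝ → ℝ → ℝ) (u σ : ℝ) : E.Sel := fun k =>
  k9aGood (E.P k) (E.a E.L k) (E.a (u / 2) k) (E.R.N k ^ (-(f E.L (u / 2)) + σ)) (E.R.N k ^ (-(f E.L 0) - σ)) (E.R.N k ^ (-(f 0 0) + σ))

/-- the constant of the integrated cap -/
def k9aKap (E : K9E) (f : ℝ → ℝ → ℝ) (u σ : ℝ) (k : ℕ) (K : ℝ) : ℝ :=
  1024 * K ^ 2 * K * E.R.N k ^ (-(f E.L (u / 2)) + σ) * E.R.N k ^ (-(f 0 0) + σ) / E.R.N k ^ (-(f E.L 0) - σ)

/-- LEAF Q4 (~100 l.).  `k9a_good_compl`;  `hE.hom.joint E.L _ (u/2) _` (upper), `hE.hom.pure E.L _` (lower), `hE.hom.pure 0 _` (upper) through `k2a_up_iff`, `k2a_lo_iff`;  `E.a 0 k = 1`;  `k2a_pow_add`, `k2a_pow_mono`. -/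
theorem k9a_good_pow {d' S η : ℝ} {f : ℝ → ℝ → ℝ} (hE : E.Cap d' S η f) {u σ : ℝ} (hu : 0 ≤ u) (hσ : 0 < σ) :
    K2aPow E.R fun k => (E.P k).mass fun γ => (k9aG E f u σ k γ)ᶜ := by
  have hL : 0 < E.L := hE.ok.1
  have h1 := (k2a_up_iff hE.ok _ _).1 (hE.hom.joint E.L ⟨hL.le, le_rfl⟩ (u / 2) (by positivity)).1 σ hσ
  have h2 := (k2a_lo_iff hE.ok _ _).1 (hE.hom.pure E.L ⟨hL.le, le_rfl⟩).2 σ hσ
  have h3 := (k2a_up_iff hE.ok _ _).1 (hE.hom.pure 0 ⟨le_rfl, hL.le⟩).1 σ hσ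
  refine k2a_pow_mono (Eventually.of_forall fun k => ?_) (k2a_pow_add (k2a_pow_add h1 h2) h3)
  have h4 := k9a_good_compl (E.P k) (E.a E.L k) (E.a (u / 2) k) (E.R.N k ^ (-(f E.L (u / 2)) + σ)) (E.R.N k ^ (-(f E.L 0) - σ)) (E.R.N k ^ (-(f 0 0) + σ))
  have e : E.hid 0 k = (E.P k).hid 1 := by
    show (E.P k).hid (E.a 0 k) = (E.P k).hid 1
    rw [k2a_a_zero]
  rw [e]
  exact h4

/-! ## 4. All hypotheses of the one-scale core -/

/-- all hypotheses of `k9_full_time` at the scale `k` with the slack `K` -/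
structure K9aNodes.Hyp (f : ℝ → ℝ → ℝ) (u σ : ℝ) (k : ℕ) (K : ℝ) : Prop where
  one_le : 1 ≤ K
  wf : (E.P k).WF
  ntv : (E.P k).Ntv K
  node1 : K9Node (E.P k) (X.Y1 k) K (X.g1 k)
  node2 : K9Node (E.P k) (X.Y2 k) K (X.g2 k)
  nest : K9Nest (X.Y1 k) (X.Y2 k) (X.up k) K
  sat : (X.Y2 k).Sat K (E.R.N k ^ (-(f X.r2 0)))
  known : (X.Y2 k).Known ((E.P k).hid (E.a E.L k)) K
  big : (X.Y2 k).Big K
  cap : K9Cap (E.P k) (k9aG E f u σ k) (E.a E.L k) (80 * K ^ 3 * X.g2 k / X.th u k) (k9aKap E f u σ k K) K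
  small : ((E.P k).mass fun γ => (k9aG E f u σ k γ)ᶜ).toReal + 240 * K ^ 6 * k9aKap E f u σ k K / (E.R.N k ^ (-(f X.r2 0)) * (X.Y2 k).q ^ 2) ≤ 1 / (2 * K ^ 2)

/-- arithmetic of `k9a_hyp`: the radius of the cap -/
theorem k9a_hyp_rho (n τ u al2 : ℝ) (hn : 1 ≤ n) (hτ : τ ≤ u / 12) (hb : 80 ≤ n ^ (u / 4)) :
    80 * (n ^ τ) ^ 3 * n ^ (-al2) / n ^ (-(al2 - u)) ≤ n ^ (-(u / 2)) := by
  have hn0 : 0 < n := by linarith
  have hpos : ∀ x : ℝ, 0 < n ^ x := fun x => Real.rpow_pos_of_pos hn0 x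
  have pw : (n ^ τ) ^ 3 = n ^ (3 * τ) := by
    rw [← Real.rpow_natCast, ← Real.rpow_mul hn0.le, mul_comm]
    norm_num
  have e1 : 80 * (n ^ τ) ^ 3 * n ^ (-al2) / n ^ (-(al2 - u)) = 80 * n ^ (3 * τ + -al2 - -(al2 - u)) := by
    rw [pw, Real.rpow_sub hn0, Real.rpow_add hn0]
    ring
  have e2 : n ^ (3 * τ + -al2 - -(al2 - u)) ≤ n ^ (-(u / 4) + -(u / 2)) :=
    Real.rpow_le_rpow_of_exponent_le hn (by linarith)
  rw [e1]
  rw [Real.rpow_add hn0, Real.rpow_neg hn0.le (u / 4)] at e2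
  have h1 : 80 * (n ^ (u / 4))⁻¹ ≤ 1 := by
    rw [← div_eq_mul_inv, div_le_one (hpos _)]
    exact hb
  calc 80 * n ^ (3 * τ + -al2 - -(al2 - u)) ≤ 80 * ((n ^ (u / 4))⁻¹ * n ^ (-(u / 2))) := by linarith
    _ = (80 * (n ^ (u / 4))⁻¹) * n ^ (-(u / 2)) := by ring
    _ ≤ 1 * n ^ (-(u / 2)) := mul_le_mul_of_nonneg_right h1 (hpos _).le
    _ = n ^ (-(u / 2)) := one_mul _

/-- arithmetic of `k9a_hyp`: the smallness condition -/
theorem k9a_hyp_small (n τ σ δ c Su fLu fL0 f00 fr2 h2 q m : ℝ) (hn : 1 ≤ n) (hσ : σ = δ / 12) (hτδ : τ ≤ δ / 52) (hτc : τ ≤ c / 4)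
    (hang : fL0 + Su ≤ fLu) (hδ : δ = Su - (fr2 - f00 + 2 * h2)) (hq : n ^ (-h2 - τ) ≤ q) (hm : m ≤ n ^ (-c))
    (hb1 : 983040 ≤ n ^ (δ / 2)) (hb2 : 4 ≤ n ^ (c / 2)) :
    m + 240 * (n ^ τ) ^ 6 * (1024 * (n ^ τ) ^ 2 * n ^ τ * n ^ (-fLu + σ) * n ^ (-f00 + σ) / n ^ (-fL0 - σ)) / (n ^ (-fr2) * q ^ 2)
      ≤ 1 / (2 * (n ^ τ) ^ 2) := by
  have hn0 : 0 < n := by linarith
  have hpos : ∀ x : ℝ, 0 < n ^ x := fun x => Real.rpow_pos_of_pos hn0 x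
  have hmono : ∀ x y : ℝ, x ≤ y → n ^ x ≤ n ^ y := fun x y h => Real.rpow_le_rpow_of_exponent_le hn h
  have pw : ∀ (x : ℝ) (j : ℕ), (n ^ x) ^ j = n ^ ((j : ℝ) * x) := fun x j => by
    rw [← Real.rpow_natCast, ← Real.rpow_mul hn0.le, mul_comm]
  obtain ⟨T, hT⟩ : ∃ T, T = n ^ (-(2 * τ)) := ⟨_, rfl⟩
  have hT0 : 0 < T := by rw [hT]; exact hpos _
  have e3 : 1 / (2 * (n ^ τ) ^ 2) = T / 2 := by
    rw [pw τ 2, hT, Real.rpow_neg hn0.le]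
    push_cast
    rw [one_div, mul_inv]
    ring
  have e1 : 1024 * (n ^ τ) ^ 2 * n ^ τ * n ^ (-fLu + σ) * n ^ (-f00 + σ) / n ^ (-fL0 - σ)
      = 1024 * n ^ (2 * τ + τ + (-fLu + σ) + (-f00 + σ) - (-fL0 - σ)) := by
    have gen : ∀ A B Cc : ℝ, 1024 * (n ^ τ) ^ 2 * n ^ τ * n ^ A * n ^ B / n ^ Cc = 1024 * n ^ (2 * τ + τ + A + B - Cc) := by
      intro A B Cc
      rw [pw τ 2, Real.rpow_sub hn0, Real.rpow_add hn0, Real.rpow_add hn0, Real.rpow_add hn0]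
      push_cast
      ring
    exact gen _ _ _
  have hden : n ^ (-fr2 + 2 * (-h2 - τ)) ≤ n ^ (-fr2) * q ^ 2 := by
    rw [Real.rpow_add hn0]
    refine mul_le_mul_of_nonneg_left ?_ (hpos _).le
    have := pw (-h2 - τ) 2
    push_cast at this
    rw [← this]
    exact pow_le_pow_left₀ (hpos _).le hq 2
  have hterm : 240 * (n ^ τ) ^ 6 * (1024 * (n ^ τ) ^ 2 * n ^ τ * n ^ (-fLu + σ) * n ^ (-f00 + σ) / n ^ (-fL0 - σ)) / (n ^ (-fr2) * q ^ 2)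
      ≤ T / 4 := by
    rw [e1]
    have h1 : 240 * (n ^ τ) ^ 6 * (1024 * n ^ (2 * τ + τ + (-fLu + σ) + (-f00 + σ) - (-fL0 - σ))) / (n ^ (-fr2) * q ^ 2)
        ≤ 240 * (n ^ τ) ^ 6 * (1024 * n ^ (2 * τ + τ + (-fLu + σ) + (-f00 + σ) - (-fL0 - σ))) / n ^ (-fr2 + 2 * (-h2 - τ)) :=
      div_le_div_of_nonneg_left (by have := hpos τ; have := hpos (2 * τ + τ + (-fLu + σ) + (-f00 + σ) - (-fL0 - σ)); positivity) (hpos _) hden
    have h2' : 240 * (n ^ τ) ^ 6 * (1024 * n ^ (2 * τ + τ + (-fLu + σ) + (-f00 + σ) - (-fL0 - σ))) / n ^ (-fr2 + 2 * (-h2 - τ))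
        = 245760 * n ^ (6 * τ + (2 * τ + τ + (-fLu + σ) + (-f00 + σ) - (-fL0 - σ)) - (-fr2 + 2 * (-h2 - τ))) := by
      have gen : ∀ e dd : ℝ, 240 * (n ^ τ) ^ 6 * (1024 * n ^ e) / n ^ dd = 245760 * n ^ (6 * τ + e - dd) := by
        intro e dd
        rw [pw τ 6, Real.rpow_sub hn0, Real.rpow_add hn0]
        push_cast
        ring
      exact gen _ _
    have h3 : n ^ (6 * τ + (2 * τ + τ + (-fLu + σ) + (-f00 + σ) - (-fL0 - σ)) - (-fr2 + 2 * (-h2 - τ))) ≤ n ^ (-(2 * τ) + -(δ / 2)) :=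
      hmono _ _ (by rw [hσ]; linarith)
    rw [Real.rpow_add hn0, ← hT, Real.rpow_neg hn0.le (δ / 2)] at h3
    have h4 : (n ^ (δ / 2))⁻¹ ≤ 1 / 983040 := by
      rw [one_div]
      exact inv_anti₀ (by norm_num) hb1
    have h5 : T * (n ^ (δ / 2))⁻¹ ≤ T * (1 / 983040) := mul_le_mul_of_nonneg_left h4 hT0.le
    rw [h2'] at h1
    linarith
  have hmass : m ≤ T / 4 := by
    have h3 : n ^ (-c) ≤ n ^ (-(2 * τ) + -(c / 2)) := hmono _ _ (by linarith)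
    rw [Real.rpow_add hn0, ← hT, Real.rpow_neg hn0.le (c / 2)] at h3
    have h4 : (n ^ (c / 2))⁻¹ ≤ 1 / 4 := by
      rw [one_div]
      exact inv_anti₀ (by norm_num) hb2
    have h5 : T * (n ^ (c / 2))⁻¹ ≤ T * (1 / 4) := mul_le_mul_of_nonneg_left h4 hT0.le
    linarith
  rw [e3]
  linarith

/-- LEAF Q5 (~350 l., exponent arithmetic).  **The hypotheses hold eventually.**
CHOICES.  `δ := S u / 2 - (f r₂ 0 - f 0 0 + 2 h₂) > 0`,  `σ := δ / 12`,  `c > 0` the exponent of `k9a_good_pow` for this `σ`,  `τ₀ := min (δ / 52) (min (c / 4) (u / 12))`.   Let `0 < τ ≤ τ₀`, `K = N^τ`.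
`wf`, `ntv` : `hE.ok`.   `node_j` : `k9a_node` (`hX.sys_j.1`, `hX.nar_j`, `hF`).   `nest` : `k9a_nest`.   `sat` : `hX.sat2`.   `known` : `k2s_isKnown_mono` (`r₂ ≤ L`) from `hX.own2`.   `big` : `hX.sys2.1`.
`cap` : `k9a_cap` with `b = N^{-u/2}`, `ρ = 80 K³ g₂/θ = 80 N^{3τ - u} ≤ N^{-u/2}` eventually (`3 τ ≤ u/4`), `aL = N^{-L} ≤ 1`, `Kl = K`.
`small` : `κ = 1024 N^{3τ - f(L,u/2) + f(L,0) - f(0,0) + 3σ} ≤ 1024 N^{3τ - Su/2 - f(0,0) + 3σ}` (`hE.ang (u/2)`);  `q₂ ≥ N^{-h₂-τ}` (`hX.sys2.1.2.2`);  so `240 K⁶ κ/(n₂ q₂²) ≤ 245760 N^{11τ + 3σ - δ} ≤ N^{-2τ}/4` eventually (`δ - 3σ - 13τ ≥ δ/2`);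
`mass.toReal ≤ N^{-c} ≤ N^{-2τ}/4` eventually (`c - 2τ ≥ c/2`). -/
theorem k9a_hyp {d' S η u : ℝ} {f : ℝ → ℝ → ℝ} (hS : 0 < S) (hE : E.Cap d' S η f) (hX : X.Ok f) (hF : X.Full) (hu : 0 < u) (huη : u / 2 ≤ η * E.L)
    (hgap : f X.r2 0 - f 0 0 + 2 * X.h2 < S * u / 2) :
    ∃ σ τ₀ : ℝ, 0 < σ ∧ 0 < τ₀ ∧ ∀ τ : ℝ, 0 < τ → τ ≤ τ₀ → ∀ᶠ k in uf, X.Hyp f u σ k (E.R.N k ^ τ) := by
  obtain ⟨δ, hδ⟩ : ∃ δ, δ = S * (u / 2) - (f X.r2 0 - f 0 0 + 2 * X.h2) := ⟨_, rfl⟩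
  have hδ0 : 0 < δ := by rw [hδ]; linarith
  obtain ⟨c, hc, hpow⟩ := k9a_good_pow (E := E) hE (u := u) (σ := δ / 12) hu.le (by positivity)
  refine ⟨δ / 12, min (δ / 52) (min (c / 4) (u / 12)), by positivity, lt_min (by positivity) (lt_min (by positivity) (by positivity)), ?_⟩
  intro τ hτ hττ
  have h1 : τ ≤ δ / 52 := hττ.trans (min_le_left _ _)
  have h2 : τ ≤ c / 4 := hττ.trans ((min_le_right _ _).trans (min_le_left _ _))
  have h3 : τ ≤ u / 12 := hττ.trans ((min_le_right _ _).trans (min_le_right _ _))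
  have hL : 0 < E.L := hE.ok.1
  obtain ⟨M, hM⟩ := hE.ok.2.1
  have hang := hE.ang (u / 2) (by positivity) huη
  filter_upwards [hM, hE.ok.2.2 τ hτ, k9a_node X.Y1 hX.sys1.1 hX.nar1 (fun t ht => (hF t ht).mono fun k h => h.1) τ hτ,
    k9a_node X.Y2 hX.sys2.1 hX.nar2 (fun t ht => (hF t ht).mono fun k h => h.2) τ hτ, k9a_nest X hX τ hτ, hX.sat2 τ hτ,
    k2s_isKnown_mono E hE.ok X.Y2 hX.r2_lt.le hX.own2 τ hτ, hX.sys2.1.2.1 τ hτ, hX.sys2.1.2.2 τ hτ, hpow,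
    (kb_rpow_tendsto E.R (by positivity : 0 < u / 4)).eventually_ge_atTop 80,
    (kb_rpow_tendsto E.R (by positivity : 0 < δ / 2)).eventually_ge_atTop 983040,
    (kb_rpow_tendsto E.R (by positivity : 0 < c / 2)).eventually_ge_atTop 4] with k a1 a2 a3 a4 a5 a6 a7 a8 a9 a10 a11 a12 a13
  have hn := kb_res_one_le E.R k
  have hn0 := kb_res_pos E.R k
  have hpos : ∀ x : ℝ, 0 < E.R.N k ^ x := fun x => Real.rpow_pos_of_pos hn0 x
  have hK1 : 1 ≤ E.R.N k ^ τ := Real.one_le_rpow hn hτ.le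
  refine ⟨hK1, a1.1, a2, a3, a4, a5, a6, a7, a8.2, ?_, ?_⟩
  · refine k9a_cap a1.1 hK1 a2 (hpos _) (Real.rpow_le_one_of_one_le_of_nonpos hn (by linarith)) ?_ ?_ (hpos _) (hpos _) (hpos _).le (hpos _).le (hpos _).le
    · have b1 : 0 < X.g2 k := hpos _
      have b2 : 0 < X.th u k := hpos _
      have b3 := hpos τ
      positivity
    · exact k9a_hyp_rho (E.R.N k) τ u X.al2 hn h3 a11
  · exact k9a_hyp_small (E.R.N k) τ (δ / 12) δ c (S * (u / 2)) (f E.L (u / 2)) (f E.L 0) (f 0 0) (f X.r2 0) X.h2 (X.Y2 k).q _ hn rfl h1 h2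
      hang hδ a9.1 (ENNReal.toReal_le_of_le_ofReal (hpos _).le a10) a12 a13

/-! ## 5. The conclusions of the one-scale core -/

/-- the conclusions of `k9_full_time` at the scale `k`, slack `K`, time `t0` -/
structure K9aNodes.Con (u : ℝ) (k : ℕ) (K t0 : ℝ) : Prop where
  wf : (k9Csys (X.Y2 k) t0 (X.gC u k) (X.th u k)).WF
  geo : (k9Csys (X.Y2 k) t0 (X.gC u k) (X.th u k)).Geo K 1
  big : (k9Csys (X.Y2 k) t0 (X.gC u k) (X.th u k)).Big K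
  known : (k9Csys (X.Y2 k) t0 (X.gC u k) (X.th u k)).Known ((E.P k).hid (E.a E.L k)) K
  cmp : ∀ (b : (k9Csys (X.Y2 k) t0 (X.gC u k) (X.th u k)).C) (c1 : (X.Y1 k).C), (X.Y1 k).wd c1 = (k9Csys (X.Y2 k) t0 (X.gC u k) (X.th u k)).wd b →
    ((k9Csys (X.Y2 k) t0 (X.gC u k) (X.th u k)).S b ∩ (X.Y1 k).S c1).Nonempty → ∀ (n1 : K9V) (s S : ℝ), K9Svd (k9D (X.Y1 k) c1) n1 s S →
      |k9crs (k9NC (X.Y2 k) t0 (X.gC u k) (X.th u k) b) n1| ≤ K * X.g1 k ∧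
        |k9dot (k9NC (X.Y2 k) t0 (X.gC u k) (X.th u k) b) (((X.Y1 k).ch c1).y1 - ((k9Csys (X.Y2 k) t0 (X.gC u k) (X.th u k)).ch b).y1)| ≤ K * X.g1 k

/-- LEAF Q6 (with the next one, ~200 l. together).  **One scale.**  `k9_full_time` with `g_j = X.g_j k`, `θ = X.th u k`, `gC = X.gC u k`, `n2 = N^{-f(r₂,0)}`, `κ = k9aKap ..`, `ε0 = (mass Gᶜ).toReal`, `G = k9aG ..` (`k9a_good_meas`).
`g₂ ≤ θ ≤ gC ≤ g₁`, `gC ≤ 1` : `Real.rpow_le_rpow_of_exponent_le` (`kb_res_one_le`).   `hε` : `sel γ \ G γ ⊆ (G γ)ᶜ` (`k2a_mass_mono`), `ENNReal.ofReal_toReal` (the mass is `≤ tot ≤ 1`: `k2s_mass_le_tot`, `k2s_tot_le`).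
The five slacks `50 K³`, `2 K²`, `2 (200 K³)⁴ K`, `200 K⁴`, `4000 K⁶` are `≤ 4·10⁹ K¹³` (`K ≥ 1`); monotonicity `k2s_geo_mono`, `k2s_big_mono`, `k2s_known_mono`. -/
theorem k9a_con {f : ℝ → ℝ → ℝ} {u σ : ℝ} (hu : 0 ≤ u) (hal0 : 0 ≤ X.al1) (hal : X.al1 + 2 * u ≤ X.al2) {k : ℕ} {K : ℝ} (h : X.Hyp f u σ k K) :
    ∃ t0 ∈ Set.Ico (0 : ℝ) 1, X.Con u k (4000000000 * K ^ 13) t0 := by
  have hn := kb_res_one_le E.R k
  have hn0 := kb_res_pos E.R k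
  have hpos : ∀ x : ℝ, 0 < E.R.N k ^ x := fun x => Real.rpow_pos_of_pos hn0 x
  have hmono : ∀ x y : ℝ, x ≤ y → E.R.N k ^ x ≤ E.R.N k ^ y := fun x y h => Real.rpow_le_rpow_of_exponent_le hn h
  have hK := h.one_le
  have hK0 : 0 < K := by linarith
  have hκ : 0 ≤ k9aKap E f u σ k K := by
    unfold k9aKap
    have b1 := hpos (-(f E.L (u / 2)) + σ)
    have b2 := hpos (-(f 0 0) + σ)
    have b3 := hpos (-(f E.L 0) - σ)
    positivity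
  have hfin : ((E.P k).mass fun γ => (k9aG E f u σ k γ)ᶜ) ≠ ⊤ :=
    ne_top_of_le_ne_top ENNReal.one_ne_top ((k2s_mass_le_tot _ _).trans (k2s_tot_le _ h.wf))
  obtain ⟨t0, ht0, c1, c2, c3, c4, c5⟩ := k9_full_time h.wf (X.Y1 k) (X.Y2 k) (X.up k) (k9aG E f u σ k) K (E.a E.L k) (X.g1 k) (X.g2 k)
    (E.R.N k ^ (-(f X.r2 0))) (X.th u k) (X.gC u k) (k9aKap E f u σ k K) ((E.P k).mass fun γ => (k9aG E f u σ k γ)ᶜ).toReal hK
    (hpos _) (hmono _ _ (by linarith)) (hmono _ _ (by linarith)) (hmono _ _ (by linarith))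
    (Real.rpow_le_one_of_one_le_of_nonpos hn (by linarith)) (hpos _) hκ ENNReal.toReal_nonneg h.ntv h.node1 h.node2 h.nest h.sat h.known h.big
    (fun γ => k9a_good_meas h.wf _ _ _ _ _ γ)
    (by
      rw [ENNReal.ofReal_toReal hfin]
      exact k2a_mass_mono fun γ x hx => hx.2)
    h.cap h.small
  have p : ∀ j : ℕ, j ≤ 13 → K ^ j ≤ K ^ 13 := fun j hj => pow_le_pow_right₀ hK hj
  have p13 : 0 < K ^ 13 := by positivity
  have hg1 : 0 < X.g1 k := hpos _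
  refine ⟨t0, ht0, c1, k2s_geo_mono _ h.wf c2 (by have := p 3 (by norm_num); linarith) zero_le_one,
    k2s_big_mono _ c3 (by have := p 2 (by norm_num); linarith), k2s_known_mono _ c4 ?_, ?_⟩
  · have e : 2 * (200 * K ^ 3) ^ 4 * K = 3200000000 * K ^ 13 := by ring
    rw [e]
    linarith
  · intro b c1' hw hne n1 s S hsv
    obtain ⟨d1, d2⟩ := c5 b c1' hw hne n1 s S hsv
    refine ⟨d1.trans (mul_le_mul_of_nonneg_right ?_ hg1.le), d2.trans (mul_le_mul_of_nonneg_right ?_ hg1.le)⟩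
    · have := p 4 (by norm_num); linarith
    · have := p 6 (by norm_num); linarith

/-- (`k2s_geo_mono`, `k2s_big_mono`, `k2s_known_mono`; `0 ≤ X.g1 k`) -/
theorem k9a_con_mono {u : ℝ} {k : ℕ} {K K' t0 : ℝ} (hw : (E.P k).WF) (hK : K ≤ K') (h : X.Con u k K t0) : X.Con u k K' t0 := by
  have hg1 : 0 < X.g1 k := Real.rpow_pos_of_pos (kb_res_pos E.R k) _
  refine ⟨h.wf, k2s_geo_mono _ hw h.geo hK zero_le_one, k2s_big_mono _ h.big hK, k2s_known_mono _ h.known hK, ?_⟩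
  intro b c1 hwd hne n1 s S hsv
  obtain ⟨d1, d2⟩ := h.cmp b c1 hwd hne n1 s S hsv
  exact ⟨d1.trans (mul_le_mul_of_nonneg_right hK hg1.le), d2.trans (mul_le_mul_of_nonneg_right hK hg1.le)⟩

/-- LEAF Q7 (~120 l.).  **Polynomial bounds for the full-time charts.**   `card` : `Fintype.card {b // b ∈ T} = T.card`, `Finset.card_image_le`, `Finset.card_filter_le`;   `q = kbQ 0 = 1`;   `J = |det (k9Fr n gC)| = gC (n₀² + n₁²) = gC` (`Matrix.det_fin_two_of`, `k9nrm_spec`);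
`‖Al • n‖ ≤ |Al| ≤ 2 ‖y0‖` (`|n i| ≤ 1` : `k9_unit_abs_le`; sup norm `norm_le_pi_norm`, `pi_norm_le_iff_of_nonneg`). -/
theorem k9a_Csys_tmp {P : K9P} (Y : KbSys P) {Q : ℝ} (hQ : 1 ≤ Q) (hT : Y.Tmp Q) (t0 gC θ : ℝ) (hgC : 0 < gC) (hQg : 1 ≤ Q * gC) : (k9Csys Y t0 gC θ).Tmp (4 * Q) := by
  have hunit : ∀ D : K9M, K9Unit (k9nrm D) := fun D => by
    obtain ⟨s, S, h⟩ := k9nrm_spec D
    exact h.1
  have hsm : ∀ (n y : K9V), K9Unit n → ‖k9dot n y • n‖ ≤ 2 * ‖y‖ := by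
    intro n y hn
    have hn1 := k9_unit_abs_le n hn
    have hy0 : |y 0| ≤ ‖y‖ := by
      have := norm_le_pi_norm y 0
      rwa [Real.norm_eq_abs] at this
    have hy1 : |y 1| ≤ ‖y‖ := by
      have := norm_le_pi_norm y 1
      rwa [Real.norm_eq_abs] at this
    have hd : |k9dot n y| ≤ 2 * ‖y‖ := by
      unfold k9dot
      calc |n 0 * y 0 + n 1 * y 1| ≤ |n 0 * y 0| + |n 1 * y 1| := abs_add_le _ _
        _ = |n 0| * |y 0| + |n 1| * |y 1| := by rw [abs_mul, abs_mul]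
        _ ≤ 1 * ‖y‖ + 1 * ‖y‖ := add_le_add (mul_le_mul (hn1 0) hy0 (abs_nonneg _) zero_le_one) (mul_le_mul (hn1 1) hy1 (abs_nonneg _) zero_le_one)
        _ = 2 * ‖y‖ := by ring
    have hnn : ‖n‖ ≤ 1 := (pi_norm_le_iff_of_nonneg zero_le_one).2 fun i => by
      rw [Real.norm_eq_abs]
      exact hn1 i
    rw [norm_smul, Real.norm_eq_abs]
    calc |k9dot n y| * ‖n‖ ≤ (2 * ‖y‖) * 1 := mul_le_mul hd hnn (norm_nonneg _) (by positivity)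
      _ = 2 * ‖y‖ := mul_one _
  refine ⟨?_, ?_, fun b => ?_, fun b => ?_⟩
  · have h1 : Fintype.card (k9Csys Y t0 gC θ).C = (k9CLab Y t0 gC).card :=
      Fintype.card_of_subtype (k9CLab Y t0 gC) fun _ => Iff.rfl
    have h2 : (k9CLab Y t0 gC).card ≤ Fintype.card Y.C := by
      classical
      unfold k9CLab k9At
      exact Finset.card_image_le.trans ((Finset.card_filter_le _ _).trans (le_of_eq Finset.card_univ))
    rw [h1]
    have h3 : ((k9CLab Y t0 gC).card : ℝ) ≤ Fintype.card Y.C := by exact_mod_cast h2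
    linarith [hT.card]
  · have : (k9Csys Y t0 gC θ).q = 1 := by
      show kbQ 0 = 1
      simp [kbQ]
    rw [this]
    linarith
  · have hn := hunit (k9D Y (k9Rep Y t0 gC b))
    have hJ : ((k9Csys Y t0 gC θ).ch b).J = gC := by
      show |(k9Fr (k9N Y (k9Rep Y t0 gC b)) gC).det| = gC
      unfold k9Fr
      rw [Matrix.det_fin_two_of]
      have e : -k9N Y (k9Rep Y t0 gC b) 1 * (gC * k9N Y (k9Rep Y t0 gC b) 1) - gC * k9N Y (k9Rep Y t0 gC b) 0 * k9N Y (k9Rep Y t0 gC b) 0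
          = -(gC * (k9N Y (k9Rep Y t0 gC b) 0 ^ 2 + k9N Y (k9Rep Y t0 gC b) 1 ^ 2)) := by ring
      have hn' : k9N Y (k9Rep Y t0 gC b) 0 ^ 2 + k9N Y (k9Rep Y t0 gC b) 1 ^ 2 = 1 := hn
      rw [e, hn', mul_one, abs_neg, abs_of_pos hgC]
    rw [hJ]
    nlinarith
  · have hn := hunit (k9D Y (k9Rep Y t0 gC b))
    have a1 : ‖((k9Csys Y t0 gC θ).ch b).y0‖ ≤ 2 * ‖(Y.ch (k9Rep Y t0 gC b)).y0‖ := hsm _ _ hn
    have a2 : ‖((k9Csys Y t0 gC θ).ch b).y1‖ ≤ 2 * ‖(Y.ch (k9Rep Y t0 gC b)).y1‖ := hsm _ _ hn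
    have a3 := hT.cen (k9Rep Y t0 gC b)
    linarith

/-! ## 6. EXIT 2 -/

/-- LEAF Q8 (~250 l.).  **P9.2 AT THE SEQUENCE LEVEL.**
PLAN.  `σ, τ₀` from `k9a_hyp`.   `kb_slow E.R (fun k τ => X.Hyp f u σ k (N k ^ min τ τ₀))` gives `τ k → 0` with `Hyp` at `K k := N k ^ min (τ k) τ₀` eventually; `K` is subpower (`kb_subp_mono` from `N^{τ k}`).
`t0 k :=` the time of `k9a_con` if `Hyp` holds at `k`, else `0` (`Classical.choose` under `if`).   So `∀ᶠ k, X.Con u k (4·10⁹ (K k)^13) (t0 k)`, and `k ↦ 4·10⁹ (K k)^13` is subpower (`kb_subp_pow` with `C = 4·10⁹`, `K^13 ≤ K^C`, or `kb_subp_mul`).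
`k2s_of_subp` + `k9a_con_mono` : `∀ τ > 0, ∀ᶠ k, X.Con u k (N^τ) (t0 k)`.   Read off: `Geo` (`E.a 0 k = 1`), `Big`, `IsKnown .. E.L`, `Cmp`.   `q = 1` : `KbExp _ 0` (`kp4_exp_one`).
`Tmp` : `M` from `hX.sys2.1.1`; `k9a_Csys_tmp` with `Q = N^{max M (al2 - 2u) ⊔ 0}`, `4 Q ≤ N^{M'+2}`. -/
theorem k9a_full_time {d' S η u : ℝ} {f : ℝ → ℝ → ℝ} (hS : 0 < S) (hE : E.Cap d' S η f) (hX : X.Ok f) (hF : X.Full) (hu : 0 < u) (huη : u / 2 ≤ η * E.L)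
    (hgap : f X.r2 0 - f 0 0 + 2 * X.h2 < S * u / 2) (hal0 : 0 ≤ X.al1) (hal : X.al1 + 2 * u ≤ X.al2) :
    ∃ t0 : ℕ → ℝ, (∀ k, t0 k ∈ Set.Ico (0 : ℝ) 1) ∧ E.IsAtlas (X.Cs u t0) 0 0 ∧ X.Cmp u t0 := by
  classical
  obtain ⟨σ, τ₀, hσ, hτ₀, hH⟩ := k9a_hyp X hS hE hX hF hu huη hgap
  obtain ⟨τ, hτpos, hτlim, hsub, hev⟩ := kb_slow E.R (fun k t => X.Hyp f u σ k (E.R.N k ^ min t τ₀))
    (fun t ht => hH (min t τ₀) (lt_min ht hτ₀) (min_le_right _ _))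
  obtain ⟨K, hKdef⟩ : ∃ K : ℕ → ℝ, K = fun k => E.R.N k ^ min (τ k) τ₀ := ⟨_, rfl⟩
  have hKsub : KbSubP E.R K := by
    refine kb_subp_mono E.R hsub (Eventually.of_forall fun k => ?_)
    rw [hKdef]
    exact ⟨Real.one_le_rpow (kb_res_one_le E.R k) (lt_min (hτpos k) hτ₀).le,
      Real.rpow_le_rpow_of_exponent_le (kb_res_one_le E.R k) (min_le_left _ _)⟩
  have hK13 : KbSubP E.R fun k => K k ^ 13 := by
    intro t ht
    filter_upwards [hKsub (t / 13) (by positivity)] with k hk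
    refine ⟨one_le_pow₀ hk.1, ?_⟩
    calc K k ^ 13 ≤ (E.R.N k ^ (t / 13)) ^ 13 := pow_le_pow_left₀ (by linarith [hk.1]) hk.2 13
      _ = E.R.N k ^ t := by
          rw [← Real.rpow_natCast, ← Real.rpow_mul (kb_res_pos E.R k).le]
          congr 1
          push_cast
          ring
  have hK'sub : KbSubP E.R fun k => 4000000000 * K k ^ 13 := kb_subp_mul E.R (kb_subp_const E.R (by norm_num)) hK13
  have hex : ∀ k, ∃ t0 ∈ Set.Ico (0 : ℝ) 1, X.Hyp f u σ k (K k) → X.Con u k (4000000000 * K k ^ 13) t0 := by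
    intro k
    by_cases h : X.Hyp f u σ k (K k)
    · obtain ⟨t0, ht0, hc⟩ := k9a_con X hu.le hal0 hal h
      exact ⟨t0, ht0, fun _ => hc⟩
    · exact ⟨0, ⟨le_rfl, zero_lt_one⟩, fun h' => absurd h' h⟩
  choose t0 ht0 hcon using hex
  have hC : ∀ᶠ k in uf, X.Con u k (4000000000 * K k ^ 13) (t0 k) := by
    filter_upwards [hev] with k h
    refine hcon k ?_
    rw [hKdef]
    exact h
  obtain ⟨M0, hM0⟩ := hE.ok.2.1
  have hall : ∀ t : ℝ, 0 < t → ∀ᶠ k in uf, X.Con u k (E.R.N k ^ t) (t0 k) := by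
    intro t ht
    filter_upwards [hK'sub t ht, hC, hM0] with k b1 b2 b3
    exact k9a_con_mono X b3.1 b1.2 b2
  refine ⟨t0, ht0, ⟨⟨?_, ?_, ?_⟩, ?_⟩, ?_⟩
  · obtain ⟨M, hM⟩ := hX.sys2.1.1
    obtain ⟨M', hM'⟩ : ∃ M', M' = max (max M (X.al2 - 2 * u)) 0 := ⟨_, rfl⟩
    have m1 : M ≤ M' := by rw [hM']; exact (le_max_left _ _).trans (le_max_left _ _)
    have m2 : X.al2 - 2 * u ≤ M' := by rw [hM']; exact (le_max_right _ _).trans (le_max_left _ _)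
    have m3 : 0 ≤ M' := by rw [hM']; exact le_max_right _ _
    refine ⟨M' + 2, ?_⟩
    filter_upwards [hM, hall 1 one_pos] with k b1 b2
    have hn := kb_res_one_le E.R k
    have hn0 := kb_res_pos E.R k
    have hn2 := E.R.two_le k
    refine ⟨b2.wf, ?_⟩
    have c1 : (X.Y2 k).Tmp (E.R.N k ^ M') := k2s_tmp_mono _ b1.2 (Real.rpow_le_rpow_of_exponent_le hn m1)
    have c2 : 1 ≤ E.R.N k ^ M' * X.gC u k := by
      unfold K9aNodes.gC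
      rw [← Real.rpow_add hn0]
      exact Real.one_le_rpow hn (by linarith)
    have c3 := k9a_Csys_tmp (X.Y2 k) (Real.one_le_rpow hn m3) c1 (t0 k) (X.gC u k) (X.th u k) (Real.rpow_pos_of_pos hn0 _) c2
    refine k2s_tmp_mono _ c3 ?_
    rw [Real.rpow_add hn0, Real.rpow_two]
    have c4 : 0 < E.R.N k ^ M' := Real.rpow_pos_of_pos hn0 _
    have c5 : 4 ≤ E.R.N k ^ 2 := by nlinarith
    calc 4 * E.R.N k ^ M' = E.R.N k ^ M' * 4 := by ring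
      _ ≤ E.R.N k ^ M' * E.R.N k ^ 2 := mul_le_mul_of_nonneg_left c5 c4.le
  · intro t ht
    filter_upwards [hall t ht] with k b
    have e : E.a 0 k = 1 := by
      unfold KbEx.a
      simp
    rw [e]
    exact ⟨b.geo, b.big⟩
  · have e : (fun k => (X.Cs u t0 k).q) = fun _ => (1 : ℝ) := by
      funext k
      show kbQ 0 = 1
      unfold kbQ
      simp
    rw [e]
    intro t ht
    refine Eventually.of_forall fun k => ⟨?_, ?_⟩
    · exact Real.rpow_le_one_of_one_le_of_nonpos (kb_res_one_le E.R k) (by linarith)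
    · exact Real.one_le_rpow (kb_res_one_le E.R k) (by linarith)
  · intro t ht
    filter_upwards [hall t ht] with k b
    exact b.known
  · intro t ht
    filter_upwards [hall t ht] with k b
    exact b.cmp

/-- **EXIT 2 of S9a**: all late stages of a context carry full-time charts -/
theorem k9a_ctx_full_time (Z : K9aCtx) (hZ : Z.Ok) :
    ∃ i₀ : ℕ, ∀ i, i₀ ≤ i → ∃ t0 : ℕ → ℝ, (∀ k, t0 k ∈ Set.Ico (0 : ℝ) 1) ∧ (Z.E i).IsAtlas ((Z.X i).Cs Z.u t0) 0 0 ∧ (Z.X i).Cmp Z.u t0 := by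
  have hSu : 0 < Z.S * Z.u / 16 := by
    have := hZ.S_pos
    have := hZ.u_pos
    positivity
  obtain ⟨i₁, h₁⟩ := (hZ.ζ_lim.eventually (eventually_le_nhds hSu)).exists_forall_of_atTop
  obtain ⟨i₂, h₂⟩ := exists_nat_ge (2 * Z.u)
  refine ⟨max i₁ i₂, fun i hi => ?_⟩
  have hζ : Z.ζ i ≤ Z.S * Z.u / 16 := h₁ i ((le_max_left _ _).trans hi)
  have hi2 : 2 * Z.u ≤ (i : ℝ) := h₂.trans (by exact_mod_cast (le_max_right _ _).trans hi)
  have hN := hZ.nodes i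
  have hζ0 := hZ.ζ_pos i
  have hr2 : (Z.X i).r2 ∈ Set.Icc (0 : ℝ) (Z.E i).L := ⟨(hN.r1_pos.trans hN.r12).le, hN.r2_lt.le⟩
  have hp := abs_le.1 (hZ.prof i _ hr2)
  have hd := abs_le.1 (hZ.dep i).2
  have hh := abs_le.1 (hZ.hor i).2
  have hd0 := hZ.d_nonneg
  have hd1 := hZ.d_lt
  refine k9a_full_time (Z.X i) hZ.S_pos (hZ.cap i) hN (hZ.full i) hZ.u_pos ?_ ?_ ?_ ?_
  · have := (hZ.len i).1
    have h3 := hZ.u_lt
    have h4 := hZ.η_pos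
    nlinarith
  · rw [hZ.zero i]
    have h5 := hZ.choice
    have h6 : Z.d * (Z.X i).r2 ≤ Z.d * Z.s2 + Z.ζ i := by nlinarith [hd.2]
    nlinarith [hp.2, hh.2]
  · exact (Nat.cast_nonneg i).trans (hZ.nar i).1
  · have := (hZ.nar i).2
    linarith

end

end Claimed.Agent.R252

/-!
# ROW 252 (S0492), unit S9a (post BP-252-S9a, sub-architect helper197; chief helper233), file 4: **FROM `KpCritInf` TO THE CONTEXT OF SEC. 9** (EXIT 1 of S9a).      CONTRACT file: the `sorry`s are the leaves L-252-S9a-X*.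

09-unbounded-narrowness.tex l.33-105.   Input: `KpCritInf KbVer.two S η d k` (exit of Sec. 4.1 for `ℓ = ∞`, `S4/Crit.lean`, chain format) on the grid `(1/4, 1/4 + s₁, 1/4 + s₂, 1)`.
`E_i := π.E 1` = the remaining problem through the first node ("take a true intermediate system on a maximizing critical path, normalize through it"): saturation + own-depth knowledge give `f 0 0 = 0` (`k9a_step_prof`).
`Q₁ := π.Y 1`, `Q₂ :=` lift of `π.Y 2` through `Q₁` (`k9aLift`, `k9a_lift_ok` from the exits of unit NORM), thin charts deleted (`k9a_prep`).   Lengths are not rescaled: `L = 1 - r₀ ∈ [1/2, 1]`.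
-/

set_option autoImplicit false

namespace Claimed.Agent.R252

open MeasureTheory Filter Topology
open Claimed.Agent.R255 (uf)
open scoped ENNReal BigOperators

noncomputable section

/-! ## 1. One step of a chain -/

section step

variable {v : KbVer}

/-- LEAF X1 (~120 l.).  **Saturation gives the exponent of `J_c / ν_c`.**   `Sat K n` with `K = N^τ`, `n = N^{-e₀}` : `ν ≤ ofReal (K n J)` (so `ν < ∞`, `ν.toReal ≤ K n J`), `ofReal (n J) ≤ ofReal K * ν` (so `n J ≤ K ν.toReal`, `ν.toReal > 0`); `J > 0` (`k2s_J_pos`, `hY.1`).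
Hence `N^{e₀ - τ} ≤ J / ν.toReal ≤ N^{e₀ + τ}` (`div_le_iff₀`, `le_div_iff₀`, `Real.rpow_add`). -/
theorem k9a_sat_XJ (E : KbEx v) (Y : E.Sys) {r h e₀ : ℝ} (hY : E.IsSys Y r h) (hs : E.IsSat Y e₀) : E.ChExp Y (E.k2nXJ Y) (-e₀) := by
  intro τ hτ
  obtain ⟨M, hM⟩ := hY.1
  filter_upwards [hM, hs τ hτ] with k hk hsat c
  obtain ⟨-, h2, h3⟩ := hsat c
  have hN0 := kb_res_pos E.R k
  have hJ : 0 < ((Y k).ch c).J := k2s_J_pos (Y k) hk.1 c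
  have hK : 0 < E.R.N k ^ τ := Real.rpow_pos_of_pos hN0 _
  have hn : 0 < E.R.N k ^ (-e₀) := Real.rpow_pos_of_pos hN0 _
  have hfin : (Y k).nuC c ≠ ⊤ := ne_top_of_le_ne_top ENNReal.ofReal_ne_top h2
  set ν := ((Y k).nuC c).toReal with hν
  have hνe : (Y k).nuC c = ENNReal.ofReal ν := (ENNReal.ofReal_toReal hfin).symm
  have a1 : ν ≤ E.R.N k ^ τ * E.R.N k ^ (-e₀) * ((Y k).ch c).J := by
    rw [hνe] at h2
    exact (ENNReal.ofReal_le_ofReal_iff (by positivity)).1 h2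
  have a2 : E.R.N k ^ (-e₀) * ((Y k).ch c).J ≤ E.R.N k ^ τ * ν := by
    rw [hνe, ← ENNReal.ofReal_mul hK.le] at h3
    exact (ENNReal.ofReal_le_ofReal_iff (mul_nonneg hK.le ENNReal.toReal_nonneg)).1 h3
  have hν0 : 0 < ν := by
    by_contra hcon
    have : ν = 0 := le_antisymm (not_lt.1 hcon) ENNReal.toReal_nonneg
    rw [this, mul_zero] at a2
    have : 0 < E.R.N k ^ (-e₀) * ((Y k).ch c).J := by positivity
    linarith
  show E.R.N k ^ (- -e₀ - τ) ≤ ((Y k).ch c).J / ν ∧ ((Y k).ch c).J / ν ≤ E.R.N k ^ (- -e₀ + τ)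
  constructor
  · rw [le_div_iff₀ hν0]
    have e1 : E.R.N k ^ (- -e₀ - τ) * (E.R.N k ^ τ * E.R.N k ^ (-e₀)) = 1 := by
      rw [← Real.rpow_add hN0, ← Real.rpow_add hN0]
      have : - -e₀ - τ + (τ + -e₀) = 0 := by ring
      rw [this, Real.rpow_zero]
    calc E.R.N k ^ (- -e₀ - τ) * ν ≤ E.R.N k ^ (- -e₀ - τ) * (E.R.N k ^ τ * E.R.N k ^ (-e₀) * ((Y k).ch c).J) := by
          gcongr
      _ = (E.R.N k ^ (- -e₀ - τ) * (E.R.N k ^ τ * E.R.N k ^ (-e₀))) * ((Y k).ch c).J := by ring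
      _ = _ := by rw [e1, one_mul]
  · rw [div_le_iff₀ hν0]
    have e2 : E.R.N k ^ (- -e₀ + τ) = E.R.N k ^ e₀ * E.R.N k ^ τ := by
      rw [← Real.rpow_add hN0]
      congr 1
      ring
    have e3 : E.R.N k ^ e₀ * E.R.N k ^ (-e₀) = 1 := by
      rw [← Real.rpow_add hN0, add_neg_cancel, Real.rpow_zero]
    calc ((Y k).ch c).J = E.R.N k ^ e₀ * (E.R.N k ^ (-e₀) * ((Y k).ch c).J) := by
          rw [← mul_assoc, e3, one_mul]
      _ ≤ E.R.N k ^ e₀ * (E.R.N k ^ τ * ν) := by gcongr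
      _ = _ := by rw [e2]; ring

/-- **the profile of the remaining problem through a prepared true system**: equality case of L2.13 -/
theorem k9a_step_prof (E : KbEx v) {d' S η : ℝ} {f f' : ℝ → ℝ → ℝ} (hE : E.Cap d' S η f) (Y : E.Sys) {r h : ℝ} (hr : 0 < r) (hrL : r < E.L)
    (hY : E.IsTrueSys f Y r h) (hs : E.IsSat Y (f r 0)) (ho : E.IsKnown Y r) (hE' : (E.norm Y r).Cap d' S η f') :
    ∀ s : ℝ, 0 ≤ s → s ≤ E.L - r → f' s 0 = f (r + s) 0 - f r 0 := by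
  intro s h0 h1
  have hA : E.IsAtlas Y r h := ⟨hY.1, k2s_isKnown_mono E hE.ok Y hrL.le ho⟩
  have := (E.k2n_profile hE.ok f f' hE.hom Y r h (-(f r 0)) hr.le hrL hA (k9a_sat_XJ E Y hY.1 hs) hE'.ok hE'.hom).2.2.2 ho s h0 h1
  rw [this]
  ring

/-- LEAF X2 (with the next one, ~150 l. together).  **One scale: a lift is nested in its parent.**   `wd` : `rfl`;  `A` : `Set.inter_subset_left`;  `S` : `k2n_lift_S_sub`;
`I` : `kbI (n + n') (i 2^{n'} + i') ⊆ kbI n i` for `i' < 2^{n'}` (`hY'.iv_lt`; `kbQ (n + n') = kbQ n * kbQ n'`, `kbQ n' * 2^{n'} = 1` : `k2n_kbQ_add`, `k2n_kbQ_mul_two_pow`). -/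
theorem k9a_lift_nest {P : KbPb v} (Y : KbSys P) (a : ℝ) (Y' : KbSys (Y.norm a)) (hY' : Y'.WF) (d : Y'.C) :
    Y.wd (Y'.wd d) = (Y.lift a Y').wd d ∧ (Y.lift a Y').I d ⊆ Y.I (Y'.wd d) ∧ (Y.lift a Y').A d ⊆ Y.A (Y'.wd d) ∧ (Y.lift a Y').S d ⊆ Y.S (Y'.wd d) := by
  refine ⟨rfl, ?_, Set.inter_subset_left, Y.k2n_lift_S_sub a Y' hY' d⟩
  intro t ht
  have ht' : t ∈ kbI (Y.n + Y'.n) (Y.iv (Y'.wd d) * 2 ^ Y'.n + Y'.iv d) := ht
  show t ∈ kbI Y.n (Y.iv (Y'.wd d))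
  unfold kbI at ht' ⊢
  rw [k2n_kbQ_add] at ht'
  have h1 := k2n_kbQ_pos Y.n
  have h2 := k2n_kbQ_pos Y'.n
  have h3 := k2n_kbQ_mul_two_pow Y'.n
  have h4 : ((Y'.iv d : ℝ) + 1) ≤ 2 ^ Y'.n := by exact_mod_cast hY'.iv_lt d
  have h5 : (0 : ℝ) ≤ Y'.iv d := Nat.cast_nonneg _
  push_cast at ht'
  set i : ℝ := (Y.iv (Y'.wd d) : ℝ)
  set j : ℝ := (Y'.iv d : ℝ)
  set q := kbQ Y.n
  set q' := kbQ Y'.n
  set T : ℝ := 2 ^ Y'.n
  have e1 : (i * T + j) * (q * q') = i * q * (q' * T) + j * (q * q') := by ring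
  have e2 : (i * T + j + 1) * (q * q') = i * q * (q' * T) + (j + 1) * q' * q := by ring
  rw [e1, e2, h3, mul_one] at ht'
  have h6 : (j + 1) * q' ≤ 1 := by
    calc (j + 1) * q' ≤ T * q' := by gcongr
      _ = 1 := by rw [mul_comm]; exact h3
  constructor
  · have : 0 ≤ j * (q * q') := by positivity
    linarith [ht'.1]
  · have : (j + 1) * q' * q ≤ 1 * q := by gcongr
    linarith [ht'.2]

/-- the relative matrix of a lift is the matrix of the child: `Di_c (D_c D_d) = D_d` (`k2n_inv'`, `Matrix.mul_assoc`), `kbMn D_d ≤ q' K` (`hG.size`), `q_lift = q q'` (`k2n_s5_lift_q`) -/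
theorem k9a_lift_rel {P : KbPb v} (Y : KbSys P) (a : ℝ) (Y' : KbSys (Y.norm a)) (hY : Y.WF) {K a' : ℝ} (hG : Y'.Geo K a') (d : Y'.C) :
    kbMn ((Y.ch (Y'.wd d)).Di * ((Y.lift a Y').ch d).D) ≤ K * (Y.lift a Y').q / Y.q := by
  have e1 : (Y.ch (Y'.wd d)).Di * ((Y.lift a Y').ch d).D = (Y'.ch d).D := by
    have h0 : ∀ c : Y.C, (Y.ch c).Di * ((Y.ch c).D * (Y'.ch d).D) = (Y'.ch d).D := fun c => by
      rw [← Matrix.mul_assoc, Y.k2n_inv' c (hY.inv c), Matrix.one_mul]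
    exact h0 (Y'.wd d)
  have hq := Y.k2n_q_pos
  rw [e1, k2n_s5_lift_q, le_div_iff₀ hq]
  have := hG.size d
  calc kbMn (Y'.ch d).D * Y.q ≤ (Y'.q * K) * Y.q := by gcongr
    _ = _ := by ring

end step

/-! ## 2. The nodes `(Q₁, lift Q₂)` -/

/-- the nodes `Y1` and the lift of a system of the remaining problem -/
def k9aLift (E : K9E) (Y1 : E.Sys) (r1 h1 al1 : ℝ) (Y' : (E.norm Y1 r1).Sys) (r' h' al' : ℝ) : K9aNodes E where
  Y1 := Y1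
  Y2 := E.lift Y1 r1 Y'
  up := fun k d => (Y' k).wd d
  r1 := r1
  r2 := r1 + r'
  h1 := h1
  h2 := h1 + h'
  al1 := al1
  al2 := al1 + al'

theorem k9a_lift_ok (E : K9E) {d' S η : ℝ} {f f' : ℝ → ℝ → ℝ} (hE : E.Cap d' S η f) (Y1 : E.Sys) {r1 h1 al1 : ℝ} (hr1 : 0 < r1) (hr1L : r1 < E.L)
    (hY1 : E.IsTrueSys f Y1 r1 h1) (hs1 : E.IsSat Y1 (f r1 0)) (ho1 : E.IsKnown Y1 r1) (hn1 : E.Narrow Y1 al1)
    (hE' : (E.norm Y1 r1).Cap d' S η f') (Y' : (E.norm Y1 r1).Sys) {r' h' al' : ℝ} (hr' : 0 < r') (hr'L : r' < E.L - r1)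
    (hY' : (E.norm Y1 r1).IsTrueSys f' Y' r' h') (hs' : (E.norm Y1 r1).IsSat Y' (f' r' 0)) (ho' : (E.norm Y1 r1).IsKnown Y' r')
    (hn' : (E.norm Y1 r1).Narrow Y' al') : (k9aLift E Y1 r1 h1 al1 Y' r' h' al').Ok f := by
  have hA : E.IsAtlas Y1 r1 h1 := ⟨hY1.1, k2s_isKnown_mono E hE.ok Y1 hr1L.le ho1⟩
  have he := k9a_sat_XJ E Y1 hY1.1 hs1
  have heq : f' r' 0 = f (r1 + r') 0 + -(f r1 0) := by
    rw [k9a_step_prof E hE Y1 hr1 hr1L hY1 hs1 ho1 hE' r' hr'.le hr'L.le]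
    ring
  refine ⟨hr1, ?_, ?_, hY1, ?_, hs1, ?_, ho1, ?_, hn1, ?_, ?_, ?_⟩
  · show r1 < r1 + r'
    linarith
  · show r1 + r' < E.L
    linarith
  · exact k2n_hub_lift_true E hE.ok f f' hE.hom Y1 r1 h1 _ hr1.le hr1L hA he hE'.hom r' hr' hr'L.le heq Y' h' hY'
  · refine E.k2n_lift_sat hE.ok Y1 r1 h1 _ hY1.1 he r' h' (f (r1 + r') 0) Y' hY'.1 ?_
    rw [← heq]
    exact hs'
  · exact E.k2n_lift_known hE.ok Y1 r1 h1 hY1.1 r' (k2s_isKnown_mono E hE.ok Y1 (by linarith) ho1) Y' r' h' hY'.1 ho'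
  · exact k2n_hub_narrow_add E Y1 r1 Y' al1 al' hn1 hn'
  · obtain ⟨M', hM'⟩ := hY'.1.1
    filter_upwards [hM'] with k hk d
    exact k9a_lift_nest (Y1 k) (E.a r1 k) (Y' k) hk.1 d
  · intro τ hτ
    obtain ⟨M, hM⟩ := hY1.1.1
    filter_upwards [hM, hY'.1.2.1 τ hτ] with k hk hk' d
    exact k9a_lift_rel (Y1 k) (E.a r1 k) (Y' k) hk.1 hk'.1 d

/-! ## 3. Three steps of a chain -/

/-- three consecutive problems of a chain (the equalities are hypotheses on VARIABLES: `subst`) -/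
theorem k9a_chain {d' S η : ℝ} (hS : 0 < S) (hη : 0 < η) (E0 E1 E2 : K9E) (f0 f1 f2 : ℝ → ℝ → ℝ) (Y0 : E0.Sys) (Y1 : E1.Sys) (Y2 : E2.Sys)
    (r0 r1 r2 h0 h1 h2 a1 a2 : ℝ) (e01 : E1 = E0.norm Y0 r0) (e12 : E2 = E1.norm Y1 r1)
    (c0 : E0.Cap d' S η f0) (c1 : E1.Cap d' S η f1) (c2 : E2.Cap d' S η f2)
    (hr0 : 0 < r0) (hr0L : r0 < E0.L) (hr1 : 0 < r1) (hr1L : r1 < E1.L) (hr2 : 0 < r2) (hr2L : r2 < E2.L)
    (t0 : E0.IsTrueSys f0 Y0 r0 h0) (s0 : E0.IsSat Y0 (f0 r0 0)) (o0 : E0.IsKnown Y0 r0)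
    (t1 : E1.IsTrueSys f1 Y1 r1 h1) (s1 : E1.IsSat Y1 (f1 r1 0)) (o1 : E1.IsKnown Y1 r1) (n1 : E1.Narrow Y1 a1)
    (t2 : E2.IsTrueSys f2 Y2 r2 h2) (s2 : E2.IsSat Y2 (f2 r2 0)) (o2 : E2.IsKnown Y2 r2) (n2 : E2.Narrow Y2 a2) :
    f1 0 0 = 0 ∧ E1.L = E0.L - r0 ∧ ∃ X : K9aNodes E1, X.Ok f1 ∧ X.Full ∧ X.r1 = r1 ∧ X.r2 = r1 + r2 ∧ X.h1 = h1 ∧ X.h2 = h1 + h2 ∧ X.al1 = a1 ∧ X.al2 = a1 + a2 := by
  subst e12
  subst e01
  refine ⟨?_, rfl, ?_⟩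
  · have := k9a_step_prof E0 c0 Y0 hr0 hr0L t0 s0 o0 c1 0 le_rfl (by linarith)
    rw [this, add_zero, sub_self]
  · have hok := k9a_lift_ok (E0.norm Y0 r0) c1 Y1 hr1 hr1L t1 s1 o1 n1 c2 Y2 hr2 hr2L t2 s2 o2 n2
    obtain ⟨ρ, -, -, h3, h4⟩ := k9a_prep _ hS hη c1 hok
    exact ⟨_, h3, h4, rfl, rfl, rfl, rfl, rfl, rfl⟩

/-! ## 4. One stage -/

/-- the grid `(1/4, 1/4 + s₁, 1/4 + s₂, 1)` -/
def k9aGrid (s1 s2 : ℝ) : ℕ → ℝ := fun g => if g = 0 then 1 / 4 else if g = 1 then 1 / 4 + s1 else if g = 2 then 1 / 4 + s2 else 1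

theorem k9a_grid {s1 s2 : ℝ} (hs1 : 0 < s1) (hs12 : s1 < s2) (hs2 : s2 < 1 / 2) : KpGrid 3 (k9aGrid s1 s2) := by
  refine ⟨by simp [k9aGrid], fun g hg => ?_, by simp [k9aGrid]⟩
  interval_cases g <;> simp [k9aGrid] <;> linarith

theorem k9a_num (k z H0 H1 R0 R1 s : ℝ) (hk0 : 0 ≤ k) (hk1 : k ≤ 1) (a0 : |R0 - 1 / 4| ≤ z) (a1 : |R0 + R1 - (1 / 4 + s)| ≤ z)
    (b0 : |H0 - k * R0| ≤ z) (b1 : |H0 + H1 - k * (R0 + R1)| ≤ z) : |R1 - s| ≤ 4 * z ∧ |H1 - k * s| ≤ 4 * z := by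
  rw [abs_le] at a0 a1 b0 b1
  have hz : 0 ≤ z := by linarith [a0.1, a0.2]
  have w1 : R1 - s ≤ 2 * z := by linarith [a0.1, a1.2]
  have w2 : -(2 * z) ≤ R1 - s := by linarith [a0.2, a1.1]
  have u1 : k * (R1 - s) ≤ 2 * z := by nlinarith
  have u2 : -(2 * z) ≤ k * (R1 - s) := by nlinarith
  refine ⟨abs_le.2 ⟨by linarith, by linarith⟩, abs_le.2 ⟨?_, ?_⟩⟩
  · nlinarith [b0.1, b0.2, b1.1, b1.2]
  · nlinarith [b0.1, b0.2, b1.1, b1.2]

/-- **one stage of the context** -/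
theorem k9a_stage {S η d k s1 s2 : ℝ} (hS : 0 < S) (hη : 0 < η) (hk0 : 0 ≤ k) (hk1 : k ≤ 1) (hs1 : 0 < s1) (hs12 : s1 < s2) (hs2 : s2 < 1 / 2)
    (h : KpCritInf KbVer.two S η d k) (ζ Λ : ℝ) (hζ : 0 < ζ) :
    ∃ (E : K9E) (f : ℝ → ℝ → ℝ) (dd : ℝ) (X : K9aNodes E), (1 / 2 ≤ E.L ∧ E.L ≤ 1) ∧ E.Cap dd S η f ∧ dd ≤ d + ζ ∧ f 0 0 = 0 ∧
      (∀ r ∈ Set.Icc (0 : ℝ) E.L, |f r 0 - d * r| ≤ ζ) ∧ KpExcl1 E k ζ ∧ X.Ok f ∧ X.Full ∧ (|X.r1 - s1| ≤ ζ ∧ |X.r2 - s2| ≤ ζ) ∧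
      (|X.h1 - k * s1| ≤ ζ ∧ |X.h2 - k * s2| ≤ ζ) ∧ (Λ ≤ X.al1 ∧ X.al1 + Λ ≤ X.al2) := by
  have hζ' : 0 < min (ζ / 4) (1 / 4) := lt_min (by positivity) (by norm_num)
  have hz1 : min (ζ / 4) (1 / 4) ≤ ζ / 4 := min_le_left _ _
  have hz2 : min (ζ / 4) (1 / 4) ≤ 1 / 4 := min_le_right _ _
  set z := min (ζ / 4) (1 / 4) with hz
  obtain ⟨π, d', hL, hd', hG, hOk, hest, hrem⟩ := h z Λ hζ' 3 (k9aGrid s1 s2) (k9a_grid hs1 hs12 hs2)
  have g0 : (0 : ℕ) < π.G := by omega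
  have g1 : (1 : ℕ) < π.G := by omega
  have g2 : (2 : ℕ) < π.G := by omega
  obtain ⟨hf0, hL1, X, hX, hF, x1, x2, x3, x4, x5, x6⟩ := k9a_chain hS hη (π.E 0) (π.E 1) (π.E 2) (π.f 0) (π.f 1) (π.f 2) (π.Y 0) (π.Y 1) (π.Y 2)
    (π.r 0) (π.r 1) (π.r 2) (π.h 0) (π.h 1) (π.h 2) (π.nar 1) (π.nar 2) (hOk.step 0 g0) (hOk.step 1 g1)
    (hOk.cap 0 g0.le) (hOk.cap 1 g1.le) (hOk.cap 2 g2.le) (hOk.r_pos 0 g0.le) (hOk.r_lt 0 g0) (hOk.r_pos 1 g1.le) (hOk.r_lt 1 g1)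
    (hOk.r_pos 2 g2.le) (hOk.r_lt 2 g2) (hOk.sys 0 g0.le) (hOk.sat 0 g0.le) (hOk.own 0 g0.le)
    (hOk.sys 1 g1.le) (hOk.sat 1 g1.le) (hOk.own 1 g1.le) (hOk.nar rfl 1 g1.le)
    (hOk.sys 2 g2.le) (hOk.sat 2 g2.le) (hOk.own 2 g2.le) (hOk.nar rfl 2 g2.le)
  obtain ⟨a0, b0, -⟩ := hest 0 (by omega)
  obtain ⟨a1, b1, c1⟩ := hest 1 (by omega)
  obtain ⟨a2, b2, c2⟩ := hest 2 (by omega)
  have e0 : π.cr 0 = π.r 0 := by simp [KpPath.cr]
  have e1 : π.cr 1 = π.r 0 + π.r 1 := by simp [KpPath.cr, Finset.sum_range_succ]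
  have e2 : π.cr 2 = π.r 0 + π.r 1 + π.r 2 := by simp [KpPath.cr, Finset.sum_range_succ]
  have e0' : π.chz 0 = π.h 0 := by simp [KpPath.chz]
  have e1' : π.chz 1 = π.h 0 + π.h 1 := by simp [KpPath.chz, Finset.sum_range_succ]
  have e2' : π.chz 2 = π.h 0 + π.h 1 + π.h 2 := by simp [KpPath.chz, Finset.sum_range_succ]
  have t0 : k9aGrid s1 s2 0 = 1 / 4 := by simp [k9aGrid]
  have t1 : k9aGrid s1 s2 1 = 1 / 4 + s1 := by simp [k9aGrid]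
  have t2 : k9aGrid s1 s2 2 = 1 / 4 + s2 := by simp [k9aGrid]
  rw [e0, t0] at a0
  rw [e1, t1] at a1
  rw [e2, t2, add_assoc] at a2
  rw [e0, e0'] at b0
  rw [e1, e1'] at b1
  rw [e2, e2', add_assoc, add_assoc] at b2
  obtain ⟨n1, n2⟩ := k9a_num k z _ _ _ _ s1 hk0 hk1 a0 a1 b0 b1
  obtain ⟨n3, n4⟩ := k9a_num k z _ _ _ _ s2 hk0 hk1 a0 a2 b0 b2
  rw [abs_le] at a0
  have hr0 := hOk.r_pos 0 g0.le
  have hLE : 1 / 2 ≤ (π.E 1).L ∧ (π.E 1).L ≤ 1 := by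
    rw [hL1, hL]
    constructor <;> linarith [a0.1, a0.2]
  obtain ⟨hp, hx⟩ := hrem 1 (by omega) (by linarith [hLE.1])
  refine ⟨π.E 1, π.f 1, d', X, hLE, hOk.cap 1 g1.le, by linarith, hf0, ?_, ?_, hX, hF, ⟨?_, ?_⟩, ⟨?_, ?_⟩, ?_, ?_⟩
  · intro r hr
    have := hp r hr
    rw [hf0, sub_zero] at this
    linarith
  · intro Y r h' h0 h1 hA
    have := hx Y r h' h0 h1 hA
    linarith
  · rw [x1]
    linarith
  · rw [x2]
    linarith
  · rw [x3]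
    linarith
  · rw [x4]
    linarith
  · rw [x5]
    exact c1
  · rw [x5, x6]
    linarith

/-! ## 5. EXIT 1 -/

/-- **EXIT 1 of S9a**: unbounded optimised narrowness gives the context of Sec. 9, for every admissible choice (9.3) of `u, s₁, s₂` -/
theorem k9a_ctx {S η d k u s1 s2 : ℝ} (hS : 0 < S) (hη : 0 < η) (hd0 : 0 ≤ d) (hd1 : d < 1) (hk0 : 0 < k) (hk1 : k ≤ 1) (hu : 0 < u) (huη : u < η)
    (hs1 : 0 < s1) (hs12 : s1 < s2) (hs2 : s2 < 1 / 2) (hch : (d + 2 * k) * s2 < S * u / 4) (h : KpCritInf KbVer.two S η d k) :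
    ∃ Z : K9aCtx, Z.Ok ∧ Z.S = S ∧ Z.η = η ∧ Z.d = d ∧ Z.k = k ∧ Z.u = u ∧ Z.s1 = s1 ∧ Z.s2 = s2 := by
  have hst := fun i : ℕ => k9a_stage hS hη hk0.le hk1 hs1 hs12 hs2 h (1 / ((i : ℝ) + 1)) i (by positivity)
  choose E f dd X p1 p2 p3 p4 p5 p6 p7 p8 p9 p10 p11 using hst
  refine ⟨⟨S, η, d, k, u, s1, s2, E, f, dd, X, fun i => 1 / ((i : ℝ) + 1)⟩, ?_, rfl, rfl, rfl, rfl, rfl, rfl, rfl⟩
  exact
    { S_pos := hS
      η_pos := hη
      d_nonneg := hd0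
      d_lt := hd1
      k_pos := hk0
      k_le := hk1
      u_pos := hu
      u_lt := huη
      s1_pos := hs1
      s12 := hs12
      s2_lt := hs2
      choice := hch
      ζ_pos := fun i => by positivity
      ζ_lim := tendsto_one_div_add_atTop_nhds_zero_nat
      len := p1
      cap := p2
      dd_le := p3
      zero := p4
      prof := p5
      excl := p6
      nodes := p7
      full := p8
      dep := p9
      hor := p10
      nar := p11 }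

end

end Claimed.Agent.R252
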