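import Claimed.Agent.R252.Base.Seq
import Claimed.Agent.R252.S9.Full
import Claimed.Agent.R252.S4.Prof
import Claimed.Agent.R252.S4.Crit
import Claimed.Agent.R252.S4B.Diag
import Claimed.Agent.R252.S2s.Api
import Claimed.Agent.R252.S2s.SeqS
import Claimed.Agent.R252.Norm.Seq
import Claimed.Agent.R252.Base.Transfer
import Claimed.Agent.R252.S9.Exit
import Claimed.Agent.R252.S9.PartA

/-!
# ROW 252 (S0492), unit S9b (post BP-252-S9b, sub-architect helper66; chief helper233), file 1: **THE SAMPLE RECORD OF SEC 9**  (09-unbounded-narrowness.tex l.267-538).      Definitions only, no `sorry`.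

THE INTERFACE BETWEEN S9a/S9b (producers) AND S9c/S9d (consumers).   Same style as `S4/Sam.lean` (`KpSam`): ONE record at ONE scale + ONE predicate with ONE tolerance `τ`, MONOTONE in `τ`.
* `K9Prm`, `p.Ok`      the fixed exponents `d = d_*`, `k`, `S`, angular range `u`, `s₁`, depth gain `cg = c'` (9.17).   `θ, ε, δ, C_match` are internal to S9d (they only enter through `cg = θ s₁ / 2`; the sample exists for EVERY `cg ∈ (0,1)`).
* `s : K9Sam`          data of one sample of the outer diagonal: `P` = the exact problem `E_i` at the sample `N` (length `L = 1`, `aL = 1/N`), `Y1` = the charts `Q₁`, `YC` = the full-time charts `C` (level `0`), `YA` = the charts `A`,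
                       `up : A ↦ C`, `nC` normals, `g1, gC, n1 = n_i(r₁), r1`;   THE REFERENCE PATH `μ_ref` IS `YA.sel` (mass `YA.mass = p_path`);   `Gp` = analytic masks (l.505-527), `μ_prep` (before L9.4) `= μ |_(YA.sel ∩ Gp)`;
                       `grid, vgrid` finite depth grids;  `f1` terminal exponent;  `Kp = K_path` ACTUAL subpower factor, stage `n`, `Mp = M_path`, `Mg = M^#`.
* `s.Ks = (K_path log N)^n`   the slack allowed to an output;      `s.Atl Y r`   `Y` is an output known atlas at depth `r`;      `s.Guard p`   no output atlas at depth `c'` has time length `≥ q_A`  ((9.18)-(9.19)).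
* `s.Ok p τ`           everything with `K = N^τ`.      `K9SamSeqOk R s p`.
DICTIONARY.  (9.9) `cmp`;  (9.12) `bal`;  (9.13) `full`, `thinA`;  `h_A → 0` : `qA`;  `Δ_i → ∞` : `thin`;  (9.14)/(9.16) budgets follow from `WF`;  caps l.505-527: `pure, pure1, low, ang` (POINTWISE density thresholds on `Gp`;
integrated caps through `S9a/CapContract` / `S2a`).   `e_Z = k9Rot n_C`.
-/

set_option autoImplicit false

namespace Claimed.Agent.R252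

open MeasureTheory Filter Topology
open Claimed.Agent.R255 (uf)
open scoped ENNReal BigOperators

noncomputable section

/-- the fixed exponents of Sec 9 -/
structure K9Prm where
  /-- critical cap dimension `d_*` -/
  d : ℝ
  /-- critical time rate -/
  k : ℝ
  /-- angular exponent -/
  S : ℝ
  /-- angular range -/
  u : ℝ
  /-- depth of the earlier node -/
  s1 : ℝ
  /-- the depth gain `c'` -/
  cg : ℝ

/-- the ranges of the exponents -/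
structure K9Prm.Ok (p : K9Prm) : Prop where
  d_nonneg : 0 ≤ p.d
  d_lt : p.d < 1
  k_pos : 0 < p.k
  k_le : p.k ≤ 1
  S_pos : 0 < p.S
  u_pos : 0 < p.u
  s1_pos : 0 < p.s1
  s1_lt : p.s1 < 1
  cg_pos : 0 < p.cg
  cg_lt : p.cg < 1

/-- the unit tangent `e_Z` of the normal `n` -/
def k9Rot (n : K9V) : K9V := ![-(n 1), n 0]

/-- **a sample of the outer diagonal of Sec 9** (data only) -/
structure K9Sam where
  /-- the exact problem `E_i` at this sample -/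
  P : K9P
  /-- the resolution -/
  N : ℝ
  /-- the earlier true charts `Q₁` -/
  Y1 : KbSys P
  /-- the full-time charts `C` -/
  YC : KbSys P
  /-- the balanced charts `A`; their selections are the reference path -/
  YA : KbSys P
  up : YA.C → YC.C
  nC : YC.C → K9V
  g1 : ℝ
  gC : ℝ
  /-- `n_i(r₁)` -/
  n1 : ℝ
  r1 : ℝ
  /-- analytic masks -/
  Gp : P.W → Set (P.Lam × ℝ)
  grid : Finset ℝ
  vgrid : Finset ℝ
  /-- terminal exponent: `n_i(1) = N^{-f1}` -/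
  f1 : ℝ
  /-- `K_path` -/
  Kp : ℝ
  /-- the stage -/
  n : ℕ
  /-- `M_path` -/
  Mp : ℝ
  /-- `M^#` -/
  Mg : ℝ

namespace K9Sam

variable (s : K9Sam)

/-- terminal thickness -/
def aL : ℝ := s.N ^ (-1 : ℝ)

/-- the slack of an output -/
def Ks : ℝ := (s.Kp * Real.log s.N) ^ s.n

/-- velocity coefficient of the affine normal centre of `C` -/
def beC (b : s.YC.C) : ℝ := k9dot (s.nC b) (s.YC.ch b).y1

/-- intercept of the affine normal centre of `C` -/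
def alC (b : s.YC.C) : ℝ := k9dot (s.nC b) (s.YC.ch b).y0

/-- **an output known atlas** at depth `r` -/
structure Atl (Y : KbSys s.P) (r : ℝ) : Prop where
  wf : Y.WF
  geo : Y.Geo s.Ks (s.N ^ (-r))
  known : Y.Known (s.P.hid s.aL) s.Ks
  tmp : Y.Tmp (s.N ^ s.Mg)
  mass : s.YA.mass ≤ ENNReal.ofReal (Real.log s.N) * Y.mass

/-- **the finite-sample exclusion** (9.18), (9.19) -/
def Guard (p : K9Prm) : Prop := ∀ Y : KbSys s.P, s.Atl Y p.cg → Y.q < s.YA.q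

/-- **a guarded sample**, tolerance `τ` -/
structure Ok (p : K9Prm) (τ : ℝ) : Prop where
  N_big : 2 ≤ s.N ∧ 1 / τ ≤ s.N
  wf : s.P.WF
  ntv : s.P.Ntv (s.N ^ τ)
  -- the earlier charts
  node1 : K9Node s.P s.Y1 (s.N ^ τ) s.g1
  geo1 : s.Y1.Geo (s.N ^ τ) (s.N ^ (-s.r1))
  sat1 : s.Y1.Sat (s.N ^ τ) s.n1
  r1_near : |s.r1 - p.s1| ≤ τ
  q1_near : s.N ^ (-(p.k * p.s1) - τ) ≤ s.Y1.q ∧ s.Y1.q ≤ s.N ^ (-(p.k * p.s1) + τ)
  n1_near : s.N ^ (-(p.d * p.s1) - τ) ≤ s.n1 ∧ s.n1 ≤ s.N ^ (-(p.d * p.s1) + τ)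
  g1_rng : 0 < s.g1 ∧ s.g1 ≤ 1
  -- the full-time charts
  wfC : s.YC.WF
  geoC : s.YC.Geo (s.N ^ τ) 1
  lvlC : s.YC.n = 0
  frame : ∀ b, K9Unit (s.nC b) ∧ (s.YC.ch b).D = k9Fr (s.nC b) s.gC ∧ (s.YC.ch b).Di = k9FrI (s.nC b) s.gC ∧ (s.YC.ch b).T = s.P.Pst (s.YC.wd b)
  gC_pos : 0 < s.gC
  /-- `Δ_i → ∞` -/
  thin : s.gC ≤ s.N ^ (-(1 / τ)) * s.g1
  /-- (9.9) -/
  cmp : ∀ (b : s.YC.C) (c1 : s.Y1.C), s.Y1.wd c1 = s.YC.wd b → (s.YC.S b ∩ s.Y1.S c1).Nonempty → K9Cmp s.Y1 (s.nC b) (s.beC b) s.g1 (s.N ^ τ) c1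
  -- the balanced charts
  wfA : s.YA.WF
  sizeA : ∀ c, kbMn (s.YA.ch c).D ≤ s.YA.q * s.N ^ τ
  boxA : ∀ c, ∀ l ∈ s.YA.A c, ∀ t ∈ s.YA.I c, ‖(s.YA.ch c).Di.mulVec (kbY (s.P.co (s.YA.wd c) l) t - (s.YA.ch c).yc t)‖ ≤ s.N ^ τ
  upA : ∀ c, s.YC.wd (s.up c) = s.YA.wd c ∧ s.YA.A c ⊆ s.YC.A (s.up c) ∧ s.YA.S c ⊆ s.YC.S (s.up c)
  path1 : ∀ c, ∀ x ∈ s.YA.S c, ∃ c1, s.Y1.wd c1 = s.YA.wd c ∧ x ∈ s.Y1.S c1
  /-- `h_A → 0` -/
  qA : s.N ^ (-τ) ≤ s.YA.q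
  /-- (9.12) on the diagonal -/
  bal : ∀ c, ENNReal.ofReal (s.N ^ (-τ) * (s.YA.ch c).J) ≤ s.YA.nuC c ∧ s.YA.nuC c ≤ ENNReal.ofReal (s.N ^ τ * (s.YA.ch c).J)
  /-- (9.13) -/
  full : ∀ c, (s.YA.q / s.N ^ τ) ^ 2 ≤ k9row (k9Rot (s.nC (s.up c))) (k9D s.YA c)
  thinA : ∀ c, k9row (s.nC (s.up c)) (k9D s.YA c) ≤ (s.N ^ τ * s.gC * s.YA.q) ^ 2
  knownA : s.YA.Known (s.P.hid s.aL) (s.N ^ τ)
  bigA : s.YA.Big (s.N ^ τ)
  -- the analytic caps (l.505-527)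
  Gp_meas : ∀ γ, MeasurableSet (s.Gp γ)
  loss : s.P.mass (fun γ => s.YA.sel γ \ s.Gp γ) ≤ ENNReal.ofReal τ * s.YA.mass
  grid_sub : ∀ r ∈ s.grid, 0 ≤ r ∧ r ≤ p.s1
  grid_dense : ∀ r ∈ Set.Icc 0 p.s1, ∃ r' ∈ s.grid, r' ≤ r ∧ r ≤ r' + τ
  vgrid_sub : ∀ w ∈ s.vgrid, 0 ≤ w ∧ w ≤ p.u
  vgrid_dense : ∀ w ∈ Set.Icc 0 p.u, ∃ w' ∈ s.vgrid, w' ≤ w ∧ w ≤ w' + τ
  pure : ∀ r ∈ s.grid, ∀ γ, ∀ x ∈ s.Gp γ, s.P.dn (s.P.hid (s.N ^ (-r))) γ x ≤ ENNReal.ofReal (s.N ^ (-(p.d * r) + τ))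
  pure1 : ∀ γ, ∀ x ∈ s.Gp γ, s.P.dn (s.P.hid (s.N ^ (-s.r1))) γ x ≤ ENNReal.ofReal (s.N ^ τ * s.n1)
  f1_near : |s.f1 - p.d| ≤ τ
  low : ∀ γ, ∀ x ∈ s.Gp γ, ENNReal.ofReal (s.N ^ (-s.f1 - τ)) ≤ s.P.dn (s.P.hid s.aL) γ x
  ang : ∀ w ∈ s.vgrid, ∀ γ, ∀ x ∈ s.Gp γ, s.P.dn (s.P.hv s.aL (s.N ^ (-w))) γ x ≤ ENNReal.ofReal (s.N ^ (-s.f1 - p.S * w + τ))
  -- the guard and the diagonal
  guard : s.Guard p
  stage : 1 / τ ≤ (s.n : ℝ)
  slack : s.Ks ≤ s.N ^ τ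
  small : s.Kp * Real.log s.N ≤ τ * s.N
  -- ACTUAL bounds of the exact problem and of its path
  Kp_one : 2 ≤ s.Kp
  a_ntv : s.P.Ntv s.Kp
  a_tmp : s.P.Tmp (s.N ^ s.Mp)
  a_size : ∀ c, kbMn (s.YA.ch c).D ≤ s.YA.q * s.Kp
  a_box : ∀ c, ∀ l ∈ s.YA.A c, ∀ t ∈ s.YA.I c, ‖(s.YA.ch c).Di.mulVec (kbY (s.P.co (s.YA.wd c) l) t - (s.YA.ch c).yc t)‖ ≤ s.Kp
  a_known : s.YA.Known (s.P.hid s.aL) s.Kp
  a_big : s.YA.Big s.Kp
  a_sys_tmp : s.YA.Tmp (s.N ^ s.Mp)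
  -- complexity guard
  Mp_one : 1 ≤ s.Mp
  Mg_ge : (2 : ℝ) ^ ((s.Mp + s.n) ^ 2) ≤ s.Mg

end K9Sam

/-- guarded samples along the outer diagonal -/
def K9SamSeqOk (R : KbRes) (s : ℕ → K9Sam) (p : K9Prm) : Prop :=
  (∀ n, R.N n = (s n).N) ∧ ∀ τ : ℝ, 0 < τ → ∀ᶠ n in uf, (s n).Ok p τ

theorem k9b_sam_eqns_cite : True := by
  have := @k9Rot.eq_1; have := @K9Sam.aL.eq_1; have := @K9Sam.Ks.eq_1; have := @K9Sam.beC.eq_1; have := @K9Sam.alC.eq_1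
  have := @K9Sam.Guard.eq_1; have := @K9SamSeqOk.eq_1
  trivial

end

end Claimed.Agent.R252

/-!
# ROW 252 (S0492), unit S9b (post BP-252-S9b, sub-architect helper66; chief helper233), file 2: **SEQUENCE DEFINITIONS OF SEC 9**  (09-unbounded-narrowness.tex l.1-538, 884-1190).      Definitions only, no `sorry`.

"`i` large" = "for every tolerance `ζ` (and every `Λ`) there is an exact problem": NO outer sequences before the diagonal.
* `K9bDat`, `X.Ok S η p ζ Λ`   EXIT OF S9a (helper197): ONE exact problem `E` (`ζ`-maximizing `Kp4Mx`, `L = 1`, `|f 0 0| ≤ ζ`) with the earlier true charts `Y1` and the full-time charts `YC` of P9.2, `g_C ≤ N^{-Λ} g₁`.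
* `K9HubCtx`                   S9a:  `K9CritInf S η → ∀ ζ Λ, 0 < ζ → d_* + ζ < 1 → ∃ X, X.Ok ..`   (`K9CritInf` : `S9/Exit.lean`).
* `K9bBal`                     the conclusion of **L9.3** per exact problem (proved in `S9b/Bal.lean`).
* `K9HubFinal`                 S9c + S9d (helper285, owner of #18606):  guarded samples do not exist.
-/

set_option autoImplicit false

namespace Claimed.Agent.R252

open MeasureTheory Filter Topology
open Claimed.Agent.R255 (uf)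
open scoped ENNReal BigOperators

noncomputable section

/-- **the exit of S9a** (data): one exact problem with the earlier charts and the full-time charts -/
structure K9bDat where
  E : KbEx KbVer.two
  f : ℝ → ℝ → ℝ
  Y1 : E.Sys
  YC : E.Sys
  nC : ∀ k, (YC k).C → K9V
  g1 : ℕ → ℝ
  gC : ℕ → ℝ
  r1 : ℝ
  h1 : ℝ

/-- the frame of the full-time charts -/
def K9bFrame (E : KbEx KbVer.two) (YC : E.Sys) (nC : ∀ k, (YC k).C → K9V) (gC : ℕ → ℝ) : Prop :=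
  ∀ᶠ k in uf, 0 < gC k ∧ (YC k).n = 0 ∧ ∀ b, K9Unit (nC k b) ∧ ((YC k).ch b).D = k9Fr (nC k b) (gC k) ∧ ((YC k).ch b).Di = k9FrI (nC k b) (gC k) ∧
    ((YC k).ch b).T = (E.P k).Pst ((YC k).wd b)

/-- **the exit of S9a** (requirements), tolerance `ζ`, narrowness gap `Λ` -/
structure K9bDat.Ok (X : K9bDat) (S η : ℝ) (p : K9Prm) (ζ Λ : ℝ) : Prop where
  mx : Kp4Mx KbVer.two S η ζ X.E X.f
  L1 : X.E.L = 1
  f00 : |X.f 0 0| ≤ ζ
  r1_rng : 0 < X.r1 ∧ X.r1 < 1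
  r1_near : |X.r1 - p.s1| ≤ ζ
  h1_near : |X.h1 - p.k * p.s1| ≤ ζ
  sys1 : X.E.IsTrueSys X.f X.Y1 X.r1 X.h1
  sat1 : X.E.IsSat X.Y1 (X.f X.r1 0)
  node1 : ∀ τ : ℝ, 0 < τ → ∀ᶠ k in uf, K9Node (X.E.P k) (X.Y1 k) (X.E.R.N k ^ τ) (X.g1 k)
  g1_rng : ∀ᶠ k in uf, 0 < X.g1 k ∧ X.g1 k ≤ 1
  atlC : X.E.IsAtlas X.YC 0 0
  frame : K9bFrame X.E X.YC X.nC X.gC
  thin : ∀ᶠ k in uf, X.gC k ≤ X.E.R.N k ^ (-Λ) * X.g1 k
  cmp : ∀ τ : ℝ, 0 < τ → ∀ᶠ k in uf, ∀ (b : (X.YC k).C) (c1 : (X.Y1 k).C), (X.Y1 k).wd c1 = (X.YC k).wd b → ((X.YC k).S b ∩ (X.Y1 k).S c1).Nonempty →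
    K9Cmp (X.Y1 k) (X.nC k b) (k9dot (X.nC k b) ((X.YC k).ch b).y1) (X.g1 k) (X.E.R.N k ^ τ) c1
  path : ∀ᶠ k in uf, ∀ b, ∀ x ∈ (X.YC k).S b, ∃ c1, (X.Y1 k).wd c1 = (X.YC k).wd b ∧ x ∈ (X.Y1 k).S c1

/-- S9a (l.1-266): nested true systems + P9.2 -/
def K9HubCtx (S η : ℝ) (p : K9Prm) : Prop :=
  K9CritInf S η → ∀ ζ Λ : ℝ, 0 < ζ → kp4Dst KbVer.two S η + ζ < 1 → ∃ X : K9bDat, X.Ok S η p ζ Λ

/-- S9c + S9d (l.539-1190): L9.4, L9.5, the scalar candidates and the actual improvement -/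
def K9HubFinal (p : K9Prm) : Prop := ¬ ∃ (R : KbRes) (s : ℕ → K9Sam), K9SamSeqOk R s p

/-- the conclusion of L9.3 for one exact problem -/
structure K9bBal (E : KbEx KbVer.two) (YC : E.Sys) (nC : ∀ k, (YC k).C → K9V) (gC : ℕ → ℝ) (YA : E.Sys) (up : ∀ k, (YA k).C → (YC k).C)
    (b hA e : ℝ) : Prop where
  atl : E.IsAtlas YA b hA
  /-- (9.12) `ν(A) / J_A = N^{-e + o(1)}` -/
  bal : E.ChExp YA (fun k c => ((YA k).nuC c).toReal / ((YA k).ch c).J) e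
  nest : ∀ᶠ k in uf, ∀ c, (YC k).wd (up k c) = (YA k).wd c ∧ (YA k).A c ⊆ (YC k).A (up k c) ∧ (YA k).S c ⊆ (YC k).S (up k c)
  /-- (9.13) -/
  full : ∀ τ : ℝ, 0 < τ → ∀ᶠ k in uf, ∀ c, ((YA k).q / E.R.N k ^ τ) ^ 2 ≤ k9row (k9Rot (nC k (up k c))) (k9D (YA k) c)
  thin : ∀ τ : ℝ, 0 < τ → ∀ᶠ k in uf, ∀ c, k9row (nC k (up k c)) (k9D (YA k) c) ≤ (E.R.N k ^ τ * gC k * (YA k).q) ^ 2

/-- replacing the full-time charts by a restriction -/
def K9bDat.restr (X : K9bDat) (keep : ∀ k, Set (X.YC k).C) (S' : ∀ k, (X.YC k).C → Set ((X.E.P k).Lam × ℝ)) : K9bDat :=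
  { X with YC := X.E.restr X.YC keep S', nC := fun k c => X.nC k c.1 }

theorem k9b_seq_eqns_cite : True := by
  have := @K9bFrame.eq_1; have := @K9HubCtx.eq_1; have := @K9HubFinal.eq_1; have := @K9bDat.restr.eq_1
  trivial

end

end Claimed.Agent.R252

/-!
# ROW 252 (S0492), unit S9b (sub-architect helper66), file 3: **L9.3 NORMALISATION AND RELATIVE DENSITY CANCELLATION**  (09-unbounded-narrowness.tex l.267-420).
-/

set_option autoImplicit false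

namespace Claimed.Agent.R252

open MeasureTheory Filter Topology
open Claimed.Agent.R255 (uf)
open scoped ENNReal BigOperators

noncomputable section

/-! ## linear algebra in the frame of `C` -/

theorem k9b_row_fr (n : K9V) (hn : K9Unit n) (g : ℝ) (D : K9M) : k9row n (k9Fr n g * D) = g ^ 2 * (D 1 0 ^ 2 + D 1 1 ^ 2) := by
  unfold K9Unit at hn
  simp only [k9row, k9Fr, Matrix.mul_apply, Fin.sum_univ_two, Matrix.of_apply, Matrix.cons_val_zero, Matrix.cons_val_one, Matrix.cons_val', Matrix.cons_val_fin_one]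
  have e1 : n 0 * (-n 1 * D 0 0 + g * n 0 * D 1 0) + n 1 * (n 0 * D 0 0 + g * n 1 * D 1 0) = g * D 1 0 * (n 0 ^ 2 + n 1 ^ 2) := by ring
  have e2 : n 0 * (-n 1 * D 0 1 + g * n 0 * D 1 1) + n 1 * (n 0 * D 0 1 + g * n 1 * D 1 1) = g * D 1 1 * (n 0 ^ 2 + n 1 ^ 2) := by ring
  rw [e1, e2, hn]
  ring

theorem k9b_row_sum (n : K9V) (hn : K9Unit n) (D : K9M) :
    k9row (k9Rot n) D + k9row n D = D 0 0 ^ 2 + D 0 1 ^ 2 + D 1 0 ^ 2 + D 1 1 ^ 2 := by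
  unfold K9Unit at hn
  simp only [k9row, k9Rot, Matrix.cons_val_zero, Matrix.cons_val_one]
  have : (-n 1 * D 0 0 + n 0 * D 1 0) ^ 2 + (-n 1 * D 0 1 + n 0 * D 1 1) ^ 2 + ((n 0 * D 0 0 + n 1 * D 1 0) ^ 2 + (n 0 * D 0 1 + n 1 * D 1 1) ^ 2)
      = (n 0 ^ 2 + n 1 ^ 2) * (D 0 0 ^ 2 + D 0 1 ^ 2 + D 1 0 ^ 2 + D 1 1 ^ 2) := by ring
  rw [this, hn, one_mul]

theorem k9b_mn_nonneg {m : ℕ} (D : Matrix (Fin m) (Fin m) ℝ) : 0 ≤ kbMn D :=
  Finset.sum_nonneg fun _ _ => Finset.sum_nonneg fun _ _ => abs_nonneg _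

theorem k9b_mn_two (D : K9M) : kbMn D = |D 0 0| + |D 0 1| + (|D 1 0| + |D 1 1|) := by
  simp [kbMn, Fin.sum_univ_two]

theorem k9b_mn_sq (D : K9M) : kbMn D ^ 2 ≤ 4 * (D 0 0 ^ 2 + D 0 1 ^ 2 + D 1 0 ^ 2 + D 1 1 ^ 2) := by
  rw [k9b_mn_two, ← sq_abs (D 0 0), ← sq_abs (D 0 1), ← sq_abs (D 1 0), ← sq_abs (D 1 1)]
  nlinarith [sq_nonneg (|D 0 0| - |D 0 1|), sq_nonneg (|D 0 0| - |D 1 0|), sq_nonneg (|D 0 0| - |D 1 1|), sq_nonneg (|D 0 1| - |D 1 0|),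
    sq_nonneg (|D 0 1| - |D 1 1|), sq_nonneg (|D 1 0| - |D 1 1|)]

theorem k9b_row1_le (D : K9M) : D 1 0 ^ 2 + D 1 1 ^ 2 ≤ kbMn D ^ 2 := by
  rw [k9b_mn_two, ← sq_abs (D 1 0), ← sq_abs (D 1 1)]
  nlinarith [abs_nonneg (D 0 0), abs_nonneg (D 0 1), abs_nonneg (D 1 0), abs_nonneg (D 1 1)]

/-- the tangential row is full as soon as the matrix is large and the normal row is small -/
theorem k9b_full_num (n : K9V) (hn : K9Unit n) (D : K9M) (x y : ℝ) (hx : 0 ≤ x) (h1 : x ≤ kbMn D) (h2 : k9row n D ≤ y) :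
    x ^ 2 / 4 - y ≤ k9row (k9Rot n) D := by
  have a1 := k9b_row_sum n hn D
  have a2 := k9b_mn_sq D
  have a3 : x ^ 2 ≤ kbMn D ^ 2 := pow_le_pow_left₀ hx h1 2
  linarith

/-! ## saturation gives the exponent of `ν / J` -/

theorem k9b_sat_exp (E : KbEx KbVer.two) (hE : E.Ok) (Y : E.Sys) (r h x : ℝ) (hY : E.IsSys Y r h) (hs : E.IsSat Y x) :
    E.ChExp Y (fun k c => ((Y k).nuC c).toReal / ((Y k).ch c).J) x := by
  intro τ hτ
  obtain ⟨M0, hP⟩ := hE.2.1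
  obtain ⟨M, hM⟩ := hY.1
  filter_upwards [hP, hM, hs τ hτ] with k h0 h1 h2 c
  obtain ⟨-, b1, b2⟩ := h2 c
  have hN0 := kb_res_pos E.R k
  have hJ : 0 < ((Y k).ch c).J := k2s_J_pos (Y k) h1.1 c
  have hnt : (Y k).nuC c ≠ ⊤ := (Y k).k2n_nuC_ne_top h0.1 c
  have pτ := Real.rpow_pos_of_pos hN0 τ
  have px := Real.rpow_pos_of_pos hN0 (-x)
  constructor
  · rw [le_div_iff₀ hJ]
    have e1 : (Y k).nuC c = ENNReal.ofReal ((Y k).nuC c).toReal := (ENNReal.ofReal_toReal hnt).symm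
    rw [e1, ← ENNReal.ofReal_mul pτ.le] at b2
    have b3 := (ENNReal.ofReal_le_ofReal_iff (by positivity)).1 b2
    have e2 : E.R.N k ^ (-x - τ) = E.R.N k ^ (-x) / E.R.N k ^ τ := Real.rpow_sub hN0 _ _
    rw [e2, div_mul_eq_mul_div, div_le_iff₀ pτ]
    linarith
  · rw [div_le_iff₀ hJ]
    have b3 := ENNReal.toReal_mono ENNReal.ofReal_ne_top b1
    rw [ENNReal.toReal_ofReal (by positivity)] at b3
    have e2 : E.R.N k ^ (-x + τ) = E.R.N k ^ τ * E.R.N k ^ (-x) := by rw [← Real.rpow_add hN0]; congr 1; ring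
    rw [e2]
    exact b3

/-! ## the sequence-level construction -/

/-- normalisation through the (prepared) charts `C`, a short true system of the normalised problem, lifted.   `x` = exponent of `ν(A) / J_A`. -/
theorem k9b_bal_build (S η d₁ : ℝ) (hS : 0 < S) (hη : 0 < η) (hbad : KbBad KbVer.two S η d₁) (ζ' : ℝ) (hζ' : 0 < ζ') :
    ∃ ζ : ℝ, 0 < ζ ∧ kp4Dst KbVer.two S η + ζ < 1 ∧ ∀ (E : KbEx KbVer.two) (f : ℝ → ℝ → ℝ), Kp4Mx KbVer.two S η ζ E f → E.L = 1 → |f 0 0| ≤ ζ →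
      ∀ YC : E.Sys, E.IsAtlas YC 0 0 →
        ∃ (keep : ∀ k, Set (YC k).C) (S' : ∀ k, (YC k).C → Set ((E.P k).Lam × ℝ)) (Y₁ : (E.norm (E.restr YC keep S') 0).Sys) (b x : ℝ),
          0 < b ∧ b ≤ ζ' ∧ b < 1 ∧ |x| ≤ ζ' ∧ E.IsAtlas (E.restr YC keep S') 0 0 ∧
          (E.norm (E.restr YC keep S') 0).IsAtlas Y₁ b b ∧ E.IsSat (E.lift (E.restr YC keep S') 0 Y₁) x := by
  obtain ⟨δ, hδ0, hδ1, hlin⟩ := kp4_linear KbVer.two S η d₁ hS hη hbad (ζ' / 8) (by positivity)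
  have hd0 := kp4_Dst_nonneg KbVer.two S η
  have hd1 := kp4_Dst_lt_one' KbVer.two S η
  refine ⟨min δ (ζ' / 4), lt_min hδ0 (by positivity), by linarith [min_le_left δ (ζ' / 4)], ?_⟩
  intro E f hmx hL hf0 YC hYC
  have hζδ : min δ (ζ' / 4) ≤ δ := min_le_left _ _
  have hζ4 : min δ (ζ' / 4) ≤ ζ' / 4 := min_le_right _ _
  have hE := hmx.cap.ok
  have hf := hmx.cap.hom
  obtain ⟨keep, S', e, f', h1, h2, h3, h4, h5, -, -, -, h9⟩ := kb_norm E hE f hf YC 0 0 le_rfl (by rw [hL]; exact one_pos) hYC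
  have hL' : (E.norm (E.restr YC keep S') 0).L = 1 := by
    show E.L - 0 = 1
    rw [hL, sub_zero]
  have hcap' := h9 _ S η hmx.cap
  have hcomp := kp4_comp E hE f f' hf _ 0 0 e le_rfl (by rw [hL]; exact one_pos) h1 h2 h3 h4 h5
  have hmx' : Kp4Mx KbVer.two S η (min δ (ζ' / 4)) (E.norm (E.restr YC keep S') 0) f' := by
    refine ⟨hcap', ?_⟩
    have := hmx.hor
    rw [hL] at this
    rw [hL']
    linarith
  have l1 := hlin E f (kp4_mx_mono hmx hζδ hδ1)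
  have l2 := hlin _ f' (kp4_mx_mono hmx' hζδ hδ1)
  rw [hL] at l1
  rw [hL'] at l2
  set b : ℝ := min (ζ' / 4) (1 / 2) with hb
  have hb0 : 0 < b := lt_min (by positivity) (by norm_num)
  have hb4 : b ≤ ζ' / 4 := min_le_left _ _
  have hb2 : b ≤ 1 / 2 := min_le_right _ _
  obtain ⟨Y', hY'⟩ := kb_horizon_le ((E.norm (E.restr YC keep S') 0).coarsen b) (kp4_coarsen_ok _ h3 b hb0) f'
    (kp4_coarsen_hom _ f' h4 b (by rw [hL']; linarith))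
  have hY'' : (E.norm (E.restr YC keep S') 0).IsTrueSys f' Y' b b := hY'
  obtain ⟨Y₁, -, t2, -, t4⟩ := kp4_true_atlas _ h3 f' h4 Y' b b hb0 (by rw [hL']; linarith) hY''
  refine ⟨keep, S', Y₁, b, f' b 0 - e, hb0, by linarith, by linarith, ?_, h1, t4, ?_⟩
  · have a1 := l1 0 1 le_rfl zero_le_one le_rfl
    have a2 := l2 b 1 hb0.le (by linarith) le_rfl
    have h5' : f' 1 0 = f 1 0 + e := by
      have := h5
      rw [hL, sub_zero] at this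
      exact this
    rw [abs_le] at a1 a2 hf0 ⊢
    have hdb : kp4Dst KbVer.two S η * b ≤ b := by nlinarith
    have hdb0 : 0 ≤ kp4Dst KbVer.two S η * b := by positivity
    constructor <;> nlinarith
  · exact E.k2n_lift_sat hE _ 0 0 e h1.1 h2 b b (f' b 0 - e) Y₁ t4.1 (by rw [sub_add_cancel]; exact t2)

theorem k9b_full_arith (w q : ℝ) (hw0 : 0 ≤ w) (hw : w ≤ 1 / 2) : (w ^ 4 * q) ^ 2 ≤ (w * q) ^ 2 / 4 - (w ^ 3 * q) ^ 2 := by
  have t0 : 0 ≤ w ^ 2 := by positivity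
  have t1 : w ^ 2 ≤ 1 / 4 := by nlinarith
  have t2 : (w ^ 2) ^ 2 ≤ 1 / 16 := by nlinarith
  have t3 : w ^ 2 * (w ^ 2) ^ 2 ≤ w ^ 2 * (1 / 16) := mul_le_mul_of_nonneg_left t2 t0
  have t4 : w ^ 2 * (w ^ 2 * (w ^ 2) ^ 2) ≤ 1 / 4 * (w ^ 2 * (1 / 16)) := mul_le_mul t1 t3 (by positivity) (by norm_num)
  have key : w ^ 8 + w ^ 6 ≤ w ^ 2 / 4 := by
    have e1 : w ^ 8 = w ^ 2 * (w ^ 2 * (w ^ 2) ^ 2) := by ring
    have e2 : w ^ 6 = w ^ 2 * (w ^ 2) ^ 2 := by ring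
    rw [e1, e2]
    linarith
  have hq : 0 ≤ q ^ 2 := by positivity
  have : (w ^ 8 + w ^ 6) * q ^ 2 ≤ w ^ 2 / 4 * q ^ 2 := mul_le_mul_of_nonneg_right key hq
  nlinarith

/-- **L9.3 normalisation and relative density cancellation**, per exact problem.   `keep, S'` = the preparation of the `C`-charts made by `kb_norm`. -/
theorem k9b_balanced (S η d₁ : ℝ) (hS : 0 < S) (hη : 0 < η) (hbad : KbBad KbVer.two S η d₁) (ζ' : ℝ) (hζ' : 0 < ζ') :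
    ∃ ζ : ℝ, 0 < ζ ∧ kp4Dst KbVer.two S η + ζ < 1 ∧ ∀ (E : KbEx KbVer.two) (f : ℝ → ℝ → ℝ), Kp4Mx KbVer.two S η ζ E f → E.L = 1 → |f 0 0| ≤ ζ →
      ∀ (YC : E.Sys) (nC : ∀ k, (YC k).C → K9V) (gC : ℕ → ℝ), E.IsAtlas YC 0 0 → K9bFrame E YC nC gC → KbPow E.R gC →
        ∃ (keep : ∀ k, Set (YC k).C) (S' : ∀ k, (YC k).C → Set ((E.P k).Lam × ℝ)) (YA : E.Sys) (up : ∀ k, (YA k).C → (E.restr YC keep S' k).C)
          (b hA e : ℝ), 0 < b ∧ b ≤ ζ' ∧ hA ≤ ζ' ∧ |e| ≤ ζ' ∧ E.IsAtlas (E.restr YC keep S') 0 0 ∧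
            K9bBal E (E.restr YC keep S') (fun k c => nC k c.1) gC YA up b hA e := by
  obtain ⟨ζ, hζ0, hζ1, H⟩ := k9b_bal_build S η d₁ hS hη hbad ζ' hζ'
  refine ⟨ζ, hζ0, hζ1, ?_⟩
  intro E f hmx hL hf0 YC nC gC hYC hfr hg
  obtain ⟨keep, S', Y₁, b, x, hb0, hbζ, hb1, hx, hC', hY₁, hsat⟩ := H E f hmx hL hf0 YC hYC
  have hE := hmx.cap.ok
  have hA0 : E.IsAtlas (E.lift (E.restr YC keep S') 0 Y₁) (0 + b) (0 + b) :=
    kb_lift_atlas E hE _ 0 0 le_rfl (by rw [hL]; exact one_pos) hC' b hb0.le (by rw [hL]; linarith) Y₁ b hY₁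
  rw [zero_add] at hA0
  obtain ⟨ρ, hρ0, hρs, hAt, -, hSat⟩ := k2s_axis_full E hS hη hmx.cap (E.lift (E.restr YC keep S') 0 Y₁) hA0
  -- the matrix and the time length of the lifted charts
  have hgeo : ∀ᶠ k in uf, 0 < gC k ∧ ∀ d : (Y₁ k).C, K9Unit (nC k ((Y₁ k).wd d).1) ∧
      k9D (E.lift (E.restr YC keep S') 0 Y₁ k) d = k9Fr (nC k ((Y₁ k).wd d).1) (gC k) * k9D (Y₁ k) d ∧
      (E.lift (E.restr YC keep S') 0 Y₁ k).q = (Y₁ k).q := by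
    filter_upwards [hfr] with k a1
    obtain ⟨g0, n0, fr⟩ := a1
    refine ⟨g0, fun d => ⟨(fr _).1, ?_, ?_⟩⟩
    · show ((YC k).ch ((Y₁ k).wd d).1).D * ((Y₁ k).ch d).D = _
      rw [(fr _).2.1]
      rfl
    · show kbQ ((YC k).n + (Y₁ k).n) = kbQ (Y₁ k).n
      rw [n0, zero_add]
  have hthin : ∀ τ : ℝ, 0 < τ → ∀ᶠ k in uf, ∀ d : (Y₁ k).C,
      k9row (nC k ((Y₁ k).wd d).1) (k9D (E.lift (E.restr YC keep S') 0 Y₁ k) d) ≤ (E.R.N k ^ τ * gC k * (E.lift (E.restr YC keep S') 0 Y₁ k).q) ^ 2 := by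
    intro τ hτ
    filter_upwards [hgeo, hY₁.1.2.1 τ hτ] with k a1 a2 d
    obtain ⟨g0, a1⟩ := a1
    obtain ⟨u1, u2, u3⟩ := a1 d
    rw [u2, u3, k9b_row_fr _ u1]
    have s1 : kbMn (k9D (Y₁ k) d) ≤ (Y₁ k).q * E.R.N k ^ τ := a2.1.size d
    have s2 := k9b_row1_le (k9D (Y₁ k) d)
    have s3 : kbMn (k9D (Y₁ k) d) ^ 2 ≤ ((Y₁ k).q * E.R.N k ^ τ) ^ 2 := pow_le_pow_left₀ (k9b_mn_nonneg _) s1 2
    calc gC k ^ 2 * ((k9D (Y₁ k) d) 1 0 ^ 2 + (k9D (Y₁ k) d) 1 1 ^ 2) ≤ gC k ^ 2 * ((Y₁ k).q * E.R.N k ^ τ) ^ 2 :=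
          mul_le_mul_of_nonneg_left (s2.trans s3) (by positivity)
      _ = _ := by ring
  refine ⟨keep, S', fun k => (E.lift (E.restr YC keep S') 0 Y₁ k).restr {c | ρ k * (E.lift (E.restr YC keep S') 0 Y₁ k).q < kbMn ((E.lift (E.restr YC keep S') 0 Y₁ k).ch c).D} fun _ => Set.univ,
    fun k c => (Y₁ k).wd c.1, b, b, x, hb0, hbζ, hbζ, hx, hC',
    ⟨hAt, k9b_sat_exp E hE _ b b x hAt.1 (hSat x hsat), ?_, ?_, ?_⟩⟩
  · obtain ⟨M', hM'⟩ := hY₁.1.1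
    filter_upwards [hM'] with k a c
    exact ⟨rfl, fun l hl => hl.1, fun y hy => KbSys.k2n_lift_S_sub _ _ _ a.1 c.1 hy.1⟩
  · intro τ hτ
    obtain ⟨cg, hcg, hgle⟩ := hg
    set σ : ℝ := min τ cg / 4 with hσ
    have hσ0 : 0 < σ := by
      have : 0 < min τ cg := lt_min hτ hcg
      positivity
    have hστ : 4 * σ ≤ τ := by
      have := min_le_left τ cg
      rw [hσ]; linarith
    have hσc : 4 * σ ≤ cg := by
      have := min_le_right τ cg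
      rw [hσ]; linarith
    filter_upwards [hgeo, hthin σ hσ0, hρs σ hσ0, hgle, (kb_rpow_tendsto E.R hσ0).eventually_ge_atTop 2] with k a1 a2 a3 a4 a5 c
    obtain ⟨g0, a1⟩ := a1
    obtain ⟨u1, -, -⟩ := a1 c.1
    have hN0 := kb_res_pos E.R k
    have hN1 := kb_res_one_le E.R k
    have hq0 : 0 < (E.lift (E.restr YC keep S') 0 Y₁ k).q := k2s_q_pos _
    set w : ℝ := E.R.N k ^ (-σ) with hw
    have hw0 : 0 < w := Real.rpow_pos_of_pos hN0 _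
    have hwinv : w = (E.R.N k ^ σ)⁻¹ := Real.rpow_neg hN0.le _
    have hw2 : w ≤ 1 / 2 := by
      rw [hwinv, one_div]
      exact inv_anti₀ (by norm_num) a5
    have hwρ : w ≤ ρ k := by
      have h1 := a3.2
      rw [one_div] at h1
      rw [hwinv]
      exact (inv_le_comm₀ (hρ0 k) (Real.rpow_pos_of_pos hN0 _)).1 h1
    have hc : ρ k * (E.lift (E.restr YC keep S') 0 Y₁ k).q < kbMn (k9D (E.lift (E.restr YC keep S') 0 Y₁ k) c.1) := c.2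
    have hpw : ∀ m : ℕ, w ^ m = E.R.N k ^ (-(m * σ)) := by
      intro m
      rw [hw, ← Real.rpow_natCast, ← Real.rpow_mul hN0.le]
      congr 1
      ring
    have hy : (E.R.N k ^ σ * gC k * (E.lift (E.restr YC keep S') 0 Y₁ k).q) ^ 2 ≤ (w ^ 3 * (E.lift (E.restr YC keep S') 0 Y₁ k).q) ^ 2 := by
      refine pow_le_pow_left₀ (by positivity) (mul_le_mul_of_nonneg_right ?_ hq0.le) 2
      calc E.R.N k ^ σ * gC k ≤ E.R.N k ^ σ * E.R.N k ^ (-cg) := mul_le_mul_of_nonneg_left a4 (Real.rpow_nonneg hN0.le _)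
        _ = E.R.N k ^ (σ - cg) := by rw [← Real.rpow_add hN0]; congr 1
        _ ≤ E.R.N k ^ (-((3 : ℕ) * σ)) := Real.rpow_le_rpow_of_exponent_le hN1 (by push_cast; linarith)
        _ = w ^ 3 := (hpw 3).symm
    have key := k9b_full_num _ u1 (k9D (E.lift (E.restr YC keep S') 0 Y₁ k) c.1) (w * (E.lift (E.restr YC keep S') 0 Y₁ k).q) _ (by positivity)
      ((mul_le_mul_of_nonneg_right hwρ hq0.le).trans hc.le) ((a2 c.1).trans hy)
    refine le_trans ?_ ((k9b_full_arith w (E.lift (E.restr YC keep S') 0 Y₁ k).q hw0.le hw2).trans key)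
    refine pow_le_pow_left₀ (by positivity) ?_ 2
    show (E.lift (E.restr YC keep S') 0 Y₁ k).q / E.R.N k ^ τ ≤ w ^ 4 * (E.lift (E.restr YC keep S') 0 Y₁ k).q
    rw [div_eq_mul_inv, ← Real.rpow_neg hN0.le, mul_comm, hpw 4]
    exact mul_le_mul_of_nonneg_right (Real.rpow_le_rpow_of_exponent_le hN1 (by push_cast; linarith)) hq0.le
  · intro τ hτ
    filter_upwards [hthin τ hτ] with k a c
    exact a c.1

end

end Claimed.Agent.R252

/-!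
# ROW 252 (S0492), unit S9b (sub-architect helper66), file 4: **ONE STAGE OF THE OUTER DIAGONAL**  (09-unbounded-narrowness.tex l.421-538).      CONTRACT file: the `sorry`s are the leaves L-252-S9b-*.

PAPER-FREE.   `k9b_stage` : for a tolerance `τ` and a stage `n ≥ 1/τ` there is ONE exact problem in which ALL fields of `K9Sam.Ok p τ` hold eventually.
* `K9bPick`      everything that is chosen BEFORE the scale `k` : the exit `X` of S9a (tolerance `ζ ≤ τ/4`, gap `Λ = 1/τ`; its `C`-charts already prepared), the balanced charts `YA` of L9.3, (9.18), linear profile.   `k9b_pick` PROVED.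
* `k9bGp`        the masks = the set where the pointwise caps hold;      `k9bSam` the sample at the scale `k`.
* the fields of `K9Sam.Ok` in six groups `k9b_st_*` (LEAVES; each is `∀ᶠ k, …` and is read off from `K9bPick` by `filter_upwards`).      * `k9b_stage` GLUE, proved.
STATEMENTS ARE FROZEN (defects: one line to helper66).   Provers replace the `sorry` IN PLACE, helper lemmas directly above, prefix `k9b_`.
-/

set_option autoImplicit false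

namespace Claimed.Agent.R252

open MeasureTheory Filter Topology
open Claimed.Agent.R255 (uf)
open scoped ENNReal BigOperators

noncomputable section

/-- **(9.18)**: known atlases at depth `c'` are expensive in maximizing problems -/
theorem k9b_forbidden (S η d₁ : ℝ) (hS : 0 < S) (hη : 0 < η) (hbad : KbBad KbVer.two S η d₁) (cg : ℝ) (h0 : 0 < cg) (h1 : cg < 1) :
    ∃ ζ : ℝ, 0 < ζ ∧ kp4Dst KbVer.two S η + ζ < 1 ∧ ∀ (E : KbEx KbVer.two) (f : ℝ → ℝ → ℝ), Kp4Mx KbVer.two S η ζ E f → E.L = 1 →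
      ∀ (Y : E.Sys) (h : ℝ), E.IsAtlas Y cg h → kp4Kst KbVer.two S η * cg / 2 < h := by
  have hk0 : 0 < kp4Kst KbVer.two S η := kp4_Kst_pos KbVer.two S η d₁ hS hη hbad
  obtain ⟨δ, hδ0, hδ1, hδ⟩ := kp4_K_near KbVer.two S η d₁ hbad (kp4Kst KbVer.two S η * cg / 4) (by positivity)
  refine ⟨min δ (kp4Kst KbVer.two S η * cg / 8), lt_min hδ0 (by positivity), by linarith [min_le_left δ (kp4Kst KbVer.two S η * cg / 8)], ?_⟩
  intro E f hmx hL Y h hY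
  have hζ1 : min δ (kp4Kst KbVer.two S η * cg / 8) ≤ δ := min_le_left _ _
  have hζ2 : min δ (kp4Kst KbVer.two S η * cg / 8) ≤ kp4Kst KbVer.two S η * cg / 8 := min_le_right _ _
  have a1 := kp4_comp_K E hmx.cap Y cg h h0.le (by rw [hL]; exact h1) hY
  have a2 := hmx.hor
  have a3 := hδ (kp4Dst KbVer.two S η + min δ (kp4Kst KbVer.two S η * cg / 8)) (by linarith)
  rw [hL] at a1 a2
  have a4 : kp4K KbVer.two S η (kp4Dst KbVer.two S η + min δ (kp4Kst KbVer.two S η * cg / 8)) * (1 - cg)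
      ≤ (kp4Kst KbVer.two S η + kp4Kst KbVer.two S η * cg / 4) * (1 - cg) :=
    mul_le_mul_of_nonneg_right a3.le (by linarith)
  have a5 : kp4Kst KbVer.two S η * cg / 4 * (1 - cg) ≤ kp4Kst KbVer.two S η * cg / 4 := by
    have : 0 ≤ kp4Kst KbVer.two S η * cg / 4 := by positivity
    nlinarith
  nlinarith

/-- **the finite-sample exclusion in a fixed exact problem**: for every complexity exponent `Mg` and every subpower slack `K`, eventually no one-scale output -/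
theorem k9b_guard (E : KbEx KbVer.two) (hE : E.Ok) (hL : E.L = 1) (cg κ : ℝ) (hx : ∀ (Y : E.Sys) (h : ℝ), E.IsAtlas Y cg h → κ < h)
    (YA : E.Sys) (hA : ℝ) (hq : KbExp E.R (fun k => (YA k).q) hA) (hAκ : hA ≤ κ) (Mg : ℝ) (K : ℕ → ℝ) (hK : KbSubP E.R K) :
    ∀ᶠ k in uf, ¬ ∃ Y : KbSys (E.P k), Y.WF ∧ Y.Tmp (E.R.N k ^ Mg) ∧ Y.Geo (K k) (E.R.N k ^ (-cg)) ∧ Y.Known ((E.P k).hid (E.R.N k ^ (-1 : ℝ))) (K k) ∧
      Y.Big (K k) ∧ (YA k).q ≤ Y.q := by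
  have hwf : ∀ᶠ k in uf, (E.P k).WF := by
    obtain ⟨M, hM⟩ := hE.2.1
    exact hM.mono fun k h => h.1
  have key := k4b_guard0 E.R (α := fun k => KbSys (E.P k)) YA
    (fun k a y => (E.P k).WF ∧ y.WF ∧ y.Tmp (E.R.N k ^ Mg) ∧ y.Geo a (E.R.N k ^ (-cg)) ∧
      y.Known ((E.P k).hid (E.R.N k ^ (-1 : ℝ))) a ∧ y.Big a ∧ (YA k).q ≤ y.q)
    (fun k a b y hab h => ⟨h.1, h.2.1, h.2.2.1, k2s_geo_mono y h.1 h.2.2.2.1 hab (kb_L3_rpow_pos E.R k _).le,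
      k2s_known_mono y h.2.2.2.2.1 hab, k2s_big_mono y h.2.2.2.2.2.1 hab, h.2.2.2.2.2.2⟩) ?_ K hK
  · filter_upwards [key, hwf] with k hk hw
    rintro ⟨Y, h⟩
    exact hk ⟨Y, hw, h⟩
  · rintro ⟨Y, hY⟩
    have hqle : ∀ᶠ k in uf, (YA k).q ≤ (Y k).q := (hY 1 one_pos).mono fun k h => h.2.2.2.2.2.2
    have hqb : ∀ᶠ k in uf, E.R.N k ^ (-(|hA| + 1)) ≤ (Y k).q ∧ (Y k).q ≤ E.R.N k ^ (|hA| + 1) := by
      filter_upwards [hqle, hq 1 one_pos] with k h1 h2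
      constructor
      · refine le_trans ?_ (h2.1.trans h1)
        exact (kb_L3_rpow_le_iff E.R k).2 (by linarith [le_abs_self hA])
      · exact (k2s_q_le_one (Y k)).trans (kb_L3_one_le_rpow E.R k (by positivity))
    obtain ⟨hexp, -⟩ := kb_exp_exists E.R hqb
    have hle : kbExpo E.R (fun k => (Y k).q) ≤ hA :=
      kb_exp_le E.R hq hexp (kb_le_of_le E.R (Eventually.of_forall fun k => (k2s_q_pos (Y k)).le) hqle)
    have hatl : E.IsAtlas Y cg (kbExpo E.R fun k => (Y k).q) := by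
      refine ⟨⟨⟨Mg, (hY 1 one_pos).mono fun k h => ⟨h.2.1, h.2.2.1⟩⟩, fun τ hτ => (hY τ hτ).mono fun k h => ⟨h.2.2.2.1, h.2.2.2.2.2.1⟩, hexp⟩, ?_⟩
      intro τ hτ
      refine (hY τ hτ).mono fun k h => ?_
      have := h.2.2.2.2.1
      unfold KbEx.hid KbEx.a
      rw [hL]
      exact this
    have := hx Y _ hatl
    linarith

/-! ## the choices before the scale -/

/-- the exit of S9a survives the preparation of the `C`-charts -/
theorem k9b_dat_restr {S η : ℝ} {p : K9Prm} {ζ Λ : ℝ} (X : K9bDat) (h : X.Ok S η p ζ Λ) (keep : ∀ k, Set (X.YC k).C)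
    (S' : ∀ k, (X.YC k).C → Set ((X.E.P k).Lam × ℝ)) (hat : X.E.IsAtlas (X.E.restr X.YC keep S') 0 0) : (X.restr keep S').Ok S η p ζ Λ where
  mx := h.mx
  L1 := h.L1
  f00 := h.f00
  r1_rng := h.r1_rng
  r1_near := h.r1_near
  h1_near := h.h1_near
  sys1 := h.sys1
  sat1 := h.sat1
  node1 := h.node1
  g1_rng := h.g1_rng
  atlC := hat
  frame := h.frame.mono fun k hk => ⟨hk.1, hk.2.1, fun b => hk.2.2 b.1⟩
  thin := h.thin
  cmp := fun τ hτ => (h.cmp τ hτ).mono fun k hk b c1 hw hne => hk b.1 c1 hw (hne.mono fun x hx => ⟨hx.1.1, hx.2⟩)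
  path := h.path.mono fun k hk b x hx => hk b.1 x hx.1

/-- everything that is chosen before the scale -/
structure K9bPick (S η : ℝ) (p : K9Prm) (τ : ℝ) (X : K9bDat) (YA : X.E.Sys) (up : ∀ k, (YA k).C → (X.YC k).C) (ζ b hA e : ℝ) : Prop where
  ok : X.Ok S η p ζ (1 / τ)
  bal : K9bBal X.E X.YC X.nC X.gC YA up b hA e
  ζ_pos : 0 < ζ
  ζ_le : ζ ≤ τ / 4
  hA_le : hA ≤ τ / 4
  e_le : |e| ≤ τ / 4
  hA_k : hA ≤ p.k * p.cg / 2
  forb : ∀ (Y : X.E.Sys) (h : ℝ), X.E.IsAtlas Y p.cg h → p.k * p.cg / 2 < h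
  lin : ∀ a b : ℝ, 0 ≤ a → a ≤ b → b ≤ 1 → |X.f b 0 - X.f a 0 - p.d * (b - a)| ≤ τ / 4

theorem k9b_pick (S η d₁ : ℝ) (hS : 0 < S) (hη : 0 < η) (hbad : KbBad KbVer.two S η d₁) (p : K9Prm) (hp : p.Ok) (hd : p.d = kp4Dst KbVer.two S η)
    (hk : p.k = kp4Kst KbVer.two S η) (hctx : ∀ ζ Λ : ℝ, 0 < ζ → kp4Dst KbVer.two S η + ζ < 1 → ∃ X : K9bDat, X.Ok S η p ζ Λ) (τ : ℝ) (hτ : 0 < τ) :
    ∃ (X : K9bDat) (YA : X.E.Sys) (up : ∀ k, (YA k).C → (X.YC k).C) (ζ b hA e : ℝ), K9bPick S η p τ X YA up ζ b hA e := by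
  have hkc : 0 < p.k * p.cg / 2 := by
    have := hp.k_pos; have := hp.cg_pos; positivity
  obtain ⟨ζ₁, h10, h11, H1⟩ := k9b_balanced S η d₁ hS hη hbad (min (τ / 4) (p.k * p.cg / 2)) (lt_min (by positivity) hkc)
  obtain ⟨ζ₂, h20, h21, H2⟩ := k9b_forbidden S η d₁ hS hη hbad p.cg hp.cg_pos hp.cg_lt
  obtain ⟨ζ₃, h30, h31, H3⟩ := kp4_linear KbVer.two S η d₁ hS hη hbad (τ / 4) (by positivity)
  set ζ : ℝ := min (min ζ₁ ζ₂) (min ζ₃ (τ / 4)) with hζ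
  have hζ0 : 0 < ζ := lt_min (lt_min h10 h20) (lt_min h30 (by positivity))
  have z1 : ζ ≤ ζ₁ := (min_le_left _ _).trans (min_le_left _ _)
  have z2 : ζ ≤ ζ₂ := (min_le_left _ _).trans (min_le_right _ _)
  have z3 : ζ ≤ ζ₃ := (min_le_right _ _).trans (min_le_left _ _)
  have z4 : ζ ≤ τ / 4 := (min_le_right _ _).trans (min_le_right _ _)
  obtain ⟨X, hX⟩ := hctx ζ (1 / τ) hζ0 (by linarith)
  have hgC : KbPow X.E.R X.gC := by
    refine ⟨1 / τ, by positivity, ?_⟩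
    filter_upwards [hX.thin, hX.g1_rng] with k a1 a2
    refine a1.trans ?_
    have := kb_L3_rpow_pos X.E.R k (-(1 / τ))
    nlinarith [a2.1, a2.2]
  obtain ⟨keep, S', YA, up, b, hA, e, -, -, b3, b4, b5, b6⟩ :=
    H1 X.E X.f (kp4_mx_mono hX.mx z1 h11) hX.L1 (hX.f00.trans z1) X.YC X.nC X.gC hX.atlC hX.frame hgC
  refine ⟨X.restr keep S', YA, up, ζ, b, hA, e, k9b_dat_restr X hX keep S' b5, b6, hζ0, z4, b3.trans (min_le_left _ _), b4.trans (min_le_left _ _),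
    b3.trans (min_le_right _ _), ?_, ?_⟩
  · intro Y h hY
    rw [hk]
    exact H2 X.E X.f (kp4_mx_mono hX.mx z2 h21) hX.L1 Y h hY
  · intro a b ha hab hb
    have := H3 X.E X.f (kp4_mx_mono hX.mx z3 h31) a b ha hab (by rw [hX.L1]; exact hb)
    rw [hX.L1, mul_one] at this
    rw [hd]
    exact this

/-! ## the sample -/

/-- the masks: the incidences on which the pointwise caps hold -/
def k9bGp (P : K9P) (N d S f1 n1 r1 τ : ℝ) (grid vgrid : Finset ℝ) : P.W → Set (P.Lam × ℝ) := fun γ =>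
  {x | (∀ r ∈ grid, P.dn (P.hid (N ^ (-r))) γ x ≤ ENNReal.ofReal (N ^ (-(d * r) + τ))) ∧
    P.dn (P.hid (N ^ (-r1))) γ x ≤ ENNReal.ofReal (N ^ τ * n1) ∧
    ENNReal.ofReal (N ^ (-f1 - τ)) ≤ P.dn (P.hid (N ^ (-1 : ℝ))) γ x ∧
    ∀ w ∈ vgrid, P.dn (P.hv (N ^ (-1 : ℝ)) (N ^ (-w))) γ x ≤ ENNReal.ofReal (N ^ (-f1 - S * w + τ))}

/-- the sample at the scale `k` -/
def k9bSam (X : K9bDat) (YA : X.E.Sys) (up : ∀ k, (YA k).C → (X.YC k).C) (p : K9Prm) (τ : ℝ) (grid vgrid : Finset ℝ) (Kp : ℕ → ℝ) (n : ℕ) (Mp : ℝ)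
    (k : ℕ) : K9Sam where
  P := X.E.P k
  N := X.E.R.N k
  Y1 := X.Y1 k
  YC := X.YC k
  YA := YA k
  up := up k
  nC := X.nC k
  g1 := X.g1 k
  gC := X.gC k
  n1 := X.E.R.N k ^ (-(X.f X.r1 0))
  r1 := X.r1
  Gp := k9bGp (X.E.P k) (X.E.R.N k) p.d p.S (X.f 1 0) (X.E.R.N k ^ (-(X.f X.r1 0))) X.r1 τ grid vgrid
  grid := grid
  vgrid := vgrid
  f1 := X.f 1 0
  Kp := Kp k
  n := n
  Mp := Mp
  Mg := 2 ^ ((Mp + n) ^ 2)

theorem k9b_stage_eqns_cite : True := by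
  have := @k9bGp.eq_1; have := @k9bSam.eq_1
  trivial

/-- LEAF GRID (~40 l.).   `G = image (fun i : ℕ => i * τ) (range (⌊a / τ⌋₊ + 1))`, `r' = ⌊r / τ⌋₊ * τ`  (`Nat.floor_le`, `Nat.lt_floor_add_one`, `Nat.floor_le_floor`). -/
theorem k9b_grid (a τ : ℝ) (ha : 0 ≤ a) (hτ : 0 < τ) :
    ∃ G : Finset ℝ, (∀ r ∈ G, 0 ≤ r ∧ r ≤ a) ∧ ∀ r ∈ Set.Icc 0 a, ∃ r' ∈ G, r' ≤ r ∧ r ≤ r' + τ := by
  refine ⟨(Finset.range (⌊a / τ⌋₊ + 1)).image fun i : ℕ => (i : ℝ) * τ, ?_, ?_⟩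
  · intro r hr
    obtain ⟨i, hi, rfl⟩ := Finset.mem_image.1 hr
    have hi' : i ≤ ⌊a / τ⌋₊ := Nat.lt_succ_iff.1 (Finset.mem_range.1 hi)
    have h1 : (i : ℝ) ≤ a / τ := (Nat.cast_le.2 hi').trans (Nat.floor_le (by positivity))
    refine ⟨by positivity, ?_⟩
    rwa [le_div_iff₀ hτ] at h1
  · intro r hr
    refine ⟨(⌊r / τ⌋₊ : ℝ) * τ, Finset.mem_image.2 ⟨⌊r / τ⌋₊, Finset.mem_range.2 (Nat.lt_succ_iff.2 (Nat.floor_le_floor
      (div_le_div_of_nonneg_right hr.2 hτ.le))), rfl⟩, ?_, ?_⟩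
    · have := Nat.floor_le (show 0 ≤ r / τ from div_nonneg hr.1 hτ.le)
      rwa [le_div_iff₀ hτ] at this
    · have := (Nat.lt_floor_add_one (r / τ)).le
      rw [div_le_iff₀ hτ] at this
      linarith

section groups

variable {S η : ℝ} {p : K9Prm} {τ : ℝ} {X : K9bDat} {YA : X.E.Sys} {up : ∀ k, (YA k).C → (X.YC k).C} {ζ b hA e : ℝ}

/-- LEAF ONE (~120 l.).   The problem and the earlier charts.   `rintro s rfl`, then every projection of `k9bSam` is `rfl` (`show`).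
`N_big`: `X.E.R.two_le`, `X.E.R.lim.eventually_ge_atTop`;  `wf, ntv`: `h.ok.mx.cap.ok`;  `node1, sat1, g1_rng`: fields of `h.ok`;  `geo1`: `h.ok.sys1.1.2.1 τ` (`KbEx.a` unfolds);
`q1_near`: `h.ok.sys1.1.2.2 (τ/2)` + `h1_near`, `ζ ≤ τ/4`;   `n1_near`: `|f r1 0 - d s1| ≤ |f r1 0 - f 0 0 - d r1| + |f 0 0| + d |r1 - s1| ≤ 3τ/4` (`h.lin 0 r1`, `f00`, `r1_near`, `0 ≤ d < 1`), `Real.rpow_le_rpow_of_exponent_le`;
`f1_near`: `h.lin 0 1` + `f00`. -/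
theorem k9b_st_one (hp : p.Ok) (hτ : 0 < τ) (h : K9bPick S η p τ X YA up ζ b hA e) (grid vgrid : Finset ℝ) (Kp : ℕ → ℝ) (n : ℕ) (Mp : ℝ) :
    ∀ᶠ k in uf, ∀ s : K9Sam, s = k9bSam X YA up p τ grid vgrid Kp n Mp k →
      (2 ≤ s.N ∧ 1 / τ ≤ s.N) ∧ s.P.WF ∧ s.P.Ntv (s.N ^ τ) ∧ K9Node s.P s.Y1 (s.N ^ τ) s.g1 ∧ s.Y1.Geo (s.N ^ τ) (s.N ^ (-s.r1)) ∧
      s.Y1.Sat (s.N ^ τ) s.n1 ∧ |s.r1 - p.s1| ≤ τ ∧ (s.N ^ (-(p.k * p.s1) - τ) ≤ s.Y1.q ∧ s.Y1.q ≤ s.N ^ (-(p.k * p.s1) + τ)) ∧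
      (s.N ^ (-(p.d * p.s1) - τ) ≤ s.n1 ∧ s.n1 ≤ s.N ^ (-(p.d * p.s1) + τ)) ∧ (0 < s.g1 ∧ s.g1 ≤ 1) ∧ |s.f1 - p.d| ≤ τ := by
  obtain ⟨M, hM⟩ := h.ok.mx.cap.ok.2.1
  have hζ := h.ζ_le
  have hζ0 := h.ζ_pos
  have hr1 := h.ok.r1_rng
  have l1 := abs_le.1 (h.lin 0 X.r1 le_rfl hr1.1.le hr1.2.le)
  have l2 := abs_le.1 (h.lin 0 1 le_rfl zero_le_one le_rfl)
  have l3 := abs_le.1 h.ok.f00
  have l4 := abs_le.1 h.ok.r1_near
  have l5 := abs_le.1 h.ok.h1_near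
  have hd0 := hp.d_nonneg
  have hd1 := hp.d_lt
  have m1 : p.d * (X.r1 - p.s1) ≤ ζ := by nlinarith [l4.1, l4.2]
  have m2 : -ζ ≤ p.d * (X.r1 - p.s1) := by nlinarith [l4.1, l4.2]
  filter_upwards [hM, h.ok.mx.cap.ok.2.2 τ hτ, h.ok.node1 τ hτ, h.ok.sys1.1.2.1 τ hτ, h.ok.sat1 τ hτ, h.ok.sys1.1.2.2 (τ / 2) (by positivity), h.ok.g1_rng,
    X.E.R.lim.eventually_ge_atTop (1 / τ)] with k a1 a2 a3 a4 a5 a6 a7 a8
  rintro s rfl
  have hn := kb_res_one_le X.E.R k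
  have hmono : ∀ x y : ℝ, x ≤ y → X.E.R.N k ^ x ≤ X.E.R.N k ^ y := fun x y hxy => Real.rpow_le_rpow_of_exponent_le hn hxy
  refine ⟨⟨X.E.R.two_le k, a8⟩, a1.1, a2, a3, a4.1, a5, ?_, ⟨?_, ?_⟩, ⟨?_, ?_⟩, a7, ?_⟩
  · exact h.ok.r1_near.trans (by linarith)
  · exact (hmono _ _ (by linarith [l5.2])).trans a6.1
  · exact a6.2.trans (hmono _ _ (by linarith [l5.1]))
  · exact hmono _ _ (by nlinarith [l1.2, l3.2])
  · exact hmono _ _ (by nlinarith [l1.1, l3.1])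
  · show |X.f 1 0 - p.d| ≤ τ
    rw [abs_le]
    constructor <;> linarith [l2.1, l2.2, l3.1, l3.2]

/-- LEAF CC (~60 l.).   The full-time charts: fields `atlC` (`X.E.a 0 k = N^(-0) = 1`), `frame`, `thin`, `cmp` of `h.ok`. -/
theorem k9b_st_C (hτ : 0 < τ) (h : K9bPick S η p τ X YA up ζ b hA e) (grid vgrid : Finset ℝ) (Kp : ℕ → ℝ) (n : ℕ) (Mp : ℝ) :
    ∀ᶠ k in uf, ∀ s : K9Sam, s = k9bSam X YA up p τ grid vgrid Kp n Mp k →
      s.YC.WF ∧ s.YC.Geo (s.N ^ τ) 1 ∧ s.YC.n = 0 ∧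
      (∀ b, K9Unit (s.nC b) ∧ (s.YC.ch b).D = k9Fr (s.nC b) s.gC ∧ (s.YC.ch b).Di = k9FrI (s.nC b) s.gC ∧ (s.YC.ch b).T = s.P.Pst (s.YC.wd b)) ∧
      0 < s.gC ∧ s.gC ≤ s.N ^ (-(1 / τ)) * s.g1 ∧
      ∀ (b : s.YC.C) (c1 : s.Y1.C), s.Y1.wd c1 = s.YC.wd b → (s.YC.S b ∩ s.Y1.S c1).Nonempty → K9Cmp s.Y1 (s.nC b) (s.beC b) s.g1 (s.N ^ τ) c1 := by
  obtain ⟨M, hM⟩ := h.ok.atlC.1.1
  filter_upwards [hM, h.ok.atlC.1.2.1 τ hτ, h.ok.frame, h.ok.thin, h.ok.cmp τ hτ] with k a1 a2 a3 a4 a5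
  rintro s rfl
  have e0 : X.E.a 0 k = 1 := by
    unfold KbEx.a
    simp
  rw [e0] at a2
  exact ⟨a1.1, a2.1, a3.2.1, a3.2.2, a3.1, a4, a5⟩

/-- LEAF AA (~150 l.).   The balanced charts: `h.bal` (`atl`, `bal`, `nest`, `full`, `thin`), `h.ok.path` for `path1`.
`qA`: `h.bal.atl.1.2.2 (τ/2)` + `hA ≤ τ/4`;   `bal`: `h.bal.bal (τ/2)` + `|e| ≤ τ/4`, `ν ≠ ⊤` (`KbSys.k2n_nuC_ne_top`), `J > 0` (`k2s_J_pos`), `ENNReal.ofReal_le_iff_le_toReal`, `ENNReal.le_ofReal_iff_toReal_le`;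
`knownA`: `h.bal.atl.2 τ`, `X.E.hid X.E.L k = P.hid (N^(-1))` by `h.ok.L1` (`unfold KbEx.hid KbEx.a`). -/
theorem k9b_st_A (hτ : 0 < τ) (h : K9bPick S η p τ X YA up ζ b hA e) (grid vgrid : Finset ℝ) (Kp : ℕ → ℝ) (n : ℕ) (Mp : ℝ) :
    ∀ᶠ k in uf, ∀ s : K9Sam, s = k9bSam X YA up p τ grid vgrid Kp n Mp k →
      s.YA.WF ∧ (∀ c, kbMn (s.YA.ch c).D ≤ s.YA.q * s.N ^ τ) ∧
      (∀ c, ∀ l ∈ s.YA.A c, ∀ t ∈ s.YA.I c, ‖(s.YA.ch c).Di.mulVec (kbY (s.P.co (s.YA.wd c) l) t - (s.YA.ch c).yc t)‖ ≤ s.N ^ τ) ∧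
      (∀ c, s.YC.wd (s.up c) = s.YA.wd c ∧ s.YA.A c ⊆ s.YC.A (s.up c) ∧ s.YA.S c ⊆ s.YC.S (s.up c)) ∧
      (∀ c, ∀ x ∈ s.YA.S c, ∃ c1, s.Y1.wd c1 = s.YA.wd c ∧ x ∈ s.Y1.S c1) ∧
      s.N ^ (-τ) ≤ s.YA.q ∧
      (∀ c, ENNReal.ofReal (s.N ^ (-τ) * (s.YA.ch c).J) ≤ s.YA.nuC c ∧ s.YA.nuC c ≤ ENNReal.ofReal (s.N ^ τ * (s.YA.ch c).J)) ∧
      (∀ c, (s.YA.q / s.N ^ τ) ^ 2 ≤ k9row (k9Rot (s.nC (s.up c))) (k9D s.YA c)) ∧
      (∀ c, k9row (s.nC (s.up c)) (k9D s.YA c) ≤ (s.N ^ τ * s.gC * s.YA.q) ^ 2) ∧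
      s.YA.Known (s.P.hid s.aL) (s.N ^ τ) ∧ s.YA.Big (s.N ^ τ) := by
  obtain ⟨M, hM⟩ := h.bal.atl.1.1
  obtain ⟨M0, hM0⟩ := h.ok.mx.cap.ok.2.1
  have he := abs_le.1 h.e_le
  have hA' := h.hA_le
  filter_upwards [hM, hM0, h.bal.atl.1.2.1 τ hτ, h.bal.nest, h.ok.path, h.bal.atl.1.2.2 (τ / 2) (by positivity), h.bal.bal (τ / 2) (by positivity),
    h.bal.full τ hτ, h.bal.thin τ hτ, h.bal.atl.2 τ hτ] with k a1 a0 a2 a3 a4 a5 a6 a7 a8 a9
  rintro s rfl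
  have hn := kb_res_one_le X.E.R k
  have hn0 := kb_res_pos X.E.R k
  have hmono : ∀ x y : ℝ, x ≤ y → X.E.R.N k ^ x ≤ X.E.R.N k ^ y := fun x y hxy => Real.rpow_le_rpow_of_exponent_le hn hxy
  have hpos : ∀ x : ℝ, 0 < X.E.R.N k ^ x := fun x => Real.rpow_pos_of_pos hn0 x
  refine ⟨a1.1, a2.1.size, a2.1.box, a3, ?_, ?_, ?_, a7, a8, ?_, a2.2⟩
  · intro c x hx
    obtain ⟨c1, h1, h2⟩ := a4 (up k c) x ((a3 c).2.2 hx)
    exact ⟨c1, h1.trans (a3 c).1, h2⟩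
  · exact (hmono _ _ (by linarith)).trans a5.1
  · intro c
    have hJ : 0 < ((YA k).ch c).J := k2s_J_pos (YA k) a1.1 c
    have hν : (YA k).nuC c ≠ ⊤ := (YA k).k2n_nuC_ne_top a0.1 c
    obtain ⟨b1, b2⟩ := a6 c
    rw [le_div_iff₀ hJ] at b1
    rw [div_le_iff₀ hJ] at b2
    constructor
    · refine (ENNReal.ofReal_le_iff_le_toReal hν).2 (le_trans ?_ b1)
      exact mul_le_mul_of_nonneg_right (hmono _ _ (by linarith [he.2])) hJ.le
    · refine (ENNReal.le_ofReal_iff_toReal_le hν (mul_nonneg (hpos _).le hJ.le)).2 (b2.trans ?_)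
      exact mul_le_mul_of_nonneg_right (hmono _ _ (by linarith [he.1])) hJ.le
  · have e1 : X.E.hid X.E.L k = (X.E.P k).hid (X.E.R.N k ^ (-1 : ℝ)) := by
      unfold KbEx.hid KbEx.a
      rw [h.ok.L1]
    rw [e1] at a9
    exact a9

theorem k9b_pow_sum (R : KbRes) {ι : Type} (s : Finset ι) (x : ι → ℕ → ℝ) (h : ∀ i, KbPow R (x i)) : KbPow R fun k => ∑ i ∈ s, x i k := by
  classical
  induction s using Finset.induction_on with
  | empty =>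
    refine ⟨1, one_pos, Eventually.of_forall fun k => ?_⟩
    simpa using (kb_L3_rpow_pos R k (-1)).le
  | insert a s ha ih =>
    have := kb_pow_add R (h a) ih
    simpa [Finset.sum_insert ha] using this

theorem k9b_mass_iUnion {P : K9P} {ι : Type} [Fintype ι] (Z : ι → P.W → Set (P.Lam × ℝ)) :
    P.mass (fun γ => ⋃ i, Z i γ) ≤ ∑ i, P.mass (Z i) := by
  unfold KbPb.mass
  rw [Finset.sum_comm]
  refine Finset.sum_le_sum fun γ _ => ?_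
  rw [← Finset.mul_sum]
  exact mul_le_mul_right (measure_iUnion_fintype_le _ _) _

/-- LEAF LOSS (~120 l.).   Finitely many power small families of incidence sets are negligible against a system.
PLAN: `P.mass (⋃ i) ≤ ∑ i, P.mass (Z i k)` (`measure_iUnion_fintype_le`, `Finset.mul_sum`, `Finset.sum_comm`);  `c = min` of the exponents (or induct over `Finset.univ`): eventually each `mass ≤ ofReal (N^{-c})` (`ENNReal.le_ofReal_iff_toReal_le`,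
finiteness `k2n_s1_mass_ne_top`, `P.WF` from `hE.2.1`);   `1 ≤ ofReal (N^{c/2}) * (Y k).mass`;   `card ι * N^{-c/2} ≤ ε` eventually (`kb_L3_rpow_neg_le`). -/
theorem k9b_loss (E : KbEx KbVer.two) (hE : E.Ok) {ι : Type} [Fintype ι] (Z : ι → E.Sel) (hZ : ∀ i, KbPow E.R (E.massOf (Z i))) (Y : E.Sys)
    (hB : ∀ τ : ℝ, 0 < τ → ∀ᶠ k in uf, (Y k).Big (E.R.N k ^ τ)) (ε : ℝ) (hε : 0 < ε) :
    ∀ᶠ k in uf, (E.P k).mass (fun γ => ⋃ i, Z i k γ) ≤ ENNReal.ofReal ε * (Y k).mass := by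
  obtain ⟨c, hc, h1⟩ := k9b_pow_sum E.R Finset.univ (fun i => E.massOf (Z i)) hZ
  obtain ⟨M, hM⟩ := hE.2.1
  filter_upwards [h1, hM, hB (c / 2) (by positivity), kb_L3_rpow_neg_le E.R (half_pos hc) hε] with k a1 a2 a3 a4
  have hN0 := kb_res_pos E.R k
  have hfin : ∀ i, (E.P k).mass (Z i k) ≠ ⊤ := fun i => k2n_s1_mass_ne_top a2.1 _
  have e1 : ∑ i, (E.P k).mass (Z i k) = ENNReal.ofReal (∑ i, E.massOf (Z i) k) := by
    show _ = ENNReal.ofReal (∑ i, ((E.P k).mass (Z i k)).toReal)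
    rw [ENNReal.ofReal_sum_of_nonneg fun i _ => ENNReal.toReal_nonneg]
    exact Finset.sum_congr rfl fun i _ => (ENNReal.ofReal_toReal (hfin i)).symm
  have a3' : 1 ≤ ENNReal.ofReal (E.R.N k ^ (c / 2)) * (Y k).mass := a3
  calc (E.P k).mass (fun γ => ⋃ i, Z i k γ) ≤ ∑ i, (E.P k).mass (Z i k) := k9b_mass_iUnion fun i => Z i k
    _ = ENNReal.ofReal (∑ i, E.massOf (Z i) k) := e1
    _ ≤ ENNReal.ofReal (E.R.N k ^ (-c)) := ENNReal.ofReal_le_ofReal a1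
    _ = ENNReal.ofReal (E.R.N k ^ (-c)) * 1 := (mul_one _).symm
    _ ≤ ENNReal.ofReal (E.R.N k ^ (-c)) * (ENNReal.ofReal (E.R.N k ^ (c / 2)) * (Y k).mass) := by gcongr
    _ = ENNReal.ofReal (E.R.N k ^ (-(c / 2))) * (Y k).mass := by
        rw [← mul_assoc, ← ENNReal.ofReal_mul (Real.rpow_nonneg hN0.le _), ← Real.rpow_add hN0]
        congr 3
        ring
    _ ≤ ENNReal.ofReal ε * (Y k).mass := by gcongr

/-- the masks are measurable -/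
theorem k9b_Gp_meas {P : K9P} (hP : P.WF) (N d S f1 n1 r1 τ : ℝ) (grid vgrid : Finset ℝ) (γ : P.W) : MeasurableSet (k9bGp P N d S f1 n1 r1 τ grid vgrid γ) := by
  have m1 : MeasurableSet {x | ∀ r ∈ grid, P.dn (P.hid (N ^ (-r))) γ x ≤ ENNReal.ofReal (N ^ (-(d * r) + τ))} := by
    have : {x | ∀ r ∈ grid, P.dn (P.hid (N ^ (-r))) γ x ≤ ENNReal.ofReal (N ^ (-(d * r) + τ))}
        = ⋂ r ∈ grid, {x | P.dn (P.hid (N ^ (-r))) γ x ≤ ENNReal.ofReal (N ^ (-(d * r) + τ))} := by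
      ext x
      simp
    rw [this]
    exact Finset.measurableSet_biInter grid fun r _ => measurableSet_le (k2s_dn_meas P hP (k2s_hid_meas P hP _) γ) measurable_const
  have m2 : MeasurableSet {x | P.dn (P.hid (N ^ (-r1))) γ x ≤ ENNReal.ofReal (N ^ τ * n1)} :=
    measurableSet_le (k2s_dn_meas P hP (k2s_hid_meas P hP _) γ) measurable_const
  have m3 : MeasurableSet {x | ENNReal.ofReal (N ^ (-f1 - τ)) ≤ P.dn (P.hid (N ^ (-1 : ℝ))) γ x} :=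
    measurableSet_le measurable_const (k2s_dn_meas P hP (k2s_hid_meas P hP _) γ)
  have m4 : MeasurableSet {x | ∀ w ∈ vgrid, P.dn (P.hv (N ^ (-1 : ℝ)) (N ^ (-w))) γ x ≤ ENNReal.ofReal (N ^ (-f1 - S * w + τ))} := by
    have : {x | ∀ w ∈ vgrid, P.dn (P.hv (N ^ (-1 : ℝ)) (N ^ (-w))) γ x ≤ ENNReal.ofReal (N ^ (-f1 - S * w + τ))}
        = ⋂ w ∈ vgrid, {x | P.dn (P.hv (N ^ (-1 : ℝ)) (N ^ (-w))) γ x ≤ ENNReal.ofReal (N ^ (-f1 - S * w + τ))} := by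
      ext x
      simp
    rw [this]
    exact Finset.measurableSet_biInter vgrid fun w _ => measurableSet_le (k2s_dn_meas P hP (k2s_hv_meas P hP _ _) γ) measurable_const
  exact m1.inter (m2.inter (m3.inter m4))

/-- the exceptional sets of the masks -/
def k9bZ (X : K9bDat) (τ : ℝ) (grid vgrid : Finset ℝ) : (↥grid ⊕ (↥vgrid ⊕ Bool)) → X.E.Sel
  | Sum.inl r => fun k => (X.E.P k).above (X.E.hid r.1 k) (X.E.R.N k ^ (-(X.f r.1 0) + τ / 2))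
  | Sum.inr (Sum.inl w) => fun k => (X.E.P k).above (X.E.hv 1 w.1 k) (X.E.R.N k ^ (-(X.f 1 w.1) + τ))
  | Sum.inr (Sum.inr true) => fun k => (X.E.P k).above (X.E.hid X.r1 k) (X.E.R.N k ^ (-(X.f X.r1 0) + τ))
  | Sum.inr (Sum.inr false) => fun k => (X.E.P k).below (X.E.hid 1 k) (X.E.R.N k ^ (-(X.f 1 0) - τ))

/-- LEAF CAPS (~200 l.).   The masks are measurable and lose a small part of the path.
`Gp_meas`: `k2s_dn_meas` (`k2s_hid_meas`, `k2s_hv_meas`), finite intersections (`MeasurableSet.biInter`/`Finset.measurableSet_biInter`, `measurableSet_le`).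
`loss`: `k9b_loss` with `ι = ↥grid ⊕ ↥vgrid ⊕ Bool`, `Y = YA`, `ε = τ`;   `YA.sel γ \ Gp γ ⊆ ⋃ i, Z i k γ` where
`Z (r) = above (hid r) (N^{-f r 0 + τ/2})`   [`-f r 0 + τ/2 ≤ -(d r) + τ` by `h.lin 0 r`, `f00`; `r ≤ s1 < 1`],      `Z (w) = above (hv 1 w) (N^{-f 1 w + τ})`   [`f 1 0 + S w ≤ f 1 w`: `h.ok.mx.cap.ang` for `0 < w ≤ u ≤ η = η L`, trivial for `w = 0`],
`Z true = above (hid r1) (N^{-f r1 0 + τ})`,   `Z false = below (hid 1) (N^{-f 1 0 - τ})`;   power small: `h.ok.mx.cap.hom.pure / .joint` (`E.L = 1`), `E.hid r k = P.hid (N^(-r))` by `rfl`/`unfold KbEx.hid KbEx.a`. -/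
theorem k9b_st_caps (hp : p.Ok) (hτ : 0 < τ) (hpS : p.S = S) (hu : p.u ≤ η) (h : K9bPick S η p τ X YA up ζ b hA e) (grid vgrid : Finset ℝ)
    (hg : ∀ r ∈ grid, 0 ≤ r ∧ r ≤ p.s1) (hv : ∀ w ∈ vgrid, 0 ≤ w ∧ w ≤ p.u) (Kp : ℕ → ℝ) (n : ℕ) (Mp : ℝ) :
    ∀ᶠ k in uf, ∀ s : K9Sam, s = k9bSam X YA up p τ grid vgrid Kp n Mp k →
      (∀ γ, MeasurableSet (s.Gp γ)) ∧ s.P.mass (fun γ => s.YA.sel γ \ s.Gp γ) ≤ ENNReal.ofReal τ * s.YA.mass := by
  have hL := h.ok.L1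
  have hcap := h.ok.mx.cap
  obtain ⟨M0, hM0⟩ := hcap.ok.2.1
  have hr1 := h.ok.r1_rng
  have hZ : ∀ i, KbPow X.E.R (X.E.massOf (k9bZ X τ grid vgrid i)) := by
    rintro (r | w | _ | _)
    · exact (hcap.hom.pure r.1 ⟨(hg r.1 r.2).1, by rw [hL]; linarith [(hg r.1 r.2).2, hp.s1_lt]⟩).1 (τ / 2) (by positivity)
    · exact (hcap.hom.joint 1 ⟨zero_le_one, hL.ge⟩ w.1 (hv w.1 w.2).1).1 τ hτ
    · exact (hcap.hom.pure 1 ⟨zero_le_one, hL.ge⟩).2 τ hτ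
    · exact (hcap.hom.pure X.r1 ⟨hr1.1.le, by rw [hL]; exact hr1.2.le⟩).1 τ hτ
  have hloss := k9b_loss X.E hcap.ok (k9bZ X τ grid vgrid) hZ YA (fun t ht => (h.bal.atl.1.2.1 t ht).mono fun k a => a.2) τ hτ
  have l3 := abs_le.1 h.ok.f00
  have hζ := h.ζ_le
  filter_upwards [hM0, hloss] with k a0 a1
  rintro s rfl
  have hn := kb_res_one_le X.E.R k
  have hn0 := kb_res_pos X.E.R k
  have hmono : ∀ x y : ℝ, x ≤ y → ENNReal.ofReal (X.E.R.N k ^ x) ≤ ENNReal.ofReal (X.E.R.N k ^ y) :=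
    fun x y hxy => ENNReal.ofReal_le_ofReal (Real.rpow_le_rpow_of_exponent_le hn hxy)
  refine ⟨fun γ => k9b_Gp_meas a0.1 _ _ _ _ _ _ _ _ _ γ, le_trans (k2s_mass_mono _ fun γ x hx => ?_) a1⟩
  by_contra hcon0
  have hcon : ∀ i, x ∉ k9bZ X τ grid vgrid i k γ := fun i hi => hcon0 (Set.mem_iUnion.2 ⟨i, hi⟩)
  refine hx.2 ⟨fun r hr => ?_, ?_, ?_, fun w hw => ?_⟩
  · have c1 : (X.E.P k).dn (X.E.hid r k) γ x ≤ ENNReal.ofReal (X.E.R.N k ^ (-(X.f r 0) + τ / 2)) := not_lt.1 (hcon (Sum.inl ⟨r, hr⟩))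
    refine c1.trans (hmono _ _ ?_)
    have l1 := abs_le.1 (h.lin 0 r le_rfl (hg r hr).1 (by linarith [(hg r hr).2, hp.s1_lt]))
    linarith [l1.1, l3.1]
  · have c1 : (X.E.P k).dn (X.E.hid X.r1 k) γ x ≤ ENNReal.ofReal (X.E.R.N k ^ (-(X.f X.r1 0) + τ)) := not_lt.1 (hcon (Sum.inr (Sum.inr true)))
    refine c1.trans (le_of_eq ?_)
    rw [add_comm, Real.rpow_add hn0]
  · exact not_lt.1 (hcon (Sum.inr (Sum.inr false)))
  · have c1 : (X.E.P k).dn (X.E.hv 1 w k) γ x ≤ ENNReal.ofReal (X.E.R.N k ^ (-(X.f 1 w) + τ)) := not_lt.1 (hcon (Sum.inr (Sum.inl ⟨w, hw⟩)))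
    refine c1.trans (hmono _ _ ?_)
    have c2 : X.f 1 0 + p.S * w ≤ X.f 1 w := by
      rcases (hv w hw).1.eq_or_lt with h0 | h0
      · rw [← h0, mul_zero, add_zero]
      · have := hcap.ang w h0 (by rw [hL, mul_one]; exact (hv w hw).2.trans hu)
        rw [hL] at this
        rw [hpS]
        exact this
    linarith

/-- LEAF KP (~120 l.).   The ACTUAL subpower factor and the complexity exponent of the problem and of its path.
PLAN: `kb_subp_of_forall X.E.R (fun k a => (X.E.P k).WF ∧ (the five properties with slack a))` (monotone: `k9b_ntv_mono`-type lemmas `k2n_s2_ntv_mono`, `k2s_known_mono`, `k2s_big_mono`), hypotheses from `h.ok.mx.cap.ok.2.2`, `h.bal.atl`;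
`Kp k = max 2 (K k)` (`kb_subp_max`, `kb_subp_const`);   `Mp = max 1 (max M₀ M_A)` (`k2n_s2_pb_tmp_mono`, `k2s_tmp_mono`). -/
theorem k9b_st_Kp (h : K9bPick S η p τ X YA up ζ b hA e) :
    ∃ (Kp : ℕ → ℝ) (Mp : ℝ), KbSubP X.E.R Kp ∧ 1 ≤ Mp ∧ ∀ᶠ k in uf, 2 ≤ Kp k ∧ (X.E.P k).Ntv (Kp k) ∧ (X.E.P k).Tmp (X.E.R.N k ^ Mp) ∧
      (∀ c, kbMn ((YA k).ch c).D ≤ (YA k).q * Kp k) ∧
      (∀ c, ∀ l ∈ (YA k).A c, ∀ t ∈ (YA k).I c, ‖((YA k).ch c).Di.mulVec (kbY ((X.E.P k).co ((YA k).wd c) l) t - ((YA k).ch c).yc t)‖ ≤ Kp k) ∧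
      (YA k).Known ((X.E.P k).hid (X.E.R.N k ^ (-1 : ℝ))) (Kp k) ∧ (YA k).Big (Kp k) ∧ (YA k).Tmp (X.E.R.N k ^ Mp) := by
  have hE := h.ok.mx.cap.ok
  obtain ⟨M0, hM0⟩ := hE.2.1
  obtain ⟨MA, hMA⟩ := h.bal.atl.1.1
  have hmono : ∀ (k : ℕ) (a a' : ℝ), a ≤ a' →
      ((X.E.P k).WF ∧ (X.E.P k).Ntv a ∧ (∀ c, kbMn ((YA k).ch c).D ≤ (YA k).q * a) ∧
        (∀ c, ∀ l ∈ (YA k).A c, ∀ t ∈ (YA k).I c, ‖((YA k).ch c).Di.mulVec (kbY ((X.E.P k).co ((YA k).wd c) l) t - ((YA k).ch c).yc t)‖ ≤ a) ∧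
        (YA k).Known ((X.E.P k).hid (X.E.R.N k ^ (-1 : ℝ))) a ∧ (YA k).Big a) →
      ((X.E.P k).WF ∧ (X.E.P k).Ntv a' ∧ (∀ c, kbMn ((YA k).ch c).D ≤ (YA k).q * a') ∧
        (∀ c, ∀ l ∈ (YA k).A c, ∀ t ∈ (YA k).I c, ‖((YA k).ch c).Di.mulVec (kbY ((X.E.P k).co ((YA k).wd c) l) t - ((YA k).ch c).yc t)‖ ≤ a') ∧
        (YA k).Known ((X.E.P k).hid (X.E.R.N k ^ (-1 : ℝ))) a' ∧ (YA k).Big a') := by
    intro k a a' haa hh
    exact ⟨hh.1, k2n_s2_ntv_mono hh.1 haa hh.2.1, fun c => (hh.2.2.1 c).trans (mul_le_mul_of_nonneg_left haa (k2s_q_pos (YA k)).le),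
      fun c l hl t ht => (hh.2.2.2.1 c l hl t ht).trans haa, k2s_known_mono (YA k) hh.2.2.2.2.1 haa, k2s_big_mono (YA k) hh.2.2.2.2.2 haa⟩
  obtain ⟨K, hK, hp⟩ := kb_subp_of_forall X.E.R _ hmono (fun σ hσ => by
    filter_upwards [hM0, hE.2.2 σ hσ, h.bal.atl.1.2.1 σ hσ, h.bal.atl.2 σ hσ] with k a0 a1 a2 a3
    refine ⟨a0.1, a1, a2.1.size, a2.1.box, ?_, a2.2⟩
    have e1 : X.E.hid X.E.L k = (X.E.P k).hid (X.E.R.N k ^ (-1 : ℝ)) := by
      unfold KbEx.hid KbEx.a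
      rw [h.ok.L1]
    rw [← e1]
    exact a3)
  refine ⟨fun k => max 2 (K k), max 1 (max M0 MA), kb_subp_max X.E.R (kb_subp_const X.E.R (by norm_num)) hK, le_max_left _ _, ?_⟩
  filter_upwards [hp, hM0, hMA] with k a1 a2 a3
  have hN1 := kb_res_one_le X.E.R k
  obtain ⟨b0, b1, b2, b3, b4, b5⟩ := hmono k _ _ (le_max_right 2 (K k)) a1
  exact ⟨le_max_left _ _, b1,
    k2n_s2_pb_tmp_mono a2.1 (Real.rpow_le_rpow_of_exponent_le hN1 ((le_max_left _ _).trans (le_max_right _ _))) a2.2, b2, b3, b4, b5,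
    k2s_tmp_mono (YA k) a3.2 (Real.rpow_le_rpow_of_exponent_le hN1 ((le_max_right _ _).trans (le_max_right _ _)))⟩

/-- LEAF GUARD (~150 l.).   The finite-sample exclusion and the numerical diagonal.
PLAN: `Ks k = (Kp k * log N)^n` is `KbSubP` (`kb_subp_mul`, `kb_subp_log`, `k2s_subp_npow`, `kb_subp_mono`; `1 ≤ Kp log N` since `2 ≤ Kp`, `log 2 ≥ 1/2`);   `k9b_guard X.E _ h.ok.L1 p.cg (p.k * p.cg / 2) h.forb YA hA h.bal.atl.1.2.2 h.hA_k Mg Ks`;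
an `Atl Y` has `Y.Big (Kp log N)` (`1 ≤ Kp * YA.mass ≤ Kp * log N * Y.mass`) hence `Y.Big Ks` (`n ≥ 1`), so `¬ (YA.q ≤ Y.q)`.   `slack`: subpower.   `small`: `Kp log N ≤ N^{1/2}`, `N^{-1/2} ≤ τ`. -/
theorem k9b_st_guard (hτ : 0 < τ) (h : K9bPick S η p τ X YA up ζ b hA e) (grid vgrid : Finset ℝ) (Kp : ℕ → ℝ) (hKp : KbSubP X.E.R Kp)
    (hK2 : ∀ᶠ k in uf, 2 ≤ Kp k ∧ (YA k).Big (Kp k)) (n : ℕ) (hn : 1 ≤ n) (Mp : ℝ) :
    ∀ᶠ k in uf, ∀ s : K9Sam, s = k9bSam X YA up p τ grid vgrid Kp n Mp k →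
      s.Guard p ∧ s.Ks ≤ s.N ^ τ ∧ s.Kp * Real.log s.N ≤ τ * s.N := by
  have hE := h.ok.mx.cap.ok
  have hlog : ∀ k, 1 / 2 ≤ Real.log (X.E.R.N k) := by
    intro k
    have h1 : Real.log 2 ≤ Real.log (X.E.R.N k) := Real.log_le_log two_pos (X.E.R.two_le k)
    have h2 := Real.log_two_gt_d9
    linarith
  have hx : KbSubP X.E.R fun k => Kp k * Real.log (X.E.R.N k) := by
    refine kb_subp_mono X.E.R (kb_subp_mul X.E.R hKp (kb_subp_log X.E.R)) ?_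
    filter_upwards [hK2] with k a
    have := hlog k
    constructor
    · nlinarith [a.1]
    · exact mul_le_mul_of_nonneg_left (by linarith) (by linarith [a.1])
  have hKs := k2s_subp_npow X.E.R hx n
  have hg := k9b_guard X.E hE h.ok.L1 p.cg (p.k * p.cg / 2) h.forb YA hA h.bal.atl.1.2.2 h.hA_k (2 ^ ((Mp + n) ^ 2)) _ hKs
  filter_upwards [hg, hKs τ hτ, hK2, hx (1 / 2) (by norm_num), kb_L3_rpow_neg_le X.E.R (show (0 : ℝ) < 1 / 2 by norm_num) hτ] with k a1 a2 a3 a4 a5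
  rintro s rfl
  have hN0 := kb_res_pos X.E.R k
  refine ⟨?_, a2.2, ?_⟩
  · intro Y hY
    by_contra hq
    rw [not_lt] at hq
    refine a1 ⟨Y, hY.wf, hY.tmp, hY.geo, hY.known, ?_, hq⟩
    have b1 : 1 ≤ ENNReal.ofReal (Kp k) * (YA k).mass := a3.2
    have b2 : (YA k).mass ≤ ENNReal.ofReal (Real.log (X.E.R.N k)) * Y.mass := hY.mass
    have b3 : Y.Big (Kp k * Real.log (X.E.R.N k)) := by
      show 1 ≤ ENNReal.ofReal (Kp k * Real.log (X.E.R.N k)) * Y.mass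
      rw [ENNReal.ofReal_mul (by linarith [a3.1]), mul_assoc]
      exact b1.trans (mul_le_mul_right b2 _)
    exact k2s_big_mono Y b3 (le_self_pow₀ a4.1 (by omega))
  · show Kp k * Real.log (X.E.R.N k) ≤ τ * X.E.R.N k
    refine a4.2.trans ?_
    have e : X.E.R.N k ^ (1 / 2 : ℝ) = X.E.R.N k ^ (-(1 / 2) : ℝ) * X.E.R.N k := by
      nth_rewrite 3 [← Real.rpow_one (X.E.R.N k)]
      rw [← Real.rpow_add hN0]
      norm_num
    rw [e]
    exact mul_le_mul_of_nonneg_right a5 hN0.le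

end groups

/-- **one stage**: in a suitable exact problem all requirements on a sample with tolerance `τ` and stage `n` hold eventually -/
theorem k9b_stage (S η d₁ : ℝ) (hS : 0 < S) (hη : 0 < η) (hbad : KbBad KbVer.two S η d₁) (p : K9Prm) (hp : p.Ok) (hd : p.d = kp4Dst KbVer.two S η)
    (hk : p.k = kp4Kst KbVer.two S η) (hpS : p.S = S) (hu : p.u ≤ η) (hctx : ∀ ζ Λ : ℝ, 0 < ζ → kp4Dst KbVer.two S η + ζ < 1 → ∃ X : K9bDat, X.Ok S η p ζ Λ) (τ : ℝ) (hτ : 0 < τ) (n : ℕ)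
    (hn : 1 / τ ≤ (n : ℝ)) :
    ∃ s : ℕ → K9Sam, ∀ᶠ k in uf, (s k).Ok p τ := by
  obtain ⟨X, YA, up, ζ, b, hA, e, h⟩ := k9b_pick S η d₁ hS hη hbad p hp hd hk hctx τ hτ
  obtain ⟨grid, hg1, hg2⟩ := k9b_grid p.s1 τ hp.s1_pos.le hτ
  obtain ⟨vgrid, hv1, hv2⟩ := k9b_grid p.u τ hp.u_pos.le hτ
  obtain ⟨Kp, Mp, hKp, hMp, hK⟩ := k9b_st_Kp h
  have hn1 : 1 ≤ n := by
    have : (0 : ℝ) < n := lt_of_lt_of_le (by positivity) hn
    exact_mod_cast this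
  refine ⟨k9bSam X YA up p τ grid vgrid Kp n Mp, ?_⟩
  filter_upwards [k9b_st_one hp hτ h grid vgrid Kp n Mp, k9b_st_C hτ h grid vgrid Kp n Mp, k9b_st_A hτ h grid vgrid Kp n Mp,
    k9b_st_caps hp hτ hpS hu h grid vgrid hg1 hv1 Kp n Mp, hK,
    k9b_st_guard hτ h grid vgrid Kp hKp (hK.mono fun k a => ⟨a.1, a.2.2.2.2.2.2.1⟩) n hn1 Mp] with k a1 a2 a3 a4 a5 a6
  obtain ⟨o1, o2, o3, o4, o5, o6, o7, o8, o9, o10, o11⟩ := a1 _ rfl
  obtain ⟨c1, c2, c3, c4, c5, c6, c7⟩ := a2 _ rfl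
  obtain ⟨b1, b2, b3, b4, b5, b6, b7, b8, b9, b10, b11⟩ := a3 _ rfl
  obtain ⟨m1, m2⟩ := a4 _ rfl
  obtain ⟨k1, k2, k3, k4, k5, k6, k7, k8⟩ := a5
  obtain ⟨g1, g2, g3⟩ := a6 _ rfl
  exact
  { N_big := o1
    wf := o2
    ntv := o3
    node1 := o4
    geo1 := o5
    sat1 := o6
    r1_near := o7
    q1_near := o8
    n1_near := o9
    g1_rng := o10
    wfC := c1
    geoC := c2
    lvlC := c3
    frame := c4
    gC_pos := c5
    thin := c6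
    cmp := c7
    wfA := b1
    sizeA := b2
    boxA := b3
    upA := b4
    path1 := b5
    qA := b6
    bal := b7
    full := b8
    thinA := b9
    knownA := b10
    bigA := b11
    Gp_meas := m1
    loss := m2
    grid_sub := hg1
    grid_dense := hg2
    vgrid_sub := hv1
    vgrid_dense := hv2
    pure := fun r hr γ x hx => hx.1 r hr
    pure1 := fun γ x hx => hx.2.1
    f1_near := o11
    low := fun γ x hx => hx.2.2.1
    ang := fun w hw γ x hx => hx.2.2.2 w hw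
    guard := g1
    stage := hn
    slack := g2
    small := g3
    Kp_one := k1
    a_ntv := k2
    a_tmp := k3
    a_size := k4
    a_box := k5
    a_known := k6
    a_big := k7
    a_sys_tmp := k8
    Mp_one := hMp
    Mg_ge := le_rfl }

end

end Claimed.Agent.R252

/-!
# ROW 252 (S0492), unit S9b (post BP-252-S9b, sub-architect helper66; chief helper233), file 5: **SEQUENCE SKELETON OF SEC 9**  (09-unbounded-narrowness.tex l.1-538, 884-1190).      No `sorry` in THIS file (CONTRACT only through its imports).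

Files of the unit:  `Sam` (sample record) → `SeqDefs` (`K9bDat`, `K9bDat.Ok`, `K9HubCtx`, `K9HubFinal`, `K9bBal`) → `Bal` (**L9.3** `k9b_balanced`, PROVED from the hubs) → `StageContract` (`k9b_forbidden`, `k9b_guard`, `k9b_pick` proved; leaves `k9b_st_*`; `k9b_stage` glue) → this file.
* `k9b_ok_mono`                the requirements on a sample are monotone in the tolerance.
* `k9b_sample`                 the outer diagonal.
* `k9b_excl`                   **P9.1**: `¬ K9CritInf S η`.   GLUE, proved.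
-/

set_option autoImplicit false

namespace Claimed.Agent.R252

open MeasureTheory Filter Topology
open Claimed.Agent.R255 (uf)
open scoped ENNReal BigOperators

noncomputable section

theorem k9b_ntv_mono {v : KbVer} {P : KbPb v} (hP : P.WF) {K K' : ℝ} (h : P.Ntv K) (hK : K ≤ K') : P.Ntv K' where
  base := fun γ l hl t ht => (h.base γ l hl t ht).trans hK
  sig := fun γ l hl t ht => (h.sig γ l hl t ht).trans hK
  dw := fun γ l hl t ht => (h.dw γ l hl t ht).trans (mul_le_mul_of_nonneg_right hK (hP.B_pos γ).le)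
  dw_low := fun γ x hx => (h.dw_low γ x hx).trans (mul_le_mul_of_nonneg_right hK (abs_nonneg _))
  dww := fun γ t y w => (h.dww γ t y w).trans (mul_le_mul_of_nonneg_right hK (by positivity))
  mass := h.mass.trans (mul_le_mul_left (ENNReal.ofReal_le_ofReal hK) _)

theorem k9b_node_mono {P : K9P} {Y : KbSys P} {K K' g : ℝ} (h : K9Node P Y K g) (hK : K ≤ K') (hg : 0 ≤ g) : K9Node P Y K' g where
  wf := h.wf
  size := fun c => (h.size c).trans (mul_le_mul_of_nonneg_left hK (k2s_q_pos Y).le)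
  box := fun c l hl t ht => (h.box c l hl t ht).trans hK
  det_le := fun c => (h.det_le c).trans (by
    have : 0 ≤ Y.q ^ 2 * g := by positivity
    nlinarith)
  det_ge := fun c => (h.det_ge c).trans (mul_le_mul_of_nonneg_right hK (abs_nonneg _))
  axis := fun c => (h.axis c).trans (mul_le_mul_of_nonneg_right hK (k9b_mn_nonneg _))

theorem k9b_cmp_mono {P : K9P} {Y1 : KbSys P} {nC : K9V} {beC g1 K K' : ℝ} {c : Y1.C} (h : K9Cmp Y1 nC beC g1 K c) (hK : K ≤ K') (hg : 0 ≤ g1) :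
    K9Cmp Y1 nC beC g1 K' c :=
  ⟨h.1.trans (mul_le_mul_of_nonneg_right hK hg), h.2.trans (mul_le_mul_of_nonneg_right hK hg)⟩

/-- the requirements on a sample are monotone in the tolerance -/
theorem k9b_ok_mono {s : K9Sam} {p : K9Prm} {τ τ' : ℝ} (hτ : 0 < τ) (hττ : τ ≤ τ') (h : s.Ok p τ) : s.Ok p τ' := by
  have hN2 := h.N_big.1
  have hN1 : (1 : ℝ) ≤ s.N := by linarith
  have hN0 : (0 : ℝ) < s.N := by linarith
  have hle : s.N ^ τ ≤ s.N ^ τ' := Real.rpow_le_rpow_of_exponent_le hN1 hττ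
  have hmono : ∀ a b : ℝ, a ≤ b → s.N ^ a ≤ s.N ^ b := fun a b hab => Real.rpow_le_rpow_of_exponent_le hN1 hab
  have hpos : ∀ a : ℝ, 0 < s.N ^ a := fun a => Real.rpow_pos_of_pos hN0 a
  have hdiv : 1 / τ' ≤ 1 / τ := one_div_le_one_div_of_le hτ hττ
  have hg1 := h.g1_rng.1.le
  have hn1 : 0 ≤ s.n1 := (hpos _).le.trans h.n1_near.1
  have hqA : 0 < s.YA.q := k2s_q_pos s.YA
  exact
  { N_big := ⟨hN2, hdiv.trans h.N_big.2⟩
    wf := h.wf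
    ntv := k9b_ntv_mono h.wf h.ntv hle
    node1 := k9b_node_mono h.node1 hle hg1
    geo1 := k2s_geo_mono s.Y1 h.wf h.geo1 hle (hpos _).le
    sat1 := k2s_sat_mono s.Y1 h.sat1 hle hn1
    r1_near := h.r1_near.trans hττ
    q1_near := ⟨(hmono _ _ (by linarith)).trans h.q1_near.1, h.q1_near.2.trans (hmono _ _ (by linarith))⟩
    n1_near := ⟨(hmono _ _ (by linarith)).trans h.n1_near.1, h.n1_near.2.trans (hmono _ _ (by linarith))⟩
    g1_rng := h.g1_rng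
    wfC := h.wfC
    geoC := k2s_geo_mono s.YC h.wf h.geoC hle zero_le_one
    lvlC := h.lvlC
    frame := h.frame
    gC_pos := h.gC_pos
    thin := h.thin.trans (mul_le_mul_of_nonneg_right (hmono _ _ (by linarith)) hg1)
    cmp := fun b c1 hw hne => k9b_cmp_mono (h.cmp b c1 hw hne) hle hg1
    wfA := h.wfA
    sizeA := fun c => (h.sizeA c).trans (mul_le_mul_of_nonneg_left hle hqA.le)
    boxA := fun c l hl t ht => (h.boxA c l hl t ht).trans hle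
    upA := h.upA
    path1 := h.path1
    qA := (hmono _ _ (by linarith)).trans h.qA
    bal := fun c => ⟨(ENNReal.ofReal_le_ofReal (mul_le_mul_of_nonneg_right (hmono _ _ (by linarith)) (abs_nonneg _))).trans (h.bal c).1,
      (h.bal c).2.trans (ENNReal.ofReal_le_ofReal (mul_le_mul_of_nonneg_right hle (abs_nonneg _)))⟩
    full := fun c => le_trans (pow_le_pow_left₀ (by positivity) (div_le_div_of_nonneg_left hqA.le (hpos _) hle) 2) (h.full c)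
    thinA := fun c => (h.thinA c).trans (pow_le_pow_left₀ (by have := h.gC_pos; have := hpos τ; positivity)
      (by have := h.gC_pos; gcongr) 2)
    knownA := k2s_known_mono s.YA h.knownA hle
    bigA := k2s_big_mono s.YA h.bigA hle
    Gp_meas := h.Gp_meas
    loss := h.loss.trans (mul_le_mul_left (ENNReal.ofReal_le_ofReal hττ) _)
    grid_sub := h.grid_sub
    grid_dense := fun r hr => by
      obtain ⟨r', h1, h2, h3⟩ := h.grid_dense r hr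
      exact ⟨r', h1, h2, by linarith⟩
    vgrid_sub := h.vgrid_sub
    vgrid_dense := fun r hr => by
      obtain ⟨r', h1, h2, h3⟩ := h.vgrid_dense r hr
      exact ⟨r', h1, h2, by linarith⟩
    pure := fun r hr γ x hx => (h.pure r hr γ x hx).trans (ENNReal.ofReal_le_ofReal (hmono _ _ (by linarith)))
    pure1 := fun γ x hx => (h.pure1 γ x hx).trans (ENNReal.ofReal_le_ofReal (mul_le_mul_of_nonneg_right hle hn1))
    f1_near := h.f1_near.trans hττ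
    low := fun γ x hx => (ENNReal.ofReal_le_ofReal (hmono _ _ (by linarith))).trans (h.low γ x hx)
    ang := fun w hw γ x hx => (h.ang w hw γ x hx).trans (ENNReal.ofReal_le_ofReal (hmono _ _ (by linarith)))
    guard := h.guard
    stage := hdiv.trans h.stage
    slack := h.slack.trans hle
    small := h.small.trans (mul_le_mul_of_nonneg_right hττ hN0.le)
    Kp_one := h.Kp_one
    a_ntv := h.a_ntv
    a_tmp := h.a_tmp
    a_size := h.a_size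
    a_box := h.a_box
    a_known := h.a_known
    a_big := h.a_big
    a_sys_tmp := h.a_sys_tmp
    Mp_one := h.Mp_one
    Mg_ge := h.Mg_ge }

/-- **the outer diagonal** -/
theorem k9b_sample (S η d₁ : ℝ) (hS : 0 < S) (hη : 0 < η) (hbad : KbBad KbVer.two S η d₁) (p : K9Prm) (hp : p.Ok) (hd : p.d = kp4Dst KbVer.two S η)
    (hk : p.k = kp4Kst KbVer.two S η) (hpS : p.S = S) (hu : p.u ≤ η) (hctx : ∀ ζ Λ : ℝ, 0 < ζ → kp4Dst KbVer.two S η + ζ < 1 → ∃ X : K9bDat, X.Ok S η p ζ Λ) :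
    ∃ (R : KbRes) (s : ℕ → K9Sam), K9SamSeqOk R s p := by
  have := Claimed.Agent.R255.uf_neBot
  have hst : ∀ n : ℕ, ∃ s : K9Sam, s.Ok p (1 / ((n : ℝ) + 1)) := by
    intro n
    obtain ⟨s, hs⟩ := k9b_stage S η d₁ hS hη hbad p hp hd hk hpS hu hctx (1 / ((n : ℝ) + 1)) (by positivity) (n + 1)
      (by rw [one_div_one_div]; push_cast; exact le_rfl)
    obtain ⟨k, hk⟩ := hs.exists
    exact ⟨s k, hk⟩
  choose s hs using hst
  have hbig : ∀ n : ℕ, (n : ℝ) ≤ (s n).N := by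
    intro n
    have := (hs n).N_big.2
    rw [one_div_one_div] at this
    linarith
  refine ⟨⟨fun n => (s n).N, fun n => (hs n).N_big.1, tendsto_atTop_mono hbig kb_cast_tendsto⟩, s, fun n => rfl, fun τ hτ => ?_⟩
  filter_upwards [kb_inv_tendsto.eventually_lt_const hτ] with n hn
  exact k9b_ok_mono (by positivity) hn.le (hs n)

/-- **P9.1 exclusion of unbounded optimised narrowness** -/
theorem k9b_excl (S η d₁ : ℝ) (hS : 0 < S) (hη : 0 < η) (hbad : KbBad KbVer.two S η d₁) (p : K9Prm) (hp : p.Ok) (hd : p.d = kp4Dst KbVer.two S η)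
    (hk : p.k = kp4Kst KbVer.two S η) (hpS : p.S = S) (hu : p.u ≤ η) (h1 : K9HubCtx S η p) (h2 : K9HubFinal p) : ¬ K9CritInf S η :=
  fun hc => h2 (k9b_sample S η d₁ hS hη hbad p hp hd hk hpS hu (h1 hc))

end

end Claimed.Agent.R252

/-!
# ROW 252 (S0492), unit S9a (post BP-252-S9a, sub-architect helper197; chief helper233), file 5: **THE EXIT OF S9a IN THE FORMAT OF S9b** (`K9bDat.Ok`, helper66).      No `sorry` in this file.

Entry `K9CritInf S η` (`S9/Exit.lean`) on the grid `(1/4, 1/4 + 3 s₁/4, 1/4 + 3 s₂/4, 1)`.   `E₁ := π.E 1`, nodes `Q₁ = π.Y 1`, `Q₂ =` lift of `π.Y 2`, thin charts deleted (`k9a_chain`), full-time charts in `E₁` (`k9a_full_time`);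
ONLY AT THE END the units are changed, `E := E₁.rebase E₁.L` (same one-scale problems and systems; all statements are `∀ τ, ∀ᶠ k, Φ k (N^τ)`: `kp4_rb_iff`).
* `k9aDat`        the datum.      * `k9a_dat_ok`   all fields of `K9bDat.Ok` from the exits of S9a.      * `k9a_hub_ctx`   **the exit**.
-/

set_option autoImplicit false

namespace Claimed.Agent.R252

open MeasureTheory Filter Topology
open Claimed.Agent.R255 (uf)
open scoped ENNReal BigOperators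

noncomputable section

/-- the datum of S9b made from two nodes and the full-time charts; units changed to length one -/
def k9aDat (E : K9E) (hL : 0 < E.L) (f : ℝ → ℝ → ℝ) (X : K9aNodes E) (u : ℝ) (t0 : ℕ → ℝ) : K9bDat where
  E := E.rebase E.L hL
  f := kp4Rf E.L f
  Y1 := X.Y1
  YC := X.Cs u t0
  nC := X.nC u t0
  g1 := X.g1
  gC := X.gC u
  r1 := X.r1 / E.L
  h1 := X.h1 / E.L

theorem k9a_dot_sub (n a b : K9V) : k9dot n (a - b) = k9dot n a - k9dot n b := by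
  simp only [k9dot, Pi.sub_apply]
  ring

/-- maximizing problems in units of length one -/
theorem k9a_rb_mx {S η ζ : ℝ} (E : K9E) (hL : 0 < E.L) {f : ℝ → ℝ → ℝ} (h : Kp4Mx KbVer.two S η ζ E f) :
    Kp4Mx KbVer.two S η ζ (E.rebase E.L hL) (kp4Rf E.L f) where
  cap := kb_rebase_cap E _ S η f h.cap E.L hL
  hor := by
    rw [kp4_rb_hor]
    have e : (E.rebase E.L hL).L = 1 := by
      show E.L / E.L = 1
      exact div_self hL.ne'
    rw [e, mul_one, le_div_iff₀ hL]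
    exact h.hor

/-- one scale: every incidence of a full-time chart lies in a chart of the later node, in the same world -/
theorem k9a_Csys_path {P : K9P} (Y : KbSys P) (t0 gC θ : ℝ) (b : (k9Csys Y t0 gC θ).C) (x : P.Lam × ℝ) (hx : x ∈ (k9Csys Y t0 gC θ).S b) :
    ∃ c' : Y.C, Y.wd c' = (k9Csys Y t0 gC θ).wd b ∧ x ∈ Y.S c' := by
  have hx' : x ∈ ⋃ c ∈ k9At Y t0, ⋃ (_ : (Y.wd c, k9Bin Y gC c) = b.1), ⋃ c' : Y.C, ⋃ (_ : Y.wd c' = Y.wd c ∧ K9Ang Y θ c c'),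
    {x | (x.1, t0) ∈ Y.S c ∧ x ∈ Y.S c'} := hx
  simp only [Set.mem_iUnion] at hx'
  obtain ⟨c, -, hb, c', hc', -, h2⟩ := hx'
  refine ⟨c', ?_, h2⟩
  show Y.wd c' = b.1.1
  rw [← hb]
  exact hc'.1

/-- **all fields of `K9bDat.Ok`** -/
theorem k9a_dat_ok {S η ζ Λ u : ℝ} (E : K9E) (hL : 0 < E.L) (hL1 : E.L ≤ 1) {f : ℝ → ℝ → ℝ} (p : K9Prm) (hζ : 0 ≤ ζ) (hmx : Kp4Mx KbVer.two S η ζ E f) (hf0 : f 0 0 = 0)
    (X : K9aNodes E) (hX : X.Ok f) (hF : X.Full) (t0 : ℕ → ℝ) (hA : E.IsAtlas (X.Cs u t0) 0 0) (hC : X.Cmp u t0) (hal0 : 0 ≤ X.al1)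
    (hal : X.al1 + 2 * u + max Λ 0 ≤ X.al2) (hr : |X.r1 / E.L - p.s1| ≤ ζ) (hh : |X.h1 / E.L - p.k * p.s1| ≤ ζ) :
    (k9aDat E hL f X u t0).Ok S η p ζ Λ := by
  have e1 : ∀ x : ℝ, E.L * (x / E.L) = x := fun x => by field_simp
  have hpos : ∀ (k : ℕ) (x : ℝ), 0 < E.R.N k ^ x := fun k x => Real.rpow_pos_of_pos (kb_res_pos E.R k) x
  exact
  { mx := k9a_rb_mx E hL hmx
    L1 := div_self hL.ne'
    f00 := by
      show |f (E.L * 0) (E.L * 0) / E.L| ≤ ζ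
      rw [mul_zero, hf0, zero_div, abs_zero]
      exact hζ
    r1_rng := ⟨div_pos hX.r1_pos hL, (div_lt_one hL).2 (hX.r12.trans hX.r2_lt)⟩
    r1_near := hr
    h1_near := hh
    sys1 := by
      refine (kp4_rb_truesys E E.L hL f X.Y1 (X.r1 / E.L) (X.h1 / E.L)).2 ?_
      rw [e1, e1]
      exact hX.sys1
    sat1 := by
      refine (kp4_rb_sat E E.L hL X.Y1 (kp4Rf E.L f (X.r1 / E.L) 0)).2 ?_
      have : E.L * kp4Rf E.L f (X.r1 / E.L) 0 = f X.r1 0 := by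
        unfold kp4Rf
        rw [e1, e1, mul_zero]
      rw [this]
      exact hX.sat1
    node1 := (kp4_rb_iff E E.L hL (fun k K => K9Node (E.P k) (X.Y1 k) K (X.g1 k)) (fun k K => K9Node (E.P k) (X.Y1 k) K (X.g1 k))
      (Eventually.of_forall fun _ _ => Iff.rfl)).2 (k9a_node X.Y1 hX.sys1.1 hX.nar1 fun t ht => (hF t ht).mono fun k h => h.1)
    g1_rng := Eventually.of_forall fun k => ⟨hpos k _, Real.rpow_le_one_of_one_le_of_nonpos (kb_res_one_le E.R k) (by linarith)⟩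
    atlC := by
      refine (kp4_rb_atlas E E.L hL (X.Cs u t0) 0 0).2 ?_
      rw [mul_zero]
      exact hA
    frame := Eventually.of_forall fun k => ⟨hpos k _, rfl, fun b => ⟨by
      obtain ⟨s, S', h⟩ := k9nrm_spec (k9D (X.Y2 k) (k9Rep (X.Y2 k) (t0 k) (X.gC u k) b))
      exact h.1, rfl, rfl, rfl⟩⟩
    thin := by
      filter_upwards [kp4_rb_ev E E.L hL] with k hk
      show X.gC u k ≤ (E.rebase E.L hL).R.N k ^ (-Λ) * X.g1 k
      rw [hk]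
      unfold K9aNodes.gC K9aNodes.g1
      rw [← Real.rpow_add (kb_res_pos E.R k)]
      refine Real.rpow_le_rpow_of_exponent_le (kb_res_one_le E.R k) ?_
      have h1 : E.L * Λ ≤ max Λ 0 := by
        rcases le_total 0 Λ with h | h
        · exact le_trans (by nlinarith) (le_max_left _ _)
        · exact le_trans (by nlinarith) (le_max_right _ _)
      nlinarith
    cmp := (kp4_rb_iff E E.L hL
      (fun k K => ∀ (b : (X.Cs u t0 k).C) (c1 : (X.Y1 k).C), (X.Y1 k).wd c1 = (X.Cs u t0 k).wd b → ((X.Cs u t0 k).S b ∩ (X.Y1 k).S c1).Nonempty →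
        K9Cmp (X.Y1 k) (X.nC u t0 k b) (k9dot (X.nC u t0 k b) ((X.Cs u t0 k).ch b).y1) (X.g1 k) K c1)
      (fun k K => ∀ (b : (X.Cs u t0 k).C) (c1 : (X.Y1 k).C), (X.Y1 k).wd c1 = (X.Cs u t0 k).wd b → ((X.Cs u t0 k).S b ∩ (X.Y1 k).S c1).Nonempty →
        K9Cmp (X.Y1 k) (X.nC u t0 k b) (k9dot (X.nC u t0 k b) ((X.Cs u t0 k).ch b).y1) (X.g1 k) K c1)
      (Eventually.of_forall fun _ _ => Iff.rfl)).2 (by
        intro τ hτ
        filter_upwards [hC τ hτ] with k hk b c1 hw hne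
        obtain ⟨s, S', h⟩ := k9nrm_spec (k9D (X.Y1 k) c1)
        obtain ⟨d1, d2⟩ := hk b c1 hw hne _ s S' h
        have e2 := k9a_dot_sub (X.nC u t0 k b) ((X.Y1 k).ch c1).y1 ((X.Cs u t0 k).ch b).y1
        exact ⟨d1, e2 ▸ d2⟩)
    path := by
      filter_upwards [hX.nest] with k hk b x hx
      obtain ⟨c', h1, h2⟩ := k9a_Csys_path (X.Y2 k) (t0 k) (X.gC u k) (X.th u k) b x hx
      exact ⟨X.up k c', (hk c').1.trans h1, (hk c').2.2.2 h2⟩ }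

/-! ## The exit -/

theorem k9a_grid' {s1 s2 : ℝ} (hs1 : 0 < s1) (hs12 : s1 < s2) (hs2 : s2 < 3 / 4) : KpGrid 3 (k9aGrid s1 s2) := by
  refine ⟨by simp [k9aGrid], fun g hg => ?_, by simp [k9aGrid]⟩
  interval_cases g <;> simp [k9aGrid] <;> linarith

/-- change of units in the targets -/
theorem k9a_num_rb (z L x w : ℝ) (hL : 1 / 2 ≤ L) (hw0 : 0 ≤ w) (hw1 : w ≤ 1) (h1 : |x - 3 / 4 * w| ≤ 4 * z) (h2 : |L - 3 / 4| ≤ z) : |x / L - w| ≤ 10 * z := by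
  have hL0 : 0 < L := by linarith
  have e : x / L - w = (x - w * L) / L := by field_simp
  rw [abs_le] at h1 h2
  have hz : 0 ≤ z := by linarith [h2.1, h2.2]
  rw [e, abs_div, abs_of_pos hL0, div_le_iff₀ hL0, abs_le]
  constructor <;> nlinarith [h1.1, h1.2, h2.1, h2.2]

/-- the gap (9.3) at the later node -/
theorem k9a_num_gap (d k s1 s2 Su z τ b H F : ℝ) (hd0 : 0 ≤ d) (hd1 : d ≤ 1) (hk0 : 0 ≤ k) (hs2 : s2 ≤ 7 / 6 * s1) (hch : (d + 2 * k) * s1 < Su / 2)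
    (hz : 12 * z ≤ Su / 32) (hτ : τ ≤ Su / 32) (hb : |b - 3 / 4 * s2| ≤ 4 * z) (hH : |H - k * (3 / 4 * s2)| ≤ 4 * z) (hF : F ≤ d * b + τ) : F + 2 * H < Su / 2 := by
  rw [abs_le] at hb hH
  have hz0 : 0 ≤ z := by linarith [hb.1, hb.2]
  have h1 : d * b ≤ d * (3 / 4 * s2) + 4 * z := by nlinarith [hb.2]
  have h2 : (d + 2 * k) * s2 ≤ (d + 2 * k) * (7 / 6 * s1) := mul_le_mul_of_nonneg_left hs2 (by linarith)
  nlinarith [hH.2]

/-- **THE EXIT OF S9a** (09 l.1-266): nested true systems + P9.2, in the format of S9b.   `hs1` = the choice (9.3). -/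
theorem k9a_hub_ctx (S η d₁ : ℝ) (hS : 0 < S) (hη : 0 < η) (hbad : KbBad KbVer.two S η d₁) (p : K9Prm) (hp : p.Ok) (hd : p.d = kp4Dst KbVer.two S η)
    (hk : p.k = kp4Kst KbVer.two S η) (hpS : p.S = S) (hu : p.u ≤ η) (hs1 : (p.d + 2 * p.k) * p.s1 < p.S * p.u / 2) (h : K9CritInf S η)
    (ζ Λ : ℝ) (hζ : 0 < ζ) (hζ1 : kp4Dst KbVer.two S η + ζ < 1) : ∃ X : K9bDat, X.Ok S η p ζ Λ := by
  have hu0 := hp.u_pos
  have hSu : 0 < S * p.u := mul_pos hS hu0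
  obtain ⟨δ, hδ0, hδ1, hlin⟩ := kp4_linear KbVer.two S η d₁ hS hη hbad (S * p.u / 32) (by positivity)
  -- the later depth
  obtain ⟨s2, hs2def⟩ : ∃ s2, s2 = min ((p.s1 + 1) / 2) (7 / 6 * p.s1) := ⟨_, rfl⟩
  have hs12 : p.s1 < s2 := by
    rw [hs2def]
    exact lt_min (by linarith [hp.s1_lt]) (by linarith [hp.s1_pos])
  have hs2a : s2 < 1 := by
    rw [hs2def]
    exact lt_of_le_of_lt (min_le_left _ _) (by linarith [hp.s1_lt])
  have hs2b : s2 ≤ 7 / 6 * p.s1 := by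
    rw [hs2def]
    exact min_le_right _ _
  -- the tolerance
  obtain ⟨z, hzdef⟩ : ∃ z, z = min (min (ζ / 10) (S * p.u / 384)) (min δ (1 / 4)) := ⟨_, rfl⟩
  have hz0 : 0 < z := by
    rw [hzdef]
    exact lt_min (lt_min (by positivity) (by positivity)) (lt_min hδ0 (by norm_num))
  have hz1 : z ≤ ζ / 10 := by rw [hzdef]; exact (min_le_left _ _).trans (min_le_left _ _)
  have hz2 : z ≤ S * p.u / 384 := by rw [hzdef]; exact (min_le_left _ _).trans (min_le_right _ _)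
  have hz3 : z ≤ δ := by rw [hzdef]; exact (min_le_right _ _).trans (min_le_left _ _)
  have hz4 : z ≤ 1 / 4 := by rw [hzdef]; exact (min_le_right _ _).trans (min_le_right _ _)
  obtain ⟨π, d', hL, hd', hG, hOk, hest, -, hmx⟩ := h z (2 * p.u + max Λ 0) hz0 (by linarith) 3 (k9aGrid (3 / 4 * p.s1) (3 / 4 * s2))
    (k9a_grid' (by linarith [hp.s1_pos]) (by linarith) (by linarith))
  have g0 : (0 : ℕ) < π.G := by omega
  have g1 : (1 : ℕ) < π.G := by omega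
  have g2 : (2 : ℕ) < π.G := by omega
  obtain ⟨hf0, hL1, X, hX, hF, x1, x2, x3, x4, x5, x6⟩ := k9a_chain hS hη (π.E 0) (π.E 1) (π.E 2) (π.f 0) (π.f 1) (π.f 2) (π.Y 0) (π.Y 1) (π.Y 2)
    (π.r 0) (π.r 1) (π.r 2) (π.h 0) (π.h 1) (π.h 2) (π.nar 1) (π.nar 2) (hOk.step 0 g0) (hOk.step 1 g1)
    (hOk.cap 0 g0.le) (hOk.cap 1 g1.le) (hOk.cap 2 g2.le) (hOk.r_pos 0 g0.le) (hOk.r_lt 0 g0) (hOk.r_pos 1 g1.le) (hOk.r_lt 1 g1)
    (hOk.r_pos 2 g2.le) (hOk.r_lt 2 g2) (hOk.sys 0 g0.le) (hOk.sat 0 g0.le) (hOk.own 0 g0.le)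
    (hOk.sys 1 g1.le) (hOk.sat 1 g1.le) (hOk.own 1 g1.le) (hOk.nar rfl 1 g1.le)
    (hOk.sys 2 g2.le) (hOk.sat 2 g2.le) (hOk.own 2 g2.le) (hOk.nar rfl 2 g2.le)
  obtain ⟨a0, b0, -⟩ := hest 0 (by omega)
  obtain ⟨a1, b1, c1⟩ := hest 1 (by omega)
  obtain ⟨a2, b2, c2⟩ := hest 2 (by omega)
  have e0 : π.cr 0 = π.r 0 := by simp [KpPath.cr]
  have e1 : π.cr 1 = π.r 0 + π.r 1 := by simp [KpPath.cr, Finset.sum_range_succ]
  have e2 : π.cr 2 = π.r 0 + π.r 1 + π.r 2 := by simp [KpPath.cr, Finset.sum_range_succ]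
  have e0' : π.chz 0 = π.h 0 := by simp [KpPath.chz]
  have e1' : π.chz 1 = π.h 0 + π.h 1 := by simp [KpPath.chz, Finset.sum_range_succ]
  have e2' : π.chz 2 = π.h 0 + π.h 1 + π.h 2 := by simp [KpPath.chz, Finset.sum_range_succ]
  have t0 : k9aGrid (3 / 4 * p.s1) (3 / 4 * s2) 0 = 1 / 4 := by simp [k9aGrid]
  have t1 : k9aGrid (3 / 4 * p.s1) (3 / 4 * s2) 1 = 1 / 4 + 3 / 4 * p.s1 := by simp [k9aGrid]
  have t2 : k9aGrid (3 / 4 * p.s1) (3 / 4 * s2) 2 = 1 / 4 + 3 / 4 * s2 := by simp [k9aGrid]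
  rw [e0, t0] at a0
  rw [e1, t1] at a1
  rw [e2, t2, add_assoc] at a2
  rw [e0, e0', ← hk] at b0
  rw [e1, e1', ← hk] at b1
  rw [e2, e2', add_assoc, add_assoc, ← hk] at b2
  obtain ⟨n1, n2⟩ := k9a_num p.k z _ _ _ _ (3 / 4 * p.s1) hp.k_pos.le hp.k_le a0 a1 b0 b1
  obtain ⟨n3, n4⟩ := k9a_num p.k z _ _ _ _ (3 / 4 * s2) hp.k_pos.le hp.k_le a0 a2 b0 b2
  have hLa : |(π.E 1).L - 3 / 4| ≤ z := by
    rw [hL1, hL]
    have : (1 : ℝ) - π.r 0 - 3 / 4 = -(π.r 0 - 1 / 4) := by ring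
    rw [this, abs_neg]
    exact a0
  have hLE : 1 / 2 ≤ (π.E 1).L ∧ (π.E 1).L ≤ 1 := by
    rw [abs_le] at hLa
    constructor <;> linarith [hLa.1, hLa.2]
  have hL0 : 0 < (π.E 1).L := by linarith [hLE.1]
  have hmx1 := hmx 1 (by omega)
  -- the full-time charts
  have hr2 : 0 ≤ X.r2 ∧ X.r2 ≤ (π.E 1).L := ⟨(hX.r1_pos.trans hX.r12).le, hX.r2_lt.le⟩
  have hl := abs_le.1 (hlin (π.E 1) (π.f 1) (kp4_mx_mono hmx1 hz3 hδ1) 0 X.r2 le_rfl hr2.1 hr2.2)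
  have hgap : π.f 1 X.r2 0 - π.f 1 0 0 + 2 * X.h2 < S * p.u / 2 := by
    refine k9a_num_gap p.d p.k p.s1 s2 (S * p.u) z (S * p.u / 32) X.r2 X.h2 _ hp.d_nonneg hp.d_lt.le hp.k_pos.le hs2b (by rw [← hpS]; exact hs1)
      (by linarith) le_rfl (by rw [x2]; exact n3) (by rw [x4]; exact n4) ?_
    have h3 := hl.2
    rw [sub_zero, ← hd] at h3
    have h4 : S * p.u / 32 * (π.E 1).L ≤ S * p.u / 32 := mul_le_of_le_one_right (by positivity) hLE.2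
    linarith
  have hm0 : 0 ≤ max Λ 0 := le_max_right _ _
  have huη : p.u / 2 ≤ η * (π.E 1).L := le_trans (by linarith) (mul_le_mul_of_nonneg_left hLE.1 hη.le)
  obtain ⟨tt, -, hA, hC⟩ := k9a_full_time X hS (hOk.cap 1 g1.le) hX hF hu0 huη hgap (by rw [x5]; linarith) (by rw [x5, x6]; linarith)
  refine ⟨k9aDat (π.E 1) hL0 (π.f 1) X p.u tt, k9a_dat_ok (π.E 1) hL0 hLE.2 p hζ.le (kp4_mx_mono hmx1 (by linarith) hζ1) hf0 X hX hF tt hA hC
    (by rw [x5]; linarith) (by rw [x5, x6]; linarith) ?_ ?_⟩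
  · rw [x1]
    exact (k9a_num_rb z _ _ _ hLE.1 hp.s1_pos.le hp.s1_lt.le n1 hLa).trans (by linarith)
  · rw [x3]
    have hw1 : p.k * p.s1 ≤ 1 := mul_le_one₀ hp.k_le hp.s1_pos.le hp.s1_lt.le
    have e : p.k * (3 / 4 * p.s1) = 3 / 4 * (p.k * p.s1) := by ring
    rw [e] at n2
    exact (k9a_num_rb z _ _ _ hLE.1 (mul_nonneg hp.k_pos.le hp.s1_pos.le) hw1 n2 hLa).trans (by linarith)

/-- the hub `K9HubCtx` of `S9b/SeqDefs.lean` -/
theorem k9a_hub (S η d₁ : ℝ) (hS : 0 < S) (hη : 0 < η) (hbad : KbBad KbVer.two S η d₁) (p : K9Prm) (hp : p.Ok) (hd : p.d = kp4Dst KbVer.two S η)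
    (hk : p.k = kp4Kst KbVer.two S η) (hpS : p.S = S) (hu : p.u ≤ η) (hs1 : (p.d + 2 * p.k) * p.s1 < p.S * p.u / 2) : K9HubCtx S η p :=
  fun h ζ Λ hζ hζ1 => k9a_hub_ctx S η d₁ hS hη hbad p hp hd hk hpS hu hs1 h ζ Λ hζ hζ1

end

end Claimed.Agent.R252
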