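import Claimed.Agent.R252.S9.Full
import Claimed.Agent.R252.S7a.Defs
import Claimed.Agent.R252.S4E.Contract
import Claimed.Agent.R252.Base.Norm
import Claimed.Agent.R252.Norm.Mass
import Claimed.Agent.R252.S9.PartB

/-!
# ROW 252 (S0492), unit S9d (post BP-252-S9d, sub-architect helper225, chief helper233), file 1: VOCABULARY of the final proof of P9.1
(09-unbounded-narrowness.tex l.709-737 projected law, l.884-1185 scalar candidates and the actual improvement).      Definitions only, no `sorry`.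

ONE scale.  `P : K9P` = the original problem `E_i` at the sample, `YA : KbSys P` = the system of the charts `A` of L9.3 **whose selection `YA.S c` is already the prepared measure** `μ_prep|_{I,A}` of L9.4
(restricting selections keeps `WF`, `Geo`, `Known`).   `e = e_Z` unit tangent of the full-time chart `C ∋ A`, `Zs = Z_*`.
* `k9dD YA c e Zs : K7aData P.Lam`  = the fixed-budget projected law `λ_A` of (9.20) as data of Thm 7.1:  prior `ν_γ(·|A)`;  active measure `= 1_{S c}(l, t_A + q τ) ν_γ(dl|A) dτ` (`= (T_A)_* μ_prep|_{I,A} / (q_A ν_γ(A))`, see `k9d_mu_apply`);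
  `y(τ) = ζ = (e·y(t) - Zs)/q`,  `x(τ) = X = P_*(t, y(t), w(t))`, `t = t_A + q τ`.   Outside `A c` all coefficients are `0` (so that the bounds of `K7aData.Adm` hold for ALL `l`).
  It is (definitionally) the incidence measure of the world `c` of `YA.norm 1`: the mass identities are `k2n_mu_norm_apply(')` of `R252/Norm/Mass`.
* `k9dF e τ ζ`          the quadratic with the six coefficients `e` (order `1, τ, ζ, τ², τζ, ζ²`, as in `K7aQuad`, `k9_quad_round`).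
* `k9dFitS D η e`       trajectories with whole-block fit `η`;      `k9dFirst D η ts j` first-fit assignment to the `j`-th test of the ordered list `ts`.
* `K9dIn`               ENTRY of S9d = what S9b (L9.3) and S9c (L9.4, L9.5) deliver at one sample.   `Kp` = ACTUAL path factor, `K` = DIAGONAL subpower factor (`Kp ≤ K`).
* `K9dTab`, `k9dSys`    the output atlas `(A, b)`, `b` = coefficient bin of width `h`, test `P_new = P_* - F̃_{A,b}` (9.33).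
-/

set_option autoImplicit false

namespace Claimed.Agent.R252

open MeasureTheory
open scoped ENNReal BigOperators Classical

noncomputable section

/-- the quadratic in `(τ, ζ)` with coefficients `e` -/
def k9dF (e : Fin 6 → ℝ) (τ ζ : ℝ) : ℝ := e 0 + e 1 * τ + e 2 * ζ + e 3 * τ ^ 2 + e 4 * τ * ζ + e 5 * ζ ^ 2

/-- the trajectories which the test `e` fits to `η` on the whole unit block -/
def k9dFitS {Λ : Type} [MeasurableSpace Λ] (D : K7aData Λ) (η : ℝ) (e : Fin 6 → ℝ) : Set Λ :=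
  {l | ∀ t ∈ Set.Icc (0 : ℝ) 1, |D.x l t - k9dF e t (D.y l t)| ≤ η}

/-- first-fit assignment: the trajectories whose first fitting test of the list is the `j`-th one -/
def k9dFirst {Λ : Type} [MeasurableSpace Λ] (D : K7aData Λ) (η : ℝ) (ts : List (Fin 6 → ℝ)) (j : Fin ts.length) : Set Λ :=
  k9dFitS D η (ts.get j) \ ⋃ i : Fin ts.length, ⋃ (_ : i < j), k9dFitS D η (ts.get i)

/-- the residual data: the trajectories in `U` are removed from the active measure -/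
def k9dRes {Λ : Type} [MeasurableSpace Λ] (D : K7aData Λ) (U : Set Λ) : K7aData Λ :=
  { D with mu := D.mu.restrict (Uᶜ ×ˢ Set.univ) }

variable {P : K9P}

/-- `ζ(τ)` along the trajectory `l` in the chart `c` -/
def k9dZe (YA : KbSys P) (c : YA.C) (e : K9V) (Zs : ℝ) (l : P.Lam) (τ : ℝ) : ℝ :=
  (k9dot e (kbY (P.co (YA.wd c) l) (YA.tOf c τ)) - Zs) / YA.q

/-- `X(τ)` along the trajectory `l` in the chart `c` -/
def k9dX (YA : KbSys P) (c : YA.C) (l : P.Lam) (τ : ℝ) : ℝ := kbX (P.Pst (YA.wd c)) (P.co (YA.wd c) l) (YA.tOf c τ)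

/-- **the projected law `λ_A`** (9.19)-(9.20) as data of the scalar mesh projection theorem -/
def k9dD (YA : KbSys P) (c : YA.C) (e : K9V) (Zs : ℝ) : K7aData P.Lam where
  nu := (YA.nuC c)⁻¹ • (P.nu (YA.wd c)).restrict (YA.A c)
  mu := (((YA.nuC c)⁻¹ • (P.nu (YA.wd c)).restrict (YA.A c)).prod k7aTm).restrict {z | (z.1, YA.tOf c z.2) ∈ YA.S c}
  y0 := (YA.A c).indicator fun l => k9dZe YA c e Zs l 0
  y1 := (YA.A c).indicator fun l => k9dot e (kbV (P.co (YA.wd c) l))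
  x0 := (YA.A c).indicator fun l => k9dX YA c l 0
  x1 := (YA.A c).indicator fun l => -3 * k9dX YA c l 0 + 4 * k9dX YA c l (1 / 2) - k9dX YA c l 1
  x2 := (YA.A c).indicator fun l => 2 * k9dX YA c l 0 - 4 * k9dX YA c l (1 / 2) + 2 * k9dX YA c l 1

/-- the projected coordinates `(τ, ζ)` of a base point `(t, y)` -/
def k9dPr (YA : KbSys P) (c : YA.C) (e : K9V) (Zs : ℝ) (o : ℝ × K9V) : ℝ × ℝ := ((o.1 - YA.tc c) / YA.q, (k9dot e o.2 - Zs) / YA.q)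

/-- the observation `p_L` inside a world: exact base and hidden bin -/
def k9dObs (P : K9P) (aL : ℝ) (γ : P.W) (x : P.Lam × ℝ) : (ℝ × K9V) × ℤ := (P.bs γ x, P.hid aL γ x)

/-- **ENTRY of S9d** at one sample.  `a = N^{-s₁}`, `σ ∼ N^{-M}` dyadic, `aL = N^{-1}` (terminal width). -/
structure K9dIn (P : K9P) (YA : KbSys P) (eZ : YA.C → K9V) (Zs : YA.C → ℝ) (N K Kp aL σ d a S1 u1 : ℝ) : Prop where
  Kp_one : 1 ≤ Kp
  Kp_le : Kp ≤ K
  aL_pos : 0 < aL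
  aL_le : aL ≤ a
  pwf : P.WF
  ntv : P.Ntv Kp
  wf : YA.WF
  /-- actual geometry of the charts `A` (first two clauses of `Geo Kp`) -/
  size : ∀ c, kbMn (YA.ch c).D ≤ YA.q * Kp
  box : ∀ c, ∀ l ∈ YA.A c, ∀ t ∈ YA.I c, ‖(YA.ch c).Di.mulVec (kbY (P.co (YA.wd c) l) t - (YA.ch c).yc t)‖ ≤ Kp
  /-- actual lists -/
  known : YA.Known (P.hid aL) Kp
  unit : ∀ c, K9Unit (eZ c)
  /-- actual range of `ζ` -/
  tang : ∀ c, ∀ l ∈ YA.A c, ∀ t ∈ YA.I c, |k9dot (eZ c) (kbY (P.co (YA.wd c) l) t) - Zs c| ≤ Kp * YA.q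
  /-- the prepared mass is inverse subpower on the diagonal -/
  big : YA.Big K
  /-- L9.5 (1), exact-base form -/
  ecap : ∀ c, (k9dD YA c (eZ c) (Zs c)).ECap (fun _ => 0) K 1 d a
  eang : ∀ c, (k9dD YA c (eZ c) (Zs c)).EAng (fun _ => 0) K 1 d a N S1 u1
  /-- L9.5 (2) -/
  supp : ∀ c, (k9dD YA c (eZ c) (Zs c)).Supp K σ 1 d a

/-- the tables of the output atlas: ordered tests and posterior bin lists, chart by chart -/
structure K9dTab (YA : KbSys P) where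
  ts : YA.C → List (Fin 6 → ℝ)
  Ls : YA.C → (ℝ × K9V) × ℤ → Finset (Fin 6 → ℤ)

/-- the labels `(A, b)` of the output atlas -/
def k9dLab (YA : KbSys P) (h : ℝ) (T : K9dTab YA) : Finset (YA.C × (Fin 6 → ℤ)) :=
  Finset.univ.biUnion fun c => ((T.ts c).toFinset.image (k4eBin h)).image fun b => (c, b)

/-- trajectories of the chart `c` whose first fitting test lies in the coefficient bin `b` -/
def k9dAsg (YA : KbSys P) (eZ : YA.C → K9V) (Zs : YA.C → ℝ) (η h : ℝ) (T : K9dTab YA) (c : YA.C) (b : Fin 6 → ℤ) : Set P.Lam :=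
  YA.A c ∩ ⋃ j : Fin (T.ts c).length, ⋃ (_ : k4eBin h ((T.ts c).get j) = b), k9dFirst (k9dD YA c (eZ c) (Zs c)) η (T.ts c) j

/-- the new test (9.33): `P_* - F̃_{A,b}((t - t_A)/q, (e·y - Z_*)/q)`, `F̃` = the quadratic with the coefficients `b h` -/
def k9dNew (YA : KbSys P) (eZ : YA.C → K9V) (Zs : YA.C → ℝ) (h : ℝ) (c : YA.C) (b : Fin 6 → ℤ) : KbTest KbVer.two := fun t y w =>
  P.Pst (YA.wd c) t y w - k9dF (fun i => (b i : ℝ) * h) ((t - YA.tc c) / YA.q) ((k9dot (eZ c) y - Zs c) / YA.q)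

/-- **the output atlas** -/
def k9dSys (YA : KbSys P) (eZ : YA.C → K9V) (Zs : YA.C → ℝ) (aL η h : ℝ) (T : K9dTab YA) : KbSys P where
  n := YA.n
  C := {p // p ∈ k9dLab YA h T}
  fC := inferInstance
  wd := fun p => YA.wd p.1.1
  iv := fun p => YA.iv p.1.1
  A := fun p => k9dAsg YA eZ Zs η h T p.1.1 p.1.2
  S := fun p => YA.S p.1.1 ∩ (k9dAsg YA eZ Zs η h T p.1.1 p.1.2 ×ˢ Set.univ) ∩ {x | p.1.2 ∈ T.Ls p.1.1 (k9dObs P aL (YA.wd p.1.1) x)}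
  ch := fun p => { YA.ch p.1.1 with T := k9dNew YA eZ Zs h p.1.1 p.1.2 }

/-- the incidences of the chart `c` which survive in the output atlas -/
def k9dSucc (YA : KbSys P) (eZ : YA.C → K9V) (Zs : YA.C → ℝ) (aL η h : ℝ) (ts : List (Fin 6 → ℝ)) (Ls : (ℝ × K9V) × ℤ → Finset (Fin 6 → ℤ))
    (c : YA.C) : Set (P.Lam × ℝ) :=
  {x | x ∈ YA.S c ∧ ∃ j : Fin ts.length, x.1 ∈ k9dFirst (k9dD YA c (eZ c) (Zs c)) η ts j ∧ k4eBin h (ts.get j) ∈ Ls (k9dObs P aL (YA.wd c) x)}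

end

end Claimed.Agent.R252

/-!
# ROW 252 (S0492), unit S9d (sub-architect helper225), file 2: **SCALAR CANDIDATES, GREEDY COVERAGE, POSTERIOR LISTS** at the level of `K7aData`.      CONTRACT file: the `sorry`s are the leaves `L-252-S9d-*`.

09-unbounded-narrowness.tex l.893-1096.   PAPER-FREE.  Everything is at ONE scale; Thm 7.1 enters as the hypothesis `hT : k7a_T71a` (finite-scale form, `S7a/Defs`), Cor 3.4 as `hub : K4eMatch 2 d ε R` (`S4E/Contract`).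
Because both hubs are finite-scale statements there is NO subsequence and NO proof by contradiction along sequences:
* `k9d_candidate` (l.893-923): data with the mesh hypotheses and mass `≥ N^{-τ}` have a test `e` with coefficients `≤ N^δ`, whole-block fit `a N^δ`, mass `≥ a^d N^{-δ}`.
* `k9d_cover` (l.925-973): a maximal greedy list leaves a residual of mass `≤ N^{-τ}` (else `k9d_candidate` for the residual data `k9dRes D U` contradicts maximality).  STRONGER than the paper's "fixed fraction `κ`".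
* `k9d_graph_cap` (9.31): base ceiling of one polynomial index.
* `k9d_post` (l.975-1096): posterior pairs (`k4ePair`), bad pairs (`k4e_bad_small`), lists around a maximising centre (`k4e_list`), coefficient bins (`k4eBin`, `k4eNbr`).
Prove IN PLACE, statements verbatim, helper lemmas directly above (prefix `k9d_`); earlier statements of this file may be cited even if sorried.  Defect: one line to helper225.
-/

set_option autoImplicit false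

namespace Claimed.Agent.R252

open MeasureTheory
open scoped ENNReal BigOperators Classical

noncomputable section

/-! ## §1 quadratics in two variables -/

/-- **LEAF S9d-Q1** (~150 l.; l.917-922 "the adapted norm bound bounds the ordinary coefficients").
PROOF.  `hF` gives `e0..e5`; `G t u := F t (c0 + c1 t + β u) = g0 + g1 t + g2 u + g3 t² + g4 t u + g5 u²` with `g5 = e5 β²`, `g4 = (e4 + 2 e5 c1) β`, `g2 = (e2 + 2 e5 c0) β`, `g3 = e3 + e4 c1 + e5 c1²`,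
`g1 = e1 + e2 c1 + e4 c0 + 2 e5 c0 c1`, `g0 = e0 + e2 c0 + e5 c0²`.   Values: `g0 = G 0 0`, `g2 = (G 0 1 - G 0 (-1))/2`, `g5 = (G 0 1 + G 0 (-1) - 2 G 0 0)/2`, `g1 = -3 G 0 0 + 4 G ½ 0 - G 1 0`, `g3 = 2 G 0 0 - 4 G ½ 0 + 2 G 1 0`,
`g4 = (G 1 1 - G 1 (-1))/2 - g2`: so `|g0|,|g2| ≤ K`, `|g5|,|g4| ≤ 2K`, `|g1|,|g3| ≤ 8K`.   With `b = 1/β ≤ K`: `e5 = g5 b²`, `e4 = g4 b - 2 g5 b² c1`, `e2 = g2 b - 2 g5 b² c0`, `e3 = g3 - g4 b c1 + g5 b² c1²`,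
`e1 = g1 - g2 b c1 - g4 b c0 + 2 g5 b² c0 c1`, `e0 = g0 - g2 b c0 + g5 b² c0²`; all `≤ 15 K⁵`. -/
theorem k9d_coef (F : ℝ → ℝ → ℝ) (hF : K7aQuad F) (c0 c1 β K : ℝ) (hK : 1 ≤ K) (hc0 : |c0| ≤ K) (hc1 : |c1| ≤ K) (hβ : 1 ≤ K * β)
    (hb : ∀ t ∈ Set.Icc (0 : ℝ) 1, ∀ u ∈ Set.Icc (-1 : ℝ) 1, |F t (c0 + c1 * t + β * u)| ≤ K) :
    ∃ e : Fin 6 → ℝ, (∀ t y, F t y = k9dF e t y) ∧ ∀ i, |e i| ≤ 20 * K ^ 5 := by
  obtain ⟨e0, e1, e2, e3, e4, e5, hFe⟩ := hF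
  have hK0 : 0 < K := by linarith
  have hβ0 : 0 < β := by
    by_contra h
    rw [not_lt] at h
    nlinarith
  obtain ⟨b, hbd⟩ : ∃ b, b = 1 / β := ⟨_, rfl⟩
  have hb0 : 0 < b := by rw [hbd]; positivity
  have hbK : |b| ≤ K := by
    rw [abs_of_pos hb0, hbd, div_le_iff₀ hβ0]
    exact hβ
  have v00 := hb 0 ⟨le_rfl, zero_le_one⟩ 0 ⟨by norm_num, by norm_num⟩
  have v01 := hb 0 ⟨le_rfl, zero_le_one⟩ 1 ⟨by norm_num, by norm_num⟩
  have v0m := hb 0 ⟨le_rfl, zero_le_one⟩ (-1) ⟨by norm_num, by norm_num⟩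
  have vh0 := hb (1 / 2) ⟨by norm_num, by norm_num⟩ 0 ⟨by norm_num, by norm_num⟩
  have v10 := hb 1 ⟨zero_le_one, le_rfl⟩ 0 ⟨by norm_num, by norm_num⟩
  have v11 := hb 1 ⟨zero_le_one, le_rfl⟩ 1 ⟨by norm_num, by norm_num⟩
  have v1m := hb 1 ⟨zero_le_one, le_rfl⟩ (-1) ⟨by norm_num, by norm_num⟩
  rw [hFe, abs_le] at v00 v01 v0m vh0 v10 v11 v1m
  obtain ⟨l00, u00⟩ := v00
  obtain ⟨l01, u01⟩ := v01
  obtain ⟨l0m, u0m⟩ := v0m
  obtain ⟨lh0, uh0⟩ := vh0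
  obtain ⟨l10, u10⟩ := v10
  obtain ⟨l11, u11⟩ := v11
  obtain ⟨l1m, u1m⟩ := v1m
  obtain ⟨g0, hg0⟩ : ∃ g, g = e0 + e2 * c0 + e5 * c0 ^ 2 := ⟨_, rfl⟩
  obtain ⟨g1, hg1⟩ : ∃ g, g = e1 + e2 * c1 + e4 * c0 + 2 * e5 * c0 * c1 := ⟨_, rfl⟩
  obtain ⟨g2, hg2⟩ : ∃ g, g = (e2 + 2 * e5 * c0) * β := ⟨_, rfl⟩
  obtain ⟨g3, hg3⟩ : ∃ g, g = e3 + e4 * c1 + e5 * c1 ^ 2 := ⟨_, rfl⟩
  obtain ⟨g4, hg4⟩ : ∃ g, g = (e4 + 2 * e5 * c1) * β := ⟨_, rfl⟩
  obtain ⟨g5, hg5⟩ : ∃ g, g = e5 * β ^ 2 := ⟨_, rfl⟩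
  have b0 : |g0| ≤ K := by rw [hg0]; exact abs_le.2 ⟨by linarith, by linarith⟩
  have b2 : |g2| ≤ K := by rw [hg2]; exact abs_le.2 ⟨by linarith, by linarith⟩
  have b5 : |g5| ≤ 2 * K := by rw [hg5]; exact abs_le.2 ⟨by linarith, by linarith⟩
  have b1 : |g1| ≤ 8 * K := by rw [hg1]; exact abs_le.2 ⟨by linarith, by linarith⟩
  have b3 : |g3| ≤ 8 * K := by rw [hg3]; exact abs_le.2 ⟨by linarith, by linarith⟩
  have b4 : |g4| ≤ 2 * K := by rw [hg4]; exact abs_le.2 ⟨by linarith, by linarith⟩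
  have i5 : e5 = g5 * b ^ 2 := by rw [hg5, hbd]; field_simp
  have i4 : e4 = g4 * b - 2 * g5 * b ^ 2 * c1 := by rw [hg4, hg5, hbd]; field_simp; ring
  have i2 : e2 = g2 * b - 2 * g5 * b ^ 2 * c0 := by rw [hg2, hg5, hbd]; field_simp; ring
  have i3 : e3 = g3 - g4 * b * c1 + g5 * b ^ 2 * c1 ^ 2 := by rw [hg3, hg4, hg5, hbd]; field_simp; ring
  have i1 : e1 = g1 - g2 * b * c1 - g4 * b * c0 + 2 * g5 * b ^ 2 * c0 * c1 := by
    rw [hg1, hg2, hg4, hg5, hbd]; field_simp; ring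
  have i0 : e0 = g0 - g2 * b * c0 + g5 * b ^ 2 * c0 ^ 2 := by rw [hg0, hg2, hg5, hbd]; field_simp; ring
  have p1 : K ≤ K ^ 5 := by
    calc K = K ^ 1 := (pow_one K).symm
      _ ≤ K ^ 5 := pow_le_pow_right₀ hK (by norm_num)
  have p0 : 0 ≤ K ^ 5 := by positivity
  have p2 : K ^ 2 ≤ K ^ 5 := pow_le_pow_right₀ hK (by norm_num)
  have p3 : K ^ 3 ≤ K ^ 5 := pow_le_pow_right₀ hK (by norm_num)
  have p4 : K ^ 4 ≤ K ^ 5 := pow_le_pow_right₀ hK (by norm_num)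
  have m_gb : ∀ g G : ℝ, |g| ≤ G → |g * b| ≤ G * K := by
    intro g G hg
    rw [abs_mul]
    exact mul_le_mul hg hbK (abs_nonneg _) (le_trans (abs_nonneg _) hg)
  have m_c : ∀ x X c : ℝ, |x| ≤ X → |c| ≤ K → |x * c| ≤ X * K := by
    intro x X c hx hc
    rw [abs_mul]
    exact mul_le_mul hx hc (abs_nonneg _) (le_trans (abs_nonneg _) hx)
  clear l00 u00 l01 u01 l0m u0m lh0 uh0 l10 u10 l11 u11 l1m u1m
  have q5 : |g5 * b ^ 2| ≤ 2 * K ^ 3 := by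
    have : g5 * b ^ 2 = g5 * b * b := by ring
    rw [this]
    exact (m_c _ _ _ (m_gb _ _ b5) hbK).trans (le_of_eq (by ring))
  have E5 : |e5| ≤ 20 * K ^ 5 := by
    rw [i5]
    linarith only [q5, p3, p0]
  have q5c : ∀ c : ℝ, |c| ≤ K → |2 * g5 * b ^ 2 * c| ≤ 4 * K ^ 4 := by
    intro c hc
    have : 2 * g5 * b ^ 2 * c = 2 * (g5 * b ^ 2 * c) := by ring
    rw [this, abs_mul, abs_two]
    have := m_c _ _ _ q5 hc
    have e : 2 * K ^ 3 * K = 2 * K ^ 4 := by ring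
    linarith only [this, e]
  have q5cc : ∀ c c' : ℝ, |c| ≤ K → |c'| ≤ K → |g5 * b ^ 2 * c * c'| ≤ 2 * K ^ 5 := by
    intro c c' hc hc'
    exact (m_c _ _ _ (m_c _ _ _ q5 hc) hc').trans (le_of_eq (by ring))
  have E4 : |e4| ≤ 20 * K ^ 5 := by
    rw [i4]
    have t1 : |g4 * b| ≤ 2 * K ^ 2 := (m_gb _ _ b4).trans (le_of_eq (by ring))
    linarith only [abs_sub (g4 * b) (2 * g5 * b ^ 2 * c1), t1, q5c c1 hc1, p2, p4, p0]
  have E2 : |e2| ≤ 20 * K ^ 5 := by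
    rw [i2]
    have t1 : |g2 * b| ≤ K ^ 2 := (m_gb _ _ b2).trans (le_of_eq (by ring))
    linarith only [abs_sub (g2 * b) (2 * g5 * b ^ 2 * c0), t1, q5c c0 hc0, p2, p4, p0]
  have E3 : |e3| ≤ 20 * K ^ 5 := by
    rw [i3]
    have t1 : |g4 * b * c1| ≤ 2 * K ^ 3 := (m_c _ _ _ (m_gb _ _ b4) hc1).trans (le_of_eq (by ring))
    have t2 : |g5 * b ^ 2 * c1 ^ 2| ≤ 2 * K ^ 5 := by
      have : g5 * b ^ 2 * c1 ^ 2 = g5 * b ^ 2 * c1 * c1 := by ring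
      rw [this]
      exact q5cc c1 c1 hc1 hc1
    linarith only [abs_add_le (g3 - g4 * b * c1) (g5 * b ^ 2 * c1 ^ 2), abs_sub g3 (g4 * b * c1), t1, t2, b3, p1, p3, p0]
  have E1 : |e1| ≤ 20 * K ^ 5 := by
    rw [i1]
    have t1 : |g2 * b * c1| ≤ K ^ 3 := (m_c _ _ _ (m_gb _ _ b2) hc1).trans (le_of_eq (by ring))
    have t2 : |g4 * b * c0| ≤ 2 * K ^ 3 := (m_c _ _ _ (m_gb _ _ b4) hc0).trans (le_of_eq (by ring))
    have t3 : |2 * g5 * b ^ 2 * c0 * c1| ≤ 4 * K ^ 5 := by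
      have : 2 * g5 * b ^ 2 * c0 * c1 = 2 * (g5 * b ^ 2 * c0 * c1) := by ring
      rw [this, abs_mul, abs_two]
      linarith only [q5cc c0 c1 hc0 hc1]
    linarith only [abs_add_le (g1 - g2 * b * c1 - g4 * b * c0) (2 * g5 * b ^ 2 * c0 * c1), abs_sub (g1 - g2 * b * c1) (g4 * b * c0),
      abs_sub g1 (g2 * b * c1), t1, t2, t3, b1, p1, p3, p0]
  have E0 : |e0| ≤ 20 * K ^ 5 := by
    rw [i0]
    have t1 : |g2 * b * c0| ≤ K ^ 3 := (m_c _ _ _ (m_gb _ _ b2) hc0).trans (le_of_eq (by ring))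
    have t2 : |g5 * b ^ 2 * c0 ^ 2| ≤ 2 * K ^ 5 := by
      have : g5 * b ^ 2 * c0 ^ 2 = g5 * b ^ 2 * c0 * c0 := by ring
      rw [this]
      exact q5cc c0 c0 hc0 hc0
    linarith only [abs_add_le (g0 - g2 * b * c0) (g5 * b ^ 2 * c0 ^ 2), abs_sub g0 (g2 * b * c0), t1, t2, b0, p1, p3, p0]
  refine ⟨![e0, e1, e2, e3, e4, e5], fun t y => ?_, fun i => ?_⟩
  · rw [hFe]
    simp [k9dF]
  · fin_cases i
    · exact E0
    · exact E1
    · exact E2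
    · exact E3
    · exact E4
    · exact E5

/-- **LEAF S9d-Q2** (~40 l.).  The sup norm on the unit square controls the coefficients (values at `(0,0), (±1,0), (0,±1), (±1,±1)`). -/
theorem k9d_coef_close (e e' : Fin 6 → ℝ) (η : ℝ)
    (h : ∀ τ ∈ Set.Icc (-1 : ℝ) 1, ∀ ζ ∈ Set.Icc (-1 : ℝ) 1, |k9dF e τ ζ - k9dF e' τ ζ| ≤ η) : ∀ i, |e i - e' i| ≤ 2 * η := by
  have m0 : (0 : ℝ) ∈ Set.Icc (-1 : ℝ) 1 := ⟨by norm_num, by norm_num⟩
  have m1 : (1 : ℝ) ∈ Set.Icc (-1 : ℝ) 1 := ⟨by norm_num, by norm_num⟩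
  have mm : (-1 : ℝ) ∈ Set.Icc (-1 : ℝ) 1 := ⟨by norm_num, by norm_num⟩
  have v00 := h 0 m0 0 m0
  have v10 := h 1 m1 0 m0
  have vm0 := h (-1) mm 0 m0
  have v01 := h 0 m0 1 m1
  have v0m := h 0 m0 (-1) mm
  have v11 := h 1 m1 1 m1
  have v1m := h 1 m1 (-1) mm
  have vm1 := h (-1) mm 1 m1
  have vmm := h (-1) mm (-1) mm
  unfold k9dF at v00 v10 vm0 v01 v0m v11 v1m vm1 vmm
  rw [abs_le] at v00 v10 vm0 v01 v0m v11 v1m vm1 vmm
  intro i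
  rw [abs_le]
  fin_cases i <;> simp only [Fin.zero_eta, Fin.mk_one, Fin.reduceFinMk] <;> constructor <;> linarith [v00.1, v00.2, v10.1, v10.2, vm0.1, vm0.2, v01.1, v01.2, v0m.1, v0m.2, v11.1, v11.2, v1m.1, v1m.2, vm1.1, vm1.2, vmm.1, vmm.2]

/-- **LEAF S9d-Q2** (~30 l.). -/
theorem k9d_F_le (e : Fin 6 → ℝ) (B r τ ζ : ℝ) (hr : 1 ≤ r) (he : ∀ i, |e i| ≤ B) (hτ : |τ| ≤ r) (hζ : |ζ| ≤ r) : |k9dF e τ ζ| ≤ 6 * B * r ^ 2 := by
  have hB : 0 ≤ B := (abs_nonneg _).trans (he 0)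
  have hr0 : 0 ≤ r := by linarith
  have hr2 : r ≤ r ^ 2 := by nlinarith
  have h1r2 : 1 ≤ r ^ 2 := by nlinarith
  have m2 : ∀ (x z : ℝ), |x| ≤ B → |z| ≤ r ^ 2 → |x * z| ≤ B * r ^ 2 := by
    intro x z hx hz
    rw [abs_mul]
    exact mul_le_mul hx hz (abs_nonneg _) hB
  have t0 : |e 0| ≤ B * r ^ 2 := (he 0).trans (le_mul_of_one_le_right hB h1r2)
  have t1 : |e 1 * τ| ≤ B * r ^ 2 := m2 _ _ (he 1) (hτ.trans hr2)
  have t2 : |e 2 * ζ| ≤ B * r ^ 2 := m2 _ _ (he 2) (hζ.trans hr2)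
  have t3 : |e 3 * τ ^ 2| ≤ B * r ^ 2 := m2 _ _ (he 3) (by rw [abs_pow]; exact pow_le_pow_left₀ (abs_nonneg _) hτ 2)
  have t4 : |e 4 * τ * ζ| ≤ B * r ^ 2 := by
    rw [mul_assoc]
    refine m2 _ _ (he 4) ?_
    rw [abs_mul, sq]
    exact mul_le_mul hτ hζ (abs_nonneg _) hr0
  have t5 : |e 5 * ζ ^ 2| ≤ B * r ^ 2 := m2 _ _ (he 5) (by rw [abs_pow]; exact pow_le_pow_left₀ (abs_nonneg _) hζ 2)
  unfold k9dF
  rw [abs_le] at t0 t1 t2 t3 t4 t5 ⊢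
  constructor <;> linarith [t0.1, t0.2, t1.1, t1.2, t2.1, t2.2, t3.1, t3.2, t4.1, t4.2, t5.1, t5.2]

/-- **LEAF S9d-Q2** (~60 l.).  The graphs are comparison graphs of `S4E` (first alternative of `k4eSh`: `p = C e0 + C e1 X0 + C e2 X1 + C e3 X0² + C e4 X0 X1 + C e5 X1²`; `MvPolynomial.totalDegree_add`, `_mul`, `_C`, `_X`). -/
theorem k9d_F_sh (e : Fin 6 → ℝ) (u₀ : Fin 2 → ℝ) (r : ℝ) : (fun u : Fin 2 → ℝ => k9dF e (u 0) (u 1)) ∈ k4eSh 2 u₀ r := by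
  refine Or.inl ⟨MvPolynomial.C (e 0) + MvPolynomial.C (e 1) * MvPolynomial.X 0 + MvPolynomial.C (e 2) * MvPolynomial.X 1
    + MvPolynomial.C (e 3) * MvPolynomial.X 0 ^ 2 + MvPolynomial.C (e 4) * MvPolynomial.X 0 * MvPolynomial.X 1
    + MvPolynomial.C (e 5) * MvPolynomial.X 1 ^ 2, ?_, fun u => ?_⟩
  · have hC : ∀ a : ℝ, (MvPolynomial.C a : MvPolynomial (Fin 2) ℝ).totalDegree = 0 := fun a => MvPolynomial.totalDegree_C a
    have hX : ∀ i : Fin 2, (MvPolynomial.X i : MvPolynomial (Fin 2) ℝ).totalDegree = 1 := fun i => MvPolynomial.totalDegree_X i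
    have d1 : ∀ (a : ℝ) (i : Fin 2), (MvPolynomial.C a * MvPolynomial.X i : MvPolynomial (Fin 2) ℝ).totalDegree ≤ 1 := by
      intro a i
      refine (MvPolynomial.totalDegree_mul _ _).trans ?_
      rw [hC, hX]
    have d2 : ∀ (a : ℝ) (i : Fin 2), (MvPolynomial.C a * MvPolynomial.X i ^ 2 : MvPolynomial (Fin 2) ℝ).totalDegree ≤ 2 := by
      intro a i
      refine (MvPolynomial.totalDegree_mul _ _).trans ?_
      have := MvPolynomial.totalDegree_pow (MvPolynomial.X i : MvPolynomial (Fin 2) ℝ) 2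
      rw [hX] at this
      rw [hC]
      omega
    have d3 : ∀ (a : ℝ) (i k : Fin 2), (MvPolynomial.C a * MvPolynomial.X i * MvPolynomial.X k : MvPolynomial (Fin 2) ℝ).totalDegree ≤ 2 := by
      intro a i k
      refine (MvPolynomial.totalDegree_mul _ _).trans ?_
      have := d1 a i
      rw [hX]
      omega
    refine (MvPolynomial.totalDegree_add _ _).trans (max_le ((MvPolynomial.totalDegree_add _ _).trans (max_le ((MvPolynomial.totalDegree_add _ _).trans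
      (max_le ((MvPolynomial.totalDegree_add _ _).trans (max_le ((MvPolynomial.totalDegree_add _ _).trans (max_le ?_ ?_)) ?_)) ?_)) ?_)) ?_)
    · rw [hC]
      norm_num
    · exact (d1 _ _).trans (by norm_num)
    · exact (d1 _ _).trans (by norm_num)
    · exact d2 _ _
    · exact d3 _ _ _
    · exact d2 _ _
  · simp [k9dF]

theorem k9d_F_meas (e : Fin 6 → ℝ) : Measurable fun u : Fin 2 → ℝ => k9dF e (u 0) (u 1) := by
  unfold k9dF
  fun_prop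

/-! ## §2 fit sets and the first-fit assignment -/

section Fit

variable {Λ : Type} [MeasurableSpace Λ] (D : K7aData Λ)

/-- **LEAF S9d-M1** (~60 l.).  `k9dFitS D η e = D.co ⁻¹' Z`, `Z = ⋂_{t ∈ [0,1]} {p : K7aU | |p.x(t) - F_e(t, p.y(t))| ≤ η}` closed (`isClosed_biInter`, continuity in `p`). -/
theorem k9d_fit_meas (hD : Measurable D.co) (η : ℝ) (e : Fin 6 → ℝ) : MeasurableSet (k9dFitS D η e) := by
  have hZ : IsClosed (⋂ t ∈ Set.Icc (0 : ℝ) 1, {p : K7aU | |(p.2.2.1 + p.2.2.2.1 * t + p.2.2.2.2 * t ^ 2) - k9dF e t (p.1 + p.2.1 * t)| ≤ η}) := by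
    refine isClosed_biInter fun t _ => isClosed_le ?_ continuous_const
    unfold k9dF
    fun_prop
  have e1 : k9dFitS D η e = D.co ⁻¹' (⋂ t ∈ Set.Icc (0 : ℝ) 1, {p : K7aU | |(p.2.2.1 + p.2.2.2.1 * t + p.2.2.2.2 * t ^ 2) - k9dF e t (p.1 + p.2.1 * t)| ≤ η}) := by
    ext l
    simp only [Set.mem_preimage, Set.mem_iInter]
    exact Iff.rfl
  rw [e1]
  exact hD hZ.measurableSet

theorem k9d_fit_mono {η η' : ℝ} (h : η ≤ η') (e : Fin 6 → ℝ) : k9dFitS D η e ⊆ k9dFitS D η' e :=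
  fun _ hl t ht => (hl t ht).trans h

/-- **LEAF S9d-M1** (~20 l.). -/
theorem k9d_first_meas (hD : Measurable D.co) (η : ℝ) (ts : List (Fin 6 → ℝ)) (j : Fin ts.length) : MeasurableSet (k9dFirst D η ts j) := by
  exact (k9d_fit_meas D hD η _).diff (MeasurableSet.iUnion fun i => MeasurableSet.iUnion fun _ => k9d_fit_meas D hD η _)

/-- **LEAF S9d-M1** (~20 l.). -/
theorem k9d_first_disj (η : ℝ) (ts : List (Fin 6 → ℝ)) (i j : Fin ts.length) (hij : i ≠ j) : Disjoint (k9dFirst D η ts i) (k9dFirst D η ts j) := by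
  rw [Set.disjoint_left]
  intro l hi hj
  rcases lt_or_gt_of_ne hij with h | h
  · exact hj.2 (Set.mem_iUnion₂.2 ⟨i, h, hi.1⟩)
  · exact hi.2 (Set.mem_iUnion₂.2 ⟨j, h, hj.1⟩)

/-- **LEAF S9d-M1** (~40 l.; least index with the fit: `Fin.find` / `Nat.find` / `Finset.min'`). -/
theorem k9d_first_union (η : ℝ) (ts : List (Fin 6 → ℝ)) : (⋃ j, k9dFirst D η ts j) = ⋃ e ∈ ts, k9dFitS D η e := by
  ext l
  constructor
  · intro hl
    obtain ⟨j, hj⟩ := Set.mem_iUnion.1 hl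
    exact Set.mem_iUnion₂.2 ⟨ts.get j, List.get_mem ts j, hj.1⟩
  · intro hl
    obtain ⟨e, he, hle⟩ := Set.mem_iUnion₂.1 hl
    obtain ⟨n, hn⟩ := List.mem_iff_get.1 he
    have hne : (Finset.univ.filter fun j : Fin ts.length => l ∈ k9dFitS D η (ts.get j)).Nonempty :=
      ⟨n, Finset.mem_filter.2 ⟨Finset.mem_univ _, by rw [hn]; exact hle⟩⟩
    have hmem := Finset.min'_mem _ hne
    refine Set.mem_iUnion.2 ⟨(Finset.univ.filter fun j : Fin ts.length => l ∈ k9dFitS D η (ts.get j)).min' hne, (Finset.mem_filter.1 hmem).2, fun hcon => ?_⟩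
    obtain ⟨i, hi, hli⟩ := Set.mem_iUnion₂.1 hcon
    exact absurd (Finset.min'_le _ i (Finset.mem_filter.2 ⟨Finset.mem_univ _, hli⟩)) (not_le.2 hi)

/-! ## §3 the hypotheses of Thm 7.1: persistence, exact base ⟹ mesh -/

/-- **LEAF S9d-M2** (~20 l.; `Measure.restrict_le_self`). -/
theorem k9d_res_cap (U : Set Λ) {K σ c d a : ℝ} (h : D.Cap K σ c d a) : (k9dRes D U).Cap K σ c d a := by
  intro i j p xs hp hp1
  exact le_trans (Measure.restrict_le_self _) (h i j p xs hp hp1)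

/-- **LEAF S9d-M2** (~20 l.; `ae_restrict_of_ae` / `Measure.absolutelyContinuous_of_le`). -/
theorem k9d_res_supp (U : Set Λ) {K σ c d a : ℝ} (h : D.Supp K σ c d a) : (k9dRes D U).Supp K σ c d a := by
  obtain ⟨S, h1, h2⟩ := h
  exact ⟨S, ae_restrict_of_ae h1, h2⟩

/-- **LEAF S9d-M2** (~20 l.). -/
theorem k9d_res_ang (U : Set Λ) {K σ c d a N S1 u1 : ℝ} (h : D.Ang K σ c d a N S1 u1) : (k9dRes D U).Ang K σ c d a N S1 u1 := by
  intro i j xs vs u hu hu1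
  exact le_trans (Measure.restrict_le_self _) (h i j xs vs u hu hu1)

/-- **LEAF S9d-M2** (~20 l. each): monotonicity in the slack. -/
theorem k9d_cap_mono {K K' σ c d a : ℝ} (hK : K ≤ K') (hc : 0 ≤ c) (ha : 0 < a) (h : D.Cap K σ c d a) : D.Cap K' σ c d a := by
  intro i j p xs hp hp1
  refine le_trans (h i j p xs hp hp1) (ENNReal.ofReal_le_ofReal ?_)
  have hp0 : 0 ≤ p ^ d := Real.rpow_nonneg (ha.le.trans hp) _
  have : 0 ≤ σ ^ 2 * c * p ^ d := by positivity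
  nlinarith

theorem k9d_supp_mono {K K' σ c d a : ℝ} (hK : K ≤ K') (h : D.Supp K σ c d a) : D.Supp K' σ c d a := by
  obtain ⟨S, h1, h2⟩ := h
  exact ⟨S, h1, h2.trans hK⟩

theorem k9d_ang_mono {K K' σ c d a N S1 u1 : ℝ} (hK : K ≤ K') (hc : 0 ≤ c) (ha : 0 < a) (hN : 0 < N) (h : D.Ang K σ c d a N S1 u1) :
    D.Ang K' σ c d a N S1 u1 := by
  intro i j xs vs u hu hu1
  refine le_trans (h i j xs vs u hu hu1) (ENNReal.ofReal_le_ofReal ?_)
  have h1 : 0 ≤ a ^ d := Real.rpow_nonneg ha.le _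
  have h2 : 0 ≤ N ^ (-(S1 * u)) := Real.rpow_nonneg hN.le _
  have : 0 ≤ σ ^ 2 * c * a ^ d * N ^ (-(S1 * u)) := by positivity
  nlinarith

theorem k9d_floor_mem {σ : ℝ} (hσ : 0 < σ) (t : ℝ) (i : ℤ) :
    ⌊t / σ⌋ = i ↔ t ∈ Set.Ico ((i : ℝ) * σ) (((i : ℝ) + 1) * σ) := by
  rw [Int.floor_eq_iff, le_div_iff₀ hσ, div_lt_iff₀ hσ]
  rfl

theorem k9d_cell_eq {σ : ℝ} (hσ : 0 < σ) (i j : ℤ) :
    D.cell σ i j = {z | D.bs z ∈ Set.Ico ((i : ℝ) * σ) (((i : ℝ) + 1) * σ) ×ˢ Set.Ico ((j : ℝ) * σ) (((j : ℝ) + 1) * σ)} := by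
  ext z
  show (⌊z.2 / σ⌋ = i ∧ ⌊D.y z.1 z.2 / σ⌋ = j) ↔ (z.2 ∈ _ ∧ D.y z.1 z.2 ∈ _)
  rw [k9d_floor_mem hσ, k9d_floor_mem hσ]

theorem k9d_cell_vol {σ : ℝ} (hσ : 0 < σ) (i j : ℤ) :
    volume (Set.Ico ((i : ℝ) * σ) (((i : ℝ) + 1) * σ) ×ˢ Set.Ico ((j : ℝ) * σ) (((j : ℝ) + 1) * σ)) = ENNReal.ofReal (σ ^ 2) := by
  rw [Measure.volume_eq_prod, Measure.prod_prod, Real.volume_Ico, Real.volume_Ico, ← ENNReal.ofReal_mul (by nlinarith)]
  congr 1; ring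

theorem k9d_om_le (hν : D.nu Set.univ ≤ 1) : D.om (fun _ => 0) 0 ≤ 1 :=
  le_trans (measure_mono (Set.subset_univ _)) hν

/-- **LEAF S9d-M3** (~80 l.).  `D.cell σ i j = {z | D.bs z ∈ Ico (iσ) ((i+1)σ) ×ˢ Ico (jσ) ((j+1)σ)}` (`Int.floor_eq_iff`, `div_lt_iff₀`), volume `σ²` (`Measure.volume_eq_prod`, `Measure.prod_prod`, `Real.volume_Ico`); `D.om _ 0 = D.nu univ ≤ 1`. -/
theorem k9d_cap_of_ecap (hν : D.nu Set.univ ≤ 1) {K σ d a : ℝ} (hσ : 0 < σ) (hK : 0 ≤ K) (h : D.ECap (fun _ => 0) K 1 d a) : D.Cap K σ 1 d a := by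
  intro i j p xs hp hp1
  have hB : MeasurableSet (Set.Ico ((i : ℝ) * σ) (((i : ℝ) + 1) * σ) ×ˢ Set.Ico ((j : ℝ) * σ) (((j : ℝ) + 1) * σ)) :=
    measurableSet_Ico.prod measurableSet_Ico
  have h1 := h 0 _ p xs hB hp hp1
  rw [k9d_cell_vol hσ] at h1
  rw [k9d_cell_eq D hσ]
  calc D.mu ({z | D.bs z ∈ Set.Ico ((i : ℝ) * σ) (((i : ℝ) + 1) * σ) ×ˢ Set.Ico ((j : ℝ) * σ) (((j : ℝ) + 1) * σ)}
          ∩ {z | D.x z.1 z.2 ∈ Set.Ico xs (xs + p)})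
      ≤ D.mu {z | (0 : ℕ) = 0 ∧ D.bs z ∈ Set.Ico ((i : ℝ) * σ) (((i : ℝ) + 1) * σ) ×ˢ Set.Ico ((j : ℝ) * σ) (((j : ℝ) + 1) * σ)
          ∧ D.x z.1 z.2 ∈ Set.Ico xs (xs + p)} := measure_mono fun z hz => ⟨rfl, hz.1, hz.2⟩
    _ ≤ ENNReal.ofReal (K * 1 * p ^ d) * D.om (fun _ => 0) 0 * ENNReal.ofReal (σ ^ 2) := h1
    _ ≤ ENNReal.ofReal (K * 1 * p ^ d) * 1 * ENNReal.ofReal (σ ^ 2) := by
        gcongr; exact k9d_om_le D hν
    _ = ENNReal.ofReal (K * σ ^ 2 * 1 * p ^ d) := by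
        rw [mul_one, ← ENNReal.ofReal_mul' (by positivity)]
        congr 1; ring

/-- **LEAF S9d-M3** (~60 l.), the same with the slope bin. -/
theorem k9d_ang_of_eang (hν : D.nu Set.univ ≤ 1) {K σ d a N S1 u1 : ℝ} (hσ : 0 < σ) (hK : 0 ≤ K) (h : D.EAng (fun _ => 0) K 1 d a N S1 u1) :
    D.Ang K σ 1 d a N S1 u1 := by
  intro i j xs vs u hu hu1
  have hB : MeasurableSet (Set.Ico ((i : ℝ) * σ) (((i : ℝ) + 1) * σ) ×ˢ Set.Ico ((j : ℝ) * σ) (((j : ℝ) + 1) * σ)) :=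
    measurableSet_Ico.prod measurableSet_Ico
  have h1 := h 0 _ xs vs u hB hu hu1
  rw [k9d_cell_vol hσ] at h1
  rw [k9d_cell_eq D hσ]
  calc D.mu ({z | D.bs z ∈ Set.Ico ((i : ℝ) * σ) (((i : ℝ) + 1) * σ) ×ˢ Set.Ico ((j : ℝ) * σ) (((j : ℝ) + 1) * σ)}
          ∩ {z | D.x z.1 z.2 ∈ Set.Ico xs (xs + a) ∧ D.y1 z.1 ∈ Set.Ico vs (vs + N ^ (-u))})
      ≤ D.mu {z | (0 : ℕ) = 0 ∧ D.bs z ∈ Set.Ico ((i : ℝ) * σ) (((i : ℝ) + 1) * σ) ×ˢ Set.Ico ((j : ℝ) * σ) (((j : ℝ) + 1) * σ)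
          ∧ D.x z.1 z.2 ∈ Set.Ico xs (xs + a) ∧ D.y1 z.1 ∈ Set.Ico vs (vs + N ^ (-u))} :=
        measure_mono fun z hz => ⟨rfl, hz.1, hz.2⟩
    _ ≤ ENNReal.ofReal (K * 1 * a ^ d * N ^ (-(S1 * u))) * D.om (fun _ => 0) 0 * ENNReal.ofReal (σ ^ 2) := h1
    _ ≤ ENNReal.ofReal (K * 1 * a ^ d * N ^ (-(S1 * u))) * 1 * ENNReal.ofReal (σ ^ 2) := by
        gcongr; exact k9d_om_le D hν
    _ = ENNReal.ofReal (K * σ ^ 2 * 1 * a ^ d * N ^ (-(S1 * u))) := by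
        rw [mul_one, ← ENNReal.ofReal_mul' (by positivity)]
        congr 1; ring

/-- **LEAF S9d-GCAP** (~150 l.; (9.31)).  Base ceiling of one polynomial index: the fit of one polynomial permits only `2η/a + 3` bins of width `a` at each base.
PROOF.  `B_k := B ∩ {o | ⌊k9dF e o.1 o.2 / a⌋ = k}` (measurable, disjoint, union `B`).  If `D.bs z ∈ B_k` and `|x - F| ≤ η` then `x ∈ [k a - η, (k+1) a + η] ⊆ ⋃_{i < n} Ico (k a - η + i a) (k a - η + (i+1) a)`, `n = ⌊(a + 2η)/a⌋₊ + 1 ≤ 2η/a + 3`.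
`h` with `γ = 0`, `p = a`: each piece has mass `≤ K a^d vol B_k` (`D.om _ 0 ≤ 1`).   Sum over `i < n` and `k : ℤ` (`measure_iUnion_le`, `measure_iUnion` for `vol B = ∑' vol B_k`). -/
theorem k9d_graph_cap (hν : D.nu Set.univ ≤ 1) {K d a η : ℝ} (ha : 0 < a) (ha1 : a ≤ 1) (hK : 0 ≤ K) (hη : 0 ≤ η) (h : D.ECap (fun _ => 0) K 1 d a)
    (e : Fin 6 → ℝ) (B : Set (ℝ × ℝ)) (hB : MeasurableSet B) :
    D.mu {z | D.bs z ∈ B ∧ |D.x z.1 z.2 - k9dF e (D.bs z).1 (D.bs z).2| ≤ η} ≤ ENNReal.ofReal (K * a ^ d * (2 * η / a + 3)) * volume B := by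
  set n : ℕ := ⌊(a + 2 * η) / a⌋₊ + 1 with hn
  set Bk : ℤ → Set (ℝ × ℝ) := fun k => B ∩ {o | ⌊k9dF e o.1 o.2 / a⌋ = k} with hBk
  have hFm : Measurable fun o : ℝ × ℝ => k9dF e o.1 o.2 := by
    unfold k9dF; fun_prop
  have hBkm : ∀ k, MeasurableSet (Bk k) := fun k =>
    hB.inter (((hFm.div_const a).floor) (measurableSet_singleton k))
  have hBkd : Pairwise (Function.onFun Disjoint Bk) := by
    intro k k' hkk
    rw [Function.onFun, Set.disjoint_left]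
    rintro o ⟨_, h1⟩ ⟨_, h2⟩
    exact hkk (h1.symm.trans h2)
  have hBku : (⋃ k, Bk k) = B := by
    ext o
    simp only [hBk, Set.mem_iUnion, Set.mem_inter_iff, Set.mem_ofPred_eq, exists_and_left, exists_eq', and_true]
  set pc : ℤ → ℕ → Set (Λ × ℝ) := fun k i =>
    {z | (0 : ℕ) = 0 ∧ D.bs z ∈ Bk k ∧ D.x z.1 z.2 ∈ Set.Ico ((k : ℝ) * a - η + (i : ℝ) * a) ((k : ℝ) * a - η + (i : ℝ) * a + a)} with hpc
  have hpiece : ∀ k i, D.mu (pc k i) ≤ ENNReal.ofReal (K * a ^ d) * volume (Bk k) := by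
    intro k i
    have h1 := h 0 (Bk k) a ((k : ℝ) * a - η + (i : ℝ) * a) (hBkm k) le_rfl ha1
    refine le_trans h1 ?_
    calc ENNReal.ofReal (K * 1 * a ^ d) * D.om (fun _ => 0) 0 * volume (Bk k)
        ≤ ENNReal.ofReal (K * 1 * a ^ d) * 1 * volume (Bk k) := by
          gcongr; exact k9d_om_le D hν
      _ = ENNReal.ofReal (K * a ^ d) * volume (Bk k) := by rw [mul_one, mul_one]
  have hcov : {z | D.bs z ∈ B ∧ |D.x z.1 z.2 - k9dF e (D.bs z).1 (D.bs z).2| ≤ η}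
      ⊆ ⋃ k : ℤ, ⋃ i ∈ Finset.range n, pc k i := by
    rintro z ⟨hzB, hz⟩
    set F : ℝ := k9dF e (D.bs z).1 (D.bs z).2 with hF
    set k : ℤ := ⌊F / a⌋ with hk
    have k1 : (k : ℝ) * a ≤ F := by
      have := Int.floor_le (F / a); rwa [le_div_iff₀ ha] at this
    have k2 : F < ((k : ℝ) + 1) * a := by
      have := Int.lt_floor_add_one (F / a); rwa [div_lt_iff₀ ha] at this
    rw [abs_le] at hz
    set r : ℝ := (D.x z.1 z.2 - ((k : ℝ) * a - η)) / a with hr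
    have r0 : 0 ≤ r := div_nonneg (by linarith) ha.le
    have r1 : r < (a + 2 * η) / a := by
      apply div_lt_div_of_pos_right _ ha
      nlinarith
    set i : ℕ := ⌊r⌋₊ with hi
    have i1 : (i : ℝ) ≤ r := Nat.floor_le r0
    have i2 : r < (i : ℝ) + 1 := Nat.lt_floor_add_one r
    have i3 : i < n := by
      have : i ≤ ⌊(a + 2 * η) / a⌋₊ := Nat.floor_le_floor r1.le
      omega
    rw [hr, le_div_iff₀ ha] at i1
    rw [hr, div_lt_iff₀ ha] at i2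
    simp only [Set.mem_iUnion]
    refine ⟨k, i, Finset.mem_range.2 i3, rfl, ⟨hzB, rfl⟩, ?_, ?_⟩
    · linarith
    · linarith
  have hnle : (n : ℝ) ≤ 2 * η / a + 3 := by
    have h1 : (⌊(a + 2 * η) / a⌋₊ : ℝ) ≤ (a + 2 * η) / a := Nat.floor_le (by positivity)
    have h2 : (a + 2 * η) / a = 1 + 2 * η / a := by field_simp
    rw [hn]; push_cast; linarith
  calc D.mu {z | D.bs z ∈ B ∧ |D.x z.1 z.2 - k9dF e (D.bs z).1 (D.bs z).2| ≤ η}
      ≤ D.mu (⋃ k : ℤ, ⋃ i ∈ Finset.range n, pc k i) := measure_mono hcov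
    _ ≤ ∑' k : ℤ, D.mu (⋃ i ∈ Finset.range n, pc k i) := measure_iUnion_le _
    _ ≤ ∑' k : ℤ, ∑ i ∈ Finset.range n, D.mu (pc k i) :=
        ENNReal.tsum_le_tsum fun k => measure_biUnion_finset_le _ _
    _ ≤ ∑' k : ℤ, ∑ i ∈ Finset.range n, ENNReal.ofReal (K * a ^ d) * volume (Bk k) :=
        ENNReal.tsum_le_tsum fun k => Finset.sum_le_sum fun i _ => hpiece k i
    _ = ∑' k : ℤ, ((n : ℝ≥0∞) * ENNReal.ofReal (K * a ^ d)) * volume (Bk k) := by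
        congr 1; funext k
        rw [Finset.sum_const, Finset.card_range, nsmul_eq_mul, mul_assoc]
    _ = ((n : ℝ≥0∞) * ENNReal.ofReal (K * a ^ d)) * volume B := by
        rw [ENNReal.tsum_mul_left, ← measure_iUnion hBkd hBkm, hBku]
    _ ≤ ENNReal.ofReal (K * a ^ d * (2 * η / a + 3)) * volume B := by
        gcongr
        have had : 0 ≤ K * a ^ d := mul_nonneg hK (Real.rpow_nonneg ha.le _)
        rw [← ENNReal.ofReal_natCast, ← ENNReal.ofReal_mul (Nat.cast_nonneg _)]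
        apply ENNReal.ofReal_le_ofReal
        nlinarith

end Fit

/-! ## §4 a candidate on every substantial residual, greedy coverage -/

theorem k9d_cand_cancel {x K : ℝ} {μ : ℝ≥0∞} (hK : 0 < K) (h : ENNReal.ofReal (x * K) ≤ ENNReal.ofReal K * μ) : ENNReal.ofReal x ≤ μ := by
  rw [ENNReal.ofReal_mul' hK.le, mul_comm] at h
  exact (ENNReal.mul_le_mul_iff_right (by simpa using hK) ENNReal.ofReal_ne_top).1 h

/-- **LEAF S9d-CAND** (~200 l.; l.893-923).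
PROOF.  `τ' := δ/16`; `hT s M d 1 S1 u1 τ'` gives `τ, N1`; enlarge `N1` so that `N ≥ 1` and `20 N^{5τ'} ≤ N^δ`.   `c = 1` (`N^{-1} ≤ 1 ≤ N^1`).  `Out (N^τ') β 1 d a`, `1 ≤ N^τ' β`:
the selected mass is positive, so some `z` has `lab z.1 = some i`.   For this `i`: `k9d_coef` with `K = N^τ'` gives `e`, `|e| ≤ 20 N^{5τ'} ≤ N^δ`;  `{z | lab z.1 = some i} ⊆ k9dFitS D (N^τ' a) e ×ˢ univ ⊆ k9dFitS D (a N^δ) e ×ˢ univ`;
floor: `ofReal (a^d β) ≤ ofReal (N^τ') μ{lab = i}` and `β ≥ N^{-τ'}` give `μ{lab = i} ≥ a^d N^{-2τ'} ≥ a^d N^{-δ}`; `a^d = (N^{-s})^d = N^{-(s d)}`. -/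
theorem k9d_candidate (hT : k7a_T71a) (s M d S1 u1 δ : ℝ) (hs : 0 < s) (hsM : s < M) (hd : d < 1) (hS1 : 0 < S1) (hu1 : 0 < u1) (hδ : 0 < δ) :
    ∃ τ : ℝ, 0 < τ ∧ ∃ N1 : ℝ, ∀ N : ℝ, N1 ≤ N → ∀ (Λ : Type) [MeasurableSpace Λ] (D : K7aData Λ) (σ : ℝ) (m : ℕ), σ = (1 / 2 : ℝ) ^ m →
      N ^ (-M - τ) ≤ σ → σ ≤ N ^ (-M + τ) → D.Adm (N ^ τ) → D.Cap (N ^ τ) σ 1 d (N ^ (-s)) → D.Supp (N ^ τ) σ 1 d (N ^ (-s)) →
      D.Ang (N ^ τ) σ 1 d (N ^ (-s)) N S1 u1 →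
      ∃ e : Fin 6 → ℝ, (∀ i, |e i| ≤ N ^ δ) ∧
        ENNReal.ofReal (N ^ (-(s * d)) * N ^ (-δ)) ≤ D.mu (k9dFitS D (N ^ (-s) * N ^ δ) e ×ˢ Set.univ) := by
  obtain ⟨τ, hτ, N0, h0⟩ := hT s M d 1 S1 u1 (δ / 16) hs hsM hd hS1 hu1 (by positivity)
  refine ⟨τ, hτ, max (max N0 1) ((20 : ℝ) ^ (2 / δ)), fun N hN Λ _ D σ m hσ h1 h2 hA hC hS hG => ?_⟩
  have hN0 : N0 ≤ N := le_trans (le_trans (le_max_left _ _) (le_max_left _ _)) hN
  have hN1 : 1 ≤ N := le_trans (le_trans (le_max_right _ _) (le_max_left _ _)) hN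
  have hNp : 0 < N := by linarith
  have h20 : (20 : ℝ) ≤ N ^ (δ / 2) := by
    calc (20 : ℝ) = ((20 : ℝ) ^ (2 / δ)) ^ (δ / 2) := by
          rw [← Real.rpow_mul (by norm_num)]
          have : 2 / δ * (δ / 2) = 1 := by field_simp
          rw [this, Real.rpow_one]
      _ ≤ N ^ (δ / 2) := Real.rpow_le_rpow (by positivity) (le_trans (le_max_right _ _) hN) (by positivity)
  have hmono : ∀ a b : ℝ, a ≤ b → N ^ a ≤ N ^ b := fun a b hab => Real.rpow_le_rpow_of_exponent_le hN1 hab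
  have hpos : ∀ a : ℝ, 0 < N ^ a := fun a => Real.rpow_pos_of_pos hNp a
  obtain ⟨β, hβ1, -, hOut⟩ := h0 N hN0 Λ D σ 1 m hσ h1 h2
    (by rw [Real.rpow_neg hNp.le, Real.rpow_one]; exact inv_le_one_of_one_le₀ hN1) (by rw [Real.rpow_one]; exact hN1) hA hC hS hG
  obtain ⟨n, lab, L, -, hmass, hL⟩ := hOut
  have hne : D.mu {z | lab z.1 ≠ none} ≠ 0 := by
    intro h
    rw [h, mul_zero] at hmass
    exact absurd hmass (by norm_num)
  obtain ⟨z, hz⟩ := nonempty_of_measure_ne_zero hne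
  obtain ⟨i, hi⟩ := Option.ne_none_iff_exists'.1 hz
  obtain ⟨hq, hc0, hc1, hsup, hfit, hfloor⟩ := hL i
  obtain ⟨K, hKd⟩ : ∃ K, K = N ^ (δ / 16) := ⟨_, rfl⟩
  rw [← hKd] at hβ1 hc0 hc1 hsup hfit hfloor
  have hK1 : 1 ≤ K := by rw [hKd]; exact Real.one_le_rpow hN1 (by positivity)
  have hK0 : 0 < K := by linarith
  obtain ⟨e, he, heb⟩ := k9d_coef (L i).F hq (L i).c0 (L i).c1 β K hK1 hc0 hc1 hβ1
    (fun t ht u hu => by simpa [K7aLab.cen] using hsup t ht u hu)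
  have hK5 : K ^ 5 = N ^ (5 * δ / 16) := by
    rw [hKd, ← Real.rpow_natCast, ← Real.rpow_mul hNp.le]
    congr 1
    push_cast
    ring
  have hKδ : K ≤ N ^ δ := by rw [hKd]; exact hmono _ _ (by linarith)
  refine ⟨e, fun j => (heb j).trans ?_, ?_⟩
  · rw [hK5]
    calc 20 * N ^ (5 * δ / 16) ≤ N ^ (δ / 2) * N ^ (5 * δ / 16) := mul_le_mul_of_nonneg_right h20 (hpos _).le
      _ = N ^ (δ / 2 + 5 * δ / 16) := (Real.rpow_add hNp _ _).symm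
      _ ≤ N ^ δ := hmono _ _ (by linarith)
  · have hsub : {z : Λ × ℝ | lab z.1 = some i} ⊆ k9dFitS D (N ^ (-s) * N ^ δ) e ×ˢ Set.univ := by
      intro z hz
      refine ⟨fun t ht => ?_, Set.mem_univ _⟩
      have := (hfit z.1 hz t ht).2
      rw [he] at this
      refine this.trans ?_
      rw [mul_comm]
      exact mul_le_mul_of_nonneg_left hKδ (hpos _).le
    refine le_trans ?_ (measure_mono hsub)
    refine k9d_cand_cancel hK0 (le_trans (ENNReal.ofReal_le_ofReal ?_) hfloor)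
    have e1 : (N ^ (-s)) ^ d = N ^ (-(s * d)) := by
      rw [← Real.rpow_mul hNp.le]
      congr 1
      ring
    rw [one_mul, e1, mul_assoc]
    refine mul_le_mul_of_nonneg_left ?_ (hpos _).le
    -- N^{-δ} K ≤ β
    have hβ : K⁻¹ ≤ β := by
      rw [inv_le_iff_one_le_mul₀ hK0, mul_comm]
      exact hβ1
    refine le_trans ?_ hβ
    rw [hKd, ← Real.rpow_add hNp, ← Real.rpow_neg hNp.le]
    exact hmono _ _ (by linarith)

theorem k9d_cov_fst {Λ : Type} [MeasurableSpace Λ] (D : K7aData Λ) (V : Set Λ) (hV : MeasurableSet V) :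
    (D.mu.map Prod.fst) V = D.mu (V ×ˢ Set.univ) := by
  rw [Measure.map_apply measurable_fst hV]
  congr 1
  ext z
  simp

theorem k9d_cov_le {Λ : Type} [MeasurableSpace Λ] (D : K7aData Λ) [IsProbabilityMeasure D.nu] (hdom : D.mu ≤ D.nu.prod k7aTm) :
    D.mu.map Prod.fst ≤ D.nu := by
  rw [Measure.le_iff]
  intro V hV
  rw [k9d_cov_fst D V hV]
  refine (hdom _).trans ?_
  have : SFinite k7aTm := by unfold k7aTm; infer_instance
  rw [Measure.prod_prod]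
  have : k7aTm Set.univ = 1 := by
    unfold k7aTm
    rw [Measure.restrict_apply MeasurableSet.univ, Set.univ_inter, Real.volume_Icc]
    norm_num
  rw [this, mul_one]

/-- **LEAF S9d-COVER** (~200 l.; l.925-973).  `τ, N1` of `k9d_candidate` (`N1 ≥ 1`).
PROOF.  `𝔉 := {e // ∀ i, |e i| ≤ N^δ}`, `Sf e := k9dFitS D (a N^δ) e` (measurable: `k9d_fit_meas`), `m := D.mu.map Prod.fst ≤ D.nu` (`hdom`, `k7aTm univ = 1`), `m0 := ofReal (N^{-(s d)} N^{-δ}) ≠ 0`.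
`k9_greedy` gives `l`; `ts := l.map Subtype.val`; `length · m0 ≤ ν univ = 1` gives the count.   `U := ⋃ e ∈ ts, Sf e`.   If `D.mu (Uᶜ ×ˢ univ) > ofReal (N^{-τ})` then `k9dRes D U` is `Adm (N^τ)` and keeps `Cap, Supp, Ang` (`k9d_res_*`);
its fit sets are those of `D`; `k9d_candidate` gives `e` with `m0 ≤ (D.mu.restrict (Uᶜ ×ˢ univ)) (Sf e ×ˢ univ) = m (Sf e \ U) < m0`. -/
theorem k9d_cover (hT : k7a_T71a) (s M d S1 u1 δ : ℝ) (hs : 0 < s) (hsM : s < M) (hd : d < 1) (hS1 : 0 < S1) (hu1 : 0 < u1) (hδ : 0 < δ) :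
    ∃ τ : ℝ, 0 < τ ∧ ∃ N1 : ℝ, ∀ N : ℝ, N1 ≤ N → ∀ (Λ : Type) [MeasurableSpace Λ] (D : K7aData Λ) (σ : ℝ) (m : ℕ), σ = (1 / 2 : ℝ) ^ m →
      N ^ (-M - τ) ≤ σ → σ ≤ N ^ (-M + τ) → IsProbabilityMeasure D.nu → Measurable D.co →
      (∀ l, |D.y0 l| ≤ N ^ τ ∧ |D.y1 l| ≤ N ^ τ ∧ |D.x0 l| ≤ N ^ τ ∧ |D.x1 l| ≤ N ^ τ ∧ |D.x2 l| ≤ N ^ τ) → D.mu ≤ D.nu.prod k7aTm →
      D.Cap (N ^ τ) σ 1 d (N ^ (-s)) → D.Supp (N ^ τ) σ 1 d (N ^ (-s)) → D.Ang (N ^ τ) σ 1 d (N ^ (-s)) N S1 u1 →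
      ∃ ts : List (Fin 6 → ℝ), (∀ e ∈ ts, ∀ i, |e i| ≤ N ^ δ) ∧ (ts.length : ℝ) ≤ N ^ δ * N ^ (s * d) ∧
        D.mu ((⋃ e ∈ ts, k9dFitS D (N ^ (-s) * N ^ δ) e)ᶜ ×ˢ Set.univ) ≤ ENNReal.ofReal (N ^ (-τ)) := by
  obtain ⟨τ, hτ, N0, h0⟩ := k9d_candidate hT s M d S1 u1 δ hs hsM hd hS1 hu1 hδ
  refine ⟨τ, hτ, max N0 1, fun N hN Λ _ D σ m hσ h1 h2 hprob hmeas hbd hdom hC hS hG => ?_⟩
  have hN0 : N0 ≤ N := le_trans (le_max_left _ _) hN
  have hN1 : 1 ≤ N := le_trans (le_max_right _ _) hN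
  have hNp : 0 < N := by linarith
  have hpos : ∀ a : ℝ, 0 < N ^ a := fun a => Real.rpow_pos_of_pos hNp a
  obtain ⟨η, hη⟩ : ∃ η, η = N ^ (-s) * N ^ δ := ⟨_, rfl⟩
  obtain ⟨x0, hx0⟩ : ∃ x0, x0 = N ^ (-(s * d)) * N ^ (-δ) := ⟨_, rfl⟩
  have hx0p : 0 < x0 := by rw [hx0]; exact mul_pos (hpos _) (hpos _)
  rw [← hη]
  obtain ⟨l, hl1, hl2⟩ := k9_greedy (𝔉 := {e : Fin 6 → ℝ // ∀ i, |e i| ≤ N ^ δ}) D.nu (D.mu.map Prod.fst) (k9d_cov_le D hdom)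
    (fun e => k9dFitS D η e.1) (fun e => k9d_fit_meas D hmeas η e.1) (ENNReal.ofReal x0) (by simpa using hx0p)
  have hU : (⋃ e ∈ l.map Subtype.val, k9dFitS D η e) = ⋃ g ∈ l, k9dFitS D η g.1 := by
    ext x
    simp only [Set.mem_iUnion, List.mem_map, exists_prop]
    constructor
    · rintro ⟨e, ⟨g, hg, rfl⟩, hx⟩
      exact ⟨g, hg, hx⟩
    · rintro ⟨g, hg, hx⟩
      exact ⟨g.1, ⟨g, hg, rfl⟩, hx⟩
  have hUm : MeasurableSet (⋃ g ∈ l, k9dFitS D η g.1) :=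
    MeasurableSet.biUnion (s := {g | g ∈ l}) (List.finite_toSet l).countable fun g _ => k9d_fit_meas D hmeas η g.1
  refine ⟨l.map Subtype.val, ?_, ?_, ?_⟩
  · intro e he
    obtain ⟨g, -, rfl⟩ := List.mem_map.1 he
    exact g.2
  · rw [List.length_map]
    rw [measure_univ] at hl1
    have h3 : ENNReal.ofReal ((l.length : ℝ) * x0) ≤ ENNReal.ofReal 1 := by
      rw [ENNReal.ofReal_mul (Nat.cast_nonneg _), ENNReal.ofReal_natCast, ENNReal.ofReal_one]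
      exact hl1
    have h4 : (l.length : ℝ) * x0 ≤ 1 := (ENNReal.ofReal_le_ofReal_iff zero_le_one).1 h3
    have e1 : N ^ δ * N ^ (s * d) * x0 = 1 := by
      rw [hx0, ← Real.rpow_add hNp, ← Real.rpow_add hNp, ← Real.rpow_add hNp]
      have : δ + s * d + (-(s * d) + -δ) = 0 := by ring
      rw [this, Real.rpow_zero]
    have h5 : (l.length : ℝ) * x0 ≤ N ^ δ * N ^ (s * d) * x0 := by rw [e1]; exact h4
    exact le_of_mul_le_mul_right h5 hx0p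
  · rw [hU]
    by_contra hcon
    push Not at hcon
    obtain ⟨U, hUd⟩ : ∃ U, U = ⋃ g ∈ l, k9dFitS D η g.1 := ⟨_, rfl⟩
    rw [← hUd] at hcon hUm hl2
    have hK1 : 1 ≤ N ^ τ := Real.one_le_rpow hN1 hτ.le
    have hAdm : (k9dRes D U).Adm (N ^ τ) :=
      { prob := hprob
        meas := hmeas
        bd := hbd
        dom := by
          refine (Measure.restrict_le_self.trans hdom).trans ?_
          intro V
          rw [Measure.smul_apply, smul_eq_mul]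
          exact le_mul_of_one_le_left zero_le (by rw [← ENNReal.ofReal_one]; exact ENNReal.ofReal_le_ofReal hK1)
        mass := by
          have e2 : (k9dRes D U).mu Set.univ = D.mu (Uᶜ ×ˢ Set.univ) := by
            show (D.mu.restrict (Uᶜ ×ˢ Set.univ)) Set.univ = _
            rw [Measure.restrict_apply MeasurableSet.univ, Set.univ_inter]
          rw [e2]
          calc (1 : ℝ≥0∞) = ENNReal.ofReal (N ^ τ) * ENNReal.ofReal (N ^ (-τ)) := by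
                rw [← ENNReal.ofReal_mul (hpos _).le, ← Real.rpow_add hNp, add_neg_cancel, Real.rpow_zero, ENNReal.ofReal_one]
            _ ≤ _ := mul_le_mul_right hcon.le _ }
    obtain ⟨e, he, hem⟩ := h0 N hN0 Λ (k9dRes D U) σ m hσ h1 h2 hAdm (k9d_res_cap D U hC) (k9d_res_supp D U hS) (k9d_res_ang D U hG)
    rw [← hη, ← hx0] at hem
    have e3 : (k9dRes D U).mu (k9dFitS (k9dRes D U) η e ×ˢ Set.univ) = (D.mu.map Prod.fst) (k9dFitS D η e \ U) := by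
      rw [k9d_cov_fst D _ ((k9d_fit_meas D hmeas η e).diff hUm)]
      show (D.mu.restrict (Uᶜ ×ˢ Set.univ)) (k9dFitS D η e ×ˢ Set.univ) = _
      rw [Measure.restrict_apply ((k9d_fit_meas D hmeas η e).prod MeasurableSet.univ)]
      congr 1
      ext z
      simp
    rw [e3] at hem
    exact absurd hem (not_le.2 (hl2 ⟨e, he⟩))

/-! ## §5 posterior comparison and lists, abstract form -/

/-- **LEAF S9d-POST** (~250 l.; l.975-1096).  `X` = observations `(p_1, A)` of one chart, `lam j` = law of the observation on the incidences assigned to the `j`-th test, `bp` = projected base `(τ, ζ)`, `om` = value of `X` read off from the observation,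
`R = 1/a`, `mq = q_A ν(A)`, `Lm` = all losses, `h` = width of the coefficient bins.
PROOF.  `f j u := k9dF (es j) (u 0) (u 1)`, `f₀ := 0` (`k9d_F_sh` with `e = 0`), `u₀ = 0`, `M = 1`, `Δ = R⁻¹`.   `Nb j := univ.filter fun j' => k4eClose (closedBall 0 r) (f j) (f j') (1 * R^{-ε})`.
`k4e_bad_small hub` : `∑_j ∑_{j' ∉ Nb j} pair ≤ ofReal (mq/Lm)`.   `k4e_list lam Nb` gives `L`; `Ls x := (L x).image fun j => k4eBin h (es j)`.
Card: `L x = ∅` or `Nb j`; for `j' ∈ Nb j`: close on `closedBall 0 r ⊇ [-1,1]²` (`r ≥ 1`), `k9d_coef_close`: `|es j i - es j' i| ≤ 2 R^{-ε} ≤ 1 · h`, `k4e_bin_close` (`r = 1`): the bin lies in `k4eNbr 2 _`, of card `5^6` (`k4e_nbr_card`).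
Measurability: `{x | b ∈ Ls x} = ⋃_{j, bin j = b} {x | j ∈ L x}`.   Mass: `∑_j lam j univ = ∑_j ∑_{j'} pair j j' univ` (`k4e_pair_marg`) `= good + bad ≤ ∑_j lam j {j ∈ L x} + mq/Lm`. -/
theorem k9d_post {d ε R : ℝ} (hub : K4eMatch 2 d ε R) {X : Type} [MeasurableSpace X] (n : ℕ) (lam : Fin n → Measure X) [∀ j, IsFiniteMeasure (lam j)]
    (bp : X → Fin 2 → ℝ) (hbp : Measurable bp) (om : X → ℝ) (es : Fin n → Fin 6 → ℝ) (r Lm mq h : ℝ) (hr : 1 ≤ r) (hR : 1 ≤ R) (hε : 0 < ε)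
    (hLm : 1 ≤ Lm) (hLR : Lm ^ 3 ≤ R ^ ε) (hmq : 0 ≤ mq) (hh : 2 * R ^ (-ε) ≤ h) (hcard : (n : ℝ) ≤ Lm * R ^ d)
    (hnorm : ∀ j, ∀ u ∈ Metric.closedBall (0 : Fin 2 → ℝ) r, |k9dF (es j) (u 0) (u 1)| ≤ Lm)
    (hmarg : ∀ j, (lam j).map bp ≤ ENNReal.ofReal (mq * Lm * R ^ (-d) / (2 * r) ^ 2) • volume.restrict (Metric.closedBall (0 : Fin 2 → ℝ) r))
    (hev : ∀ j, ∀ᵐ x ∂(lam j), |k9dF (es j) (bp x 0) (bp x 1) - om x| ≤ R⁻¹ * Lm / 2) :
    ∃ Ls : X → Finset (Fin 6 → ℤ), (∀ x, (Ls x).card ≤ 5 ^ 6) ∧ (∀ b, MeasurableSet {x | b ∈ Ls x}) ∧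
      ∑ j, lam j Set.univ ≤ ∑ j, lam j {x | k4eBin h (es j) ∈ Ls x} + ENNReal.ofReal (mq / Lm) := by
  have hR0 : 0 < R := by linarith
  have hh0 : 0 < h := lt_of_lt_of_le (by have := Real.rpow_pos_of_pos hR0 (-ε); linarith) hh
  obtain ⟨f, hf⟩ : ∃ f : Fin n → (Fin 2 → ℝ) → ℝ, f = fun j u => k9dF (es j) (u 0) (u 1) := ⟨_, rfl⟩
  obtain ⟨Bx, hBx⟩ : ∃ Bx : Set (Fin 2 → ℝ), Bx = Metric.closedBall (0 : Fin 2 → ℝ) r := ⟨_, rfl⟩
  obtain ⟨Nb, hNb⟩ : ∃ Nb : Fin n → Finset (Fin n), Nb = fun j => Finset.univ.filter fun j' => k4eClose Bx (f j) (f j') (1 * R ^ (-ε)) := ⟨_, rfl⟩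
  have hbad := k4e_bad_small hub lam bp hbp om 0 r 1 R⁻¹ Lm mq f (fun u => k9dF 0 (u 0) (u 1)) (fun j => by rw [hf]; exact k9d_F_meas (es j))
    (by linarith) (by positivity) (by field_simp) hR hε hLm hLR hmq (k9d_F_sh 0 0 r) (fun j => by rw [hf]; exact k9d_F_sh (es j) 0 r)
    (by simpa using hcard)
    (fun j u hu => by
      rw [hf]
      have : k9dF 0 (u 0) (u 1) = 0 := by simp [k9dF]
      show |k9dF (es j) (u 0) (u 1) - k9dF 0 (u 0) (u 1)| ≤ 1 * Lm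
      rw [this, sub_zero, one_mul]
      exact hnorm j u hu)
    hmarg (fun j => by rw [hf]; exact hev j)
  rw [← hBx] at hbad
  obtain ⟨L, hL1, hL2, hL3⟩ := k4e_list lam Nb
  refine ⟨fun x => (L x).image fun j => k4eBin h (es j), fun x => ?_, fun b => ?_, ?_⟩
  · rcases hL1 x with h0 | ⟨j, hj⟩
    · simp [h0]
    · show ((L x).image fun j => k4eBin h (es j)).card ≤ 5 ^ 6
      rw [hj]
      have hsub : ((Nb j).image fun j => k4eBin h (es j)) ⊆ k4eNbr 2 (k4eBin h (es j)) := by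
        intro b hb
        obtain ⟨j', hj', rfl⟩ := Finset.mem_image.1 hb
        rw [hNb] at hj'
        have hcl : k4eClose Bx (f j) (f j') (1 * R ^ (-ε)) := (Finset.mem_filter.1 hj').2
        refine k4e_bin_close h hh0 1 (es j) (es j') fun k => ?_
        have := k9d_coef_close (es j) (es j') (R ^ (-ε)) (fun τ hτ ζ hζ => by
          have := hcl ![τ, ζ] (by
            rw [hBx, mem_closedBall_zero_iff, pi_norm_le_iff_of_nonneg (by linarith)]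
            intro i
            fin_cases i
            · simp only [Fin.zero_eta, Fin.isValue, Matrix.cons_val_zero, Real.norm_eq_abs]
              exact (abs_le.2 ⟨hτ.1, hτ.2⟩).trans hr
            · simp only [Fin.mk_one, Fin.isValue, Matrix.cons_val_one, Matrix.cons_val_zero, Real.norm_eq_abs]
              exact (abs_le.2 ⟨hζ.1, hζ.2⟩).trans hr)
          rw [hf, one_mul] at this
          simpa using this) k
        rw [Nat.cast_one, one_mul]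
        exact this.trans hh
      calc _ ≤ (k4eNbr 2 (k4eBin h (es j))).card := Finset.card_le_card hsub
        _ = 5 ^ 6 := by rw [k4e_nbr_card]
  · have : {x | b ∈ (L x).image fun j => k4eBin h (es j)} = ⋃ j ∈ {j : Fin n | k4eBin h (es j) = b}, {x | j ∈ L x} := by
      ext x
      simp only [Set.mem_ofPred_eq, Finset.mem_image, Set.mem_iUnion, exists_prop]
      constructor
      · rintro ⟨j, hj, hb⟩
        exact ⟨j, hb, hj⟩
      · rintro ⟨j, hb, hj⟩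
        exact ⟨j, hj, hb⟩
    rw [this]
    exact MeasurableSet.biUnion (Set.to_countable _) fun j _ => hL2 j
  · have e1 : ∀ j, lam j Set.univ = ∑ j' ∈ Nb j, k4ePair lam j j' Set.univ + ∑ j' ∈ Finset.univ.filter (fun j' => ¬ k4eClose Bx (f j) (f j') (1 * R ^ (-ε))), k4ePair lam j j' Set.univ := by
      intro j
      conv_lhs => rw [← k4e_pair_marg lam j]
      rw [Measure.finsetSum_apply, hNb]
      exact (Finset.sum_filter_add_sum_filter_not _ _ _).symm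
    calc ∑ j, lam j Set.univ = ∑ j, ∑ j' ∈ Nb j, k4ePair lam j j' Set.univ + ∑ j, ∑ j' ∈ Finset.univ.filter (fun j' => ¬ k4eClose Bx (f j) (f j') (1 * R ^ (-ε))), k4ePair lam j j' Set.univ := by
          rw [← Finset.sum_add_distrib]
          exact Finset.sum_congr rfl fun j _ => e1 j
      _ ≤ ∑ j, lam j {x | j ∈ L x} + ENNReal.ofReal (mq / Lm) := add_le_add hL3 hbad
      _ ≤ _ := by
          refine add_le_add (Finset.sum_le_sum fun j _ => measure_mono fun x hx => ?_) le_rfl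
          exact Finset.mem_image.2 ⟨j, hx, rfl⟩

end

end Claimed.Agent.R252

/-!
# ROW 252 (S0492), unit S9d (sub-architect helper225), file 3: **ONE CHART `A`** over `Base/Pb`, `Base/Sys`.      CONTRACT file: the `sorry`s are the leaves `L-252-S9d-*`.

09-unbounded-narrowness.tex l.709-737, l.884-1096.   PAPER-FREE.
* §1 the data `k9dD YA c e Zs`: coordinates, measurability, bounds, mass identity with the original incidence measure (`k9d_mu_apply`; S9c uses it to pass from `k9_proj_cap` to `K9dIn.ecap`);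
* §2 the signal is determined by the observation `p_L` up to `4 Kp aL` (l.994-1000);
* §3 `k9d_chart_cover` (greedy coverage of one chart in original mass), `k9d_chart_marg` (9.31), `k9d_chart_post` (posterior lists of one chart);
* §4 `k9d_chart` : choice of the constants.   `δ = s ε/16`, fit `η = a N^δ`, bins `h = N^{-sε/2}`, losses `Lm = N^{2δ}`.
Black boxes from other units (cite even if sorried): `R252/Norm/{Coord,Quad,Mass}` (`k2n_*`), `S4E/Contract` (`k4e_*`), `S9/GeoContract`.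
Prove IN PLACE, statements verbatim, helper lemmas directly above (prefix `k9d_`).  Defect: one line to helper225.
-/

set_option autoImplicit false

namespace Claimed.Agent.R252

open MeasureTheory
open scoped ENNReal BigOperators Classical

noncomputable section

variable {P : K9P}

/-! ## §1 the projected data -/

theorem k9d_dot_lin (e a b : K9V) (t : ℝ) : k9dot e (a + t • b) = k9dot e a + t * k9dot e b := by
  unfold k9dot
  simp only [Pi.add_apply, Pi.smul_apply, smul_eq_mul]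
  ring

/-- **LEAF S9d-D1** (~30 l.).  `ζ` is affine in `τ` with slope `e·V` (`kbY`, `KbSys.tOf`, `k9dot`; `YA.q ≠ 0`: `KbSys.k2n_q_pos`). -/
theorem k9d_D_y (YA : KbSys P) (c : YA.C) (e : K9V) (Zs : ℝ) (l : P.Lam) (hl : l ∈ YA.A c) (τ : ℝ) :
    (k9dD YA c e Zs).y l τ = k9dZe YA c e Zs l τ := by
  have hq := YA.k2n_q_pos
  show (YA.A c).indicator (fun l => k9dZe YA c e Zs l 0) l
    + (YA.A c).indicator (fun l => k9dot e (kbV (P.co (YA.wd c) l))) l * τ = _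
  rw [Set.indicator_of_mem hl, Set.indicator_of_mem hl]
  have key : ∀ t : ℝ, k9dot e (kbY (P.co (YA.wd c) l) t)
      = k9dot e (P.co (YA.wd c) l).1 + t * k9dot e (kbV (P.co (YA.wd c) l)) := by
    intro t
    exact k9d_dot_lin e (P.co (YA.wd c) l).1 (P.co (YA.wd c) l).2.1 t
  unfold k9dZe
  rw [key, key]
  unfold KbSys.tOf
  field_simp
  ring

/-- **LEAF S9d-D1** (~40 l.).  `X` is a quadratic polynomial in `τ` (`k2n_X_poly` for `P.Pst`, `hP.Pst_adm`), so the interpolation at `0, ½, 1` is exact. -/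
theorem k9d_D_x (hP : P.WF) (YA : KbSys P) (c : YA.C) (e : K9V) (Zs : ℝ) (l : P.Lam) (hl : l ∈ YA.A c) (τ : ℝ) :
    (k9dD YA c e Zs).x l τ = k9dX YA c l τ := by
  obtain ⟨c0, c1, c2, hc⟩ := k2n_X_poly (hP.Pst_adm (YA.wd c)) (P.co (YA.wd c) l)
  show (YA.A c).indicator (fun l => k9dX YA c l 0) l
    + (YA.A c).indicator (fun l => -3 * k9dX YA c l 0 + 4 * k9dX YA c l (1 / 2) - k9dX YA c l 1) l * τ
    + (YA.A c).indicator (fun l => 2 * k9dX YA c l 0 - 4 * k9dX YA c l (1 / 2) + 2 * k9dX YA c l 1) l * τ ^ 2 = _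
  rw [Set.indicator_of_mem hl, Set.indicator_of_mem hl, Set.indicator_of_mem hl]
  unfold k9dX
  simp only [hc]
  unfold KbSys.tOf
  ring

theorem k9d_Y_meas (hP : P.WF) (γ : P.W) (t : ℝ) : Measurable fun l => kbY (P.co γ l) t := by
  have h := hP.co_meas γ
  unfold kbY
  exact h.fst.add (h.snd.fst.const_smul t)

theorem k9d_W_meas (hP : P.WF) (γ : P.W) (t : ℝ) : Measurable fun l => kbW (P.co γ l) t := by
  have h := hP.co_meas γ
  unfold kbW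
  refine Finset.measurable_sum _ fun i _ => ?_
  exact ((measurable_pi_apply i).comp h.snd.snd).mul_const _

theorem k9d_X_meas (hP : P.WF) (γ : P.W) (t : ℝ) : Measurable fun l => kbX (P.Pst γ) (P.co γ l) t := by
  have hc := (k2n_quad_cont (hP.Pst_adm γ).1).measurable
  have hm : Measurable fun l => ((t, kbY (P.co γ l) t, kbW (P.co γ l) t) : ℝ × KbB KbVer.two × ℝ) :=
    measurable_const.prodMk ((k9d_Y_meas hP γ t).prodMk (k9d_W_meas hP γ t))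
  exact hc.comp hm

theorem k9d_dot_meas (e : K9V) : Measurable (k9dot e) := by
  unfold k9dot
  fun_prop

/-- **LEAF S9d-D1** (~80 l.).  (`hP.co_meas`, `hY.A_meas`, `Measurable.indicator`; `l ↦ kbX T (P.co γ l) t` is measurable for quadratic `T`: `k2n_quad_cont` composed with the measurable map `l ↦ (t, kbY (co l) t, kbW (co l) t)`.) -/
theorem k9d_D_meas (hP : P.WF) (YA : KbSys P) (hY : YA.WF) (c : YA.C) (e : K9V) (Zs : ℝ) : Measurable (k9dD YA c e Zs).co := by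
  have hA := hY.A_meas c
  have hX : ∀ τ, Measurable fun l => k9dX YA c l τ := fun τ => k9d_X_meas hP _ _
  have h0 : Measurable (k9dD YA c e Zs).y0 := by
    refine Measurable.indicator ?_ hA
    unfold k9dZe
    exact (((k9d_dot_meas e).comp (k9d_Y_meas hP _ _)).sub_const _).div_const _
  have h1 : Measurable (k9dD YA c e Zs).y1 := by
    refine Measurable.indicator ?_ hA
    exact (k9d_dot_meas e).comp (hP.co_meas _).snd.fst
  have h2 : Measurable (k9dD YA c e Zs).x0 := Measurable.indicator (hX 0) hA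
  have h3 : Measurable (k9dD YA c e Zs).x1 :=
    Measurable.indicator ((((hX 0).const_mul (-3)).add ((hX (1 / 2)).const_mul 4)).sub (hX 1)) hA
  have h4 : Measurable (k9dD YA c e Zs).x2 :=
    Measurable.indicator ((((hX 0).const_mul 2).sub ((hX (1 / 2)).const_mul 4)).add ((hX 1).const_mul 2)) hA
  exact h0.prodMk (h1.prodMk (h2.prodMk (h3.prodMk h4)))

theorem k9d_tOf_mem (YA : KbSys P) (hY : YA.WF) (c : YA.C) (τ : ℝ) (h0 : 0 ≤ τ) (h1 : τ ≤ 1) :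
    YA.tOf c τ ∈ Set.Icc (0 : ℝ) 1 := by
  have hq := YA.k2n_q_pos
  have h2 : YA.q * 2 ^ YA.n = 1 := k2n_kbQ_mul_two_pow _
  have h3 : ((YA.iv c : ℝ) + 1) ≤ 2 ^ YA.n := by exact_mod_cast hY.iv_lt c
  have h4 : YA.tOf c τ = (YA.iv c : ℝ) * YA.q + YA.q * τ := rfl
  rw [h4]
  constructor
  · positivity
  · have : ((YA.iv c : ℝ) + 1) * YA.q ≤ 2 ^ YA.n * YA.q := mul_le_mul_of_nonneg_right h3 hq.le
    nlinarith

theorem k9d_dot_le (e V : K9V) (he : K9Unit e) : |k9dot e V| ≤ 2 * ‖V‖ := by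
  have h0 : |e 0| ≤ 1 := by
    rw [abs_le_one_iff_mul_self_le_one]; unfold K9Unit at he; nlinarith [sq_nonneg (e 1)]
  have h1 : |e 1| ≤ 1 := by
    rw [abs_le_one_iff_mul_self_le_one]; unfold K9Unit at he; nlinarith [sq_nonneg (e 0)]
  have v0 : |V 0| ≤ ‖V‖ := by rw [← Real.norm_eq_abs]; exact norm_le_pi_norm V 0
  have v1 : |V 1| ≤ ‖V‖ := by rw [← Real.norm_eq_abs]; exact norm_le_pi_norm V 1
  unfold k9dot
  calc |e 0 * V 0 + e 1 * V 1| ≤ |e 0 * V 0| + |e 1 * V 1| := abs_add_le _ _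
    _ = |e 0| * |V 0| + |e 1| * |V 1| := by rw [abs_mul, abs_mul]
    _ ≤ 1 * ‖V‖ + 1 * ‖V‖ := by
        gcongr
    _ = 2 * ‖V‖ := by ring

/-- **LEAF S9d-D2** (~120 l.).  Actual bounds of the five coefficients.  `|ζ(0)| ≤ Kp` (`tang` at `t = t_c ∈ I c`), `|e·V| ≤ 2 ‖V‖ ≤ 2 Kp` (`|e i| ≤ 1`), `|X| ≤ Kp` at `τ = 0, ½, 1` (`Ntv.sig`, `A c ⊆ Sp`, `tOf c τ ∈ [0,1]`: `k2n_tOf_mem_I`, `k2n_I_sub`; `τ = 1`: directly). -/
theorem k9d_D_bd (YA : KbSys P) (eZ : YA.C → K9V) (Zs : YA.C → ℝ) {N K Kp aL σ d a S1 u1 : ℝ} (hin : K9dIn P YA eZ Zs N K Kp aL σ d a S1 u1) (c : YA.C) (l : P.Lam) :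
    |(k9dD YA c (eZ c) (Zs c)).y0 l| ≤ 8 * Kp ∧ |(k9dD YA c (eZ c) (Zs c)).y1 l| ≤ 8 * Kp ∧ |(k9dD YA c (eZ c) (Zs c)).x0 l| ≤ 8 * Kp ∧
      |(k9dD YA c (eZ c) (Zs c)).x1 l| ≤ 8 * Kp ∧ |(k9dD YA c (eZ c) (Zs c)).x2 l| ≤ 8 * Kp := by
  have hK := hin.Kp_one
  have hq := YA.k2n_q_pos
  by_cases hl : l ∈ YA.A c
  · have hSp : l ∈ P.Sp (YA.wd c) := hin.wf.A_sub c hl
    have hX : ∀ τ : ℝ, 0 ≤ τ → τ ≤ 1 → |k9dX YA c l τ| ≤ Kp := fun τ h0 h1 =>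
      hin.ntv.sig _ l hSp _ (k9d_tOf_mem YA hin.wf c τ h0 h1)
    have X0 := hX 0 le_rfl zero_le_one
    have X2 := hX (1 / 2) (by norm_num) (by norm_num)
    have X1 := hX 1 zero_le_one le_rfl
    rw [abs_le] at X0 X1 X2
    have e0 : (k9dD YA c (eZ c) (Zs c)).y0 l = k9dZe YA c (eZ c) (Zs c) l 0 :=
      Set.indicator_of_mem hl (fun l => k9dZe YA c (eZ c) (Zs c) l 0)
    have e1 : (k9dD YA c (eZ c) (Zs c)).y1 l = k9dot (eZ c) (kbV (P.co (YA.wd c) l)) :=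
      Set.indicator_of_mem hl (fun l => k9dot (eZ c) (kbV (P.co (YA.wd c) l)))
    have e2 : (k9dD YA c (eZ c) (Zs c)).x0 l = k9dX YA c l 0 :=
      Set.indicator_of_mem hl (fun l => k9dX YA c l 0)
    have e3 : (k9dD YA c (eZ c) (Zs c)).x1 l = -3 * k9dX YA c l 0 + 4 * k9dX YA c l (1 / 2) - k9dX YA c l 1 :=
      Set.indicator_of_mem hl (fun l => -3 * k9dX YA c l 0 + 4 * k9dX YA c l (1 / 2) - k9dX YA c l 1)
    have e4 : (k9dD YA c (eZ c) (Zs c)).x2 l = 2 * k9dX YA c l 0 - 4 * k9dX YA c l (1 / 2) + 2 * k9dX YA c l 1 :=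
      Set.indicator_of_mem hl (fun l => 2 * k9dX YA c l 0 - 4 * k9dX YA c l (1 / 2) + 2 * k9dX YA c l 1)
    rw [e0, e1, e2, e3, e4]
    refine ⟨?_, ?_, ?_, ?_, ?_⟩
    · have hI : YA.tOf c 0 ∈ YA.I c := (YA.k2n_tOf_mem_I c 0).2 ⟨le_rfl, zero_lt_one⟩
      have ht := hin.tang c l hl _ hI
      unfold k9dZe
      rw [abs_div, abs_of_pos hq, div_le_iff₀ hq]
      nlinarith
    · have hb := hin.ntv.base _ l hSp 0 ⟨le_rfl, zero_le_one⟩
      have hn : 0 ≤ ‖kbY (P.co (YA.wd c) l) 0‖ := norm_nonneg _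
      have hV0 : ‖kbV (P.co (YA.wd c) l)‖ ≤ Kp := by linarith
      obtain ⟨V, hVd⟩ : ∃ V : K9V, V = kbV (P.co (YA.wd c) l) := ⟨_, rfl⟩
      rw [← hVd]
      have hV : ‖V‖ ≤ Kp := by rw [hVd]; exact hV0
      have hd := k9d_dot_le (eZ c) V (hin.unit c)
      linarith
    · rw [abs_le]; constructor <;> linarith
    · rw [abs_le]; constructor <;> linarith
    · rw [abs_le]; constructor <;> linarith
  · have e0 : (k9dD YA c (eZ c) (Zs c)).y0 l = 0 :=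
      Set.indicator_of_notMem hl (fun l => k9dZe YA c (eZ c) (Zs c) l 0)
    have e1 : (k9dD YA c (eZ c) (Zs c)).y1 l = 0 :=
      Set.indicator_of_notMem hl (fun l => k9dot (eZ c) (kbV (P.co (YA.wd c) l)))
    have e2 : (k9dD YA c (eZ c) (Zs c)).x0 l = 0 :=
      Set.indicator_of_notMem hl (fun l => k9dX YA c l 0)
    have e3 : (k9dD YA c (eZ c) (Zs c)).x1 l = 0 :=
      Set.indicator_of_notMem hl (fun l => -3 * k9dX YA c l 0 + 4 * k9dX YA c l (1 / 2) - k9dX YA c l 1)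
    have e4 : (k9dD YA c (eZ c) (Zs c)).x2 l = 0 :=
      Set.indicator_of_notMem hl (fun l => 2 * k9dX YA c l 0 - 4 * k9dX YA c l (1 / 2) + 2 * k9dX YA c l 1)
    rw [e0, e1, e2, e3, e4, abs_zero]
    have : 0 ≤ 8 * Kp := by linarith
    exact ⟨this, this, this, this, this⟩

/-- (`k2n_nu_prob`: the prior is that of the world `c` of `YA.norm 1`, by `rfl`.) -/
theorem k9d_D_prob (hP : P.WF) (YA : KbSys P) (c : YA.C) (e : K9V) (Zs : ℝ) (hν : YA.nuC c ≠ 0) : IsProbabilityMeasure (k9dD YA c e Zs).nu :=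
  KbSys.k2n_nu_prob YA hP 1 c hν

/-- **LEAF S9d-D1** (~30 l.).  (`ν_c = 0`: the measure is `∞ • 0 = 0`; else `k9d_D_prob`.) -/
theorem k9d_D_nu_le (hP : P.WF) (YA : KbSys P) (c : YA.C) (e : K9V) (Zs : ℝ) : (k9dD YA c e Zs).nu Set.univ ≤ 1 := by
  show ((YA.nuC c)⁻¹ • (P.nu (YA.wd c)).restrict (YA.A c)) Set.univ ≤ 1
  rw [Measure.smul_apply, smul_eq_mul, Measure.restrict_apply MeasurableSet.univ, Set.univ_inter]
  exact ENNReal.inv_mul_le_one _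

theorem k9d_D_dom (YA : KbSys P) (c : YA.C) (e : K9V) (Zs : ℝ) : (k9dD YA c e Zs).mu ≤ (k9dD YA c e Zs).nu.prod k7aTm :=
  Measure.restrict_le_self

/-- **LEAF S9d-D3** (~80 l.).  **Mass identity** (9.20): `μ_γ|_{S c} = q ν_c · (T_A⁻¹)_* λ_A`.
PROOF.  `(k9dD YA c e Zs).mu = (YA.norm 1).mu c` by `rfl` (`KbPb.mu`, `KbPb.tm`, `k7aTm`, `KbSys.norm`); `{z | (z.1, tOf c z.2) ∈ U} = YA.incOf c ⁻¹' U`; `k2n_mu_norm_apply`.   `q ν_c ≠ ∞` (`k2n_nuC_ne_top`); if `ν_c = 0` both sides vanish (`k2n_mC_le`). -/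
theorem k9d_mu_apply (hP : P.WF) (YA : KbSys P) (hY : YA.WF) (c : YA.C) (e : K9V) (Zs : ℝ) (U : Set (P.Lam × ℝ)) (hU : MeasurableSet U) :
    P.mu (YA.wd c) (YA.S c ∩ U) = ENNReal.ofReal YA.q * YA.nuC c * (k9dD YA c e Zs).mu {z | (z.1, YA.tOf c z.2) ∈ U} := by
  have h1 := YA.k2n_mu_norm_apply hP hY 1 c U hU
  have h2 : (k9dD YA c e Zs).mu {z | (z.1, YA.tOf c z.2) ∈ U} = (YA.norm 1).mu c (YA.incOf c ⁻¹' U) := rfl
  rw [h2, h1, Set.inter_comm]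
  by_cases hν : YA.nuC c = 0
  · have h3 : P.mu (YA.wd c) (U ∩ YA.S c) = 0 := by
      have h4 : P.mu (YA.wd c) (U ∩ YA.S c) ≤ YA.mC c := measure_mono Set.inter_subset_right
      have h5 := YA.k2n_mC_le hP hY c
      rw [hν, mul_zero] at h5
      exact nonpos_iff_eq_zero.1 (h4.trans h5)
    rw [h3, hν]; simp
  · have hq0 : ENNReal.ofReal YA.q * YA.nuC c ≠ 0 := mul_ne_zero YA.k2n_q_ne_zero hν
    have hqt : ENNReal.ofReal YA.q * YA.nuC c ≠ ∞ := ENNReal.mul_ne_top ENNReal.ofReal_ne_top (YA.k2n_nuC_ne_top hP c)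
    rw [← mul_assoc, ENNReal.mul_inv_cancel hq0 hqt, one_mul]

/-- **LEAF S9d-D3** (~40 l.).  The exact base of the data is the projection of the exact base of `P` (`k9d_D_y`, `k2n_tauOf_tOf`). -/
theorem k9d_D_bs (YA : KbSys P) (c : YA.C) (e : K9V) (Zs : ℝ) (z : P.Lam × ℝ) (hz : z.1 ∈ YA.A c) :
    (k9dD YA c e Zs).bs z = k9dPr YA c e Zs (P.bs (YA.wd c) (z.1, YA.tOf c z.2)) := by
  have h1 : (YA.tOf c z.2 - YA.tc c) / YA.q = z.2 := YA.k2n_tauOf_tOf c z.2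
  show (z.2, (k9dD YA c e Zs).y z.1 z.2) = ((YA.tOf c z.2 - YA.tc c) / YA.q, _)
  rw [h1, k9d_D_y YA c e Zs z.1 hz]
  rfl

/-! ## §2 the signal and the observation -/

/-- the value of the signal read off from the observation: `P_*` at the lower end of the hidden bin -/
def k9dOm (P : K9P) (aL : ℝ) (γ : P.W) (o : (ℝ × K9V) × ℤ) : ℝ := P.Pst γ o.1.1 o.1.2 ((o.2 : ℝ) * kbDy (aL / P.B γ))

theorem k9d_dy_bounds {x : ℝ} (hx : 0 < x) : 0 < kbDy x ∧ kbDy x < 2 * x := by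
  have h2 : (0 : ℝ) < 2 := by norm_num
  have h21 : (1 : ℝ) < 2 := by norm_num
  have hL : (2 : ℝ) ^ Real.logb 2 x = x := Real.rpow_logb h2 (by norm_num) hx
  have e : kbDy x = (2 : ℝ) ^ ((⌈Real.logb 2 x⌉ : ℤ) : ℝ) := by
    unfold kbDy
    rw [Real.rpow_intCast]
  rw [e]
  constructor
  · positivity
  · calc (2 : ℝ) ^ ((⌈Real.logb 2 x⌉ : ℤ) : ℝ) < (2 : ℝ) ^ (Real.logb 2 x + 1) :=
          Real.rpow_lt_rpow_of_exponent_lt h21 (Int.ceil_lt_add_one _)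
      _ = 2 * x := by rw [Real.rpow_add h2, hL, Real.rpow_one, mul_comm]

theorem k9d_taylor (T : KbTest KbVer.two) (hT : KbIsQuad T) (t : ℝ) (y : KbB KbVer.two) (w w₀ : ℝ) :
    T t y w - T t y w₀ = kbDw T t y w * (w - w₀) - kbDww T t y w * (w - w₀) ^ 2 / 2 := by
  obtain ⟨Q, hQ⟩ := hT
  have hTQ : T = Q.ev := by
    funext t y w
    exact hQ t y w
  subst hTQ
  rw [k2n_Dw_ev, k2n_Dww_ev]
  unfold KbQuad.ev
  ring

/-- **LEAF S9d-OBS** (~150 l.; l.994-1000).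
PROOF.  `w = P.hw γ x`, `w₀ = ⌊w / D⌋ D`, `D = kbDy (aL/B) ∈ [aL/B, 2 aL/B)` (`kbDy`: `x ≤ 2^⌈log₂ x⌉ < 2x`), so `0 ≤ w - w₀ < 2 aL/B`.   For a quadratic `T = Q.ev`: `T t y w₀ = T t y w - kbDw T t y w (w - w₀) + kbDww T t y w (w - w₀)²/2`
(`k2n_Dw_ev`, `k2n_Dww_ev`, `ring`).   `|kbDw| ≤ Kp B` (`Ntv.dw`; `x ∈ Ev ⊆ Sp ×ˢ [0,1]`), `|kbDww| ≤ Kp B²`: error `≤ 2 Kp aL + 2 Kp aL² ≤ 4 Kp aL`. -/
theorem k9d_sig_obs (hP : P.WF) {Kp aL : ℝ} (hK : 1 ≤ Kp) (haL : 0 < aL) (haL1 : aL ≤ 1) (hN : P.Ntv Kp) (γ : P.W) (x : P.Lam × ℝ) (hx : x ∈ P.Ev γ) :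
    |P.sig γ x - k9dOm P aL γ (k9dObs P aL γ x)| ≤ 4 * Kp * aL := by
  obtain ⟨hl, ht⟩ := hP.Ev_sub γ hx
  have hB := hP.B_pos γ
  obtain ⟨hD0, hD2⟩ := k9d_dy_bounds (div_pos haL hB)
  set D := kbDy (aL / P.B γ) with hD
  set w := P.hw γ x with hw
  set w₀ := ((⌊w / D⌋ : ℤ) : ℝ) * D with hw0
  have h1 : w₀ ≤ w := by
    have := Int.floor_le (w / D)
    rw [le_div_iff₀ hD0] at this
    exact this
  have h2 : w < w₀ + D := by
    have := Int.lt_floor_add_one (w / D)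
    rw [div_lt_iff₀ hD0] at this
    rw [hw0]
    linarith
  have e : P.sig γ x - k9dOm P aL γ (k9dObs P aL γ x)
      = P.Pst γ x.2 (kbY (P.co γ x.1) x.2) w - P.Pst γ x.2 (kbY (P.co γ x.1) x.2) w₀ := rfl
  rw [e, k9d_taylor _ (hP.Pst_adm γ).1]
  have h3 : |kbDw (P.Pst γ) x.2 (kbY (P.co γ x.1) x.2) w| ≤ Kp * P.B γ := hN.dw γ x.1 hl x.2 ht
  have h4 := hN.dww γ x.2 (kbY (P.co γ x.1) x.2) w
  set A := kbDw (P.Pst γ) x.2 (kbY (P.co γ x.1) x.2) w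
  set C := kbDww (P.Pst γ) x.2 (kbY (P.co γ x.1) x.2) w
  set δ := w - w₀ with hδ
  have hδ0 : 0 ≤ δ := by linarith
  have hδ1 : δ < 2 * (aL / P.B γ) := by linarith
  have hu0 : 0 ≤ P.B γ * δ := mul_nonneg hB.le hδ0
  have hu : P.B γ * δ ≤ 2 * aL := by
    have h5 : P.B γ * δ ≤ P.B γ * (2 * (aL / P.B γ)) := mul_le_mul_of_nonneg_left hδ1.le hB.le
    have h6 : P.B γ * (2 * (aL / P.B γ)) = 2 * aL := by field_simp
    linarith
  have h7 : |A * δ| ≤ Kp * (P.B γ * δ) := by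
    rw [abs_mul, abs_of_nonneg hδ0]
    calc |A| * δ ≤ Kp * P.B γ * δ := mul_le_mul_of_nonneg_right h3 hδ0
      _ = _ := by ring
  have h8 : |C * δ ^ 2 / 2| ≤ Kp * (P.B γ * δ) ^ 2 / 2 := by
    rw [abs_div, abs_mul, abs_of_nonneg (sq_nonneg δ), abs_of_pos (by norm_num : (0 : ℝ) < 2)]
    have : |C| * δ ^ 2 ≤ Kp * P.B γ ^ 2 * δ ^ 2 := mul_le_mul_of_nonneg_right h4 (sq_nonneg _)
    have e2 : Kp * (P.B γ * δ) ^ 2 = Kp * P.B γ ^ 2 * δ ^ 2 := by ring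
    rw [e2]
    linarith
  have h9 : (P.B γ * δ) ^ 2 ≤ 4 * aL := by nlinarith
  have hK0 : 0 ≤ Kp := by linarith
  calc |A * δ - C * δ ^ 2 / 2| ≤ |A * δ| + |C * δ ^ 2 / 2| := abs_sub _ _
    _ ≤ Kp * (P.B γ * δ) + Kp * (P.B γ * δ) ^ 2 / 2 := add_le_add h7 h8
    _ ≤ Kp * (2 * aL) + Kp * (4 * aL) / 2 := by
      have i1 := mul_le_mul_of_nonneg_left hu hK0
      have i2 := mul_le_mul_of_nonneg_left h9 hK0
      linarith
    _ = 4 * Kp * aL := by ring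

/-- **LEAF S9d-OBS** (~40 l.; `measurable_from_prod_countable_left/right` for the discrete factor `ℤ`, `k2n_quad_cont`). -/
theorem k9d_om_meas (hP : P.WF) (aL : ℝ) (γ : P.W) : Measurable (k9dOm P aL γ) := by
  have h1 := (k2n_quad_cont (hP.Pst_adm γ).1).measurable
  have h2 : Measurable fun o : (ℝ × K9V) × ℤ => ((o.2 : ℤ) : ℝ) := (Measurable.of_discrete (f := fun z : ℤ => (z : ℝ))).comp measurable_snd
  have h3 : Measurable fun o : (ℝ × K9V) × ℤ => ((o.1.1, o.1.2, ((o.2 : ℤ) : ℝ) * kbDy (aL / P.B γ)) : ℝ × KbB KbVer.two × ℝ) :=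
    measurable_fst.fst.prodMk (measurable_fst.snd.prodMk (h2.mul_const _))
  exact h1.comp h3

/-- **LEAF S9d-OBS** (~60 l.; `hP.co_meas`; `kbBin` is a floor of a measurable function). -/
theorem k9d_obs_meas (hP : P.WF) (aL : ℝ) (γ : P.W) : Measurable (k9dObs P aL γ) := by
  have h := hP.co_meas γ
  unfold k9dObs KbPb.bs KbPb.hid KbPb.hw kbBin kbY kbW
  fun_prop

/-! ## §3 one chart -/

theorem k9d_fitU_meas {Λ : Type} [MeasurableSpace Λ] (D : K7aData Λ) (hD : Measurable D.co) (η : ℝ) (ts : List (Fin 6 → ℝ)) :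
    MeasurableSet (⋃ e ∈ ts, k9dFitS D η e) :=
  MeasurableSet.biUnion (List.finite_toSet ts).countable fun e _ => k9d_fit_meas D hD η e

/-- **LEAF S9d-CCOV** (~200 l.).  Greedy coverage of one chart, in original mass.  `hcov` = the conclusion of `k9d_cover` at this `N` (for all data), passed as a hypothesis.
PROOF.  `ν_c = 0`: `ts = []`, `mC c ≤ q ν_c = 0` (`k2n_mC_le`).   Else apply `hcov` to `D = k9dD YA c (eZ c) (Zs c)`: `k9d_D_prob`, `k9d_D_meas`, `k9d_D_bd` + `h8`, `k9d_D_dom`, `k9d_cap_of_ecap`, `k9d_ang_of_eang` (`k9d_D_nu_le`), `hin.supp`.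
Then `k9d_mu_apply` with `U = (⋃ …)ᶜ ×ˢ univ` (measurable: `k9d_fit_meas`). -/
theorem k9d_chart_cover (YA : KbSys P) (eZ : YA.C → K9V) (Zs : YA.C → ℝ) {N K Kp aL σ d a S1 u1 : ℝ} (hin : K9dIn P YA eZ Zs N K Kp aL σ d a S1 u1) (hσ : 0 < σ)
    (h8 : 8 * Kp ≤ K) (B η κ L : ℝ)
    (hcov : ∀ D : K7aData P.Lam, IsProbabilityMeasure D.nu → Measurable D.co →
      (∀ l, |D.y0 l| ≤ K ∧ |D.y1 l| ≤ K ∧ |D.x0 l| ≤ K ∧ |D.x1 l| ≤ K ∧ |D.x2 l| ≤ K) → D.mu ≤ D.nu.prod k7aTm →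
      D.Cap K σ 1 d a → D.Supp K σ 1 d a → D.Ang K σ 1 d a N S1 u1 →
      ∃ ts : List (Fin 6 → ℝ), (∀ e ∈ ts, ∀ i, |e i| ≤ B) ∧ (ts.length : ℝ) ≤ L ∧ D.mu ((⋃ e ∈ ts, k9dFitS D η e)ᶜ ×ˢ Set.univ) ≤ ENNReal.ofReal κ)
    (hL : 0 ≤ L) (c : YA.C) :
    ∃ ts : List (Fin 6 → ℝ), (∀ e ∈ ts, ∀ i, |e i| ≤ B) ∧ (ts.length : ℝ) ≤ L ∧
      P.mu (YA.wd c) (YA.S c ∩ ((⋃ e ∈ ts, k9dFitS (k9dD YA c (eZ c) (Zs c)) η e)ᶜ ×ˢ Set.univ)) ≤ ENNReal.ofReal κ * (ENNReal.ofReal YA.q * YA.nuC c) := by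
  have hK0 : 0 ≤ K := by
    have := hin.Kp_one
    linarith
  by_cases hν : YA.nuC c = 0
  · refine ⟨[], by simp, by simpa using hL, ?_⟩
    have h1 : YA.mC c ≤ ENNReal.ofReal YA.q * YA.nuC c := YA.k2n_mC_le hin.pwf hin.wf c
    rw [hν, mul_zero] at h1
    rw [hν, mul_zero, mul_zero]
    exact le_trans (measure_mono Set.inter_subset_left) h1
  · have hνle := k9d_D_nu_le hin.pwf YA c (eZ c) (Zs c)
    have hDm := k9d_D_meas hin.pwf YA hin.wf c (eZ c) (Zs c)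
    obtain ⟨ts, h1, h2, h3⟩ := hcov (k9dD YA c (eZ c) (Zs c)) (k9d_D_prob hin.pwf YA c _ _ hν) hDm
      (fun l => by
        obtain ⟨b1, b2, b3, b4, b5⟩ := k9d_D_bd YA eZ Zs hin c l
        exact ⟨b1.trans h8, b2.trans h8, b3.trans h8, b4.trans h8, b5.trans h8⟩)
      (k9d_D_dom YA c _ _) (k9d_cap_of_ecap _ hνle hσ hK0 (hin.ecap c)) (hin.supp c)
      (k9d_ang_of_eang _ hνle hσ hK0 (hin.eang c))
    refine ⟨ts, h1, h2, ?_⟩
    rw [k9d_mu_apply hin.pwf YA hin.wf c (eZ c) (Zs c) _ ((k9d_fitU_meas _ hDm η ts).compl.prod MeasurableSet.univ)]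
    rw [mul_comm (ENNReal.ofReal κ)]
    gcongr
    exact h3

/-- the projected base as a point of `Fin 2 → ℝ` -/
def k9dBp (YA : KbSys P) (c : YA.C) (e : K9V) (Zs : ℝ) (o : (ℝ × K9V) × ℤ) : Fin 2 → ℝ := ![(k9dPr YA c e Zs o.1).1, (k9dPr YA c e Zs o.1).2]

/-- the law of the observation on the incidences of the chart `c` assigned to the `j`-th test -/
def k9dLam (YA : KbSys P) (c : YA.C) (e : K9V) (Zs aL η : ℝ) (ts : List (Fin 6 → ℝ)) (j : Fin ts.length) : Measure ((ℝ × K9V) × ℤ) :=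
  ((P.mu (YA.wd c)).restrict (YA.S c ∩ (k9dFirst (k9dD YA c e Zs) η ts j ×ˢ Set.univ))).map (k9dObs P aL (YA.wd c))

theorem k9d_bp_meas (YA : KbSys P) (c : YA.C) (e : K9V) (Zs : ℝ) : Measurable (k9dBp YA c e Zs) := by
  unfold k9dBp k9dPr k9dot
  refine measurable_pi_iff.2 fun i => ?_
  fin_cases i
  · simp only [Fin.zero_eta, Matrix.cons_val_zero]
    fun_prop
  · simp only [Fin.mk_one, Matrix.cons_val_one, Matrix.cons_val_zero]
    fun_prop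

/-- monotonicity of the active measure of the projected data modulo its support -/
theorem k9d_D_mu_mono (YA : KbSys P) (hY : YA.WF) (c : YA.C) (e : K9V) (Zs : ℝ) (W W' : Set (P.Lam × ℝ))
    (h : ∀ z ∈ W, (z.1, YA.tOf c z.2) ∈ YA.S c → z ∈ W') : (k9dD YA c e Zs).mu W ≤ (k9dD YA c e Zs).mu W' := by
  have hE' : MeasurableSet {z : P.Lam × ℝ | (z.1, YA.tOf c z.2) ∈ YA.S c} := (YA.k2n_inc_meas c) (hY.S_meas c)
  show (Measure.restrict _ _) W ≤ (Measure.restrict _ _) W'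
  rw [Measure.restrict_apply' hE', Measure.restrict_apply' hE']
  exact measure_mono fun z hz => ⟨h z hz.1 hz.2, hz.2⟩

theorem k9d_vol_two (T : Set (Fin 2 → ℝ)) (hT : MeasurableSet T) :
    volume {p : ℝ × ℝ | ![p.1, p.2] ∈ T} = volume T :=
  (MeasureTheory.volume_preserving_finTwoArrow ℝ).symm.measure_preimage hT.nullMeasurableSet

/-- **LEAF S9d-CMARG** (~250 l.; (9.31)).  Index-base marginal of one test.
PROOF.  For measurable `T ⊆ Fin 2 → ℝ` : `((k9dLam …).map bp) T = μ_γ (S c ∩ First j ×ˢ univ ∩ {x | bp (obs x) ∈ T})` (`Measure.map_apply`, `k9d_obs_meas`, measurability of `k9dBp`).   `k9d_mu_apply` turns it into `q ν_c · D.mu {z | z.1 ∈ First j ∧ …}`;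
`D.mu`-a.e. `z.1 ∈ A c`, `z.2 ∈ [0,1)` (support), there `D.bs z = k9dPr …` (`k9d_D_bs`) and `z.1 ∈ First j ⊆ k9dFitS D η (ts.get j)` gives `|D.x - F(D.bs z)| ≤ η`; `k9d_graph_cap` with `B' = {p : ℝ × ℝ | ![p.1, p.2] ∈ T ∩ closedBall 0 Kp}`;
`volume B' = volume (T ∩ closedBall 0 Kp)` (`MeasureTheory.volume_preserving_finTwoArrow`).   The base lies in `closedBall 0 Kp`: `τ ∈ [0,1)`, `|ζ| ≤ Kp` (`hin.tang`). -/
theorem k9d_chart_marg (YA : KbSys P) (eZ : YA.C → K9V) (Zs : YA.C → ℝ) {N K Kp aL σ d a S1 u1 : ℝ} (hin : K9dIn P YA eZ Zs N K Kp aL σ d a S1 u1)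
    (ha : 0 < a) (ha1 : a ≤ 1) (η : ℝ) (hη : 0 ≤ η) (c : YA.C) (ts : List (Fin 6 → ℝ)) (j : Fin ts.length) :
    (k9dLam YA c (eZ c) (Zs c) aL η ts j).map (k9dBp YA c (eZ c) (Zs c))
      ≤ (ENNReal.ofReal (K * a ^ d * (2 * η / a + 3)) * (ENNReal.ofReal YA.q * YA.nuC c)) • volume.restrict (Metric.closedBall (0 : Fin 2 → ℝ) Kp) := by
  have hK0 : 0 ≤ K := by
    have h1 := hin.Kp_one
    have h2 := hin.Kp_le
    linarith
  have hDm := k9d_D_meas hin.pwf YA hin.wf c (eZ c) (Zs c)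
  have hFm : MeasurableSet (k9dFirst (k9dD YA c (eZ c) (Zs c)) η ts j) := k9d_first_meas _ hDm η ts j
  have hobs := k9d_obs_meas hin.pwf aL (YA.wd c)
  have hbp := k9d_bp_meas YA c (eZ c) (Zs c)
  refine Measure.le_iff.2 fun T hT => ?_
  rw [Measure.map_apply hbp hT]
  unfold k9dLam
  rw [Measure.map_apply hobs (hbp hT), Measure.restrict_apply (hobs (hbp hT))]
  set U : Set (P.Lam × ℝ) := (k9dFirst (k9dD YA c (eZ c) (Zs c)) η ts j ×ˢ Set.univ)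
    ∩ (k9dObs P aL (YA.wd c) ⁻¹' (k9dBp YA c (eZ c) (Zs c) ⁻¹' T)) with hU
  have hUm : MeasurableSet U := (hFm.prod MeasurableSet.univ).inter (hobs (hbp hT))
  have e1 : k9dObs P aL (YA.wd c) ⁻¹' (k9dBp YA c (eZ c) (Zs c) ⁻¹' T)
      ∩ (YA.S c ∩ k9dFirst (k9dD YA c (eZ c) (Zs c)) η ts j ×ˢ Set.univ) = YA.S c ∩ U := by
    rw [hU]
    ext x
    simp only [Set.mem_inter_iff]
    tauto
  rw [e1, k9d_mu_apply hin.pwf YA hin.wf c (eZ c) (Zs c) U hUm]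
  have hTB : MeasurableSet (T ∩ Metric.closedBall (0 : Fin 2 → ℝ) Kp) := hT.inter Metric.isClosed_closedBall.measurableSet
  have hB'm : MeasurableSet {p : ℝ × ℝ | ![p.1, p.2] ∈ T ∩ Metric.closedBall (0 : Fin 2 → ℝ) Kp} :=
    (MeasurableEquiv.finTwoArrow (α := ℝ)).symm.measurable hTB
  have h2 := k9d_graph_cap (k9dD YA c (eZ c) (Zs c)) (k9d_D_nu_le hin.pwf YA c (eZ c) (Zs c)) ha ha1 hK0 hη (hin.ecap c)
    (ts.get j) _ hB'm
  rw [k9d_vol_two _ hTB] at h2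
  have h3 : (k9dD YA c (eZ c) (Zs c)).mu {z | (z.1, YA.tOf c z.2) ∈ U}
      ≤ (k9dD YA c (eZ c) (Zs c)).mu {z | (k9dD YA c (eZ c) (Zs c)).bs z ∈ {p : ℝ × ℝ | ![p.1, p.2] ∈ T ∩ Metric.closedBall (0 : Fin 2 → ℝ) Kp}
        ∧ |(k9dD YA c (eZ c) (Zs c)).x z.1 z.2 - k9dF (ts.get j) ((k9dD YA c (eZ c) (Zs c)).bs z).1 ((k9dD YA c (eZ c) (Zs c)).bs z).2| ≤ η} := by
    refine k9d_D_mu_mono YA hin.wf c _ _ _ _ fun z hz hzS => ?_
    have hs := hin.wf.S_sub c hzS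
    have hzA : z.1 ∈ YA.A c := hs.2.1
    have hzI : YA.tOf c z.2 ∈ YA.I c := hs.2.2
    have hz2 : z.2 ∈ Set.Ico (0 : ℝ) 1 := (YA.k2n_tOf_mem_I c z.2).1 hzI
    have hbs := k9d_D_bs YA c (eZ c) (Zs c) z hzA
    have hzT : k9dBp YA c (eZ c) (Zs c) (k9dObs P aL (YA.wd c) (z.1, YA.tOf c z.2)) ∈ T := hz.2
    have e2 : k9dBp YA c (eZ c) (Zs c) (k9dObs P aL (YA.wd c) (z.1, YA.tOf c z.2))
        = ![((k9dD YA c (eZ c) (Zs c)).bs z).1, ((k9dD YA c (eZ c) (Zs c)).bs z).2] := by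
      rw [hbs]
      rfl
    rw [e2] at hzT
    refine ⟨⟨hzT, ?_⟩, ?_⟩
    · rw [mem_closedBall_zero_iff, pi_norm_le_iff_of_nonneg (by linarith [hin.Kp_one])]
      intro i
      fin_cases i
      · show ‖z.2‖ ≤ Kp
        rw [Real.norm_eq_abs, abs_of_nonneg hz2.1]
        linarith [hz2.2, hin.Kp_one]
      · show ‖(k9dD YA c (eZ c) (Zs c)).y z.1 z.2‖ ≤ Kp
        rw [k9d_D_y YA c _ _ z.1 hzA z.2, Real.norm_eq_abs]
        unfold k9dZe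
        rw [abs_div, abs_of_pos YA.k2n_q_pos, div_le_iff₀ YA.k2n_q_pos]
        exact hin.tang c z.1 hzA _ hzI
    · exact hz.1.1.1 z.2 ⟨hz2.1, hz2.2.le⟩
  rw [Measure.smul_apply, Measure.restrict_apply hT, smul_eq_mul]
  calc ENNReal.ofReal YA.q * YA.nuC c * (k9dD YA c (eZ c) (Zs c)).mu {z | (z.1, YA.tOf c z.2) ∈ U}
      ≤ ENNReal.ofReal YA.q * YA.nuC c * (ENNReal.ofReal (K * a ^ d * (2 * η / a + 3)) * volume (T ∩ Metric.closedBall (0 : Fin 2 → ℝ) Kp)) := by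
        gcongr
        exact h3.trans h2
    _ = _ := by ring

theorem k9d_mu_fin (hP : P.WF) (γ : P.W) : IsFiniteMeasure (P.mu γ) := by
  have := hP.prob γ
  unfold KbPb.mu KbPb.tm
  infer_instance

/-- the fit of the assigned test and the observed signal, at one incidence -/
theorem k9d_ev_point (YA : KbSys P) (eZ : YA.C → K9V) (Zs : YA.C → ℝ) {N K Kp aL σ d a S1 u1 : ℝ}
    (hin : K9dIn P YA eZ Zs N K Kp aL σ d a S1 u1) (ha1 : a ≤ 1) (η : ℝ) (c : YA.C) (ts : List (Fin 6 → ℝ)) (j : Fin ts.length)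
    (x : P.Lam × ℝ) (hxS : x ∈ YA.S c) (hxF : x.1 ∈ k9dFirst (k9dD YA c (eZ c) (Zs c)) η ts j) :
    |k9dF (ts.get j) (k9dBp YA c (eZ c) (Zs c) (k9dObs P aL (YA.wd c) x) 0) (k9dBp YA c (eZ c) (Zs c) (k9dObs P aL (YA.wd c) x) 1)
      - k9dOm P aL (YA.wd c) (k9dObs P aL (YA.wd c) x)| ≤ η + 4 * Kp * a := by
  have hs := hin.wf.S_sub c hxS
  have hlA : x.1 ∈ YA.A c := hs.2.1
  have ht : x.2 ∈ YA.I c := hs.2.2
  set τ := YA.tauOf c x.2 with hτ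
  have htt : YA.tOf c τ = x.2 := YA.k2n_tOf_tauOf c x.2
  have hτI : τ ∈ Set.Ico (0 : ℝ) 1 := (YA.k2n_tOf_mem_I c τ).1 (by rw [htt]; exact ht)
  have h1 := hxF.1 τ ⟨hτI.1, hτI.2.le⟩
  rw [k9d_D_x hin.pwf YA c _ _ x.1 hlA τ, k9d_D_y YA c _ _ x.1 hlA τ] at h1
  unfold k9dX k9dZe at h1
  rw [htt] at h1
  have h2 := k9d_sig_obs hin.pwf hin.Kp_one hin.aL_pos (hin.aL_le.trans ha1) hin.ntv (YA.wd c) x hs.1
  have h3 : 4 * Kp * aL ≤ 4 * Kp * a := mul_le_mul_of_nonneg_left hin.aL_le (by linarith [hin.Kp_one])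
  have e0 : k9dBp YA c (eZ c) (Zs c) (k9dObs P aL (YA.wd c) x) 0 = τ := rfl
  have e1 : k9dBp YA c (eZ c) (Zs c) (k9dObs P aL (YA.wd c) x) 1
      = (k9dot (eZ c) (kbY (P.co (YA.wd c) x.1) x.2) - Zs c) / YA.q := rfl
  rw [e0, e1]
  have e2 : P.sig (YA.wd c) x = kbX (P.Pst (YA.wd c)) (P.co (YA.wd c) x.1) x.2 := rfl
  rw [e2] at h2
  rw [abs_sub_comm] at h1
  calc _ ≤ |k9dF (ts.get j) τ ((k9dot (eZ c) (kbY (P.co (YA.wd c) x.1) x.2) - Zs c) / YA.q) - kbX (P.Pst (YA.wd c)) (P.co (YA.wd c) x.1) x.2|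
        + |kbX (P.Pst (YA.wd c)) (P.co (YA.wd c) x.1) x.2 - k9dOm P aL (YA.wd c) (k9dObs P aL (YA.wd c) x)| := abs_sub_le _ _ _
    _ ≤ η + 4 * Kp * a := add_le_add h1 (h2.trans h3)

/-- **LEAF S9d-CPOST** (~300 l.; l.975-1096 for one chart).  `B = N^δ`, `a = R⁻¹`.
PROOF.  `k9d_post hub` with `X = (ℝ × K9V) × ℤ`, `n = ts.length`, `lam = k9dLam …` (finite: `P.mu γ` is finite), `bp = k9dBp …`, `om = k9dOm P aL γ`, `es = ts.get`, `r = Kp`, `mq = q (ν_c).toReal`.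
`hcard`: `hlen`, `B ≤ Lm`.   `hnorm`: `k9d_F_le` (`6 B Kp² ≤ Lm`).   `hmarg`: `k9d_chart_marg` with `η = a B`: `K a^d (2B + 3) ≤ Lm a^d / (2 Kp)²` since `20 B K Kp² ≤ Lm`; `a^d = R^{-d}`.
`hev`: on `S c ∩ First j ×ˢ univ`: `|X - F(τ,ζ)| ≤ a B` (fit at `τ = tauOf c t ∈ [0,1)`; `k9d_D_x`, `k9d_D_y`), `|X - om| ≤ 4 Kp aL ≤ 4 Kp a` (`k9d_sig_obs`), `B + 4 Kp ≤ Lm/2`; `ae_map_iff` (`k9d_om_meas`, `k9d_F_meas`) + `ae_restrict_of_forall_mem`.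
Mass: `∑_j lam j univ = μ_γ (S c ∩ (⋃ First) ×ˢ univ)` (disjoint: `k9d_first_disj`, `k9d_first_union`), `∑_j lam j {bin j ∈ Ls} = μ_γ (k9dSucc …)` likewise. -/
theorem k9d_chart_post {d ε R : ℝ} (hub : K4eMatch 2 d ε R) (YA : KbSys P) (eZ : YA.C → K9V) (Zs : YA.C → ℝ) {N K Kp aL σ a S1 u1 : ℝ}
    (hin : K9dIn P YA eZ Zs N K Kp aL σ d a S1 u1) (ha : a = R⁻¹) (hR : 1 ≤ R) (hε : 0 < ε) (B Lm h : ℝ) (hB : 1 ≤ B) (hLm : 20 * B * K ^ 3 ≤ Lm)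
    (hLR : Lm ^ 3 ≤ R ^ ε) (hh : 2 * R ^ (-ε) ≤ h) (c : YA.C) (ts : List (Fin 6 → ℝ)) (hts : ∀ e ∈ ts, ∀ i, |e i| ≤ B) (hlen : (ts.length : ℝ) ≤ B * R ^ d) :
    ∃ Ls : (ℝ × K9V) × ℤ → Finset (Fin 6 → ℤ), (∀ o, (Ls o).card ≤ 5 ^ 6) ∧ (∀ b, MeasurableSet {o | b ∈ Ls o}) ∧
      P.mu (YA.wd c) (YA.S c ∩ ((⋃ e ∈ ts, k9dFitS (k9dD YA c (eZ c) (Zs c)) (a * B) e) ×ˢ Set.univ))
        ≤ P.mu (YA.wd c) (k9dSucc YA eZ Zs aL (a * B) h ts Ls c) + ENNReal.ofReal (1 / Lm) * (ENNReal.ofReal YA.q * YA.nuC c) := by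
  have hK1 := hin.Kp_one
  have hKK := hin.Kp_le
  have hK : 1 ≤ K := hK1.trans hKK
  have hR0 : 0 < R := by linarith
  have ha0 : 0 < a := by rw [ha]; exact inv_pos.2 hR0
  have ha1 : a ≤ 1 := by rw [ha]; exact inv_le_one_of_one_le₀ hR
  have hB0 : 0 ≤ B := by linarith
  have hK2 : 1 ≤ K ^ 2 := by nlinarith
  have hK3 : K ^ 2 ≤ K ^ 3 := by nlinarith
  have hBK : B ≤ B * K ^ 3 := by nlinarith
  have hBKK : B * K ≤ B * K ^ 3 := by
    have : K ≤ K ^ 3 := by nlinarith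
    exact mul_le_mul_of_nonneg_left this hB0
  have hLm1 : 1 ≤ Lm := by nlinarith
  have hBLm : B ≤ Lm := by nlinarith
  have hLm0 : 0 < Lm := by linarith
  have := k9d_mu_fin hin.pwf (YA.wd c)
  have hDm := k9d_D_meas hin.pwf YA hin.wf c (eZ c) (Zs c)
  have hFm : ∀ j, MeasurableSet (k9dFirst (k9dD YA c (eZ c) (Zs c)) (a * B) ts j) := fun j => k9d_first_meas _ hDm _ ts j
  have hobs := k9d_obs_meas hin.pwf aL (YA.wd c)
  have hbp := k9d_bp_meas YA c (eZ c) (Zs c)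
  have hSm := hin.wf.S_meas c
  have hνt : YA.nuC c ≠ ∞ := YA.k2n_nuC_ne_top hin.pwf c
  have hq : 0 < YA.q := YA.k2n_q_pos
  have hmqe : ENNReal.ofReal (YA.q * (YA.nuC c).toReal) = ENNReal.ofReal YA.q * YA.nuC c := by
    rw [ENNReal.ofReal_mul hq.le, ENNReal.ofReal_toReal hνt]
  have hmq0 : 0 ≤ YA.q * (YA.nuC c).toReal := mul_nonneg hq.le ENNReal.toReal_nonneg
  have : ∀ j, IsFiniteMeasure (k9dLam YA c (eZ c) (Zs c) aL (a * B) ts j) := fun j => by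
    unfold k9dLam
    infer_instance
  have hRd : 0 < R ^ d := Real.rpow_pos_of_pos hR0 d
  have had : a ^ d = R ^ (-d) := by rw [ha, Real.inv_rpow hR0.le, Real.rpow_neg hR0.le]
  obtain ⟨Ls, hL1, hL2, hL3⟩ := k9d_post hub ts.length (fun j => k9dLam YA c (eZ c) (Zs c) aL (a * B) ts j)
    (k9dBp YA c (eZ c) (Zs c)) hbp (k9dOm P aL (YA.wd c)) ts.get Kp Lm (YA.q * (YA.nuC c).toReal) h hK1 hR hε hLm1 hLR hmq0 hh
    (hlen.trans (mul_le_mul_of_nonneg_right hBLm hRd.le))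
    (by
      intro j u hu
      rw [mem_closedBall_zero_iff] at hu
      have hu0 : |u 0| ≤ Kp := (norm_le_pi_norm u 0).trans hu
      have hu1 : |u 1| ≤ Kp := (norm_le_pi_norm u 1).trans hu
      refine (k9d_F_le (ts.get j) B Kp (u 0) (u 1) hK1 (hts _ (List.get_mem _ _)) hu0 hu1).trans ?_
      have h1 : Kp ^ 2 ≤ K ^ 2 := by nlinarith
      have h2 : B * Kp ^ 2 ≤ B * K ^ 3 := mul_le_mul_of_nonneg_left (h1.trans hK3) hB0
      nlinarith)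
    (by
      intro j
      refine (k9d_chart_marg YA eZ Zs hin ha0 ha1 (a * B) (mul_nonneg ha0.le hB0) c ts j).trans ?_
      rw [← hmqe, ← ENNReal.ofReal_mul (by positivity)]
      refine Measure.le_iff.2 fun T _ => ?_
      rw [Measure.smul_apply, Measure.smul_apply]
      refine mul_le_mul_left ?_ _
      refine ENNReal.ofReal_le_ofReal ?_
      have e1 : 2 * (a * B) / a + 3 = 2 * B + 3 := by field_simp
      rw [e1, had]
      have hRn : 0 < R ^ (-d) := Real.rpow_pos_of_pos hR0 _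
      have h1 : K * (2 * B + 3) ≤ Lm / (2 * Kp) ^ 2 := by
        rw [le_div_iff₀ (by positivity)]
        have h2 : Kp ^ 2 ≤ K ^ 2 := by nlinarith
        have h3 : K * (2 * B + 3) * (2 * Kp) ^ 2 = 4 * (K * Kp ^ 2) * (2 * B + 3) := by ring
        have h4 : K * Kp ^ 2 ≤ K ^ 3 := by nlinarith
        have h5 : 2 * B + 3 ≤ 5 * B := by linarith
        have h6 : 4 * (K * Kp ^ 2) * (2 * B + 3) ≤ 4 * K ^ 3 * (5 * B) := by
          apply mul_le_mul (by linarith) h5 (by linarith) (by positivity)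
        rw [h3]
        nlinarith
      calc K * R ^ (-d) * (2 * B + 3) * (YA.q * (YA.nuC c).toReal)
          = (K * (2 * B + 3)) * (R ^ (-d) * (YA.q * (YA.nuC c).toReal)) := by ring
        _ ≤ (Lm / (2 * Kp) ^ 2) * (R ^ (-d) * (YA.q * (YA.nuC c).toReal)) :=
          mul_le_mul_of_nonneg_right h1 (mul_nonneg hRn.le hmq0)
        _ = _ := by ring)
    (by
      intro j
      unfold k9dLam
      have hms : MeasurableSet {x : (ℝ × K9V) × ℤ | |k9dF (ts.get j) (k9dBp YA c (eZ c) (Zs c) x 0) (k9dBp YA c (eZ c) (Zs c) x 1)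
          - k9dOm P aL (YA.wd c) x| ≤ R⁻¹ * Lm / 2} := by
        have m1 : Measurable fun x : (ℝ × K9V) × ℤ => k9dF (ts.get j) (k9dBp YA c (eZ c) (Zs c) x 0) (k9dBp YA c (eZ c) (Zs c) x 1) :=
          (k9d_F_meas (ts.get j)).comp hbp
        have m2 := k9d_om_meas hin.pwf aL (YA.wd c)
        exact measurableSet_le ((m1.sub m2).abs) measurable_const
      rw [ae_map_iff hobs.aemeasurable hms]
      refine ae_restrict_of_forall_mem (hSm.inter ((hFm j).prod MeasurableSet.univ)) fun x hx => ?_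
      refine (k9d_ev_point YA eZ Zs hin ha1 (a * B) c ts j x hx.1 hx.2.1).trans ?_
      rw [← ha]
      have h1 : B + 4 * Kp ≤ Lm / 2 := by
        have h2 : Kp ≤ B * K := by nlinarith
        nlinarith
      calc a * B + 4 * Kp * a = a * (B + 4 * Kp) := by ring
        _ ≤ a * (Lm / 2) := mul_le_mul_of_nonneg_left h1 ha0.le
        _ = a * Lm / 2 := by ring)
  refine ⟨Ls, hL1, hL2, ?_⟩
  have hlam : ∀ (j : Fin ts.length) (W : Set ((ℝ × K9V) × ℤ)), MeasurableSet W → k9dLam YA c (eZ c) (Zs c) aL (a * B) ts j W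
      = P.mu (YA.wd c) (k9dObs P aL (YA.wd c) ⁻¹' W ∩ (YA.S c ∩ k9dFirst (k9dD YA c (eZ c) (Zs c)) (a * B) ts j ×ˢ Set.univ)) := by
    intro j W hW
    unfold k9dLam
    rw [Measure.map_apply hobs hW, Measure.restrict_apply (hobs hW)]
  have hleft : P.mu (YA.wd c) (YA.S c ∩ ((⋃ e ∈ ts, k9dFitS (k9dD YA c (eZ c) (Zs c)) (a * B) e) ×ˢ Set.univ))
      ≤ ∑ j, k9dLam YA c (eZ c) (Zs c) aL (a * B) ts j Set.univ := by
    rw [← k9d_first_union]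
    have hsub : YA.S c ∩ ((⋃ j, k9dFirst (k9dD YA c (eZ c) (Zs c)) (a * B) ts j) ×ˢ Set.univ)
        ⊆ ⋃ j ∈ (Finset.univ : Finset (Fin ts.length)), (k9dObs P aL (YA.wd c) ⁻¹' Set.univ
          ∩ (YA.S c ∩ k9dFirst (k9dD YA c (eZ c) (Zs c)) (a * B) ts j ×ˢ Set.univ)) := by
      intro x hx
      obtain ⟨j, hj⟩ := Set.mem_iUnion.1 hx.2.1
      simp only [Set.mem_iUnion, exists_prop]
      exact ⟨j, Finset.mem_univ _, Set.mem_univ _, hx.1, hj, Set.mem_univ _⟩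
    refine (measure_mono hsub).trans ((measure_biUnion_finset_le _ _).trans ?_)
    exact Finset.sum_le_sum fun j _ => (hlam j Set.univ MeasurableSet.univ).ge
  have hright : ∑ j, k9dLam YA c (eZ c) (Zs c) aL (a * B) ts j {x | k4eBin h (ts.get j) ∈ Ls x}
      ≤ P.mu (YA.wd c) (k9dSucc YA eZ Zs aL (a * B) h ts Ls c) := by
    have e1 : ∀ j : Fin ts.length, k9dLam YA c (eZ c) (Zs c) aL (a * B) ts j {x | k4eBin h (ts.get j) ∈ Ls x}
        = P.mu (YA.wd c) (k9dObs P aL (YA.wd c) ⁻¹' {x | k4eBin h (ts.get j) ∈ Ls x}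
          ∩ (YA.S c ∩ k9dFirst (k9dD YA c (eZ c) (Zs c)) (a * B) ts j ×ˢ Set.univ)) := fun j => hlam j _ (hL2 _)
    simp_rw [e1]
    rw [← measure_biUnion_finset]
    · refine measure_mono fun x hx => ?_
      simp only [Set.mem_iUnion, exists_prop] at hx
      obtain ⟨j, _, hj1, hj2, hj3⟩ := hx
      exact ⟨hj2, j, hj3.1, hj1⟩
    · intro j _ j' _ hjj
      rw [Function.onFun, Set.disjoint_left]
      intro x hx hx'
      exact Set.disjoint_left.1 (k9d_first_disj _ _ ts j j' hjj) hx.2.2.1 hx'.2.2.1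
    · intro j _
      exact (hobs (hL2 _)).inter (hSm.inter ((hFm j).prod MeasurableSet.univ))
  have hlast : ENNReal.ofReal (YA.q * (YA.nuC c).toReal / Lm) = ENNReal.ofReal (1 / Lm) * (ENNReal.ofReal YA.q * YA.nuC c) := by
    rw [← hmqe, ← ENNReal.ofReal_mul (by positivity)]
    congr 1
    ring
  rw [← hlast]
  exact hleft.trans (hL3.trans (add_le_add hright le_rfl))

/-! ## §4 the constants -/

/-- **LEAF S9d-MONO** (~100 l.).  The entry is monotone in the diagonal slack (`Kp_le`, `big`, `ecap`, `eang`, `supp`; `ENNReal.ofReal_le_ofReal`, `mul_le_mul_right'`; `p ^ d ≥ 0` for `p ≥ a > 0`; `k9d_supp_mono`). -/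
theorem k9d_in_mono (YA : KbSys P) (eZ : YA.C → K9V) (Zs : YA.C → ℝ) {N K K' Kp aL σ d a S1 u1 : ℝ} (hK : K ≤ K') (ha : 0 < a) (hN : 0 < N)
    (hin : K9dIn P YA eZ Zs N K Kp aL σ d a S1 u1) : K9dIn P YA eZ Zs N K' Kp aL σ d a S1 u1 := by
  refine { hin with
    Kp_le := hin.Kp_le.trans hK
    big := hin.big.trans (mul_le_mul_left (ENNReal.ofReal_le_ofReal hK) _)
    ecap := ?_
    eang := ?_
    supp := fun c => k9d_supp_mono _ hK (hin.supp c) }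
  · intro c γ B p xs hB hap hp1
    refine (hin.ecap c γ B p xs hB hap hp1).trans ?_
    have hp0 : 0 ≤ p ^ d := Real.rpow_nonneg (lt_of_lt_of_le ha hap).le d
    refine mul_le_mul_left (mul_le_mul_left (ENNReal.ofReal_le_ofReal ?_) _) _
    exact mul_le_mul_of_nonneg_right (mul_le_mul_of_nonneg_right hK zero_le_one) hp0
  · intro c γ B xs vs u hB hu hu1
    refine (hin.eang c γ B xs vs u hB hu hu1).trans ?_
    have hp0 : 0 ≤ a ^ d := Real.rpow_nonneg ha.le d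
    have hn0 : 0 ≤ N ^ (-(S1 * u)) := Real.rpow_nonneg hN.le _
    refine mul_le_mul_left (mul_le_mul_left (ENNReal.ofReal_le_ofReal ?_) _) _
    exact mul_le_mul_of_nonneg_right (mul_le_mul_of_nonneg_right (mul_le_mul_of_nonneg_right hK zero_le_one) hp0) hn0

theorem k9d_large (A t N : ℝ) (hA : 0 ≤ A) (ht : 0 < t) (hN : A ^ (1 / t) ≤ N) : A ≤ N ^ t := by
  have h5 : (A ^ (1 / t)) ^ t ≤ N ^ t := Real.rpow_le_rpow (Real.rpow_nonneg hA _) hN ht.le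
  rw [← Real.rpow_mul hA, one_div, inv_mul_cancel₀ ht.ne', Real.rpow_one] at h5
  exact h5

/-- **LEAF S9d-CHART** (~250 l.).  One chart, all constants chosen.
PROOF.  `δ := s ε/16`.  `k9d_cover hT s M d S1 u1 δ` gives `τ₀, N₀`; `hub` gives `R0`.   `τ := min (τ₀/2) (δ/4)`.   `N1` so large that `N ≥ 2`, `N ≥ N₀`, `N^s ≥ R0`, `8 N^τ ≤ N^{τ₀}`, `20 N^{δ + 3τ} ≤ N^{2δ}`, `2 N^{-sε} ≤ N^{-sε/2}`.
`K9dIn` with slack `N^τ` gives `K9dIn` with slack `N^{τ₀}` (only `Kp_le`, `big`, `ecap`, `eang`, `supp` change; monotone in `K`).   `k9d_chart_cover` (`K = N^{τ₀}`, `B = N^δ`, `η = a N^δ`, `κ = N^{-τ₀} ≤ N^{-2τ}`, `L = N^δ N^{sd}`), then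
`k9d_chart_post` (`R = N^s`, `a = N^{-s} = R⁻¹`, `K = N^τ`, `Lm = N^{2δ}`, `Lm³ = N^{6δ} ≤ N^{sε} = R^ε`, `h = N^{-sε/2}`, `1/Lm ≤ N^{-2τ}`, `R^d = N^{sd}`).   `mC c = μ(S c ∩ U ×ˢ univ) + μ(S c ∩ Uᶜ ×ˢ univ)`.   `N^δ N^{sd} ≤ N²`. -/
theorem k9d_chart (hT : k7a_T71a) (s M d S1 u1 ε : ℝ) (hs : 0 < s) (hs1 : s < 1) (hsM : s < M) (hd : d < 1) (hS1 : 0 < S1) (hu1 : 0 < u1) (hε : 0 < ε) (hε1 : ε ≤ 1)
    (hub : ∃ R0 : ℝ, ∀ R : ℝ, R0 ≤ R → K4eMatch 2 d ε R) :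
    ∃ τ : ℝ, 0 < τ ∧ ∃ N1 : ℝ, ∀ N : ℝ, N1 ≤ N → ∀ (P : K9P) (YA : KbSys P) (eZ : YA.C → K9V) (Zs : YA.C → ℝ) (Kp aL σ : ℝ) (m : ℕ), σ = (1 / 2 : ℝ) ^ m →
      N ^ (-M - τ) ≤ σ → σ ≤ N ^ (-M + τ) → K9dIn P YA eZ Zs N (N ^ τ) Kp aL σ d (N ^ (-s)) S1 u1 → ∀ c : YA.C,
      ∃ (ts : List (Fin 6 → ℝ)) (Ls : (ℝ × K9V) × ℤ → Finset (Fin 6 → ℤ)), (ts.length : ℝ) ≤ N ^ (2 : ℝ) ∧ (∀ o, (Ls o).card ≤ 5 ^ 6) ∧
        (∀ b, MeasurableSet {o | b ∈ Ls o}) ∧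
        YA.mC c ≤ P.mu (YA.wd c) (k9dSucc YA eZ Zs aL (N ^ (-s) * N ^ (s * ε / 16)) (N ^ (-(s * ε / 2))) ts Ls c)
          + ENNReal.ofReal (2 * N ^ (-(2 * τ))) * (ENNReal.ofReal YA.q * YA.nuC c) := by
  have hsε : 0 < s * ε := mul_pos hs hε
  have hsε1 : s * ε ≤ s := by nlinarith
  obtain ⟨δ, hδdef⟩ : ∃ δ : ℝ, δ = s * ε / 16 := ⟨_, rfl⟩
  have hδ : 0 < δ := by rw [hδdef]; positivity
  obtain ⟨τ₀, hτ₀, N₀, hN₀⟩ := k9d_cover hT s M d S1 u1 δ hs hsM hd hS1 hu1 hδ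
  obtain ⟨R0, hR0⟩ := hub
  obtain ⟨τ, hτdef⟩ : ∃ τ : ℝ, τ = min (τ₀ / 2) (δ / 4) := ⟨_, rfl⟩
  have hτ : 0 < τ := by rw [hτdef]; exact lt_min (by positivity) (by positivity)
  have hτ1 : τ ≤ τ₀ / 2 := by rw [hτdef]; exact min_le_left _ _
  have hτ2 : τ ≤ δ / 4 := by rw [hτdef]; exact min_le_right _ _
  refine ⟨τ, hτ, max 2 (max N₀ (max (|R0| ^ (1 / s)) (max ((8 : ℝ) ^ (1 / (τ₀ / 2))) (max ((20 : ℝ) ^ (1 / (δ / 4)))
    ((2 : ℝ) ^ (1 / (s * ε / 2))))))), ?_⟩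
  intro N hN P YA eZ Zs Kp aL σ m hσ hlo hhi hin c
  have hN2 : 2 ≤ N := le_trans (le_max_left _ _) hN
  have hN' := le_trans (le_max_right _ _) hN
  have hNN₀ : N₀ ≤ N := le_trans (le_max_left _ _) hN'
  have hN'' := le_trans (le_max_right _ _) hN'
  have hNR : |R0| ^ (1 / s) ≤ N := le_trans (le_max_left _ _) hN''
  have hN3 := le_trans (le_max_right _ _) hN''
  have hN8 : (8 : ℝ) ^ (1 / (τ₀ / 2)) ≤ N := le_trans (le_max_left _ _) hN3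
  have hN4 := le_trans (le_max_right _ _) hN3
  have hN20 : (20 : ℝ) ^ (1 / (δ / 4)) ≤ N := le_trans (le_max_left _ _) hN4
  have hN2' : (2 : ℝ) ^ (1 / (s * ε / 2)) ≤ N := le_trans (le_max_right _ _) hN4
  have hN0 : 0 < N := by linarith
  have hN1 : 1 ≤ N := by linarith
  have mono : ∀ x y : ℝ, x ≤ y → N ^ x ≤ N ^ y := fun x y h => Real.rpow_le_rpow_of_exponent_le hN1 h
  have pos : ∀ x : ℝ, 0 < N ^ x := fun x => Real.rpow_pos_of_pos hN0 x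
  have hRR : R0 ≤ N ^ s := (le_abs_self R0).trans (k9d_large _ _ _ (abs_nonneg _) hs hNR)
  have h8 : 8 ≤ N ^ (τ₀ / 2) := k9d_large _ _ _ (by norm_num) (by positivity) hN8
  have h20 : 20 ≤ N ^ (δ / 4) := k9d_large _ _ _ (by norm_num) (by positivity) hN20
  have h2 : 2 ≤ N ^ (s * ε / 2) := k9d_large _ _ _ (by norm_num) (by positivity) hN2'
  have hσ0 : 0 < σ := by rw [hσ]; positivity
  have hττ₀ : N ^ τ ≤ N ^ τ₀ := mono _ _ (by linarith)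
  have hin₀ := k9d_in_mono YA eZ Zs hττ₀ (pos (-s)) hN0 hin
  have h8K : 8 * Kp ≤ N ^ τ₀ := by
    have e1 : N ^ τ₀ = N ^ (τ₀ / 2) * N ^ (τ₀ / 2) := by rw [← Real.rpow_add hN0]; congr 1; ring
    have e2 : N ^ τ ≤ N ^ (τ₀ / 2) := mono _ _ hτ1
    have e3 := hin.Kp_le
    rw [e1]
    calc 8 * Kp ≤ 8 * N ^ (τ₀ / 2) := by linarith
      _ ≤ N ^ (τ₀ / 2) * N ^ (τ₀ / 2) := mul_le_mul_of_nonneg_right h8 (pos _).le
  obtain ⟨ts, ht1, ht2, ht3⟩ := k9d_chart_cover YA eZ Zs hin₀ hσ0 h8K (N ^ δ) (N ^ (-s) * N ^ δ) (N ^ (-τ₀)) (N ^ δ * N ^ (s * d))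
    (fun D g1 g2 g3 g4 g5 g6 g7 => hN₀ N hNN₀ P.Lam D σ m hσ ((mono _ _ (by linarith)).trans hlo) (hhi.trans (mono _ _ (by linarith)))
      g1 g2 g3 g4 g5 g6 g7) (mul_pos (pos _) (pos _)).le c
  have hRs : (1 : ℝ) ≤ N ^ s := Real.one_le_rpow hN1 hs.le
  obtain ⟨Ls, hL1, hL2, hL3⟩ := k9d_chart_post (hR0 (N ^ s) hRR) YA eZ Zs hin (Real.rpow_neg hN0.le s) hRs hε (N ^ δ) (N ^ (2 * δ))
    (N ^ (-(s * ε / 2))) (Real.one_le_rpow hN1 hδ.le)
    (by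
      have e1 : (N ^ τ) ^ 3 = N ^ (3 * τ) := by
        rw [← Real.rpow_natCast, ← Real.rpow_mul hN0.le]
        congr 1
        push_cast
        ring
      have e2 : N ^ (2 * δ) = N ^ (δ / 4) * (N ^ δ * N ^ (3 * (δ / 4))) := by
        rw [← Real.rpow_add hN0, ← Real.rpow_add hN0]
        congr 1
        ring
      have e3 : N ^ (3 * τ) ≤ N ^ (3 * (δ / 4)) := mono _ _ (by linarith)
      rw [e1, e2]
      calc 20 * N ^ δ * N ^ (3 * τ) = 20 * (N ^ δ * N ^ (3 * τ)) := by ring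
        _ ≤ N ^ (δ / 4) * (N ^ δ * N ^ (3 * (δ / 4))) :=
          mul_le_mul h20 (mul_le_mul_of_nonneg_left e3 (pos _).le) (mul_pos (pos _) (pos _)).le (pos _).le)
    (by
      have e1 : (N ^ (2 * δ)) ^ 3 = N ^ (6 * δ) := by
        rw [← Real.rpow_natCast, ← Real.rpow_mul hN0.le]
        congr 1
        push_cast
        ring
      rw [e1, ← Real.rpow_mul hN0.le]
      exact mono _ _ (by rw [hδdef]; linarith))
    (by
      rw [← Real.rpow_mul hN0.le]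
      have e1 : N ^ (-(s * ε / 2)) = N ^ (s * ε / 2) * N ^ (s * -ε) := by
        rw [← Real.rpow_add hN0]
        congr 1
        ring
      rw [e1]
      exact mul_le_mul_of_nonneg_right h2 (pos _).le)
    c ts ht1 (by rw [← Real.rpow_mul hN0.le]; exact ht2)
  rw [hδdef] at hL3
  refine ⟨ts, Ls, ?_, hL1, hL2, ?_⟩
  · refine ht2.trans ?_
    rw [← Real.rpow_add hN0]
    refine mono _ _ ?_
    have e1 : s * d ≤ s := by nlinarith
    rw [hδdef]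
    linarith
  · rw [hδdef] at ht3
    set U := ⋃ e ∈ ts, k9dFitS (k9dD YA c (eZ c) (Zs c)) (N ^ (-s) * N ^ (s * ε / 16)) e with hU
    have hsplit : YA.mC c ≤ P.mu (YA.wd c) (YA.S c ∩ U ×ˢ Set.univ) + P.mu (YA.wd c) (YA.S c ∩ Uᶜ ×ˢ Set.univ) := by
      refine le_trans (measure_mono ?_) (measure_union_le _ _)
      intro x hx
      by_cases hxU : x.1 ∈ U
      · exact Or.inl ⟨hx, hxU, Set.mem_univ _⟩
      · exact Or.inr ⟨hx, hxU, Set.mem_univ _⟩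
    have hc1 : ENNReal.ofReal (1 / N ^ (2 * (s * ε / 16))) + ENNReal.ofReal (N ^ (-τ₀)) ≤ ENNReal.ofReal (2 * N ^ (-(2 * τ))) := by
      rw [← ENNReal.ofReal_add (by positivity) (pos _).le]
      refine ENNReal.ofReal_le_ofReal ?_
      have e1 : 1 / N ^ (2 * (s * ε / 16)) = N ^ (-(2 * (s * ε / 16))) := by rw [Real.rpow_neg hN0.le, one_div]
      have e2 : N ^ (-(2 * (s * ε / 16))) ≤ N ^ (-(2 * τ)) := mono _ _ (by rw [hδdef] at hτ2; linarith)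
      have e3 : N ^ (-τ₀) ≤ N ^ (-(2 * τ)) := mono _ _ (by linarith)
      rw [e1]
      linarith
    calc YA.mC c ≤ P.mu (YA.wd c) (YA.S c ∩ U ×ˢ Set.univ) + P.mu (YA.wd c) (YA.S c ∩ Uᶜ ×ˢ Set.univ) := hsplit
      _ ≤ (P.mu (YA.wd c) (k9dSucc YA eZ Zs aL (N ^ (-s) * N ^ (s * ε / 16)) (N ^ (-(s * ε / 2))) ts Ls c)
            + ENNReal.ofReal (1 / N ^ (2 * (s * ε / 16))) * (ENNReal.ofReal YA.q * YA.nuC c))
          + ENNReal.ofReal (N ^ (-τ₀)) * (ENNReal.ofReal YA.q * YA.nuC c) := add_le_add hL3 ht3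
      _ = P.mu (YA.wd c) (k9dSucc YA eZ Zs aL (N ^ (-s) * N ^ (s * ε / 16)) (N ^ (-(s * ε / 2))) ts Ls c)
          + (ENNReal.ofReal (1 / N ^ (2 * (s * ε / 16))) + ENNReal.ofReal (N ^ (-τ₀))) * (ENNReal.ofReal YA.q * YA.nuC c) := by ring
      _ ≤ _ := by gcongr

end

end Claimed.Agent.R252

/-!
# ROW 252 (S0492), unit S9d (sub-architect helper225), file 4: **THE OUTPUT ATLAS AND THE EXIT OF S9d**.      CONTRACT file: the `sorry`s are the leaves `L-252-S9d-*`.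

09-unbounded-narrowness.tex l.1098-1185 (the new test and its actual bounds; assignments and lists).   PAPER-FREE.
In the measurable model of `Base` (selections = arbitrary measurable sets, `Known` = measurable list function on the selected incidences) `a03:actual-lists` is NOT needed: the posterior lists are the list function, the analytical masks stay in the selection `S`.
* `k9d_sys_wf`, `k9d_sys_geo`, `k9d_sys_known`, `k9d_sys_tmp`, `k9d_sys_mass` : the five properties of `k9dSys` for ARBITRARY tables `T : K9dTab YA`;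
* **`k9d_core`** = EXIT of S9d: at every late sample with the entry `K9dIn` (diagonal slack `N^τ`, actual slack `Kp`) there is a known atlas at depth `c' = s ε/2`, SAME time partition, ACTUAL slack `7 Kp²`, ACTUAL lists `5⁶ Kp`, complexity `Q N²`,
  covering at least half of the prepared mass.   Consumer: the guard of S9b (`¬ Adm`).
ORDER OF CONSTANTS: `s = s₁, M, d, S₁, u₁` fixed; `ε` = tolerance of Cor 3.4 for `d` (n = 2, quadratic graphs); then `c' = s ε/2`; then `τ, N1` (they do NOT depend on `i`, `Kp`, `Q`).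
-/

set_option autoImplicit false

namespace Claimed.Agent.R252

open MeasureTheory
open scoped ENNReal BigOperators Classical

noncomputable section

variable {P : K9P}

/-- **LEAF S9d-QUAD** (~100 l.).  The new test is a quadratic polynomial.
PROOF.  `hT` gives `Q`; subtract from `Q` the coefficients of `(t, y) ↦ k9dF f ((t - tc)/q) ((k9dot e y - Zs)/q)` : with `α = 1/q`, `τ = α t - α tc`, `ζ = α (e 0 y 0 + e 1 y 1) - α Zs` expand; `cyy = f5 α² e eᵀ`, `cty = f4 α² e`, … ; check with `Fin.sum_univ_two`, `Matrix.mulVec`, `dotProduct`, `ring`.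
(Alternatively `k2n_quad_add` + an explicit `KbQuad` for the subtracted term.) -/
theorem k9d_new_quad (T : KbTest KbVer.two) (hT : KbIsQuad T) (f : Fin 6 → ℝ) (e : K9V) (tc q Zs : ℝ) :
    KbIsQuad fun t y w => T t y w - k9dF f ((t - tc) / q) ((k9dot e y - Zs) / q) := by
  obtain ⟨Q, hQ⟩ := hT
  refine ⟨{ c0 := Q.c0 - (f 0 + f 1 * (-(q⁻¹ * tc)) + f 2 * (-(q⁻¹ * Zs)) + f 3 * (q⁻¹ * tc) ^ 2 + f 4 * (q⁻¹ * tc) * (q⁻¹ * Zs)
              + f 5 * (q⁻¹ * Zs) ^ 2)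
            ct := Q.ct - (f 1 * q⁻¹ - 2 * f 3 * q⁻¹ * (q⁻¹ * tc) - f 4 * q⁻¹ * (q⁻¹ * Zs))
            cy := fun i => Q.cy i - (f 2 * q⁻¹ - f 4 * (q⁻¹ * tc) * q⁻¹ - 2 * f 5 * q⁻¹ * (q⁻¹ * Zs)) * e i
            cw := Q.cw
            ctt := Q.ctt - f 3 * q⁻¹ ^ 2
            cty := fun i => Q.cty i - f 4 * q⁻¹ ^ 2 * e i
            ctw := Q.ctw
            cyy := fun i k => Q.cyy i k - f 5 * q⁻¹ ^ 2 * e i * e k
            cyw := Q.cyw
            cww := Q.cww }, ?_⟩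
  intro t y w
  simp only [hQ]
  simp only [KbQuad.ev, dotProduct, Matrix.mulVec, k2n_sum_j_two, k9dF, k9dot, div_eq_mul_inv]
  ring

theorem k9d_new_dw (YA : KbSys P) (eZ : YA.C → K9V) (Zs : YA.C → ℝ) (h : ℝ) (c : YA.C) (b : Fin 6 → ℤ) :
    kbDw (k9dNew YA eZ Zs h c b) = kbDw (P.Pst (YA.wd c)) := by
  funext t y w
  simp only [kbDw, k9dNew]
  ring

theorem k9d_new_dww (YA : KbSys P) (eZ : YA.C → K9V) (Zs : YA.C → ℝ) (h : ℝ) (c : YA.C) (b : Fin 6 → ℤ) :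
    kbDww (k9dNew YA eZ Zs h c b) = kbDww (P.Pst (YA.wd c)) := by
  funext t y w
  simp only [kbDww, k9dNew]
  ring

section Sys

variable (YA : KbSys P) (eZ : YA.C → K9V) (Zs : YA.C → ℝ) {N K Kp aL σ d a S1 u1 : ℝ}

theorem k9d_asg_meas (hin : K9dIn P YA eZ Zs N K Kp aL σ d a S1 u1) (η h : ℝ) (T : K9dTab YA) (c : YA.C) (b : Fin 6 → ℤ) :
    MeasurableSet (k9dAsg YA eZ Zs η h T c b) :=
  (hin.wf.A_meas c).inter (MeasurableSet.iUnion fun j => MeasurableSet.iUnion fun _ =>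
    k9d_first_meas _ (k9d_D_meas hin.pwf YA hin.wf c _ _) η _ j)

theorem k9d_asg_disj (η h : ℝ) (T : K9dTab YA) (c : YA.C) (b b' : Fin 6 → ℤ) (hb : b ≠ b') :
    Disjoint (k9dAsg YA eZ Zs η h T c b) (k9dAsg YA eZ Zs η h T c b') := by
  rw [Set.disjoint_left]
  intro l hl hl'
  obtain ⟨j, hj⟩ := Set.mem_iUnion.1 hl.2
  obtain ⟨hjb, hj⟩ := Set.mem_iUnion.1 hj
  obtain ⟨j', hj'⟩ := Set.mem_iUnion.1 hl'.2
  obtain ⟨hjb', hj'⟩ := Set.mem_iUnion.1 hj'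
  have hne : j ≠ j' := by
    rintro rfl
    exact hb (hjb.symm.trans hjb')
  exact Set.disjoint_left.1 (k9d_first_disj _ η _ j j' hne) hj hj'

/-- **LEAF S9d-WF** (~200 l.).
`iv_lt`, `inv` : from `hin.wf`.   `A_meas`: `k9d_first_meas` (`k9d_D_meas`), finite unions.   `A_sub`: `k9dAsg ⊆ YA.A c ⊆ Sp`.   `A_disj`: labels `(c,b) ≠ (c',b')`; `c ≠ c'`: `hin.wf.A_disj`; `c = c'`, `b ≠ b'`: `k9d_first_disj` (the first index is unique).
`S_meas`: `hin.wf.S_meas`, `A_meas`, `k9d_obs_meas` + `hLs`.   `S_sub`: `YA.S c ⊆ Ev ∩ A c ×ˢ I c`.   `adm`: `k9d_new_quad` (`hin.pwf.Pst_adm`); the clause `v = one` is void. -/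
theorem k9d_sys_wf (hin : K9dIn P YA eZ Zs N K Kp aL σ d a S1 u1) (η h : ℝ) (T : K9dTab YA) (hLs : ∀ c b, MeasurableSet {o | b ∈ T.Ls c o}) :
    (k9dSys YA eZ Zs aL η h T).WF := by
  refine ⟨fun p => hin.wf.iv_lt p.1.1, fun p => k9d_asg_meas YA eZ Zs hin η h T p.1.1 p.1.2,
    fun p l hl => hin.wf.A_sub p.1.1 hl.1, ?_, ?_, ?_, fun p => hin.wf.inv p.1.1, ?_⟩
  · intro p p' hpp hw hi
    by_cases hc : p.1.1 = p'.1.1
    · have hb : p.1.2 ≠ p'.1.2 := fun hb => hpp (Subtype.ext (Prod.ext hc hb))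
      have h1 := k9d_asg_disj YA eZ Zs η h T p.1.1 p.1.2 p'.1.2 hb
      show Disjoint (k9dAsg YA eZ Zs η h T p.1.1 p.1.2) (k9dAsg YA eZ Zs η h T p'.1.1 p'.1.2)
      rw [← hc]
      exact h1
    · exact (hin.wf.A_disj p.1.1 p'.1.1 hc hw hi).mono Set.inter_subset_left Set.inter_subset_left
  · intro p
    exact ((hin.wf.S_meas p.1.1).inter ((k9d_asg_meas YA eZ Zs hin η h T p.1.1 p.1.2).prod MeasurableSet.univ)).inter
      ((k9d_obs_meas hin.pwf aL _) (hLs p.1.1 p.1.2))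
  · intro p x hx
    have h1 := hin.wf.S_sub p.1.1 hx.1.1
    exact ⟨h1.1, hx.1.2.1, h1.2.2⟩
  · intro p
    exact ⟨k9d_new_quad _ (hin.pwf.Pst_adm _).1 _ _ _ _ _, fun hv => absurd hv (by decide)⟩

theorem k9d_bin_close (h : ℝ) (hh : 0 < h) (e : Fin 6 → ℝ) (i : Fin 6) : |e i - ((k4eBin h e i : ℤ) : ℝ) * h| ≤ h := by
  have h1 : ((k4eBin h e i : ℤ) : ℝ) ≤ e i / h := Int.floor_le _
  have h2 : e i / h < ((k4eBin h e i : ℤ) : ℝ) + 1 := Int.lt_floor_add_one _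
  rw [le_div_iff₀ hh] at h1
  rw [div_lt_iff₀ hh] at h2
  rw [abs_le]
  constructor <;> nlinarith

/-- the value of the new test along an assigned trajectory -/
theorem k9d_new_val (hin : K9dIn P YA eZ Zs N K Kp aL σ d a S1 u1) (η h : ℝ) (hh : 0 < h) (T : K9dTab YA) (c : YA.C) (b : Fin 6 → ℤ)
    (l : P.Lam) (hl : l ∈ k9dAsg YA eZ Zs η h T c b) (t : ℝ) (ht : t ∈ YA.I c) :
    |kbX (k9dNew YA eZ Zs h c b) (P.co (YA.wd c) l) t| ≤ η + 6 * Kp ^ 2 * h := by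
  have hlA : l ∈ YA.A c := hl.1
  obtain ⟨j, hj⟩ := Set.mem_iUnion.1 hl.2
  obtain ⟨hjb, hj⟩ := Set.mem_iUnion.1 hj
  have hfit := hj.1
  have hq : 0 < YA.q := YA.k2n_q_pos
  set τ := YA.tauOf c t with hτ
  have htt : YA.tOf c τ = t := YA.k2n_tOf_tauOf c t
  have hτI : τ ∈ Set.Ico (0 : ℝ) 1 := (YA.k2n_tOf_mem_I c τ).1 (by rw [htt]; exact ht)
  have h1 := hfit τ ⟨hτI.1, hτI.2.le⟩
  rw [k9d_D_x hin.pwf YA c _ _ l hlA τ, k9d_D_y YA c _ _ l hlA τ] at h1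
  unfold k9dX k9dZe at h1
  rw [htt] at h1
  set ζ := (k9dot (eZ c) (kbY (P.co (YA.wd c) l) t) - Zs c) / YA.q with hζ
  have hζb : |ζ| ≤ Kp := by
    rw [hζ, abs_div, abs_of_pos hq, div_le_iff₀ hq]
    exact hin.tang c l hlA t ht
  have hτb : |τ| ≤ 1 := by
    rw [abs_of_nonneg hτI.1]
    exact hτI.2.le
  have h2 := k9_quad_round ((T.ts c).get j) (fun i => (b i : ℝ) * h) τ ζ h Kp hin.Kp_one hτb hζb (fun i => by
    rw [← hjb]
    exact k9d_bin_close h hh _ i)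
  have h3 : kbX (k9dNew YA eZ Zs h c b) (P.co (YA.wd c) l) t
      = (kbX (P.Pst (YA.wd c)) (P.co (YA.wd c) l) t - k9dF ((T.ts c).get j) τ ζ)
        + (k9dF ((T.ts c).get j) τ ζ - k9dF (fun i => (b i : ℝ) * h) τ ζ) := by
    simp only [kbX, k9dNew]
    rw [hζ, hτ]
    unfold KbSys.tauOf
    ring
  rw [h3]
  refine (abs_add_le _ _).trans (add_le_add h1 ?_)
  unfold k9dF
  exact h2

/-- **LEAF S9d-GEO** (~250 l.; l.1098-1140).   Actual slack `7 Kp²`, thickness `a'`.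
`size`, `box`: `hin.size`, `hin.box` (`Kp ≤ 7 Kp²`).   `val`: `l ∈ k9dAsg c b`, `t ∈ I c`, `τ = tauOf c t ∈ [0,1)`: there is `j` with `l ∈ k9dFirst … j`, `k4eBin h (ts j) = b`; `kbX (k9dNew …) (co l) t = X - F̃(τ, ζ)`, `X = D.x l τ`, `ζ = D.y l τ` (`k9d_D_x`, `k9d_D_y`, `k2n_tOf_tauOf`),
`|X - F_{ts j}(τ,ζ)| ≤ η`, `|ts j i - b i h| ≤ h` (floor), `|ζ| ≤ Kp` (`hin.tang`), `k9_quad_round` (`L = Kp`): `≤ η + 6 Kp² h`.   `dw`, `dw_low`, `dww`: `k9d_new_dw`, `k9d_new_dww`, `hin.ntv` (`a' ≤ 1`). -/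
theorem k9d_sys_geo (hin : K9dIn P YA eZ Zs N K Kp aL σ d a S1 u1) (η h a' : ℝ) (hh : 0 < h) (ha' : 0 ≤ a') (ha1 : a' ≤ 1) (hval : η + 6 * Kp ^ 2 * h ≤ 7 * Kp ^ 2 * a')
    (T : K9dTab YA) : (k9dSys YA eZ Zs aL η h T).Geo (7 * Kp ^ 2) a' := by
  have hK1 := hin.Kp_one
  have hKK : Kp ≤ 7 * Kp ^ 2 := by nlinarith
  have hq : 0 < YA.q := YA.k2n_q_pos
  refine ⟨?_, ?_, ?_, ?_, ?_, ?_⟩
  · intro p
    exact (hin.size p.1.1).trans (mul_le_mul_of_nonneg_left hKK hq.le)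
  · intro p l hl t ht
    exact (hin.box p.1.1 l hl.1 t ht).trans hKK
  · intro p l hl t ht
    exact (k9d_new_val YA eZ Zs hin η h hh T p.1.1 p.1.2 l hl t ht).trans hval
  · intro p l hl t ht
    have hB := hin.pwf.B_pos (YA.wd p.1.1)
    have ht1 : t ∈ Set.Icc (0 : ℝ) 1 := by
      have := YA.k2n_I_sub p.1.1 (hin.wf.iv_lt p.1.1) ht
      exact ⟨this.1, this.2.le⟩
    have h1 := hin.ntv.dw (YA.wd p.1.1) l (hin.wf.A_sub p.1.1 hl.1) t ht1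
    show |kbX (kbDw (k9dNew YA eZ Zs h p.1.1 p.1.2)) (P.co (YA.wd p.1.1) l) t| ≤ 7 * Kp ^ 2 * P.B (YA.wd p.1.1)
    rw [k9d_new_dw]
    exact h1.trans (mul_le_mul_of_nonneg_right hKK hB.le)
  · intro p x hx
    have h1 := hin.ntv.dw_low (YA.wd p.1.1) x (hin.wf.S_sub p.1.1 hx.1.1).1
    show P.B (YA.wd p.1.1) ≤ 7 * Kp ^ 2 * |kbX (kbDw (k9dNew YA eZ Zs h p.1.1 p.1.2)) (P.co (YA.wd p.1.1) x.1) x.2|
    rw [k9d_new_dw]
    exact h1.trans (mul_le_mul_of_nonneg_right hKK (abs_nonneg _))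
  · intro p t y w
    have h1 := hin.ntv.dww (YA.wd p.1.1) t y w
    show |kbDww (k9dNew YA eZ Zs h p.1.1 p.1.2) t y w| * a' ≤ 7 * Kp ^ 2 * P.B (YA.wd p.1.1) ^ 2
    rw [k9d_new_dww]
    have h2 : |kbDww (P.Pst (YA.wd p.1.1)) t y w| * a' ≤ |kbDww (P.Pst (YA.wd p.1.1)) t y w| * 1 :=
      mul_le_mul_of_nonneg_left ha1 (abs_nonneg _)
    rw [mul_one] at h2
    exact h2.trans (h1.trans (mul_le_mul_of_nonneg_right hKK (sq_nonneg _)))

/-- **LEAF S9d-KNOWN** (~200 l.; l.1093-1096).   `hin.known` gives `LstA`; `Lst γ dd o := univ.filter fun p => p.1.1 ∈ LstA γ dd o ∧ p.1.2 ∈ T.Ls p.1.1 (o, dd)`; card `≤ ∑_{c ∈ LstA} card (T.Ls c (o,dd)) ≤ Kp 5⁶` (injection into the sigma/product finset);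
measurability: intersection of `{o | c ∈ LstA γ dd o}` with the section at `dd` of `{x | b ∈ T.Ls c x}` (`measurable_prodMk_right`);  membership: definition of `S` and `k9dObs`. -/
theorem k9d_sys_known (hin : K9dIn P YA eZ Zs N K Kp aL σ d a S1 u1) (η h : ℝ) (T : K9dTab YA) (hcard : ∀ c o, (T.Ls c o).card ≤ 5 ^ 6)
    (hLs : ∀ c b, MeasurableSet {o | b ∈ T.Ls c o}) : (k9dSys YA eZ Zs aL η h T).Known (P.hid aL) (5 ^ 6 * Kp) := by
  obtain ⟨LstA, hA1, hA2, hA3⟩ := hin.known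
  refine ⟨fun γ dd o => (Finset.univ : Finset {p // p ∈ k9dLab YA h T}).filter
    fun p => p.1.1 ∈ LstA γ dd o ∧ p.1.2 ∈ T.Ls p.1.1 (o, dd), ?_, ?_, ?_⟩
  · intro γ dd o
    have h1 : ((Finset.univ : Finset {p // p ∈ k9dLab YA h T}).filter
        fun p => p.1.1 ∈ LstA γ dd o ∧ p.1.2 ∈ T.Ls p.1.1 (o, dd)).card
        ≤ ((LstA γ dd o).biUnion fun c => (T.Ls c (o, dd)).image fun b => (c, b)).card := by
      refine Finset.card_le_card_of_injOn (fun p => p.1) ?_ ?_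
      · intro p hp
        have hp' := (Finset.mem_filter.1 hp).2
        simp only [Finset.coe_biUnion, Finset.coe_image, Set.mem_iUnion, Set.mem_image, Finset.mem_coe, exists_prop]
        exact ⟨p.1.1, hp'.1, p.1.2, hp'.2, rfl⟩
      · intro p _ p' _ hpp
        exact Subtype.ext hpp
    have h2 : ((LstA γ dd o).biUnion fun c => (T.Ls c (o, dd)).image fun b => (c, b)).card
        ≤ ∑ _c ∈ LstA γ dd o, 5 ^ 6 :=
      Finset.card_biUnion_le.trans (Finset.sum_le_sum fun c _ => Finset.card_image_le.trans (hcard c _))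
    rw [Finset.sum_const, smul_eq_mul] at h2
    have h3 : (((Finset.univ : Finset {p // p ∈ k9dLab YA h T}).filter
        fun p => p.1.1 ∈ LstA γ dd o ∧ p.1.2 ∈ T.Ls p.1.1 (o, dd)).card : ℝ) ≤ ((LstA γ dd o).card : ℝ) * 5 ^ 6 := by
      exact_mod_cast h1.trans h2
    have h4 := hA1 γ dd o
    calc _ ≤ ((LstA γ dd o).card : ℝ) * 5 ^ 6 := h3
      _ ≤ Kp * 5 ^ 6 := mul_le_mul_of_nonneg_right h4 (by positivity)
      _ = 5 ^ 6 * Kp := mul_comm _ _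
  · intro γ dd p
    have h0 : ∀ p : {p // p ∈ k9dLab YA h T}, MeasurableSet {o | p ∈ (Finset.univ : Finset {p // p ∈ k9dLab YA h T}).filter
        fun p => p.1.1 ∈ LstA γ dd o ∧ p.1.2 ∈ T.Ls p.1.1 (o, dd)} := by
      intro p
      have h1 : {o | p ∈ (Finset.univ : Finset {p // p ∈ k9dLab YA h T}).filter
          fun p => p.1.1 ∈ LstA γ dd o ∧ p.1.2 ∈ T.Ls p.1.1 (o, dd)}
          = {o | p.1.1 ∈ LstA γ dd o} ∩ (fun o => (o, dd)) ⁻¹' {x | p.1.2 ∈ T.Ls p.1.1 x} := by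
        ext o
        simp only [Finset.mem_filter, Finset.mem_univ, true_and]
        rfl
      rw [h1]
      exact (hA2 γ dd p.1.1).inter (measurable_prodMk_right (hLs p.1.1 p.1.2))
    exact h0 p
  · intro p x hx
    refine Finset.mem_filter.2 ⟨Finset.mem_univ _, hA3 p.1.1 x hx.1.1, hx.2⟩

/-- **LEAF S9d-TMP** (~120 l.).   `card ≤ ∑_c length (ts c) ≤ Q L` (`Finset.card_biUnion_le`, `Finset.card_image_le`, `List.toFinset_card_le`); `q`, `J`, centres are those of `YA`. -/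
theorem k9d_sys_tmp (aL η h Q L : ℝ) (hL : 1 ≤ L) (hQ : YA.Tmp Q) (T : K9dTab YA) (hlen : ∀ c, ((T.ts c).length : ℝ) ≤ L) :
    (k9dSys YA eZ Zs aL η h T).Tmp (Q * L) := by
  have hQ0 : 0 ≤ Q := le_trans (Nat.cast_nonneg _) hQ.card
  have hL0 : 0 ≤ L := le_trans zero_le_one hL
  refine ⟨?_, ?_, ?_, ?_⟩
  · have h1 : Fintype.card (k9dSys YA eZ Zs aL η h T).C = (k9dLab YA h T).card := Fintype.card_coe _
    rw [h1]
    have h2 : (k9dLab YA h T).card ≤ ∑ c : YA.C, (T.ts c).length := by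
      unfold k9dLab
      refine Finset.card_biUnion_le.trans (Finset.sum_le_sum fun c _ => ?_)
      exact Finset.card_image_le.trans (Finset.card_image_le.trans (List.toFinset_card_le _))
    have h3 : ((k9dLab YA h T).card : ℝ) ≤ ∑ c : YA.C, ((T.ts c).length : ℝ) := by exact_mod_cast h2
    have h4 : ∑ c : YA.C, ((T.ts c).length : ℝ) ≤ ∑ _c : YA.C, L := Finset.sum_le_sum fun c _ => hlen c
    rw [Finset.sum_const, nsmul_eq_mul, Finset.card_univ] at h4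
    exact h3.trans (h4.trans (mul_le_mul_of_nonneg_right hQ.card hL0))
  · have h1 := hQ.q_low
    show 1 ≤ Q * L * YA.q
    nlinarith
  · intro p
    have h1 := hQ.J_low p.1.1
    show 1 ≤ Q * L * (YA.ch p.1.1).J
    nlinarith
  · intro p
    have h1 := hQ.cen p.1.1
    show ‖(YA.ch p.1.1).y0‖ + ‖(YA.ch p.1.1).y1‖ ≤ Q * L
    nlinarith

/-- **LEAF S9d-MASS** (~200 l.).   `k9dSucc … c ⊆ ⋃_{b ∈ bins of ts c} S (c, b)` (`x ∈ YA.S c` gives `x.1 ∈ YA.A c`), `measure_biUnion_finset_le`; then regroup `∑_{p ∈ k9dLab}` by the first component (`Finset.sum_biUnion`, `Finset.sum_image`, `Finset.sum_coe_sort`). -/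
theorem k9d_sys_mass (hY : YA.WF) (aL η h : ℝ) (T : K9dTab YA) :
    ∑ c, P.om (YA.wd c) * P.mu (YA.wd c) (k9dSucc YA eZ Zs aL η h (T.ts c) (T.Ls c) c) ≤ (k9dSys YA eZ Zs aL η h T).mass := by
  set G : YA.C × (Fin 6 → ℤ) → ℝ≥0∞ := fun p => P.om (YA.wd p.1) * P.mu (YA.wd p.1)
    (YA.S p.1 ∩ (k9dAsg YA eZ Zs η h T p.1 p.2 ×ˢ Set.univ) ∩ {x | p.2 ∈ T.Ls p.1 (k9dObs P aL (YA.wd p.1) x)}) with hG
  have h1 : (k9dSys YA eZ Zs aL η h T).mass = ∑ p ∈ k9dLab YA h T, G p := by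
    have h2 : (k9dSys YA eZ Zs aL η h T).mass = ∑ p : {p // p ∈ k9dLab YA h T}, G p.1 := rfl
    rw [h2]
    exact Finset.sum_coe_sort (k9dLab YA h T) G
  have h3 : ∑ p ∈ k9dLab YA h T, G p = ∑ c : YA.C, ∑ b ∈ (T.ts c).toFinset.image (k4eBin h), G (c, b) := by
    unfold k9dLab
    rw [Finset.sum_biUnion]
    · refine Finset.sum_congr rfl fun c _ => ?_
      rw [Finset.sum_image]
      intro b _ b' _ hbb
      exact (Prod.ext_iff.1 hbb).2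
    · intro c _ c' _ hcc
      rw [Function.onFun, Finset.disjoint_left]
      intro p hp hp'
      obtain ⟨b, _, rfl⟩ := Finset.mem_image.1 hp
      obtain ⟨b', _, hb'⟩ := Finset.mem_image.1 hp'
      exact hcc (Prod.ext_iff.1 hb').1.symm
  rw [h1, h3]
  refine Finset.sum_le_sum fun c _ => ?_
  rw [hG]
  simp only
  rw [← Finset.mul_sum]
  gcongr
  refine le_trans (measure_mono ?_) (measure_biUnion_finset_le _ _)
  intro x hx
  obtain ⟨hxS, j, hj, hjL⟩ := hx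
  simp only [Set.mem_iUnion, exists_prop]
  refine ⟨k4eBin h ((T.ts c).get j), ?_, ⟨hxS, ⟨(hY.S_sub c hxS).2.1, ?_⟩, Set.mem_univ _⟩, hjL⟩
  · exact Finset.mem_image_of_mem _ (List.mem_toFinset.2 (List.get_mem _ _))
  · exact Set.mem_iUnion.2 ⟨j, Set.mem_iUnion.2 ⟨rfl, hj⟩⟩

end Sys

theorem k9d_half_absorb (m y : ℝ≥0∞) (hm : m ≠ ∞) (h : m ≤ y + m / 2) : m ≤ 2 * y := by
  have h1 : m / 2 + m / 2 ≤ y + m / 2 := by rw [ENNReal.add_halves]; exact h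
  have h2 : m / 2 ≠ ∞ := ENNReal.div_ne_top hm (by norm_num)
  have h3 : m / 2 ≤ y := (ENNReal.add_le_add_iff_right h2).1 h1
  calc m = m / 2 + m / 2 := (ENNReal.add_halves m).symm
    _ ≤ y + y := add_le_add h3 h3
    _ = 2 * y := (two_mul y).symm

/-- **EXIT OF S9d** (LEAF S9d-CORE, ~200 l.).
PROOF.  `τ, N1` of `k9d_chart`; enlarge `N1`: `N ≥ 2`, `4 ≤ N^τ`, and `N^{-s} N^{sε/16} ≤ N^{-sε/2}` holds for all `N ≥ 1` (`s - sε/16 ≥ sε/2`).   `choose ts Ls …` over `c`; `T := ⟨ts, Ls⟩`, `η = N^{-s} N^{sε/16}`, `h = a' = N^{-sε/2}`; `hval`: `η ≤ a' ≤ Kp² a'`.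
Mass: `YA.mass = ∑ ω mC ≤ ∑ ω μ(Succ) + 2 N^{-2τ} Z ≤ Y.mass + 2 N^{-2τ}` (`k2n_Z_le_one`), and `1 ≤ N^τ YA.mass` (`hin.big`) gives `2 N^{-2τ} ≤ (2 N^{-τ}) YA.mass ≤ YA.mass/2`; masses are finite (`k2n_mass_le_Z`). -/
theorem k9d_core (hT : k7a_T71a) (s M d S1 u1 ε : ℝ) (hs : 0 < s) (hs1 : s < 1) (hsM : s < M) (hd : d < 1) (hS1 : 0 < S1) (hu1 : 0 < u1) (hε : 0 < ε) (hε1 : ε ≤ 1)
    (hub : ∃ R0 : ℝ, ∀ R : ℝ, R0 ≤ R → K4eMatch 2 d ε R) :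
    ∃ τ : ℝ, 0 < τ ∧ ∃ N1 : ℝ, ∀ N : ℝ, N1 ≤ N → ∀ (P : K9P) (YA : KbSys P) (eZ : YA.C → K9V) (Zs : YA.C → ℝ) (Kp aL σ : ℝ) (m : ℕ), σ = (1 / 2 : ℝ) ^ m →
      N ^ (-M - τ) ≤ σ → σ ≤ N ^ (-M + τ) → K9dIn P YA eZ Zs N (N ^ τ) Kp aL σ d (N ^ (-s)) S1 u1 →
      ∃ Y : KbSys P, Y.n = YA.n ∧ Y.WF ∧ Y.Geo (7 * Kp ^ 2) (N ^ (-(s * ε / 2))) ∧ Y.Known (P.hid aL) (5 ^ 6 * Kp) ∧
        (∀ Q : ℝ, YA.Tmp Q → Y.Tmp (Q * N ^ (2 : ℝ))) ∧ YA.mass ≤ 2 * Y.mass := by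
  obtain ⟨τ, hτ, N1, hN1⟩ := k9d_chart hT s M d S1 u1 ε hs hs1 hsM hd hS1 hu1 hε hε1 hub
  refine ⟨τ, hτ, max N1 (max 2 ((4 : ℝ) ^ (1 / τ))), ?_⟩
  intro N hN P YA eZ Zs Kp aL σ m hσ hlo hhi hin
  have hNa : N1 ≤ N := le_trans (le_max_left _ _) hN
  have hN2 : 2 ≤ N := le_trans (le_trans (le_max_left _ _) (le_max_right _ _)) hN
  have hN4 : (4 : ℝ) ^ (1 / τ) ≤ N := le_trans (le_trans (le_max_right _ _) (le_max_right _ _)) hN
  have hN0 : 0 < N := by linarith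
  have hN1' : 1 ≤ N := by linarith
  have h4 : 4 ≤ N ^ τ := by
    have h5 : ((4 : ℝ) ^ (1 / τ)) ^ τ ≤ N ^ τ := Real.rpow_le_rpow (by positivity) hN4 hτ.le
    rw [← Real.rpow_mul (by norm_num), one_div, inv_mul_cancel₀ hτ.ne', Real.rpow_one] at h5
    exact h5
  choose ts Ls h1 h2 h3 h5 using hN1 N hNa P YA eZ Zs Kp aL σ m hσ hlo hhi hin
  set T : K9dTab YA := ⟨ts, Ls⟩ with hTd
  set η : ℝ := N ^ (-s) * N ^ (s * ε / 16) with hη
  set h : ℝ := N ^ (-(s * ε / 2)) with hh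
  have hhpos : 0 < h := Real.rpow_pos_of_pos hN0 _
  have hh1 : h ≤ 1 := Real.rpow_le_one_of_one_le_of_nonpos hN1' (by
    have : 0 < s * ε := mul_pos hs hε
    linarith)
  have hηh : η ≤ h := by
    rw [hη, hh, ← Real.rpow_add hN0]
    refine Real.rpow_le_rpow_of_exponent_le hN1' ?_
    have : s * ε ≤ s * 1 := mul_le_mul_of_nonneg_left hε1 hs.le
    linarith
  have hK1 := hin.Kp_one
  have hval : η + 6 * Kp ^ 2 * h ≤ 7 * Kp ^ 2 * h := by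
    have h6 : 1 ≤ Kp ^ 2 := by nlinarith
    have h7 : h ≤ Kp ^ 2 * h := by nlinarith
    nlinarith
  have hNsq : (1 : ℝ) ≤ N ^ (2 : ℝ) := Real.one_le_rpow hN1' (by norm_num)
  refine ⟨k9dSys YA eZ Zs aL η h T, rfl, k9d_sys_wf YA eZ Zs hin η h T h3,
    k9d_sys_geo YA eZ Zs hin η h h hhpos hhpos.le hh1 hval T, k9d_sys_known YA eZ Zs hin η h T h2 h3,
    fun Q hQ => k9d_sys_tmp YA eZ Zs aL η h Q (N ^ (2 : ℝ)) hNsq hQ T h1, ?_⟩
  have hmass := k9d_sys_mass YA eZ Zs hin.wf aL η h T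
  have hZ : YA.Z ≤ 1 := YA.k2n_Z_le_one hin.pwf hin.wf
  have hmZ : YA.mass ≤ YA.Z := YA.k2n_mass_le_Z hin.pwf hin.wf
  have hfin : YA.mass ≠ ∞ := ne_top_of_le_ne_top ENNReal.one_ne_top (hmZ.trans hZ)
  apply k9d_half_absorb _ _ hfin
  have h6 : YA.mass ≤ ∑ c, P.om (YA.wd c) * P.mu (YA.wd c) (k9dSucc YA eZ Zs aL η h (T.ts c) (T.Ls c) c)
      + ENNReal.ofReal (2 * N ^ (-(2 * τ))) * YA.Z := by
    unfold KbSys.mass KbSys.Z
    rw [Finset.mul_sum, ← Finset.sum_add_distrib]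
    refine Finset.sum_le_sum fun c _ => ?_
    calc P.om (YA.wd c) * YA.mC c
        ≤ P.om (YA.wd c) * (P.mu (YA.wd c) (k9dSucc YA eZ Zs aL η h (ts c) (Ls c) c)
          + ENNReal.ofReal (2 * N ^ (-(2 * τ))) * (ENNReal.ofReal YA.q * YA.nuC c)) := by
          gcongr
          exact h5 c
      _ = _ := by ring
  have h7 : ENNReal.ofReal (2 * N ^ (-(2 * τ))) * YA.Z ≤ YA.mass / 2 := by
    have hbig : 1 ≤ ENNReal.ofReal (N ^ τ) * YA.mass := hin.big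
    calc ENNReal.ofReal (2 * N ^ (-(2 * τ))) * YA.Z ≤ ENNReal.ofReal (2 * N ^ (-(2 * τ))) * 1 := by gcongr
      _ ≤ ENNReal.ofReal (2 * N ^ (-(2 * τ))) * (ENNReal.ofReal (N ^ τ) * YA.mass) := by gcongr
      _ = ENNReal.ofReal (2 * N ^ (-(2 * τ)) * N ^ τ) * YA.mass := by
        rw [← mul_assoc, ← ENNReal.ofReal_mul (by positivity)]
      _ ≤ ENNReal.ofReal (1 / 2) * YA.mass := by
        gcongr
        have h8 : N ^ (-(2 * τ)) * N ^ τ = (N ^ τ)⁻¹ := by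
          rw [← Real.rpow_add hN0, ← Real.rpow_neg hN0.le]
          congr 1
          ring
        rw [mul_assoc, h8]
        have h9 : (N ^ τ)⁻¹ ≤ 4⁻¹ := inv_anti₀ (by norm_num) h4
        linarith
      _ = YA.mass / 2 := by
        rw [ENNReal.div_eq_inv_mul]
        congr 1
        rw [one_div, ENNReal.ofReal_inv_of_pos (by norm_num)]
        simp
  exact h6.trans (add_le_add hmass h7)

end

end Claimed.Agent.R252

/-!
# ROW 252 (S0492), unit S9d (sub-architect helper225), file 5: **GUARDED SAMPLES DO NOT EXIST** (`K9HubFinal` of `S9b/SeqContract`).      CONTRACT file: the `sorry`s are the leaves `L-252-S9d-F*`.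

09-unbounded-narrowness.tex l.1173-1185.   PAPER-FREE.
* `k9dSel YA Sp`          the system `YA` with the selections replaced by the prepared ones;      `k9dZs` the canonical `Z_*` (tangential component of the centre at the LEFT end of the block).
* **`K9HubEntry p M u1`** = EXIT OF S9c (helper285 + helper233): from a sample `s.Ok p τ` the prepared selections `Sp c ⊆ YA.S c` (loss at most half of the reference mass), the dyadic mesh `σ ∼ N^{-M}`, and L9.5 = `ECap`, `EAng`, `Supp` of the projected data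
  `k9dD (k9dSel s.YA Sp) c e_Z Z_*` with slack `N^τ'`, for every prescribed `τ' > 0`.   NOTHING ELSE: the ACTUAL fields of `K9dIn` are proved here from `s.Ok` (`k9d_entry`), with the actual factor `12 Kp²`.
* `k9d_atl`               the output of `k9d_core` is an output atlas `s.Atl Y p.cg` (`7 (12 Kp²)² ≤ Ks`, `5⁶ · 12 Kp² ≤ Ks`, `N^{Mp+2} ≤ N^{Mg}`, `4 ≤ log N`).
* **`k9d_final0`**        `∃ τ0, ∀ s, ¬ s.Ok p τ0`  (finite-scale form; `N` large is contained in `s.Ok`: `1/τ ≤ N`).      **`k9d_final`** : `K9HubFinal p`.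
The depth gain must be `p.cg = p.s1 * ε / 2`, `ε` = tolerance of Cor 3.4 for `d = p.d` (the samples exist for every `cg ∈ (0,1)`).
-/

set_option autoImplicit false

namespace Claimed.Agent.R252

open MeasureTheory Filter Topology
open Claimed.Agent.R255 (uf)
open scoped ENNReal BigOperators Classical

noncomputable section

variable {P : K9P}

/-- the system with the selections replaced -/
def k9dSel (YA : KbSys P) (Sp : YA.C → Set (P.Lam × ℝ)) : KbSys P := { YA with S := Sp }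

/-- the canonical `Z_*` -/
def k9dZs (YA : KbSys P) (eZ : YA.C → K9V) (c : YA.C) : ℝ := k9dot (eZ c) ((YA.ch c).yc (YA.tc c))

/-- the unit tangents of a sample -/
def K9Sam.eZ (s : K9Sam) (c : s.YA.C) : K9V := k9Rot (s.nC (s.up c))

/-- the projected data of the chart `c` of a sample with prepared selections `Sp` -/
def K9Sam.dat (s : K9Sam) (Sp : s.YA.C → Set (s.P.Lam × ℝ)) (c : s.YA.C) : K7aData s.P.Lam :=
  k9dD (k9dSel s.YA Sp) c (s.eZ c) (k9dZs s.YA s.eZ c)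

/-- **EXIT OF S9c** (L9.4 + L9.5) -/
def K9HubEntry (p : K9Prm) (M u1 : ℝ) : Prop :=
  ∀ τ' : ℝ, 0 < τ' → ∃ τ : ℝ, 0 < τ ∧ ∀ s : K9Sam, s.Ok p τ →
    ∃ (Sp : s.YA.C → Set (s.P.Lam × ℝ)) (σ : ℝ) (m : ℕ), σ = (1 / 2 : ℝ) ^ m ∧ s.N ^ (-M - τ') ≤ σ ∧ σ ≤ s.N ^ (-M + τ') ∧
      (∀ c, MeasurableSet (Sp c)) ∧ (∀ c, Sp c ⊆ s.YA.S c) ∧ s.YA.mass ≤ 2 * (k9dSel s.YA Sp).mass ∧
      ∀ c, (s.dat Sp c).ECap (fun _ => 0) (s.N ^ τ') 1 p.d (s.N ^ (-p.s1)) ∧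
        (s.dat Sp c).EAng (fun _ => 0) (s.N ^ τ') 1 p.d (s.N ^ (-p.s1)) s.N p.S u1 ∧
        (s.dat Sp c).Supp (s.N ^ τ') σ 1 p.d (s.N ^ (-p.s1))

/-! ## §1 restricted selections -/

/-- **LEAF S9d-F1** (~40 l.). -/
theorem k9d_sel_wf (YA : KbSys P) (hY : YA.WF) (Sp : YA.C → Set (P.Lam × ℝ)) (hm : ∀ c, MeasurableSet (Sp c)) (hs : ∀ c, Sp c ⊆ YA.S c) : (k9dSel YA Sp).WF := by
  exact
    { iv_lt := hY.iv_lt
      A_meas := hY.A_meas
      A_sub := hY.A_sub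
      A_disj := hY.A_disj
      S_meas := hm
      S_sub := fun c => (hs c).trans (hY.S_sub c)
      inv := hY.inv
      adm := hY.adm }

/-- **LEAF S9d-F1** (~30 l.). -/
theorem k9d_sel_known (YA : KbSys P) {D : Type} (ℓ : P.Lab D) (K : ℝ) (h : YA.Known ℓ K) (Sp : YA.C → Set (P.Lam × ℝ)) (hs : ∀ c, Sp c ⊆ YA.S c) :
    (k9dSel YA Sp).Known ℓ K := by
  obtain ⟨Lst, h1, h2, h3⟩ := h
  exact ⟨Lst, h1, h2, fun c x hx => h3 c x (hs c hx)⟩

theorem k9d_sel_tmp (YA : KbSys P) (Q : ℝ) (h : YA.Tmp Q) (Sp : YA.C → Set (P.Lam × ℝ)) : (k9dSel YA Sp).Tmp Q :=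
  ⟨h.card, h.q_low, h.J_low, h.cen⟩

/-! ## §2 the actual range of `ζ` -/

theorem k9d_tang_pos (YA : KbSys P) (hY : YA.WF) (Kp : ℝ) (hK : 1 ≤ Kp) (hsize : ∀ c, kbMn (YA.ch c).D ≤ YA.q * Kp)
    (hbox : ∀ c, ∀ l ∈ YA.A c, ∀ t ∈ YA.I c, ‖(YA.ch c).Di.mulVec (kbY (P.co (YA.wd c) l) t - (YA.ch c).yc t)‖ ≤ Kp)
    (c : YA.C) (l : P.Lam) (hl : l ∈ YA.A c) (t : ℝ) (ht : t ∈ YA.I c) (i : Fin 2) :
    |(kbY (P.co (YA.wd c) l) t - (YA.ch c).yc t) i| ≤ Kp ^ 2 * YA.q := by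
  have hK0 : 0 < Kp := by linarith
  have hb := hbox c l hl t ht
  obtain ⟨z, hz⟩ : ∃ z, z = kbY (P.co (YA.wd c) l) t - (YA.ch c).yc t := ⟨_, rfl⟩
  rw [← hz] at hb ⊢
  have hzz : (YA.ch c).D.mulVec ((YA.ch c).Di.mulVec z) = z := by
    rw [Matrix.mulVec_mulVec, hY.inv c, Matrix.one_mulVec]
  obtain ⟨u, hu⟩ : ∃ u, u = (YA.ch c).Di.mulVec z := ⟨_, rfl⟩
  rw [← hu] at hb hzz
  have hui : ∀ k, |u k| ≤ Kp := fun k => (norm_le_pi_norm _ k).trans hb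
  have e : z i = ∑ k, (YA.ch c).D i k * u k := by rw [← hzz]; rfl
  rw [e]
  calc |∑ k, (YA.ch c).D i k * u k| ≤ ∑ k, |(YA.ch c).D i k * u k| := Finset.abs_sum_le_sum_abs _ _
    _ ≤ ∑ k, |(YA.ch c).D i k| * Kp := by
        refine Finset.sum_le_sum fun k _ => ?_
        rw [abs_mul]
        exact mul_le_mul_of_nonneg_left (hui k) (abs_nonneg _)
    _ = (∑ k, |(YA.ch c).D i k|) * Kp := by rw [Finset.sum_mul]
    _ ≤ kbMn (YA.ch c).D * Kp := by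
        refine mul_le_mul_of_nonneg_right ?_ hK0.le
        unfold kbMn
        exact Finset.single_le_sum (f := fun i => ∑ k, |(YA.ch c).D i k|)
          (fun j _ => Finset.sum_nonneg fun k _ => abs_nonneg _) (Finset.mem_univ i)
    _ ≤ (YA.q * Kp) * Kp := mul_le_mul_of_nonneg_right (hsize c) hK0.le
    _ = Kp ^ 2 * YA.q := by ring

/-- **LEAF S9d-F2** (~200 l.).  Actual range of the tangential coordinate.
PROOF.  `z(t) := Di (y(t) - y_c(t))`, `‖z‖ ≤ Kp` on `I c`; `y(t) - y_c(t) = D z(t)` (`hY.inv`, `k2n_inv'`), `‖D z‖ ≤ kbMn D ‖z‖ ≤ q Kp²` (`k2n_mulVec_le`).   Two times `t_c`, `t_c + q/2 ∈ I c`: `(q/2)(V - y₁) = D z(t_c + q/2) - D z(t_c)`, so `‖V - y₁‖ ≤ 4 Kp²`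
(as in `k9_node_center_vel`), `‖V‖ ≤ Kp` (`Ntv.base`, `A c ⊆ Sp`), `‖y₁‖ ≤ 5 Kp²`.   `y(t) - y_c(t_c) = (y(t) - y_c(t)) + (t - t_c) y₁`, sup norm `≤ 6 Kp² q`;  `|e·v| ≤ (|e 0| + |e 1|) ‖v‖ ≤ 2 ‖v‖`. -/
theorem k9d_tang (hP : P.WF) (YA : KbSys P) (hY : YA.WF) (Kp : ℝ) (hK : 1 ≤ Kp) (hN : P.Ntv Kp) (hsize : ∀ c, kbMn (YA.ch c).D ≤ YA.q * Kp)
    (hbox : ∀ c, ∀ l ∈ YA.A c, ∀ t ∈ YA.I c, ‖(YA.ch c).Di.mulVec (kbY (P.co (YA.wd c) l) t - (YA.ch c).yc t)‖ ≤ Kp)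
    (eZ : YA.C → K9V) (he : ∀ c, K9Unit (eZ c)) (c : YA.C) (l : P.Lam) (hl : l ∈ YA.A c) (t : ℝ) (ht : t ∈ YA.I c) :
    |k9dot (eZ c) (kbY (P.co (YA.wd c) l) t) - k9dZs YA eZ c| ≤ 12 * Kp ^ 2 * YA.q := by
  have hq0 := k9_aux_q_pos YA
  have hK0 : 0 < Kp := by linarith
  have hKK : Kp ≤ Kp ^ 2 := by nlinarith
  have hpos := k9d_tang_pos YA hY Kp hK hsize hbox c l hl
  have hvel : ∀ i, |(kbV (P.co (YA.wd c) l) - (YA.ch c).y1) i| ≤ 4 * Kp ^ 2 := by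
    intro i
    have h1 := hpos _ (k9_aux_tc_mem YA c) i
    have h2 := hpos _ (k9_aux_tc_half_mem YA c) i
    have e : (kbV (P.co (YA.wd c) l) - (YA.ch c).y1) i * (YA.q / 2)
        = (kbY (P.co (YA.wd c) l) (YA.tc c + YA.q / 2) - (YA.ch c).yc (YA.tc c + YA.q / 2)) i
          - (kbY (P.co (YA.wd c) l) (YA.tc c) - (YA.ch c).yc (YA.tc c)) i := by
      simp only [kbY, kbV, KbChart.yc, Pi.sub_apply, Pi.add_apply, Pi.smul_apply, smul_eq_mul]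
      ring
    have h3 : |(kbV (P.co (YA.wd c) l) - (YA.ch c).y1) i| * (YA.q / 2) ≤ 2 * (Kp ^ 2 * YA.q) := by
      calc |(kbV (P.co (YA.wd c) l) - (YA.ch c).y1) i| * (YA.q / 2)
          = |(kbV (P.co (YA.wd c) l) - (YA.ch c).y1) i * (YA.q / 2)| := by
            rw [abs_mul, abs_of_pos (by positivity : 0 < YA.q / 2)]
        _ ≤ _ := by rw [e]; exact (abs_sub _ _).trans (by linarith)
    have h4 : |(kbV (P.co (YA.wd c) l) - (YA.ch c).y1) i| * (YA.q / 2) ≤ 4 * Kp ^ 2 * (YA.q / 2) := by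
      linarith
    exact le_of_mul_le_mul_right h4 (by positivity)
  have hV : ∀ i, |kbV (P.co (YA.wd c) l) i| ≤ Kp := by
    intro i
    have := hN.base (YA.wd c) l (hY.A_sub c hl) 0 ⟨le_rfl, zero_le_one⟩
    have h2 : |kbV (P.co (YA.wd c) l) i| ≤ ‖kbV (P.co (YA.wd c) l)‖ := norm_le_pi_norm (kbV (P.co (YA.wd c) l)) i
    have h3 := norm_nonneg (kbY (P.co (YA.wd c) l) 0)
    linarith
  have hy1 : ∀ i, |(YA.ch c).y1 i| ≤ 5 * Kp ^ 2 := by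
    intro i
    have h1 := hvel i
    have h2 := hV i
    rw [Pi.sub_apply] at h1
    have : (YA.ch c).y1 i = kbV (P.co (YA.wd c) l) i - (kbV (P.co (YA.wd c) l) i - (YA.ch c).y1 i) := by ring
    rw [this]
    exact (abs_sub _ _).trans (by linarith)
  have htt : |t - YA.tc c| ≤ YA.q := by
    have h1 : YA.tc c ≤ t := ht.1
    have h2 : t < ((YA.iv c : ℝ) + 1) * kbQ YA.n := ht.2
    rw [abs_of_nonneg (by linarith)]
    have : ((YA.iv c : ℝ) + 1) * kbQ YA.n = YA.tc c + YA.q := by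
      unfold KbSys.tc KbSys.q
      ring
    linarith
  have hcomp : ∀ i, |kbY (P.co (YA.wd c) l) t i - (YA.ch c).yc (YA.tc c) i| ≤ 6 * Kp ^ 2 * YA.q := by
    intro i
    have e : kbY (P.co (YA.wd c) l) t i - (YA.ch c).yc (YA.tc c) i
        = (kbY (P.co (YA.wd c) l) t - (YA.ch c).yc t) i + (t - YA.tc c) * (YA.ch c).y1 i := by
      simp only [KbChart.yc, Pi.sub_apply, Pi.add_apply, Pi.smul_apply, smul_eq_mul]
      ring
    rw [e]
    refine (abs_add_le _ _).trans ?_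
    rw [abs_mul]
    have h1 := hpos t ht i
    have h2 : |t - YA.tc c| * |(YA.ch c).y1 i| ≤ YA.q * (5 * Kp ^ 2) :=
      mul_le_mul htt (hy1 i) (abs_nonneg _) hq0.le
    linarith
  have hu := he c
  unfold K9Unit at hu
  have hei0 : |eZ c 0| ≤ 1 := by
    rw [← sq_le_one_iff_abs_le_one]
    nlinarith [sq_nonneg (eZ c 1)]
  have hei1 : |eZ c 1| ≤ 1 := by
    rw [← sq_le_one_iff_abs_le_one]
    nlinarith [sq_nonneg (eZ c 0)]
  obtain ⟨yv, hyv⟩ : ∃ yv : K9V, yv = kbY (P.co (YA.wd c) l) t := ⟨_, rfl⟩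
  obtain ⟨y0, hy0⟩ : ∃ y0 : K9V, y0 = (YA.ch c).yc (YA.tc c) := ⟨_, rfl⟩
  have hcomp' : ∀ i : Fin 2, |yv i - y0 i| ≤ 6 * Kp ^ 2 * YA.q := fun i => by rw [hyv, hy0]; exact hcomp i
  have e : k9dot (eZ c) (kbY (P.co (YA.wd c) l) t) - k9dZs YA eZ c = eZ c 0 * (yv 0 - y0 0) + eZ c 1 * (yv 1 - y0 1) := by
    unfold k9dZs k9dot
    rw [← hyv, ← hy0]
    ring
  rw [e]
  refine (abs_add_le _ _).trans ?_
  rw [abs_mul, abs_mul]
  have hB : 0 ≤ 6 * Kp ^ 2 * YA.q := by positivity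
  have h0 : |eZ c 0| * |yv 0 - y0 0| ≤ 1 * (6 * Kp ^ 2 * YA.q) := mul_le_mul hei0 (hcomp' 0) (abs_nonneg _) zero_le_one
  have h1 : |eZ c 1| * |yv 1 - y0 1| ≤ 1 * (6 * Kp ^ 2 * YA.q) := mul_le_mul hei1 (hcomp' 1) (abs_nonneg _) zero_le_one
  linarith

/-! ## §3 entry, output, contradiction -/

/-- **LEAF S9d-F3** (~200 l.).  The entry of `k9d_core` from a sample and the exit of S9c.   Actual factor `12 Kp²`.
`Kp_le`: hypothesis `hKp`.   `aL = N^{-1} ≤ N^{-s₁}`.   `ntv`, `size`, `box`: `a_ntv`, `a_size`, `a_box` + monotonicity (`k9b_ntv_mono`; `Kp ≤ 12 Kp²`).   `wf`, `known`: `k9d_sel_wf`, `k9d_sel_known`, `k2s_known_mono`.   `unit`: `k9Rot` of a unit vector (`h.frame`).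
`tang`: `k9d_tang` (the fields `A, I, ch, q, tc` of `k9dSel` are those of `YA`, by `rfl`).   `big`: `1 ≤ N^τ YA.mass ≤ 2 N^τ (k9dSel ..).mass`, hypothesis `hbig`. -/
theorem k9d_entry (p : K9Prm) (hp : p.Ok) (s : K9Sam) (τ τ' σ u1 : ℝ) (h : s.Ok p τ) (hKp : 12 * s.Kp ^ 2 ≤ s.N ^ τ') (hbig : 2 * s.N ^ τ ≤ s.N ^ τ')
    (Sp : s.YA.C → Set (s.P.Lam × ℝ)) (hm : ∀ c, MeasurableSet (Sp c)) (hs : ∀ c, Sp c ⊆ s.YA.S c) (hmass : s.YA.mass ≤ 2 * (k9dSel s.YA Sp).mass)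
    (hD : ∀ c, (s.dat Sp c).ECap (fun _ => 0) (s.N ^ τ') 1 p.d (s.N ^ (-p.s1)) ∧
      (s.dat Sp c).EAng (fun _ => 0) (s.N ^ τ') 1 p.d (s.N ^ (-p.s1)) s.N p.S u1 ∧ (s.dat Sp c).Supp (s.N ^ τ') σ 1 p.d (s.N ^ (-p.s1))) :
    K9dIn s.P (k9dSel s.YA Sp) s.eZ (k9dZs s.YA s.eZ) s.N (s.N ^ τ') (12 * s.Kp ^ 2) s.aL σ p.d (s.N ^ (-p.s1)) p.S u1 := by
  have hN2 := h.N_big.1
  have hN1 : (1 : ℝ) ≤ s.N := by linarith
  have hN0 : (0 : ℝ) < s.N := by linarith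
  have hK2 := h.Kp_one
  have hKK : s.Kp ≤ 12 * s.Kp ^ 2 := by nlinarith
  have hq := k9_aux_q_pos s.YA
  have hunit : ∀ c, K9Unit (s.eZ c) := by
    intro c
    have := (h.frame (s.up c)).1
    unfold K9Unit at this ⊢
    unfold K9Sam.eZ k9Rot
    simp only [Matrix.cons_val_zero, Matrix.cons_val_one]
    nlinarith
  exact
    { Kp_one := by nlinarith
      Kp_le := hKp
      aL_pos := Real.rpow_pos_of_pos hN0 _
      aL_le := Real.rpow_le_rpow_of_exponent_le hN1 (by have := hp.s1_lt; linarith)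
      pwf := h.wf
      ntv := k9b_ntv_mono h.wf h.a_ntv hKK
      wf := k9d_sel_wf s.YA h.wfA Sp hm hs
      size := fun c => (h.a_size c).trans (mul_le_mul_of_nonneg_left hKK hq.le)
      box := fun c l hl t ht => (h.a_box c l hl t ht).trans hKK
      known := k9d_sel_known s.YA _ _ (k2s_known_mono s.YA h.a_known hKK) Sp hs
      unit := hunit
      tang := fun c l hl t ht => k9d_tang h.wf s.YA h.wfA s.Kp (by linarith) h.a_ntv h.a_size h.a_box s.eZ hunit c l hl t ht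
      big := by
        have h1 : 1 ≤ ENNReal.ofReal (s.N ^ τ) * s.YA.mass := h.bigA
        show 1 ≤ ENNReal.ofReal (s.N ^ τ') * (k9dSel s.YA Sp).mass
        calc (1 : ℝ≥0∞) ≤ ENNReal.ofReal (s.N ^ τ) * s.YA.mass := h1
          _ ≤ ENNReal.ofReal (s.N ^ τ) * (2 * (k9dSel s.YA Sp).mass) := mul_le_mul_right hmass _
          _ = ENNReal.ofReal (2 * s.N ^ τ) * (k9dSel s.YA Sp).mass := by
              rw [ENNReal.ofReal_mul (by norm_num), ENNReal.ofReal_ofNat]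
              ring
          _ ≤ _ := mul_le_mul_left (ENNReal.ofReal_le_ofReal hbig) _
      ecap := fun c => (hD c).1
      eang := fun c => (hD c).2.1
      supp := fun c => (hD c).2.2 }

theorem k9d_log60 {N : ℝ} (hN : 60 ≤ N) : 4 ≤ Real.log N := by
  rw [Real.le_log_iff_exp_le (by linarith)]
  have h1 : Real.exp 4 = Real.exp 1 ^ 4 := by
    rw [← Real.exp_nat_mul]
    norm_num
  have h2 := Real.exp_one_lt_d9
  have h3 : Real.exp 1 ^ 4 ≤ (2.7182818286 : ℝ) ^ 4 := pow_le_pow_left₀ (Real.exp_pos 1).le h2.le 4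
  rw [h1]
  refine h3.trans (le_trans ?_ hN)
  norm_num

/-- the slack of an output dominates `Kp^20` -/
theorem k9d_Ks_ge (p : K9Prm) (s : K9Sam) (τ : ℝ) (hτ0 : 0 < τ) (hτ : τ ≤ 1 / 60) (h : s.Ok p τ) : 60 ≤ s.N ∧ s.Kp ^ 20 ≤ s.Ks := by
  have h60 : 60 ≤ 1 / τ := by
    rw [le_div_iff₀ hτ0]
    linarith
  have hN : 60 ≤ s.N := h60.trans h.N_big.2
  have hn : (60 : ℝ) ≤ s.n := h60.trans h.stage
  have hn' : 20 ≤ s.n := by
    have : (20 : ℝ) ≤ s.n := by linarith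
    exact_mod_cast this
  have hlog := k9d_log60 hN
  have hK2 := h.Kp_one
  have hx : s.Kp ≤ s.Kp * Real.log s.N := by nlinarith
  refine ⟨hN, ?_⟩
  unfold K9Sam.Ks
  calc s.Kp ^ 20 ≤ (s.Kp * Real.log s.N) ^ 20 := pow_le_pow_left₀ (by linarith) hx 20
    _ ≤ (s.Kp * Real.log s.N) ^ s.n := pow_le_pow_right₀ (by linarith) hn'

/-- **LEAF S9d-F4** (~200 l.).  The output of `k9d_core` is an output atlas of the sample.   `τ ≤ 1/60` (so `n ≥ 60`, `N ≥ 60 > e⁴`).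
`x := Kp log N ≥ 2`, `Ks = x^n ≥ x^{20}`; `7 (12 Kp²)² = 1008 Kp⁴ ≤ 2^{10} Kp⁴ ≤ Kp^{14}`, `5⁶ · 12 Kp² = 187500 Kp² ≤ 2^{18} Kp² ≤ Kp^{20}`; `Kp ≤ x` (`log N ≥ 1`).   `k2s_geo_mono`, `k2s_known_mono`, `k2s_tmp_mono`.
`N^{Mp} N² = N^{Mp+2} ≤ N^{Mg}`: `Mg ≥ 2^{(Mp+n)²} ≥ (Mp+n)² + 1 ≥ Mp + 2` (`Real.add_one_le_exp` / `one_add_mul_le_pow`-type bound `x + 1 ≤ 2^x` for `x ≥ 1`).   Mass: `YA.mass ≤ 2 · 2 Y.mass ≤ log N · Y.mass`. -/
theorem k9d_atl (p : K9Prm) (s : K9Sam) (τ : ℝ) (hτ0 : 0 < τ) (hτ : τ ≤ 1 / 60) (h : s.Ok p τ) (Sp : s.YA.C → Set (s.P.Lam × ℝ)) (hmass : s.YA.mass ≤ 2 * (k9dSel s.YA Sp).mass)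
    (Y : KbSys s.P) (hwf : Y.WF) (hgeo : Y.Geo (7 * (12 * s.Kp ^ 2) ^ 2) (s.N ^ (-p.cg))) (hkn : Y.Known (s.P.hid s.aL) (5 ^ 6 * (12 * s.Kp ^ 2)))
    (htmp : ∀ Q : ℝ, (k9dSel s.YA Sp).Tmp Q → Y.Tmp (Q * s.N ^ (2 : ℝ))) (hm : (k9dSel s.YA Sp).mass ≤ 2 * Y.mass) : s.Atl Y p.cg := by
  obtain ⟨hN, hKs⟩ := k9d_Ks_ge p s τ hτ0 hτ h
  have hN0 : (0 : ℝ) < s.N := by linarith
  have hN1 : (1 : ℝ) ≤ s.N := by linarith
  have hK2 := h.Kp_one
  have hK0 : (0 : ℝ) < s.Kp := by linarith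
  have hlog := k9d_log60 hN
  have h16 : (2 : ℝ) ^ 16 ≤ s.Kp ^ 16 := pow_le_pow_left₀ (by norm_num) hK2 16
  have h18 : (2 : ℝ) ^ 18 ≤ s.Kp ^ 18 := pow_le_pow_left₀ (by norm_num) hK2 18
  have hg : 7 * (12 * s.Kp ^ 2) ^ 2 ≤ s.Ks := by
    refine le_trans ?_ hKs
    have e : s.Kp ^ 20 = s.Kp ^ 16 * s.Kp ^ 4 := by ring
    have e2 : 7 * (12 * s.Kp ^ 2) ^ 2 = 1008 * s.Kp ^ 4 := by ring
    rw [e, e2]
    exact mul_le_mul_of_nonneg_right (le_trans (by norm_num) h16) (by positivity)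
  have hk : 5 ^ 6 * (12 * s.Kp ^ 2) ≤ s.Ks := by
    refine le_trans ?_ hKs
    have e : s.Kp ^ 20 = s.Kp ^ 18 * s.Kp ^ 2 := by ring
    have e2 : (5 : ℝ) ^ 6 * (12 * s.Kp ^ 2) = 187500 * s.Kp ^ 2 := by ring
    rw [e, e2]
    exact mul_le_mul_of_nonneg_right (le_trans (by norm_num) h18) (by positivity)
  have hMg : s.Mp + 2 ≤ s.Mg := by
    refine le_trans ?_ h.Mg_ge
    have hMp := h.Mp_one
    have hn : (60 : ℝ) ≤ s.n := by
      have h60 : 60 ≤ 1 / τ := by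
        rw [le_div_iff₀ hτ0]
        linarith
      exact h60.trans h.stage
    obtain ⟨z, hz⟩ : ∃ z, z = (s.Mp + s.n) ^ 2 := ⟨_, rfl⟩
    rw [← hz]
    have hz1 : s.Mp + s.n ≤ z := by rw [hz]; nlinarith
    have hb := one_add_mul_self_le_rpow_one_add (s := (1 : ℝ)) (by norm_num) (p := z) (by linarith)
    have e : (1 : ℝ) + 1 = 2 := by norm_num
    rw [e] at hb
    linarith
  exact
    { wf := hwf
      geo := k2s_geo_mono Y h.wf hgeo hg (Real.rpow_pos_of_pos hN0 _).le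
      known := k2s_known_mono Y hkn hk
      tmp := by
        refine k2s_tmp_mono Y (htmp _ (k9d_sel_tmp s.YA _ h.a_sys_tmp Sp)) ?_
        rw [← Real.rpow_add hN0]
        exact Real.rpow_le_rpow_of_exponent_le hN1 hMg
      mass := by
        calc s.YA.mass ≤ 2 * (k9dSel s.YA Sp).mass := hmass
          _ ≤ 2 * (2 * Y.mass) := mul_le_mul_right hm _
          _ = ENNReal.ofReal 4 * Y.mass := by
              rw [ENNReal.ofReal_ofNat, ← mul_assoc]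
              norm_num
          _ ≤ _ := mul_le_mul_left (ENNReal.ofReal_le_ofReal hlog) _ }

/-- **LEAF S9d-F5** (~200 l.).  **Finite-scale form of the final contradiction.**
PROOF.  `k9d_core hT p.s1 M p.d p.S u1 ε` gives `τ₁, N1`; `hE τ₁` gives `τ₂`.   `τ0 := min` of `τ₂`, `τ₁/2`, `1/60`, `1/(|N1| + 1)`, and of a number `t` with `2 ≤ (1/t)^{τ₁/2}` (e.g. `t = 2^{-2/τ₁}`).   Let `s.Ok p τ0`: `N ≥ 1/τ0 ≥ N1`;
`hbig`: `2 N^{τ0} ≤ N^{τ₁/2} N^{τ₁/2}`;   `hKp`: `12 Kp² ≤ Kp^6 ≤ Ks ≤ N^{τ0} ≤ N^{τ₁}` (`h.slack`, `n ≥ 60`, `log N ≥ 1`).   `s.Ok p τ₂` by `k9b_ok_mono`.   `k9d_entry`, `k9d_core`, `k9d_atl` (`hcg`), then `h.guard Y` : `Y.q < YA.q`, but `Y.n = YA.n`. -/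
theorem k9d_final0 (hT : k7a_T71a) (p : K9Prm) (hp : p.Ok) (M u1 ε : ℝ) (hM : p.s1 < M) (hu1 : 0 < u1) (hε : 0 < ε) (hε1 : ε ≤ 1)
    (hub : ∃ R0 : ℝ, ∀ R : ℝ, R0 ≤ R → K4eMatch 2 p.d ε R) (hcg : p.cg = p.s1 * ε / 2) (hE : K9HubEntry p M u1) :
    ∃ τ0 : ℝ, 0 < τ0 ∧ ∀ s : K9Sam, ¬ s.Ok p τ0 := by
  obtain ⟨τ1, hτ1, N1, hcore⟩ := k9d_core hT p.s1 M p.d p.S u1 ε hp.s1_pos hp.s1_lt hM hp.d_lt hp.S_pos hu1 hε hε1 hub
  obtain ⟨τ2, hτ2, hent⟩ := hE τ1 hτ1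
  obtain ⟨t, ht⟩ : ∃ t : ℝ, t = ((2 : ℝ) ^ (2 / τ1))⁻¹ := ⟨_, rfl⟩
  have ht0 : 0 < t := by rw [ht]; positivity
  have hn0 : 0 < 1 / (|N1| + 1) := by positivity
  refine ⟨min τ2 (min (τ1 / 2) (min (1 / 60) (min (1 / (|N1| + 1)) t))), by positivity, fun s h => ?_⟩
  obtain ⟨τ0, hτ0d⟩ : ∃ τ0, τ0 = min τ2 (min (τ1 / 2) (min (1 / 60) (min (1 / (|N1| + 1)) t))) := ⟨_, rfl⟩
  rw [← hτ0d] at h
  have hτ0 : 0 < τ0 := by rw [hτ0d]; positivity
  have l1 : τ0 ≤ τ2 := by rw [hτ0d]; exact min_le_left _ _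
  have l2 : τ0 ≤ τ1 / 2 := by rw [hτ0d]; exact (min_le_right _ _).trans (min_le_left _ _)
  have l3 : τ0 ≤ 1 / 60 := by rw [hτ0d]; exact (min_le_right _ _).trans ((min_le_right _ _).trans (min_le_left _ _))
  have l4 : τ0 ≤ 1 / (|N1| + 1) := by
    rw [hτ0d]; exact (min_le_right _ _).trans ((min_le_right _ _).trans ((min_le_right _ _).trans (min_le_left _ _)))
  have l5 : τ0 ≤ t := by
    rw [hτ0d]; exact (min_le_right _ _).trans ((min_le_right _ _).trans ((min_le_right _ _).trans (min_le_right _ _)))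
  obtain ⟨hN60, hKs⟩ := k9d_Ks_ge p s τ0 hτ0 l3 h
  have hN0 : (0 : ℝ) < s.N := by linarith
  have hN1 : (1 : ℝ) ≤ s.N := by linarith
  have hmono : ∀ a b : ℝ, a ≤ b → s.N ^ a ≤ s.N ^ b := fun a b hab => Real.rpow_le_rpow_of_exponent_le hN1 hab
  have hNN : N1 ≤ s.N := by
    have h1 : |N1| + 1 ≤ 1 / τ0 := by
      rw [le_div_iff₀ hτ0]
      have := mul_le_mul_of_nonneg_left l4 (by positivity : 0 ≤ |N1| + 1)
      rwa [mul_one_div_cancel (by positivity)] at this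
    have := le_abs_self N1
    linarith [h.N_big.2]
  have h2N : 2 ≤ s.N ^ (τ1 / 2) := by
    have h1 : (2 : ℝ) ^ (2 / τ1) ≤ 1 / τ0 := by
      rw [le_div_iff₀ hτ0]
      have := mul_le_mul_of_nonneg_left l5 (by positivity : (0 : ℝ) ≤ (2 : ℝ) ^ (2 / τ1))
      rwa [ht, mul_inv_cancel₀ (by positivity)] at this
    calc (2 : ℝ) = ((2 : ℝ) ^ (2 / τ1)) ^ (τ1 / 2) := by
          rw [← Real.rpow_mul (by norm_num)]
          have : 2 / τ1 * (τ1 / 2) = 1 := by field_simp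
          rw [this, Real.rpow_one]
      _ ≤ s.N ^ (τ1 / 2) := Real.rpow_le_rpow (by positivity) (h1.trans h.N_big.2) (by positivity)
  have hbig : 2 * s.N ^ τ0 ≤ s.N ^ τ1 := by
    calc 2 * s.N ^ τ0 ≤ s.N ^ (τ1 / 2) * s.N ^ (τ1 / 2) :=
          mul_le_mul h2N (hmono _ _ l2) (Real.rpow_pos_of_pos hN0 _).le (Real.rpow_pos_of_pos hN0 _).le
      _ = s.N ^ τ1 := by rw [← Real.rpow_add hN0]; congr 1; ring
  have hK2 := h.Kp_one
  have hKp : 12 * s.Kp ^ 2 ≤ s.N ^ τ1 := by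
    have h18 : (2 : ℝ) ^ 18 ≤ s.Kp ^ 18 := pow_le_pow_left₀ (by norm_num) hK2 18
    have e : s.Kp ^ 20 = s.Kp ^ 18 * s.Kp ^ 2 := by ring
    calc 12 * s.Kp ^ 2 ≤ s.Kp ^ 18 * s.Kp ^ 2 := mul_le_mul_of_nonneg_right (le_trans (by norm_num) h18) (by positivity)
      _ = s.Kp ^ 20 := e.symm
      _ ≤ s.Ks := hKs
      _ ≤ s.N ^ τ0 := h.slack
      _ ≤ s.N ^ τ1 := hmono _ _ (by linarith)
  obtain ⟨Sp, σ, m, hσ, hlo, hhi, hSm, hSs, hmass, hD⟩ := hent s (k9b_ok_mono hτ0 l1 h)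
  have hin := k9d_entry p hp s τ0 τ1 σ u1 h hKp hbig Sp hSm hSs hmass hD
  obtain ⟨Y, hYn, hwf, hgeo, hkn, htmp, hm⟩ := hcore s.N hNN s.P (k9dSel s.YA Sp) s.eZ (k9dZs s.YA s.eZ) (12 * s.Kp ^ 2) s.aL σ m hσ hlo hhi hin
  rw [← hcg] at hgeo
  have hlt := h.guard Y (k9d_atl p s τ0 hτ0 l3 h Sp hmass Y hwf hgeo hkn htmp hm)
  have : Y.q = s.YA.q := by
    unfold KbSys.q
    rw [hYn]
    rfl
  exact absurd hlt (by rw [this]; exact lt_irrefl _)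

/-- **guarded samples do not exist** -/
theorem k9d_final (hT : k7a_T71a) (p : K9Prm) (hp : p.Ok) (M u1 ε : ℝ) (hM : p.s1 < M) (hu1 : 0 < u1) (hε : 0 < ε) (hε1 : ε ≤ 1)
    (hub : ∃ R0 : ℝ, ∀ R : ℝ, R0 ≤ R → K4eMatch 2 p.d ε R) (hcg : p.cg = p.s1 * ε / 2) (hE : K9HubEntry p M u1) : K9HubFinal p := by
  rintro ⟨R, s, -, hs⟩
  obtain ⟨τ0, h0, hno⟩ := k9d_final0 hT p hp M u1 ε hM hu1 hε hε1 hub hcg hE
  have := Claimed.Agent.R255.uf_neBot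
  obtain ⟨n, hn⟩ := (hs τ0 h0).exists
  exact hno (s n) hn

end

end Claimed.Agent.R252
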