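import Claimed.Agent.R252.S9.Graph
import Claimed.Agent.R252.S9.Full
import Claimed.Agent.R252.S9.PartA
import Claimed.Agent.R252.S9.PartB
import Claimed.Agent.R252.S9.PartD
import Claimed.Agent.R252.Norm.Mass

/-!
# ROW 252 (S0492), unit S9c (post BP-252-S9c, sub-architect helper285; chief helper233), file 1: **INTEGRATED CAPS AND L9.4 OVER `KbSys`**.      CONTRACT file: the `sorry`s are the leaves L-252-S9c-*.

09-unbounded-narrowness.tex l.505-527 (prepared caps, integrated form), l.539-707 (L9.4 `a08:earlier-graphs`).   PAPER-FREE, ONE scale, explicit slack `K ≥ 1`.   STATEMENTS ARE FROZEN (defects: one line to helper285).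
Provers replace the `sorry`s IN PLACE (always patch a freshly pulled copy), helper lemmas directly above, prefix `k9c_`.   All statements of imported contract files may be cited even while they are `sorry`.

* s1  CAPS.  pointwise density thresholds (`P.dn (P.hid a) γ x ≤ hi`, the language of `K9Sam.Ok`) give integrated caps `μ {x | .. ∧ bs x ∈ R} ≤ κ |R|` :
      (PROVED, from `S9/CapSam`: only `16 K²` hidden bins pass at an exact base) `k9c_cap_bin` (`X`-bin), `k9c_cap_zero`, `k9c_cap_chart` (true test of a chart), `k9c_cap_ang` (velocity ball; from `k9a_cap_abs`).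
* s2  ONE CHART.  `k9c_eq_exists` (a quadratic test in the coordinates `(û, z = B w)` is a `K9Eq`), `k9c_U_vol` (Jacobian `q J` of `û`), `k9c_chart` = `k9g_graphs_chart` pulled back to the incidences of a chart.
* s3  ALL CHARTS.  `K9cGr` = EXIT OF L9.4;  `k9c_graphs` : first deletion (labels with prepared mass `< η q ν_c`, loss `≤ η Z ≤ η`), graphs chart by chart, second deletion (loss `≤ η` of the mass).
DICTIONARY.  `Gs γ` = `μ_prep` before L9.4 (`YA.sel γ ∩ Gp γ`), witnesses `W_c = Y.S c ∩ Gs (wd c)` (kept), `Gq γ` = final `μ_prep`, `e = N^{-r₁}`, `gr γ x` index of the pair (core, graph) used by `x` in its chart.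
The cores `U`, the functions `G` and their holomorphy are internal to `k9g_graphs_chart`: L9.4 is used later ONLY through `K9cGr.lip` (two incidences with the same entry: `|X - X'| ≤ Bd (e + |û - û'|)`) and `K9cGr.floor`.
-/

set_option autoImplicit false

namespace Claimed.Agent.R252

open MeasureTheory
open scoped ENNReal BigOperators
open Classical

noncomputable section

variable {P : K9P}

/-! ## 1. Integrated caps -/

/-- LEAF S9c-C2 (with the next two, ~150 l. together; black box `k9c_cap_test`).  **`X`-bins** (l.759-762).   `T = P_* - xs` (`KbIsQuad`: change `c0`; `kbDw T = kbDw P_*`);  `μ`-a.e. incidence lies in `Ev γ` (`k2s_mu_compl`), there `hN.dw_low`. -/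
theorem k9c_cap_bin (hP : P.WF) {K a p : ℝ} (hK : 1 ≤ K) (hN : P.Ntv K) (ha : 0 < a) (hp : p ≤ a) (γ : P.W) (xs : ℝ) (hi : ℝ≥0∞)
    (R : Set (ℝ × K9V)) (hR : MeasurableSet R) :
    P.mu γ {x | P.dn (P.hid a) γ x ≤ hi ∧ P.bs γ x ∈ R ∧ P.sig γ x ∈ Set.Ico xs (xs + p)} ≤ ENNReal.ofReal (16 * K ^ 2) * hi * volume R := by
  refine (measure_mono ?_).trans (k9p_pure_cap hP hK hN ha hi xs γ R hR)
  rintro x ⟨h1, h2, h3⟩
  refine ⟨h1, ?_, h2⟩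
  rw [abs_of_nonneg (by linarith [h3.1])]
  have : a ≤ K * a := by nlinarith
  linarith [h3.2]

/-- the zero-depth base cap (`T = P_*`, `|X| ≤ K ≤ K a`) -/
theorem k9c_cap_zero (hP : P.WF) {K a : ℝ} (hK : 1 ≤ K) (hN : P.Ntv K) (ha : 1 ≤ a) (γ : P.W) (hi : ℝ≥0∞) (R : Set (ℝ × K9V)) (hR : MeasurableSet R) :
    P.mu γ {x | P.dn (P.hid a) γ x ≤ hi ∧ P.bs γ x ∈ R} ≤ ENNReal.ofReal (16 * K ^ 2) * hi * volume R := by
  refine (measure_mono_ae ?_).trans (k9p_pure_cap hP hK hN (by linarith) hi 0 γ R hR)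
  filter_upwards [k9a_nat_ae hP K γ] with x hx hmem
  obtain ⟨h1, h2⟩ := hmem
  refine ⟨h1, ?_, h2⟩
  rw [sub_zero]
  have h0 := hP.Ev_sub γ hx.1
  have h3 : |P.sig γ x| ≤ K := hN.sig γ x.1 h0.1 x.2 h0.2
  have : K ≤ K * a := by nlinarith
  linarith

/-- the base cap inside a chart at its own depth (l.606-610; `T` = the test of the chart, `Geo.val`, `Geo.dw_low`) -/
theorem k9c_cap_chart (hP : P.WF) (Y : KbSys P) (hY : Y.WF) {K a : ℝ} (hK : 1 ≤ K) (ha : 0 < a) (hG : Y.Geo K a) (c : Y.C) (hi : ℝ≥0∞)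
    (R : Set (ℝ × K9V)) (hR : MeasurableSet R) :
    P.mu (Y.wd c) {x | P.dn (P.hid a) (Y.wd c) x ≤ hi ∧ x ∈ Y.S c ∧ P.bs (Y.wd c) x ∈ R} ≤ ENNReal.ofReal (16 * K ^ 2) * hi * volume R := by
  have h1 := k2s_cap_count P hP (P.hid a) (Y.wd c) hi ⌊16 * K ^ 2⌋₊ (fun d => R ∩ k2sCross Y K a c d)
    (fun d => hR.inter (k2s_cross_meas _ hY _ _ _ _)) R hR (fun d => Set.inter_subset_left)
    (fun o => by
      obtain ⟨L, hL, hmem⟩ := k2s_cross_bins Y hP hY (K := K) (a := a) hK ha c o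
      exact ⟨L, hL, fun d hd => hmem d hd.2⟩)
  refine (measure_mono ?_).trans (h1.trans (mul_le_mul' (mul_le_mul' (k9p_floor_le hK) le_rfl) le_rfl))
  rintro x ⟨h1, h2, h3⟩
  exact ⟨h1, h3, k2s_cross_mem Y hY hG c x h2⟩

/-- LEAF S9c-C3 (~250 l.; black box `k9a_cap_abs`).  **The angular cap in an `X`-bin** (l.770-778).   `aL` terminal width, `a ≥ p` the depth of the good ancestors, `b` width of the velocity bins, `z` centre of the velocity ball.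
PLAN (compare the plan of `k9a_cap`): `k9a_cap_abs (k2a_fr hP γ) (k2a_hid_meas hP aL γ) (β := P.vel b γ) (k2a_vel_meas hP b γ) φ` with
* `φ` from `k2a_bin_nest` / `k2s_bin_nested` (`aL / B ≤ a / B`): `P.hid a γ = φ ∘ P.hid aL γ`;
* `ZV d e := if e ∈ k9aVB b ρ z then univ else ∅`, `n1 := 36` (`k2s_bin_ball_pi` with `m = 2`: `(2 ρ / b + 2)² ≤ 36`);
* `ZE e := {o | some w of the closed bin e of width kbDy (a / B) has |P_* o w - xs| ≤ K a ∧ B ≤ K |∂_w P_* o w|}` as in `k9c_cap_test`, `n0 := ⌊16 K²⌋₊`.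
The set is a.e. (`k2s_mu_compl`) contained in the set of `k9a_cap_abs`;  divide by `loL`. -/
theorem k9c_cap_ang (hP : P.WF) {K aL a p b ρ hiJ loL hi0 : ℝ} (hK : 1 ≤ K) (hN : P.Ntv K) (haL : 0 < aL) (haLa : aL ≤ a) (hp : p ≤ a) (hb : 0 < b) (hρ : 0 ≤ ρ)
    (hρb : ρ ≤ 2 * b) (hlo : 0 < loL) (hhiJ : 0 ≤ hiJ) (hhi0 : 0 ≤ hi0) (γ : P.W) (xs : ℝ) (z : K9V) (R : Set (ℝ × K9V)) (hR : MeasurableSet R) :
    P.mu γ {x | P.dn (P.hv aL b) γ x ≤ ENNReal.ofReal hiJ ∧ ENNReal.ofReal loL ≤ P.dn (P.hid aL) γ x ∧ P.dn (P.hid a) γ x ≤ ENNReal.ofReal hi0 ∧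
        P.bs γ x ∈ R ∧ P.sig γ x ∈ Set.Ico xs (xs + p) ∧ ∀ i, |k9Vel P γ x i - z i| ≤ ρ}
      ≤ ENNReal.ofReal (576 * K ^ 2 * hiJ * hi0 / loL) * volume R := by
  refine (measure_mono ?_).trans (k9p_ang_cap hP (b := b) (ρ := ρ) (hi0 := hi0) hK hN haL haLa hρ hρb hb hlo hhiJ xs z γ R hR)
  rintro x ⟨h1, h2, h3, h4, h5, h6⟩
  refine ⟨⟨h1, h2, h3⟩, ?_, h6, h4⟩
  rw [abs_of_nonneg (by linarith [h5.1])]
  have ha : 0 < a := lt_of_lt_of_le haL haLa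
  have : a ≤ K * a := by nlinarith
  linarith [h5.2]

/-! ## 2. One chart -/

/-- an affine form in three variables -/
def k9cLin (a b c d : ℝ) : MvPolynomial (Fin 3) ℝ :=
  MvPolynomial.C a + MvPolynomial.C b * MvPolynomial.X 0 + MvPolynomial.C c * MvPolynomial.X 1 + MvPolynomial.C d * MvPolynomial.X 2

theorem k9c_lin_eval (a b c d : ℝ) (u : Fin 3 → ℝ) : MvPolynomial.eval u (k9cLin a b c d) = a + b * u 0 + c * u 1 + d * u 2 := by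
  simp [k9cLin]

theorem k9c_deg_add {p q : MvPolynomial (Fin 3) ℝ} {d : ℕ} (hp : p.totalDegree ≤ d) (hq : q.totalDegree ≤ d) : (p + q).totalDegree ≤ d :=
  (MvPolynomial.totalDegree_add _ _).trans (max_le hp hq)

theorem k9c_deg_C (c : ℝ) (d : ℕ) : (MvPolynomial.C c : MvPolynomial (Fin 3) ℝ).totalDegree ≤ d := by
  rw [MvPolynomial.totalDegree_C]
  exact Nat.zero_le _

theorem k9c_deg_Cmul (c : ℝ) {p : MvPolynomial (Fin 3) ℝ} {d : ℕ} (hp : p.totalDegree ≤ d) : (MvPolynomial.C c * p).totalDegree ≤ d := by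
  refine (MvPolynomial.totalDegree_mul _ _).trans ?_
  rw [MvPolynomial.totalDegree_C]
  omega

theorem k9c_deg_mul {p q : MvPolynomial (Fin 3) ℝ} (hp : p.totalDegree ≤ 1) (hq : q.totalDegree ≤ 1) : (p * q).totalDegree ≤ 2 := by
  refine (MvPolynomial.totalDegree_mul _ _).trans ?_
  omega

theorem k9c_lin_deg (a b c d : ℝ) : (k9cLin a b c d).totalDegree ≤ 1 := by
  unfold k9cLin
  have hX : ∀ i : Fin 3, (MvPolynomial.X i : MvPolynomial (Fin 3) ℝ).totalDegree ≤ 1 := fun i => (MvPolynomial.totalDegree_X i).le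
  exact k9c_deg_add (k9c_deg_add (k9c_deg_add (k9c_deg_C _ _) (k9c_deg_Cmul _ (hX 0))) (k9c_deg_Cmul _ (hX 1))) (k9c_deg_Cmul _ (hX 2))

/-- a quadratic test of version two, written out -/
theorem k9c_quad_ev (Q : KbQuad KbVer.two) (cy cty cyw : K9V) (cyy : K9M) (h1 : cy = Q.cy) (h2 : cty = Q.cty) (h3 : cyw = Q.cyw) (h4 : cyy = Q.cyy)
    (t : ℝ) (y : K9V) (w : ℝ) :
    Q.ev t y w = Q.c0 + Q.ct * t + (cy 0 * y 0 + cy 1 * y 1) + Q.cw * w + Q.ctt * t ^ 2 + t * (cty 0 * y 0 + cty 1 * y 1)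
      + Q.ctw * t * w + (y 0 * (cyy 0 0 * y 0 + cyy 0 1 * y 1) + y 1 * (cyy 1 0 * y 0 + cyy 1 1 * y 1))
      + w * (cyw 0 * y 0 + cyw 1 * y 1) + Q.cww * w ^ 2 := by
  have hd : ∀ a b : K9V, a ⬝ᵥ b = a 0 * b 0 + a 1 * b 1 := fun a b => by simp [dotProduct, Fin.sum_univ_two]
  have hm : ∀ (A : K9M) (b : K9V), y ⬝ᵥ A.mulVec b = y 0 * (A 0 0 * b 0 + A 0 1 * b 1) + y 1 * (A 1 0 * b 0 + A 1 1 * b 1) := fun A b => by
    simp [dotProduct, Matrix.mulVec, Fin.sum_univ_two]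
  have key : Q.ev t y w = Q.c0 + Q.ct * t + cy ⬝ᵥ y + Q.cw * w + Q.ctt * t ^ 2 + t * (cty ⬝ᵥ y) + Q.ctw * t * w + y ⬝ᵥ cyy.mulVec y
    + w * (cyw ⬝ᵥ y) + Q.cww * w ^ 2 := by
    subst h1 h2 h3 h4
    rfl
  rw [key, hm, hd, hd, hd]

/-- LEAF S9c-G1 (~200 l., Mathlib only).  **A quadratic test in the normalised coordinates.**   `t = t0 + q û₀`, `y = y0 + t y1 + D (û₁, û₂)`, `w = z / B`.
PLAN: `obtain ⟨Q, hQ⟩ := hT`.  With `X i := MvPolynomial.X i`, `C := MvPolynomial.C`:  `tt := C t0 + C q * X 0`,  `yy i := C (y0 i + t0 * y1 i) + C (q * y1 i) * X 0 + C (D i 0) * X 1 + C (D i 1) * X 2`  (degree `≤ 1`),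
`A := C c0 + C ct * tt + ∑ cy i * yy i + C ctt * tt² + tt * ∑ cty i * yy i + ∑ i k, C (cyy i k) * yy i * yy k`,   `B := C B⁻¹ * (C cw + C ctw * tt + ∑ cyw i * yy i)`,   `C := 2 cww / B²`.
Degrees: `MvPolynomial.totalDegree_add`, `totalDegree_mul`, `totalDegree_C`, `totalDegree_X`, `totalDegree_finset_sum` (write the sums over `Fin 2` out).   Evaluations: `simp [KbQuad.ev, Matrix.mulVec, dotProduct, Fin.sum_univ_two]`, `field_simp`, `ring`. -/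
theorem k9c_eq_exists (T : KbTest KbVer.two) (hT : KbIsQuad T) (t0 q B : ℝ) (y0 y1 : K9V) (D : K9M) (hB : B ≠ 0) :
    ∃ p : K9Eq, p.Deg ∧
      (∀ (u : Fin 3 → ℝ) (z : ℝ), p.ev u z = T (t0 + q * u 0) (y0 + (t0 + q * u 0) • y1 + D.mulVec ![u 1, u 2]) (z / B)) ∧
      (∀ (u : Fin 3 → ℝ) (z : ℝ), p.dz u z = kbDw T (t0 + q * u 0) (y0 + (t0 + q * u 0) • y1 + D.mulVec ![u 1, u 2]) (z / B) / B) ∧
      ∀ (t : ℝ) (y : K9V) (w : ℝ), p.C = kbDww T t y w / B ^ 2 := by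
  obtain ⟨Q, hQ⟩ := hT
  obtain ⟨cy, hcy⟩ : ∃ cy : K9V, cy = Q.cy := ⟨_, rfl⟩
  obtain ⟨cty, hcty⟩ : ∃ cty : K9V, cty = Q.cty := ⟨_, rfl⟩
  obtain ⟨cyw, hcyw⟩ : ∃ cyw : K9V, cyw = Q.cyw := ⟨_, rfl⟩
  obtain ⟨cyy, hcyy⟩ : ∃ cyy : K9M, cyy = Q.cyy := ⟨_, rfl⟩
  have hT' : ∀ (t : ℝ) (y : K9V) (w : ℝ), T t y w = Q.c0 + Q.ct * t + (cy 0 * y 0 + cy 1 * y 1) + Q.cw * w + Q.ctt * t ^ 2 + t * (cty 0 * y 0 + cty 1 * y 1)
      + Q.ctw * t * w + (y 0 * (cyy 0 0 * y 0 + cyy 0 1 * y 1) + y 1 * (cyy 1 0 * y 0 + cyy 1 1 * y 1))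
      + w * (cyw 0 * y 0 + cyw 1 * y 1) + Q.cww * w ^ 2 := by
    intro t y w
    exact (hQ t y w).trans (k9c_quad_ev Q cy cty cyw cyy hcy hcty hcyw hcyy t y w)
  obtain ⟨tt, htt⟩ : ∃ tt : MvPolynomial (Fin 3) ℝ, tt = k9cLin t0 q 0 0 := ⟨_, rfl⟩
  obtain ⟨yy, hyy⟩ : ∃ yy : Fin 2 → MvPolynomial (Fin 3) ℝ, yy = fun i => k9cLin (y0 i + t0 * y1 i) (q * y1 i) (D i 0) (D i 1) := ⟨_, rfl⟩
  have dtt : tt.totalDegree ≤ 1 := htt ▸ k9c_lin_deg _ _ _ _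
  have dyy : ∀ i, (yy i).totalDegree ≤ 1 := fun i => by
    rw [hyy]
    exact k9c_lin_deg _ _ _ _
  have ett : ∀ u : Fin 3 → ℝ, MvPolynomial.eval u tt = t0 + q * u 0 := fun u => by
    rw [htt, k9c_lin_eval]
    ring
  have eyy : ∀ (u : Fin 3 → ℝ) (i : Fin 2), MvPolynomial.eval u (yy i) = (y0 + (t0 + q * u 0) • y1 + D.mulVec ![u 1, u 2]) i := fun u i => by
    rw [hyy]
    show MvPolynomial.eval u (k9cLin (y0 i + t0 * y1 i) (q * y1 i) (D i 0) (D i 1)) = _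
    rw [k9c_lin_eval]
    have hmv : (D.mulVec ![u 1, u 2]) i = D i 0 * u 1 + D i 1 * u 2 := by
      show (fun j => D i j) ⬝ᵥ ![u 1, u 2] = _
      simp [dotProduct, Fin.sum_univ_two]
    show _ = y0 i + (t0 + q * u 0) * y1 i + (D.mulVec ![u 1, u 2]) i
    rw [hmv]
    ring
  have d12 : ∀ {p : MvPolynomial (Fin 3) ℝ}, p.totalDegree ≤ 1 → p.totalDegree ≤ 2 := fun h => h.trans (by norm_num)
  refine ⟨⟨MvPolynomial.C Q.c0 + MvPolynomial.C Q.ct * tt + (MvPolynomial.C (cy 0) * yy 0 + MvPolynomial.C (cy 1) * yy 1) + MvPolynomial.C Q.ctt * (tt * tt)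
      + tt * (MvPolynomial.C (cty 0) * yy 0 + MvPolynomial.C (cty 1) * yy 1)
      + (yy 0 * (MvPolynomial.C (cyy 0 0) * yy 0 + MvPolynomial.C (cyy 0 1) * yy 1) + yy 1 * (MvPolynomial.C (cyy 1 0) * yy 0 + MvPolynomial.C (cyy 1 1) * yy 1)),
    MvPolynomial.C B⁻¹ * (MvPolynomial.C Q.cw + MvPolynomial.C Q.ctw * tt + (MvPolynomial.C (cyw 0) * yy 0 + MvPolynomial.C (cyw 1) * yy 1)),
    2 * Q.cww / B ^ 2⟩, ⟨?_, ?_⟩, ?_, ?_, ?_⟩
  · have l1 : ∀ a b : ℝ, (MvPolynomial.C a * yy 0 + MvPolynomial.C b * yy 1).totalDegree ≤ 1 := fun a b =>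
      k9c_deg_add (k9c_deg_Cmul _ (dyy 0)) (k9c_deg_Cmul _ (dyy 1))
    exact k9c_deg_add (k9c_deg_add (k9c_deg_add (k9c_deg_add (k9c_deg_add (k9c_deg_C _ _) (k9c_deg_Cmul _ (d12 dtt))) (d12 (l1 _ _)))
      (k9c_deg_Cmul _ (k9c_deg_mul dtt dtt))) (k9c_deg_mul dtt (l1 _ _))) (k9c_deg_add (k9c_deg_mul (dyy 0) (l1 _ _)) (k9c_deg_mul (dyy 1) (l1 _ _)))
  · exact k9c_deg_Cmul _ (k9c_deg_add (k9c_deg_add (k9c_deg_C _ _) (k9c_deg_Cmul _ dtt)) (k9c_deg_add (k9c_deg_Cmul _ (dyy 0)) (k9c_deg_Cmul _ (dyy 1))))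
  · intro u z
    rw [hT']
    simp only [K9Eq.ev, map_add, map_mul, MvPolynomial.eval_C, ett, eyy]
    generalize (y0 + (t0 + q * u 0) • y1 + D.mulVec ![u 1, u 2]) 0 = Y0
    generalize (y0 + (t0 + q * u 0) • y1 + D.mulVec ![u 1, u 2]) 1 = Y1
    field_simp
    ring
  · intro u z
    simp only [kbDw, hT']
    simp only [K9Eq.dz, map_add, map_mul, MvPolynomial.eval_C, ett, eyy]
    generalize (y0 + (t0 + q * u 0) • y1 + D.mulVec ![u 1, u 2]) 0 = Y0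
    generalize (y0 + (t0 + q * u 0) • y1 + D.mulVec ![u 1, u 2]) 1 = Y1
    field_simp
    ring
  · intro t y w
    simp only [kbDww, hT']
    congr 1
    ring

/-- normalised spatial coordinates of a base point `(t, y)` in the chart `c` -/
def k9cZ (Y : KbSys P) (c : Y.C) (o : ℝ × KbB KbVer.two) : K9V := (Y.ch c).Di.mulVec (o.2 - (Y.ch c).yc o.1)

/-- normalised base coordinates `û` of a base point `(t, y)` in the chart `c` -/
def k9cU (Y : KbSys P) (c : Y.C) (o : ℝ × K9V) : Fin 3 → ℝ := ![(o.1 - Y.tc c) / Y.q, k9cZ Y c o 0, k9cZ Y c o 1]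

theorem k9c_U_bs (Y : KbSys P) (c : Y.C) (x : P.Lam × ℝ) : k9U Y c x = k9cU Y c (P.bs (Y.wd c) x) := rfl

theorem k9c_e3_apply (o : ℝ × (Fin 2 → ℝ)) : (MeasurableEquiv.piFinSuccAbove (fun _ : Fin 3 => ℝ) 0).symm o = ![o.1, o.2 0, o.2 1] := by
  ext i
  fin_cases i <;> rfl

/-- LEAF S9c-G2 (~200 l.).  **The Jacobian of `û`.**
PLAN: `k9cU Y c = e ∘ L ∘ Sh`, `Sh (t, y) = (t, y - y_c(t))` (measure preserving: Tonelli + translation invariance, cf. `k2s_U_vol`, `k9_proj_vol`), `L (t, y) = ((t - t_c)/q, Di y)`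
(`Real.map_volume_mul_left`, `Real.map_matrix_volume_pi_eq_smul_volume_pi`, `det Di = (det D)⁻¹` from `hY.inv c`), `e : ℝ × (Fin 2 → ℝ) ≃ᵐ (Fin 3 → ℝ)` = `(MeasurableEquiv.piFinSuccAbove (fun _ => ℝ) 0).symm`
(`volume_preserving_piFinSuccAbove`).   Or: Tonelli in `t` on both sides. -/
theorem k9c_U_vol (Y : KbSys P) (hY : Y.WF) (c : Y.C) (S : Set (Fin 3 → ℝ)) (hS : MeasurableSet S) :
    MeasurableSet (k9cU Y c ⁻¹' S) ∧ volume (k9cU Y c ⁻¹' S) = ENNReal.ofReal (Y.q * (Y.ch c).J) * volume S := by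
  obtain ⟨Di, hDi⟩ : ∃ Di : K9M, Di = (Y.ch c).Di := ⟨_, rfl⟩
  obtain ⟨D, hD⟩ : ∃ D : K9M, D = (Y.ch c).D := ⟨_, rfl⟩
  obtain ⟨y0, hy0⟩ : ∃ y0 : K9V, y0 = (Y.ch c).y0 := ⟨_, rfl⟩
  obtain ⟨y1, hy1⟩ : ∃ y1 : K9V, y1 = (Y.ch c).y1 := ⟨_, rfl⟩
  obtain ⟨q, hq⟩ : ∃ q : ℝ, q = Y.q := ⟨_, rfl⟩
  obtain ⟨tc, htc⟩ : ∃ tc : ℝ, tc = Y.tc c := ⟨_, rfl⟩
  have hinv : D * Di = 1 := by
    rw [hD, hDi]
    exact hY.inv c
  have hq0 : 0 < q := by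
    rw [hq]
    unfold KbSys.q kbQ
    positivity
  have hdet : D.det * Di.det = 1 := by rw [← Matrix.det_mul, hinv, Matrix.det_one]
  have hJ : (Y.ch c).J = |D.det| := by
    rw [hD]
    rfl
  obtain ⟨Mx, hMx⟩ : ∃ Mx : Matrix (Fin 3) (Fin 3) ℝ,
      Mx = !![1 / q, 0, 0; -(Di.mulVec y1) 0, Di 0 0, Di 0 1; -(Di.mulVec y1) 1, Di 1 0, Di 1 1] := ⟨_, rfl⟩
  obtain ⟨c₀, hc₀⟩ : ∃ c₀ : Fin 3 → ℝ, c₀ = ![-tc / q, -(Di.mulVec y0) 0, -(Di.mulVec y0) 1] := ⟨_, rfl⟩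
  have hdetM : LinearMap.det (Matrix.toLin' Mx) = Di.det / q := by
    rw [LinearMap.det_toLin', hMx, Matrix.det_fin_three, Matrix.det_fin_two]
    simp
    ring
  have hDi0 : Di.det ≠ 0 := right_ne_zero_of_mul_eq_one hdet
  have hdetM0 : LinearMap.det (Matrix.toLin' Mx) ≠ 0 := by
    rw [hdetM]
    exact div_ne_zero hDi0 hq0.ne'
  have hfun : k9cU Y c = fun o => c₀ + Matrix.toLin' Mx ((MeasurableEquiv.piFinSuccAbove (fun _ : Fin 3 => ℝ) 0).symm o) := by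
    funext o
    have hZ : k9cZ Y c o = Di.mulVec (o.2 - (y0 + o.1 • y1)) := by
      rw [hDi, hy0, hy1]
      rfl
    have hU : k9cU Y c o = ![(o.1 - tc) / q, k9cZ Y c o 0, k9cZ Y c o 1] := by
      rw [htc, hq]
      rfl
    rw [hU, hZ, k9c_e3_apply, Matrix.toLin'_apply, hMx, hc₀]
    ext i
    fin_cases i
    · simp [Matrix.mulVec, dotProduct, Fin.sum_univ_two, Fin.sum_univ_three]
      field_simp
      ring
    · simp [Matrix.mulVec, dotProduct, Fin.sum_univ_two, Fin.sum_univ_three]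
      ring
    · simp [Matrix.mulVec, dotProduct, Fin.sum_univ_two, Fin.sum_univ_three]
      ring
  have hmeas : Measurable (k9cU Y c) := by
    rw [hfun]
    exact (measurable_const_add c₀).comp ((LinearMap.continuous_of_finiteDimensional (Matrix.toLin' Mx)).measurable.comp (MeasurableEquiv.measurable _))
  refine ⟨hmeas hS, ?_⟩
  have hpre : k9cU Y c ⁻¹' S = (MeasurableEquiv.piFinSuccAbove (fun _ : Fin 3 => ℝ) 0).symm ⁻¹' (Matrix.toLin' Mx ⁻¹' ((fun x => c₀ + x) ⁻¹' S)) := by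
    rw [hfun]
    rfl
  rw [hpre, (volume_preserving_piFinSuccAbove (fun _ : Fin 3 => ℝ) 0).symm.measure_preimage_equiv, Measure.addHaar_preimage_linearMap volume hdetM0,
    measure_preimage_add, hdetM, hJ, ← hq]
  congr 2
  have e : (Di.det / q)⁻¹ = q * D.det := by
    have : D.det = (Di.det)⁻¹ := eq_inv_of_mul_eq_one_left hdet
    rw [this]
    field_simp
  rw [e, abs_mul, abs_of_pos hq0]

/-- the incidence in the coordinates `(û, z)` of the chart -/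
def k9cPhi (Y : KbSys P) (c : Y.C) (x : P.Lam × ℝ) : (Fin 3 → ℝ) × ℝ := (k9U Y c x, P.B (Y.wd c) * P.hw (Y.wd c) x)

theorem k9c_Phi_meas (hP : P.WF) (Y : KbSys P) (hY : Y.WF) (c : Y.C) : Measurable (k9cPhi Y c) := by
  have h1 : Measurable (k9cU Y c) := fun S hS => (k9c_U_vol Y hY c S hS).1
  have h2 : Measurable fun x : P.Lam × ℝ => k9U Y c x := h1.comp (k2s_bs_meas P hP (Y.wd c))
  exact h2.prodMk ((k2s_hw_meas P hP (Y.wd c)).const_mul _)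

/-- the coordinates invert -/
theorem k9c_Phi_coord (Y : KbSys P) (hY : Y.WF) (c : Y.C) (x : P.Lam × ℝ) :
    Y.tc c + Y.q * k9U Y c x 0 = x.2 ∧
      (Y.ch c).y0 + x.2 • (Y.ch c).y1 + (Y.ch c).D.mulVec ![k9U Y c x 1, k9U Y c x 2] = kbY (P.co (Y.wd c) x.1) x.2 := by
  have hq : 0 < Y.q := k2s_q_pos Y
  constructor
  · show Y.tc c + Y.q * ((x.2 - Y.tc c) / Y.q) = x.2
    field_simp
    ring
  · have e1 : (![k9U Y c x 1, k9U Y c x 2] : Fin 2 → ℝ) = k9Z Y c x := by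
      ext i
      fin_cases i <;> rfl
    rw [e1]
    show (Y.ch c).y0 + x.2 • (Y.ch c).y1 + (Y.ch c).D.mulVec ((Y.ch c).Di.mulVec (kbY (P.co (Y.wd c) x.1) x.2 - (Y.ch c).yc x.2)) = _
    rw [Matrix.mulVec_mulVec, hY.inv c, Matrix.one_mulVec]
    unfold KbChart.yc
    abel

theorem k9c_ev_meas (p : K9Eq) : Measurable fun x : (Fin 3 → ℝ) × ℝ => p.ev x.1 x.2 := by
  unfold K9Eq.ev
  have hA : Measurable fun x : (Fin 3 → ℝ) × ℝ => MvPolynomial.eval x.1 p.A := (MvPolynomial.continuous_eval p.A).measurable.comp measurable_fst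
  have hB : Measurable fun x : (Fin 3 → ℝ) × ℝ => MvPolynomial.eval x.1 p.B := (MvPolynomial.continuous_eval p.B).measurable.comp measurable_fst
  exact (hA.add (hB.mul measurable_snd)).add (((measurable_snd.pow_const 2).const_mul p.C).div_const 2)

theorem k9c_dz_meas (p : K9Eq) : Measurable fun x : (Fin 3 → ℝ) × ℝ => p.dz x.1 x.2 := by
  unfold K9Eq.dz
  have hB : Measurable fun x : (Fin 3 → ℝ) × ℝ => MvPolynomial.eval x.1 p.B := (MvPolynomial.continuous_eval p.B).measurable.comp measurable_fst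
  exact hB.add (measurable_snd.const_mul p.C)

theorem k9c_Inc_meas (p q : K9Eq) (K e : ℝ) : MeasurableSet {x : (Fin 3 → ℝ) × ℝ | K9Inc p q K e x} := by
  have e0 : {x : (Fin 3 → ℝ) × ℝ | K9Inc p q K e x} = (⋂ i : Fin 3, {x | |x.1 i| ≤ K}) ∩ {x | |p.ev x.1 x.2| ≤ K * e} ∩ {x | |p.dz x.1 x.2| ≤ K} ∩
      {x | 1 ≤ K * |p.dz x.1 x.2|} ∩ {x | |q.ev x.1 x.2| ≤ K} ∩ {x | |q.dz x.1 x.2| ≤ K} := by
    ext x
    simp only [Set.mem_setOf_eq, Set.mem_inter_iff, Set.mem_iInter]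
    constructor
    · intro h
      exact ⟨⟨⟨⟨⟨h.box, h.val⟩, h.dz_le⟩, h.dz_ge⟩, h.nval⟩, h.ndz⟩
    · rintro ⟨⟨⟨⟨⟨h1, h2⟩, h3⟩, h4⟩, h5⟩, h6⟩
      exact ⟨h1, h2, h3, h4, h5, h6⟩
  rw [e0]
  have m1 : MeasurableSet (⋂ i : Fin 3, {x : (Fin 3 → ℝ) × ℝ | |x.1 i| ≤ K}) :=
    MeasurableSet.iInter fun i => measurableSet_le (((measurable_pi_apply i).comp measurable_fst).abs) measurable_const
  exact ((((m1.inter (measurableSet_le (k9c_ev_meas p).abs measurable_const)).inter (measurableSet_le (k9c_dz_meas p).abs measurable_const)).inter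
    (measurableSet_le measurable_const ((k9c_dz_meas p).abs.const_mul K))).inter (measurableSet_le (k9c_ev_meas q).abs measurable_const)).inter
    (measurableSet_le (k9c_dz_meas q).abs measurable_const)

theorem k9c_Phi_ev (Y : KbSys P) (hY : Y.WF) (c : Y.C) (T : KbTest KbVer.two) (f : (Fin 3 → ℝ) → ℝ → ℝ) (B : ℝ) (hB : B ≠ 0)
    (hf : ∀ (u : Fin 3 → ℝ) (z : ℝ), f u z = T (Y.tc c + Y.q * u 0) ((Y.ch c).y0 + (Y.tc c + Y.q * u 0) • (Y.ch c).y1 + (Y.ch c).D.mulVec ![u 1, u 2]) (z / B))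
    (x : P.Lam × ℝ) : f (k9U Y c x) (B * P.hw (Y.wd c) x) = kbX T (P.co (Y.wd c) x.1) x.2 := by
  obtain ⟨h1, h2⟩ := k9c_Phi_coord Y hY c x
  rw [hf, h1, h2, mul_div_cancel_left₀ _ hB]
  rfl

/-- the retained incidences satisfy (9.17) and the native bounds -/
theorem k9c_chart_inc (hP : P.WF) (Y : KbSys P) (hY : Y.WF) (K e : ℝ) (hK : 1 ≤ K) (hN : P.Ntv K) (hG : Y.Geo K e) (c : Y.C) (p q : K9Eq)
    (hpev : ∀ x : P.Lam × ℝ, p.ev (k9cPhi Y c x).1 (k9cPhi Y c x).2 = kbX (Y.ch c).T (P.co (Y.wd c) x.1) x.2)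
    (hpdz : ∀ x : P.Lam × ℝ, p.dz (k9cPhi Y c x).1 (k9cPhi Y c x).2 = kbX (kbDw (Y.ch c).T) (P.co (Y.wd c) x.1) x.2 / P.B (Y.wd c))
    (hqev : ∀ x : P.Lam × ℝ, q.ev (k9cPhi Y c x).1 (k9cPhi Y c x).2 = kbX (P.Pst (Y.wd c)) (P.co (Y.wd c) x.1) x.2)
    (hqdz : ∀ x : P.Lam × ℝ, q.dz (k9cPhi Y c x).1 (k9cPhi Y c x).2 = kbX (kbDw (P.Pst (Y.wd c))) (P.co (Y.wd c) x.1) x.2 / P.B (Y.wd c))
    (x : P.Lam × ℝ) (hx : x ∈ Y.S c) : K9Inc p q K e (k9cPhi Y c x) := by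
  have hB := hP.B_pos (Y.wd c)
  have hq : 0 < Y.q := k2s_q_pos Y
  obtain ⟨hA, hI⟩ : x.1 ∈ Y.A c ∧ x.2 ∈ Y.I c := (hY.S_sub c hx).2
  have hSp : x.1 ∈ P.Sp (Y.wd c) := hY.A_sub c hA
  have h01 : x.2 ∈ Set.Icc (0 : ℝ) 1 := k2s_I_sub Y hY c hI
  refine ⟨fun i => ?_, ?_, ?_, ?_, ?_, ?_⟩
  · have hbox := hG.box c x.1 hA x.2 hI
    have hz : ∀ k : Fin 2, |k9Z Y c x k| ≤ K := fun k => (norm_le_pi_norm (k9Z Y c x) k).trans hbox
    fin_cases i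
    · show |(x.2 - Y.tc c) / Y.q| ≤ K
      have h1 : Y.tc c ≤ x.2 := hI.1
      have h2 : x.2 < Y.tc c + Y.q := by
        have := hI.2
        have e : ((Y.iv c : ℝ) + 1) * kbQ Y.n = Y.tc c + Y.q := by
          unfold KbSys.tc KbSys.q
          ring
        rwa [e] at this
      rw [abs_of_nonneg (div_nonneg (by linarith) hq.le), div_le_iff₀ hq]
      nlinarith
    · exact hz 0
    · exact hz 1
  · rw [hpev]
    exact hG.val c x.1 hA x.2 hI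
  · rw [hpdz, abs_div, abs_of_pos hB, div_le_iff₀ hB]
    exact hG.dw c x.1 hA x.2 hI
  · rw [hpdz, abs_div, abs_of_pos hB, mul_div_assoc', le_div_iff₀ hB, one_mul]
    exact hG.dw_low c x hx
  · rw [hqev]
    exact hN.sig _ x.1 hSp x.2 h01
  · rw [hqdz, abs_div, abs_of_pos hB, div_le_iff₀ hB]
    exact hN.dw _ x.1 hSp x.2 h01

/-- LEAF S9c-G3 (~300 l.; black boxes `k9g_graphs_chart`, `k9c_eq_exists`, `k9c_U_vol`).  **L9.4 (2) for one chart, in the language of `KbSys`.**   `W` = the prepared incidences of the chart, `κ` their base cap, floor `κ q J / K`.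
PLAN.  `γ := Y.wd c`, `B := P.B γ > 0`.   `p`, `q'` := `k9c_eq_exists` for `(Y.ch c).T`, `P.Pst γ` with `(t0, q, y0, y1, D) = (Y.tc c, Y.q, (Y.ch c).y0, (Y.ch c).y1, (Y.ch c).D)`.
`Φ x := (k9U Y c x, B * P.hw γ x)` (measurable: `k2s_bs_meas`, `k2s_hw_meas`, `k9c_U_bs`, continuity of `k9cU`).   For every `x`: `t0 + q û₀ = x.2`, `y0 + t y1 + D (û₁, û₂) = y(t)` (`hY.inv c`), `z / B = w`; so
`p.ev (Φ x) = kbX T ..`, `p.dz (Φ x) = kbX (kbDw T) .. / B`, `q'.ev (Φ x) = P.sig γ x`.   `Inc := {x | K9Inc p q' K e x}` (measurable: six closed conditions, `MvPolynomial.continuous_eval`), `m := ((P.mu γ).restrict W).map Φ`.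
`Φ x ∈ Inc` for `x ∈ W` : `Geo.box/val/dw/dw_low`, `hN.sig`, `hN.dw` (`W ⊆ Y.S c ⊆ Ev ∩ A ×ˢ I`, `A ⊆ Sp`, `I ⊆ [0,1]`: `k2s_I_sub`), `0 ≤ û₀ < 1`.   `|p.C| e ≤ K` : `Geo.dww`;  `|q'.C| ≤ K` : `hN.dww`.
cap: `m (Inc ∩ fst ⁻¹' S) ≤ μ {x ∈ W | bs x ∈ k9cU Y c ⁻¹' S} ≤ κ q J |S|`;   `m Inc = μ W`.   `gr := asg ∘ Φ`;   `|X - X'| ≤ |X - G û| + |G û - G û'| + |G û' - X'| ≤ Bd (2 e + d)`;  `C1 := 2 C0`. -/
theorem k9c_chart : ∃ C1 : ℝ, 1 ≤ C1 ∧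
    ∀ (P : K9P) (Y : KbSys P) (K e κ η : ℝ) (c : Y.C) (W : Set (P.Lam × ℝ)), P.WF → Y.WF → 1 ≤ K → P.Ntv K → 0 < e → e ≤ 1 → Y.Geo K e → 0 < κ → 0 < η → η ≤ 1 →
      MeasurableSet W → W ⊆ Y.S c →
      (∀ R : Set (ℝ × K9V), MeasurableSet R → P.mu (Y.wd c) {x | x ∈ W ∧ P.bs (Y.wd c) x ∈ R} ≤ ENNReal.ofReal κ * volume R) →
      ENNReal.ofReal (κ * Y.q * (Y.ch c).J / K) ≤ P.mu (Y.wd c) W →
      ∃ (n : ℕ) (gr : P.Lam × ℝ → Option (Fin n)), (n : ℝ) ≤ C1 * (K / η) ^ C1 ∧ (∀ o, MeasurableSet (gr ⁻¹' {o})) ∧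
        P.mu (Y.wd c) (W ∩ gr ⁻¹' {none}) ≤ ENNReal.ofReal η * P.mu (Y.wd c) W ∧
        ∀ x ∈ W, ∀ x' ∈ W, ∀ j, gr x = some j → gr x' = some j → ∀ d : ℝ, (∀ i, |k9U Y c x i - k9U Y c x' i| ≤ d) →
          |P.sig (Y.wd c) x - P.sig (Y.wd c) x'| ≤ C1 * (K / η) ^ C1 * (e + d) := by
  obtain ⟨C0, hC0, H0⟩ := k9g_graphs_chart
  refine ⟨2 * C0, by linarith, ?_⟩
  intro P Y K e κ η c W hP hY hK hN he he1 hG hκ hη hη1 hWm hWS hcap hfloor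
  have hB := hP.B_pos (Y.wd c)
  have hq0 : 0 < Y.q := k2s_q_pos Y
  have hJ : 0 < (Y.ch c).J := k2s_J_pos Y hY c
  obtain ⟨p, hpD, hpev, hpdz, hpC⟩ := k9c_eq_exists (Y.ch c).T (hY.adm c).1 (Y.tc c) Y.q (P.B (Y.wd c)) (Y.ch c).y0 (Y.ch c).y1 (Y.ch c).D hB.ne'
  obtain ⟨q, hqD, hqev, hqdz, hqC⟩ := k9c_eq_exists (P.Pst (Y.wd c)) (hP.Pst_adm (Y.wd c)).1 (Y.tc c) Y.q (P.B (Y.wd c)) (Y.ch c).y0 (Y.ch c).y1 (Y.ch c).D hB.ne'
  have e1 : ∀ x : P.Lam × ℝ, p.ev (k9cPhi Y c x).1 (k9cPhi Y c x).2 = kbX (Y.ch c).T (P.co (Y.wd c) x.1) x.2 :=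
    fun x => k9c_Phi_ev Y hY c (Y.ch c).T p.ev _ hB.ne' hpev x
  have e2 : ∀ x : P.Lam × ℝ, p.dz (k9cPhi Y c x).1 (k9cPhi Y c x).2 = kbX (kbDw (Y.ch c).T) (P.co (Y.wd c) x.1) x.2 / P.B (Y.wd c) :=
    fun x => k9c_Phi_ev Y hY c (fun t y w => kbDw (Y.ch c).T t y w / P.B (Y.wd c)) p.dz _ hB.ne' hpdz x
  have e3 : ∀ x : P.Lam × ℝ, q.ev (k9cPhi Y c x).1 (k9cPhi Y c x).2 = kbX (P.Pst (Y.wd c)) (P.co (Y.wd c) x.1) x.2 :=
    fun x => k9c_Phi_ev Y hY c (P.Pst (Y.wd c)) q.ev _ hB.ne' hqev x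
  have e4 : ∀ x : P.Lam × ℝ, q.dz (k9cPhi Y c x).1 (k9cPhi Y c x).2 = kbX (kbDw (P.Pst (Y.wd c))) (P.co (Y.wd c) x.1) x.2 / P.B (Y.wd c) :=
    fun x => k9c_Phi_ev Y hY c (fun t y w => kbDw (P.Pst (Y.wd c)) t y w / P.B (Y.wd c)) q.dz _ hB.ne' hqdz x
  have hΦ := k9c_Phi_meas hP Y hY c
  obtain ⟨Inc, hIncdef⟩ : ∃ Inc : Set ((Fin 3 → ℝ) × ℝ), Inc = {x | K9Inc p q K e x} := ⟨_, rfl⟩
  have hIncm : MeasurableSet Inc := hIncdef ▸ k9c_Inc_meas p q K e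
  have hWInc : ∀ x ∈ W, k9cPhi Y c x ∈ Inc := fun x hx => by
    rw [hIncdef]
    exact k9c_chart_inc hP Y hY K e hK hN hG c p q e1 e2 e3 e4 x (hWS hx)
  obtain ⟨m, hmdef⟩ : ∃ m : Measure ((Fin 3 → ℝ) × ℝ), m = ((P.mu (Y.wd c)).restrict W).map (k9cPhi Y c) := ⟨_, rfl⟩
  have hm : ∀ T : Set ((Fin 3 → ℝ) × ℝ), MeasurableSet T → m T = P.mu (Y.wd c) (k9cPhi Y c ⁻¹' T ∩ W) := fun T hT => by
    rw [hmdef, Measure.map_apply hΦ hT, Measure.restrict_apply (hΦ hT)]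
  have hmInc : m Inc = P.mu (Y.wd c) W := by
    rw [hm Inc hIncm]
    congr 1
    ext x
    exact ⟨fun h => h.2, fun h => ⟨hWInc x h, h⟩⟩
  have hc0 : 0 < κ * Y.q * (Y.ch c).J := by positivity
  have hpCe : |p.C| * e ≤ K := by
    have h1 := hG.dww c 0 0 0
    rw [hpC 0 0 0, abs_div, abs_of_pos (by positivity : 0 < P.B (Y.wd c) ^ 2), div_mul_eq_mul_div, div_le_iff₀ (by positivity)]
    exact h1
  have hqCK : |q.C| ≤ K := by
    have h1 := hN.dww (Y.wd c) 0 0 0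
    rw [hqC 0 0 0, abs_div, abs_of_pos (by positivity : 0 < P.B (Y.wd c) ^ 2), div_le_iff₀ (by positivity)]
    exact h1
  have hcap' : ∀ S : Set (Fin 3 → ℝ), MeasurableSet S → m (Inc ∩ Prod.fst ⁻¹' S) ≤ ENNReal.ofReal (κ * Y.q * (Y.ch c).J) * volume S := by
    intro S hS
    obtain ⟨hS1, hS2⟩ := k9c_U_vol Y hY c S hS
    rw [hm _ (hIncm.inter (measurable_fst hS))]
    calc P.mu (Y.wd c) (k9cPhi Y c ⁻¹' (Inc ∩ Prod.fst ⁻¹' S) ∩ W)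
        ≤ P.mu (Y.wd c) {x | x ∈ W ∧ P.bs (Y.wd c) x ∈ k9cU Y c ⁻¹' S} := measure_mono fun x hx => ⟨hx.2, hx.1.2⟩
      _ ≤ ENNReal.ofReal κ * volume (k9cU Y c ⁻¹' S) := hcap _ hS1
      _ = ENNReal.ofReal (κ * Y.q * (Y.ch c).J) * volume S := by
          rw [hS2, ← mul_assoc, ← ENNReal.ofReal_mul hκ.le, mul_assoc κ]
  obtain ⟨n, lo, hi, G, asg, h1, h2, h3, h4, h5, h6⟩ := H0 p q K e (κ * Y.q * (Y.ch c).J) η m Inc hpD hqD hK he he1 hc0 hη hη1 hIncm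
    (fun x hx => by rw [hIncdef] at hx; exact hx) hpCe hqCK hcap' (hmInc ▸ hfloor)
  have hy1 : 1 ≤ K / η := by
    rw [le_div_iff₀ hη]
    linarith
  obtain ⟨Bd, hBd⟩ : ∃ Bd : ℝ, Bd = C0 * (K / η) ^ C0 := ⟨_, rfl⟩
  rw [← hBd] at h1 h3 h4 h6
  have hBd0 : 0 ≤ Bd := by rw [hBd]; positivity
  have hBB : 2 * Bd ≤ 2 * C0 * (K / η) ^ (2 * C0) := by
    rw [hBd]
    have : (K / η) ^ C0 ≤ (K / η) ^ (2 * C0) := Real.rpow_le_rpow_of_exponent_le hy1 (by linarith)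
    nlinarith
  have hnone : asg ⁻¹' {none} = (⋃ j, asg ⁻¹' {some j})ᶜ := by
    ext x
    simp only [Set.mem_preimage, Set.mem_singleton_iff, Set.mem_compl_iff, Set.mem_iUnion, not_exists]
    constructor
    · intro h j hj
      rw [h] at hj
      exact absurd hj (by simp)
    · intro h
      cases hx : asg x with
      | none => rfl
      | some j => exact absurd hx (h j)
  have hasgm : ∀ o, MeasurableSet (asg ⁻¹' {o}) := by
    intro o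
    cases o with
    | none => rw [hnone]; exact (MeasurableSet.iUnion h2).compl
    | some j => exact h2 j
  refine ⟨n, asg ∘ k9cPhi Y c, h1.trans (by linarith), fun o => ?_, ?_, ?_⟩
  · rw [Set.preimage_comp]
    exact hΦ (hasgm o)
  · have es : W ∩ (asg ∘ k9cPhi Y c) ⁻¹' {none} = k9cPhi Y c ⁻¹' (Inc ∩ asg ⁻¹' {none}) ∩ W := by
      ext x
      constructor
      · intro h
        exact ⟨⟨hWInc x h.1, h.2⟩, h.1⟩
      · intro h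
        exact ⟨h.2, h.1.2⟩
    rw [es, ← hm _ (hIncm.inter (hasgm none)), ← hmInc]
    exact h5
  · intro x hx x' hx' j hj hj' d hd
    obtain ⟨a1, a2⟩ := h6 _ (hWInc x hx) j hj
    obtain ⟨b1, b2⟩ := h6 _ (hWInc x' hx') j hj'
    have a3 := h4 j _ a1 _ b1 d hd
    rw [e3] at a2 b2
    have hd0 : 0 ≤ d := (abs_nonneg _).trans (hd 0)
    have t1 : |P.sig (Y.wd c) x - P.sig (Y.wd c) x'| ≤ Bd * e + Bd * d + Bd * e := by
      have : P.sig (Y.wd c) x - P.sig (Y.wd c) x' = (kbX (P.Pst (Y.wd c)) (P.co (Y.wd c) x.1) x.2 - G j (k9cPhi Y c x).1)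
          + (G j (k9cPhi Y c x).1 - G j (k9cPhi Y c x').1) - (kbX (P.Pst (Y.wd c)) (P.co (Y.wd c) x'.1) x'.2 - G j (k9cPhi Y c x').1) := by
        unfold KbPb.sig
        ring
      rw [this]
      refine (abs_sub _ _).trans ?_
      refine add_le_add ((abs_add_le _ _).trans (add_le_add a2 a3)) b2
    calc |P.sig (Y.wd c) x - P.sig (Y.wd c) x'| ≤ Bd * e + Bd * d + Bd * e := t1
      _ ≤ 2 * Bd * (e + d) := by nlinarith [mul_nonneg hBd0 hd0]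
      _ ≤ 2 * C0 * (K / η) ^ (2 * C0) * (e + d) := mul_le_mul_of_nonneg_right hBB (by linarith)

/-! ## 3. All charts -/

/-- **EXIT OF L9.4** for the system `Y` of the earlier charts.   `Gs` prepared sets before, `Gq` after the two deletions; `keep` surviving labels; `gr`, `ng` graph indices; `Bd` the common bound. -/
structure K9cGr (Y : KbSys P) (Gs Gq : P.W → Set (P.Lam × ℝ)) (keep : Set Y.C) (gr : P.W → P.Lam × ℝ → ℕ) (ng : ℕ) (η Bd e : ℝ) : Prop where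
  meas : ∀ γ, MeasurableSet (Gq γ)
  sub : ∀ γ, Gq γ ⊆ Gs γ
  cov : ∀ γ, ∀ x ∈ Gq γ, ∃ c ∈ keep, Y.wd c = γ ∧ x ∈ Y.S c
  loss : P.mass (fun γ => (Gs γ ∩ Y.sel γ) \ Gq γ) ≤ ENNReal.ofReal (2 * η)
  /-- (9.16): the frozen witnesses `W_c = Y.S c ∩ Gs (wd c)` -/
  floor : ∀ c ∈ keep, ENNReal.ofReal (η * Y.q) * Y.nuC c ≤ P.mu (Y.wd c) (Y.S c ∩ Gs (Y.wd c))
  ng_le : (ng : ℝ) ≤ Bd
  gr_lt : ∀ γ, ∀ x ∈ Gq γ, gr γ x < ng
  lip : ∀ c, ∀ x ∈ Gq (Y.wd c) ∩ Y.S c, ∀ x' ∈ Gq (Y.wd c) ∩ Y.S c, gr (Y.wd c) x = gr (Y.wd c) x' → ∀ d : ℝ, (∀ i, |k9U Y c x i - k9U Y c x' i| ≤ d) →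
    |P.sig (Y.wd c) x - P.sig (Y.wd c) x'| ≤ Bd * (e + d)

theorem k9c_G4_ntv (hP : P.WF) {K K' : ℝ} (h : P.Ntv K) (hK : K ≤ K') : P.Ntv K' where
  base := fun γ l hl t ht => (h.base γ l hl t ht).trans hK
  sig := fun γ l hl t ht => (h.sig γ l hl t ht).trans hK
  dw := fun γ l hl t ht => (h.dw γ l hl t ht).trans (mul_le_mul_of_nonneg_right hK (hP.B_pos γ).le)
  dw_low := fun γ x hx => (h.dw_low γ x hx).trans (mul_le_mul_of_nonneg_right hK (abs_nonneg _))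
  dww := fun γ t y w => (h.dww γ t y w).trans (mul_le_mul_of_nonneg_right hK (by positivity))
  mass := h.mass.trans (mul_le_mul_left (ENNReal.ofReal_le_ofReal hK) _)

/-- the constants -/
theorem k9c_G4_const {C1 K η : ℝ} (hC1 : 1 ≤ C1) (hK : 1 ≤ K) (hη : 0 < η) (hη1 : η ≤ 1) :
    C1 * (16 * K ^ 4 / η / η) ^ C1 ≤ max (4 * C1) (C1 * 16 ^ C1) * (K / η) ^ max (4 * C1) (C1 * 16 ^ C1) := by
  have hx : 1 ≤ K / η := by
    rw [le_div_iff₀ hη]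
    linarith
  have h1 : 16 * K ^ 4 / η / η ≤ 16 * (K / η) ^ 4 := by
    have e : 16 * (K / η) ^ 4 = 16 * K ^ 4 / η / η * (1 / η ^ 2) := by
      field_simp
    rw [e]
    have h2 : 1 ≤ 1 / η ^ 2 := by
      rw [le_div_iff₀ (by positivity)]
      nlinarith
    have h3 : 0 ≤ 16 * K ^ 4 / η / η := by positivity
    nlinarith
  have h0 : 0 ≤ 16 * K ^ 4 / η / η := by positivity
  calc C1 * (16 * K ^ 4 / η / η) ^ C1 ≤ C1 * (16 * (K / η) ^ 4) ^ C1 := by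
        refine mul_le_mul_of_nonneg_left (Real.rpow_le_rpow h0 h1 (by linarith)) (by linarith)
    _ = C1 * 16 ^ C1 * (K / η) ^ (4 * C1) := by
        rw [Real.mul_rpow (by norm_num) (by positivity), ← Real.rpow_natCast (K / η) 4, ← Real.rpow_mul (by positivity)]
        push_cast
        ring
    _ ≤ max (4 * C1) (C1 * 16 ^ C1) * (K / η) ^ max (4 * C1) (C1 * 16 ^ C1) := by
        refine mul_le_mul (le_max_right _ _) (Real.rpow_le_rpow_of_exponent_le hx (le_max_left _ _)) (by positivity) ?_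
        exact le_trans (by linarith) (le_max_left _ _)

/-- one kept chart, without dependent types: `N` = the deleted set, `gv` = the graph index -/
theorem k9c_G4_one {C1 : ℝ}
    (hC : ∀ (P : K9P) (Y : KbSys P) (K e κ η : ℝ) (c : Y.C) (W : Set (P.Lam × ℝ)), P.WF → Y.WF → 1 ≤ K → P.Ntv K → 0 < e → e ≤ 1 → Y.Geo K e → 0 < κ → 0 < η → η ≤ 1 →
      MeasurableSet W → W ⊆ Y.S c →
      (∀ R : Set (ℝ × K9V), MeasurableSet R → P.mu (Y.wd c) {x | x ∈ W ∧ P.bs (Y.wd c) x ∈ R} ≤ ENNReal.ofReal κ * volume R) →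
      ENNReal.ofReal (κ * Y.q * (Y.ch c).J / K) ≤ P.mu (Y.wd c) W →
      ∃ (n : ℕ) (gr : P.Lam × ℝ → Option (Fin n)), (n : ℝ) ≤ C1 * (K / η) ^ C1 ∧ (∀ o, MeasurableSet (gr ⁻¹' {o})) ∧
        P.mu (Y.wd c) (W ∩ gr ⁻¹' {none}) ≤ ENNReal.ofReal η * P.mu (Y.wd c) W ∧
        ∀ x ∈ W, ∀ x' ∈ W, ∀ j, gr x = some j → gr x' = some j → ∀ d : ℝ, (∀ i, |k9U Y c x i - k9U Y c x' i| ≤ d) →
          |P.sig (Y.wd c) x - P.sig (Y.wd c) x'| ≤ C1 * (K / η) ^ C1 * (e + d))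
    (Y : KbSys P) {K e n1 η : ℝ} (Gs : P.W → Set (P.Lam × ℝ)) (hP : P.WF) (hY : Y.WF) (hK : 1 ≤ K) (hN : P.Ntv K) (he : 0 < e) (he1 : e ≤ 1)
    (hG : Y.Geo K e) (hn1 : 0 < n1) (hS : Y.Sat K n1) (hη : 0 < η) (hη1 : η ≤ 1) (hGs : ∀ γ, MeasurableSet (Gs γ))
    (hdn : ∀ γ, ∀ x ∈ Gs γ, P.dn (P.hid e) γ x ≤ ENNReal.ofReal (K * n1)) (c : Y.C)
    (hc : ENNReal.ofReal (η * Y.q) * Y.nuC c ≤ P.mu (Y.wd c) (Y.S c ∩ Gs (Y.wd c))) :
    ∃ (n : ℕ) (gv : P.Lam × ℝ → ℕ) (N : Set (P.Lam × ℝ)), (n : ℝ) ≤ C1 * (16 * K ^ 4 / η / η) ^ C1 ∧ MeasurableSet N ∧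
      P.mu (Y.wd c) (Y.S c ∩ Gs (Y.wd c) ∩ N) ≤ ENNReal.ofReal η * P.mu (Y.wd c) (Y.S c ∩ Gs (Y.wd c)) ∧ (∀ x, x ∉ N → gv x < n) ∧
      ∀ x ∈ Y.S c ∩ Gs (Y.wd c), x ∉ N → ∀ x' ∈ Y.S c ∩ Gs (Y.wd c), x' ∉ N → gv x = gv x' → ∀ d : ℝ, (∀ i, |k9U Y c x i - k9U Y c x' i| ≤ d) →
          |P.sig (Y.wd c) x - P.sig (Y.wd c) x'| ≤ C1 * (16 * K ^ 4 / η / η) ^ C1 * (e + d) := by
  have hq := k2s_q_pos Y
  have hJ := k2s_J_pos Y hY c
  have hK0 : 0 < K := by linarith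
  have hKK : K ≤ 16 * K ^ 4 / η := by
    rw [le_div_iff₀ hη]
    have h1 : K * η ≤ K := by nlinarith
    have h2 : K ≤ K ^ 4 := by
      have : 1 ≤ K ^ 3 := one_le_pow₀ hK
      nlinarith
    linarith
  have hcap : ∀ R : Set (ℝ × K9V), MeasurableSet R →
      P.mu (Y.wd c) {x | x ∈ Y.S c ∩ Gs (Y.wd c) ∧ P.bs (Y.wd c) x ∈ R} ≤ ENNReal.ofReal (16 * K ^ 3 * n1) * volume R := by
    intro R hR
    have h1 := k9c_cap_chart hP Y hY hK he hG c (ENNReal.ofReal (K * n1)) R hR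
    have e1 : ENNReal.ofReal (16 * K ^ 3 * n1) = ENNReal.ofReal (16 * K ^ 2) * ENNReal.ofReal (K * n1) := by
      rw [← ENNReal.ofReal_mul (by positivity)]
      congr 1
      ring
    rw [e1]
    refine le_trans (measure_mono ?_) h1
    rintro x ⟨⟨hx1, hx2⟩, hx3⟩
    exact ⟨hdn _ x hx2, hx1, hx3⟩
  have hfl : ENNReal.ofReal (16 * K ^ 3 * n1 * Y.q * (Y.ch c).J / (16 * K ^ 4 / η)) ≤ P.mu (Y.wd c) (Y.S c ∩ Gs (Y.wd c)) := by
    refine le_trans ?_ hc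
    have e1 : 16 * K ^ 3 * n1 * Y.q * (Y.ch c).J / (16 * K ^ 4 / η) = η * Y.q / K * (n1 * (Y.ch c).J) := by
      field_simp
    have e2 : ENNReal.ofReal (η * Y.q) = ENNReal.ofReal (η * Y.q / K) * ENNReal.ofReal K := by
      rw [← ENNReal.ofReal_mul (by positivity)]
      congr 1
      field_simp
    rw [e1, ENNReal.ofReal_mul (by positivity), e2, mul_assoc]
    exact mul_le_mul' le_rfl (hS c).2.2
  obtain ⟨n, g, h1, h2, h3, h4⟩ := hC P Y (16 * K ^ 4 / η) e (16 * K ^ 3 * n1) η c (Y.S c ∩ Gs (Y.wd c)) hP hY (hK.trans hKK)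
    (k9c_G4_ntv hP hN hKK) he he1 (k2s_geo_mono Y hP hG hKK he.le) (by positivity) hη hη1 ((hY.S_meas c).inter (hGs _)) Set.inter_subset_left hcap hfl
  refine ⟨n, fun x => (g x).elim 0 (fun j => j.val), g ⁻¹' {none}, h1, h2 none, h3, ?_, ?_⟩
  · intro x hx
    rcases hgx : g x with _ | j
    · exact absurd hgx hx
    · simp only [hgx, Option.elim]
      exact j.isLt
  · intro x hx hxN x' hx' hxN' hgv d hd
    rcases hgx : g x with _ | j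
    · exact absurd hgx hxN
    rcases hgx' : g x' with _ | j'
    · exact absurd hgx' hxN'
    simp only [hgx, hgx', Option.elim] at hgv
    have hjj : j' = j := (Fin.ext hgv).symm
    rw [hjj] at hgx'
    exact h4 x hx x' hx' j hgx hgx' d hd

/-- the loss of the two deletions -/
theorem k9c_G4_loss (hP : P.WF) (Y : KbSys P) (hY : Y.WF) {η : ℝ} (hη : 0 < η) (Gs Gq : P.W → Set (P.Lam × ℝ)) (keep : Set Y.C) (N : Y.C → Set (P.Lam × ℝ))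
    (hk : ∀ c, c ∉ keep → P.mu (Y.wd c) (Y.S c ∩ Gs (Y.wd c)) ≤ ENNReal.ofReal (η * Y.q) * Y.nuC c)
    (hN : ∀ c ∈ keep, P.mu (Y.wd c) (Y.S c ∩ Gs (Y.wd c) ∩ N c) ≤ ENNReal.ofReal η * P.mu (Y.wd c) (Y.S c ∩ Gs (Y.wd c)))
    (hq : ∀ c ∈ keep, ∀ x ∈ Y.S c ∩ Gs (Y.wd c), x ∉ N c → x ∈ Gq (Y.wd c)) :
    P.mass (fun γ => (Gs γ ∩ Y.sel γ) \ Gq γ) ≤ ENNReal.ofReal (2 * η) := by
  obtain ⟨D, hD⟩ : ∃ D : Y.C → Set (P.Lam × ℝ), D = fun c => if c ∈ keep then Y.S c ∩ Gs (Y.wd c) ∩ N c else Y.S c ∩ Gs (Y.wd c) := ⟨_, rfl⟩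
  have h1 : ∀ γ, P.mu γ ((Gs γ ∩ Y.sel γ) \ Gq γ) ≤ ∑ c ∈ Finset.univ.filter (fun c => Y.wd c = γ), P.mu γ (D c) := by
    intro γ
    refine le_trans (measure_mono ?_) (measure_biUnion_finset_le _ _)
    rintro x ⟨⟨hx1, hx2⟩, hx3⟩
    simp only [KbSys.sel, Set.mem_iUnion] at hx2
    obtain ⟨c, hc, hxc⟩ := hx2
    subst hc
    simp only [Set.mem_iUnion, Finset.mem_filter, Finset.mem_univ, true_and]
    refine ⟨c, rfl, ?_⟩
    rw [hD]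
    by_cases hck : c ∈ keep
    · simp only [if_pos hck]
      refine ⟨⟨hxc, hx1⟩, ?_⟩
      by_contra hxN
      exact hx3 (hq c hck x ⟨hxc, hx1⟩ hxN)
    · simp only [if_neg hck]
      exact ⟨hxc, hx1⟩
  have h2 : ∀ c, P.om (Y.wd c) * P.mu (Y.wd c) (D c) ≤ ENNReal.ofReal η * (P.om (Y.wd c) * ENNReal.ofReal Y.q * Y.nuC c)
      + ENNReal.ofReal η * (P.om (Y.wd c) * P.mu (Y.wd c) (Y.S c ∩ Gs (Y.wd c))) := by
    intro c
    rw [hD]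
    by_cases hck : c ∈ keep
    · simp only [if_pos hck]
      refine le_trans ?_ le_add_self
      calc P.om (Y.wd c) * P.mu (Y.wd c) (Y.S c ∩ Gs (Y.wd c) ∩ N c) ≤ P.om (Y.wd c) * (ENNReal.ofReal η * P.mu (Y.wd c) (Y.S c ∩ Gs (Y.wd c))) :=
            mul_le_mul' le_rfl (hN c hck)
        _ = _ := by ring
    · simp only [if_neg hck]
      refine le_trans ?_ le_self_add
      calc P.om (Y.wd c) * P.mu (Y.wd c) (Y.S c ∩ Gs (Y.wd c)) ≤ P.om (Y.wd c) * (ENNReal.ofReal (η * Y.q) * Y.nuC c) :=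
            mul_le_mul' le_rfl (hk c hck)
        _ = _ := by
            rw [ENNReal.ofReal_mul hη.le]
            ring
  calc P.mass (fun γ => (Gs γ ∩ Y.sel γ) \ Gq γ) = ∑ γ, P.om γ * P.mu γ ((Gs γ ∩ Y.sel γ) \ Gq γ) := rfl
    _ ≤ ∑ γ, ∑ c ∈ Finset.univ.filter (fun c => Y.wd c = γ), P.om (Y.wd c) * P.mu (Y.wd c) (D c) := by
        refine Finset.sum_le_sum fun γ _ => ?_
        refine le_trans (mul_le_mul' le_rfl (h1 γ)) ?_
        rw [Finset.mul_sum]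
        refine le_of_eq (Finset.sum_congr rfl fun c hc => ?_)
        rw [(Finset.mem_filter.1 hc).2]
    _ = ∑ c, P.om (Y.wd c) * P.mu (Y.wd c) (D c) :=
        Finset.sum_fiberwise_of_maps_to (g := Y.wd) (t := Finset.univ) (fun c _ => Finset.mem_univ _) _
    _ ≤ ∑ c, (ENNReal.ofReal η * (P.om (Y.wd c) * ENNReal.ofReal Y.q * Y.nuC c)
          + ENNReal.ofReal η * (P.om (Y.wd c) * P.mu (Y.wd c) (Y.S c ∩ Gs (Y.wd c)))) := Finset.sum_le_sum fun c _ => h2 c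
    _ = ENNReal.ofReal η * Y.Z + ENNReal.ofReal η * ∑ c, P.om (Y.wd c) * P.mu (Y.wd c) (Y.S c ∩ Gs (Y.wd c)) := by
        rw [Finset.sum_add_distrib, ← Finset.mul_sum, ← Finset.mul_sum]
        rfl
    _ ≤ ENNReal.ofReal η * 1 + ENNReal.ofReal η * 1 := by
        refine add_le_add (mul_le_mul' le_rfl (k2s_Z_le Y hP hY)) (mul_le_mul' le_rfl ?_)
        exact (k2s_sum_le_mass Y hP hY Gs Finset.univ).trans ((k2s_mass_le_tot P Gs).trans (k2s_tot_le P hP))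
    _ = ENNReal.ofReal (2 * η) := by
        rw [mul_one, ← ENNReal.ofReal_add hη.le hη.le]
        congr 1
        ring

/-- LEAF S9c-G4 (~300 l.; black boxes `k9c_chart`, `k9c_cap_chart`).  **L9.4.**
PLAN.  `W c := Y.S c ∩ Gs (Y.wd c)`, `keep := {c | ofReal (η q) ν_c ≤ μ (W c)}`.   For `c ∈ keep` apply `k9c_chart` with `κ := 16 K³ n1` (`k9c_cap_chart` with `hi = ofReal (K n1)`), slack `K' := 16 K⁴ / η` :
`μ (W c) ≥ η q ν_c ≥ η q n1 J / K = κ q J / K'` (third clause of `Sat`);  `Geo`, `Ntv` are monotone in the slack (`k2s_geo_mono`; `Ntv`: field by field, `hP.B_pos`).   `K' / η ≤ 16 (K / η)⁴`, so `C2 := max (4 C1) (C1 16^C1)` works (`Real.rpow`).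
Choose `n c`, `g c` (`Classical.choose`; `n c = 0` outside `keep`), `ng := Finset.univ.sup n`;   `Gq γ := ⋃ c ∈ keep, wd c = γ, W c ∩ (g c ⁻¹' {none})ᶜ`;   `gr γ x := ` the value `(j : ℕ)` of `g c x = some j` for the chart `c ∈ keep` of the world `γ` with `x ∈ Y.S c`
(unique: `k2s_S_disj`; define it as a sum / `if ∃` over `c`).
Loss: `(Gs γ ∩ sel γ) \ Gq γ ⊆ ⋃ c ∉ keep, W c ∪ ⋃ c ∈ keep, W c ∩ g c ⁻¹' {none}`;  weighted sum `≤ η ∑ ω q ν_c + η ∑ ω μ (W c) ≤ η Z + η mass ≤ 2 η` (`k2s_Z_le`, `k2s_mass_le_one` / `k2s_sum_le_mass`). -/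
theorem k9c_graphs : ∃ C2 : ℝ, 1 ≤ C2 ∧
    ∀ (P : K9P) (Y : KbSys P) (K e n1 η : ℝ) (Gs : P.W → Set (P.Lam × ℝ)), P.WF → Y.WF → 1 ≤ K → P.Ntv K → 0 < e → e ≤ 1 → Y.Geo K e → 0 < n1 → Y.Sat K n1 → 0 < η → η ≤ 1 →
      (∀ γ, MeasurableSet (Gs γ)) → (∀ γ, ∀ x ∈ Gs γ, P.dn (P.hid e) γ x ≤ ENNReal.ofReal (K * n1)) →
      ∃ (Gq : P.W → Set (P.Lam × ℝ)) (keep : Set Y.C) (gr : P.W → P.Lam × ℝ → ℕ) (ng : ℕ), K9cGr Y Gs Gq keep gr ng η (C2 * (K / η) ^ C2) e := by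
  obtain ⟨C1, hC1, hC⟩ := k9c_chart
  refine ⟨max (4 * C1) (C1 * 16 ^ C1), le_trans (by linarith) (le_max_left _ _), ?_⟩
  intro P Y K e n1 η Gs hP hY hK hN he he1 hG hn1 hS hη hη1 hGs hdn
  obtain ⟨Bd, hBd⟩ : ∃ Bd, Bd = max (4 * C1) (C1 * 16 ^ C1) * (K / η) ^ max (4 * C1) (C1 * 16 ^ C1) := ⟨_, rfl⟩
  rw [← hBd]
  have hB0 : C1 * (16 * K ^ 4 / η / η) ^ C1 ≤ Bd := hBd ▸ k9c_G4_const hC1 hK hη hη1
  have hBd0 : 0 ≤ Bd := le_trans (by positivity) hB0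
  obtain ⟨keep, hkeep⟩ : ∃ keep : Set Y.C, keep = {c | ENNReal.ofReal (η * Y.q) * Y.nuC c ≤ P.mu (Y.wd c) (Y.S c ∩ Gs (Y.wd c))} := ⟨_, rfl⟩
  have hone := fun (c : Y.C) (hc : c ∈ keep) => k9c_G4_one hC Y Gs hP hY hK hN he he1 hG hn1 hS hη hη1 hGs hdn c (by rw [hkeep] at hc; exact hc)
  choose! n gv N h1 h2 h3 h4 h5 using hone
  have uniq : ∀ (c c' : Y.C) (x : P.Lam × ℝ), Y.wd c = Y.wd c' → x ∈ Y.S c → x ∈ Y.S c' → c = c' := by
    intro c c' x hw hx hx'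
    by_contra hne
    exact Set.disjoint_left.1 (k2s_S_disj Y hY hne hw) hx hx'
  obtain ⟨Gq, hGq⟩ : ∃ Gq : P.W → Set (P.Lam × ℝ), Gq = fun γ => ⋃ c, ⋃ (_ : c ∈ keep ∧ Y.wd c = γ), (Y.S c ∩ Gs (Y.wd c)) \ N c := ⟨_, rfl⟩
  obtain ⟨gr, hgr⟩ : ∃ gr : P.W → P.Lam × ℝ → ℕ, gr = fun γ x => if h : ∃ c, c ∈ keep ∧ Y.wd c = γ ∧ x ∈ Y.S c then gv (Classical.choose h) x else 0 := ⟨_, rfl⟩
  have hgr' : ∀ c ∈ keep, ∀ x ∈ Y.S c, gr (Y.wd c) x = gv c x := by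
    intro c hc x hx
    have h : ∃ c', c' ∈ keep ∧ Y.wd c' = Y.wd c ∧ x ∈ Y.S c' := ⟨c, hc, rfl, hx⟩
    have hs := Classical.choose_spec h
    rw [hgr]
    simp only [dif_pos h]
    rw [uniq _ c x hs.2.1 hs.2.2 hx]
  have hmem : ∀ γ x, x ∈ Gq γ ↔ ∃ c, c ∈ keep ∧ Y.wd c = γ ∧ x ∈ Y.S c ∩ Gs (Y.wd c) ∧ x ∉ N c := by
    intro γ x
    rw [hGq]
    simp only [Set.mem_iUnion, Set.mem_sdiff, exists_prop, and_assoc]
  have hloc : ∀ c, ∀ x ∈ Gq (Y.wd c) ∩ Y.S c, c ∈ keep ∧ x ∈ Y.S c ∩ Gs (Y.wd c) ∧ x ∉ N c := by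
    rintro c x ⟨hx1, hx2⟩
    obtain ⟨c', hc', hw, hx3, hx4⟩ := (hmem _ _).1 hx1
    have := uniq c' c x hw hx3.1 hx2
    subst this
    exact ⟨hc', hx3, hx4⟩
  refine ⟨Gq, keep, gr, ⌊Bd⌋₊, ?_, ?_, ?_, ?_, ?_, ?_, ?_, ?_⟩
  · intro γ
    rw [hGq]
    refine MeasurableSet.iUnion fun c => MeasurableSet.iUnion fun hc => ?_
    exact ((hY.S_meas c).inter (hGs _)).diff (h2 c hc.1)
  · intro γ x hx
    obtain ⟨c, _, hw, hx3, _⟩ := (hmem _ _).1 hx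
    rw [← hw]
    exact hx3.2
  · intro γ x hx
    obtain ⟨c, hc, hw, hx3, _⟩ := (hmem _ _).1 hx
    exact ⟨c, hc, hw, hx3.1⟩
  · refine k9c_G4_loss hP Y hY hη Gs Gq keep N ?_ h3 ?_
    · intro c hc
      rw [hkeep] at hc
      exact (not_le.1 hc).le
    · intro c hc x hx hxN
      exact (hmem _ _).2 ⟨c, hc, rfl, hx, hxN⟩
  · intro c hc
    rw [hkeep] at hc
    exact hc
  · exact Nat.floor_le hBd0
  · intro γ x hx
    obtain ⟨c, hc, hw, hx3, hx4⟩ := (hmem _ _).1 hx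
    rw [← hw, hgr' c hc x hx3.1]
    exact lt_of_lt_of_le (h4 c hc x hx4) (Nat.le_floor ((h1 c hc).trans hB0))
  · intro c x hx x' hx' hg d hd
    obtain ⟨hc, hx3, hx4⟩ := hloc c x hx
    obtain ⟨_, hx3', hx4'⟩ := hloc c x' hx'
    rw [hgr' c hc x hx3.1, hgr' c hc x' hx3'.1] at hg
    refine (h5 c hc x hx3 hx4 x' hx3' hx4' hg d hd).trans ?_
    refine mul_le_mul_of_nonneg_right hB0 ?_
    have := (abs_nonneg _).trans (hd 0)
    linarith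

end

end Claimed.Agent.R252

/-!
# ROW 252 (S0492), unit S9c (post BP-252-S9c, sub-architect helper285; chief helper233), file 2: **L9.5 IN THE LANGUAGE OF THE PROJECTED LAW `k9dD`**.      CONTRACT file: the `sorry`s are the leaves L-252-S9c-P*.

09-unbounded-narrowness.tex l.709-883 (`a08:projected-bounds`).   PAPER-FREE, ONE scale, explicit slack `K ≥ 1`.   STATEMENTS ARE FROZEN (defects: one line to helper285).
Provers replace the `sorry`s IN PLACE (always patch a freshly pulled copy), helper lemmas directly above, prefix `k9c_`.   All statements of imported contract files may be cited even while they are `sorry`.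

`YA` = the system of the charts `A` WHOSE SELECTIONS ARE ALREADY PREPARED (`k9cSel YA₀ Gq`);  `D = k9dD YA c e Zs` the projected law `λ_A` (`S9d/Defs`), `e = e_Z = k9Rot n_C`.
* s1  `k9cSel`;  `k9c_D_push` : the `λ_A`-mass of a condition on `(τ, ζ, X, ζ')` = `(q ν_A)⁻¹ μ` of the same condition on the incidences of `YA.S c`   (from `k2n_mu_norm_apply'`).
* s2  geometry: `k9c_tang` (range of `ζ`), `k9c_frame` (normal position and normal velocity in a full-time chart).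
* s3  **L9.5 (1)** `k9c_ecap`, `k9c_eang`.
* s4  **L9.5 (2)** `k9c_cell` (= `k9_cell_support` fed with `K9cGr`), `k9c_supp_of_cells` (total count), `k9c_supp`.
-/

set_option autoImplicit false

namespace Claimed.Agent.R252

open MeasureTheory
open scoped ENNReal BigOperators
open Classical

noncomputable section

variable {P : K9P}

/-! ## 1. The prepared system and the projected law -/

/-- restriction of the selections to world-wise sets; labels, assignments, charts are kept -/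
def k9cSel (Y : KbSys P) (G : P.W → Set (P.Lam × ℝ)) : KbSys P := { Y with S := fun c => Y.S c ∩ G (Y.wd c) }

/-- LEAF S9c-P0 (~120 l.).  (all fields but `S_meas`, `S_sub` are those of `Y`) -/
theorem k9c_sel_wf (Y : KbSys P) (G : P.W → Set (P.Lam × ℝ)) (hY : Y.WF) (hG : ∀ γ, MeasurableSet (G γ)) : (k9cSel Y G).WF := by
  exact ⟨hY.iv_lt, hY.A_meas, hY.A_sub, hY.A_disj, fun c => (hY.S_meas c).inter (hG (Y.wd c)),
    fun c => Set.inter_subset_left.trans (hY.S_sub c), hY.inv, hY.adm⟩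

/-- (same list function) -/
theorem k9c_sel_known (Y : KbSys P) (G : P.W → Set (P.Lam × ℝ)) {D : Type} {ℓ : P.Lab D} {K : ℝ} (h : Y.Known ℓ K) : (k9cSel Y G).Known ℓ K := by
  obtain ⟨Lst, h1, h2, h3⟩ := h
  exact ⟨Lst, h1, h2, fun c x hx => h3 c x hx.1⟩

/-- (`μ (S c) ≤ μ (S c ∩ G) + μ (S c \ G)`;  `k2s_sum_le_mass Y hP hY (fun γ => Y.sel γ \ G γ) univ`, `S c \ G = S c ∩ (sel \ G)`) -/
theorem k9c_sel_mass (hP : P.WF) (Y : KbSys P) (hY : Y.WF) (G : P.W → Set (P.Lam × ℝ)) :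
    Y.mass ≤ (k9cSel Y G).mass + P.mass (fun γ => Y.sel γ \ G γ) := by
  have h1 := k2s_sum_le_mass Y hP hY (fun γ => Y.sel γ \ G γ) Finset.univ
  have h2 : ∀ c : Y.C, P.mu (Y.wd c) (Y.S c) ≤ P.mu (Y.wd c) (Y.S c ∩ G (Y.wd c)) + P.mu (Y.wd c) (Y.S c ∩ (Y.sel (Y.wd c) \ G (Y.wd c))) := by
    intro c
    refine le_trans (measure_mono ?_) (measure_union_le _ _)
    intro x hx
    by_cases hg : x ∈ G (Y.wd c)
    · exact Or.inl ⟨hx, hg⟩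
    · refine Or.inr ⟨hx, ?_, hg⟩
      simp only [KbSys.sel, Set.mem_iUnion]
      exact ⟨c, rfl, hx⟩
  calc Y.mass = ∑ c, P.om (Y.wd c) * P.mu (Y.wd c) (Y.S c) := rfl
    _ ≤ ∑ c, (P.om (Y.wd c) * P.mu (Y.wd c) (Y.S c ∩ G (Y.wd c)) + P.om (Y.wd c) * P.mu (Y.wd c) (Y.S c ∩ (Y.sel (Y.wd c) \ G (Y.wd c)))) := by
        refine Finset.sum_le_sum fun c _ => ?_
        rw [← mul_add]
        exact mul_le_mul' le_rfl (h2 c)
    _ = ∑ c, P.om (Y.wd c) * P.mu (Y.wd c) (Y.S c ∩ G (Y.wd c)) + ∑ c, P.om (Y.wd c) * P.mu (Y.wd c) (Y.S c ∩ (Y.sel (Y.wd c) \ G (Y.wd c))) :=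
        Finset.sum_add_distrib
    _ ≤ (k9cSel Y G).mass + P.mass (fun γ => Y.sel γ \ G γ) := add_le_add (le_of_eq rfl) h1

theorem k9c_dot_aff (e a b : K9V) (t : ℝ) : k9dot e (a + t • b) = k9dot e a + t * k9dot e b := by
  unfold k9dot
  simp only [Pi.add_apply, Pi.smul_apply, smul_eq_mul]
  ring

theorem k9c_D_y (YA : KbSys P) (c : YA.C) (e : K9V) (Zs : ℝ) (l : P.Lam) (hl : l ∈ YA.A c) (τ : ℝ) :
    (k9dD YA c e Zs).y l τ = k9dZe YA c e Zs l τ := by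
  have hq := YA.k2n_q_pos
  show (YA.A c).indicator (fun l => k9dZe YA c e Zs l 0) l
    + (YA.A c).indicator (fun l => k9dot e (kbV (P.co (YA.wd c) l))) l * τ = _
  rw [Set.indicator_of_mem hl, Set.indicator_of_mem hl]
  have key : ∀ t : ℝ, k9dot e (kbY (P.co (YA.wd c) l) t)
      = k9dot e (P.co (YA.wd c) l).1 + t * k9dot e (kbV (P.co (YA.wd c) l)) := by
    intro t
    exact k9c_dot_aff e (P.co (YA.wd c) l).1 (P.co (YA.wd c) l).2.1 t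
  unfold k9dZe
  rw [key, key]
  unfold KbSys.tOf
  field_simp
  ring

theorem k9c_D_x (hP : P.WF) (YA : KbSys P) (c : YA.C) (e : K9V) (Zs : ℝ) (l : P.Lam) (hl : l ∈ YA.A c) (τ : ℝ) :
    (k9dD YA c e Zs).x l τ = k9dX YA c l τ := by
  obtain ⟨c0, c1, c2, hc⟩ := k2n_X_poly (hP.Pst_adm (YA.wd c)) (P.co (YA.wd c) l)
  show (YA.A c).indicator (fun l => k9dX YA c l 0) l
    + (YA.A c).indicator (fun l => -3 * k9dX YA c l 0 + 4 * k9dX YA c l (1 / 2) - k9dX YA c l 1) l * τ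
    + (YA.A c).indicator (fun l => 2 * k9dX YA c l 0 - 4 * k9dX YA c l (1 / 2) + 2 * k9dX YA c l 1) l * τ ^ 2 = _
  rw [Set.indicator_of_mem hl, Set.indicator_of_mem hl, Set.indicator_of_mem hl]
  unfold k9dX
  simp only [hc]
  unfold KbSys.tOf
  ring

theorem k9c_Y_meas (hP : P.WF) (γ : P.W) (t : ℝ) : Measurable fun l => kbY (P.co γ l) t := by
  have h := hP.co_meas γ
  unfold kbY
  exact h.fst.add (h.snd.fst.const_smul t)

theorem k9c_W_meas (hP : P.WF) (γ : P.W) (t : ℝ) : Measurable fun l => kbW (P.co γ l) t := by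
  have h := hP.co_meas γ
  unfold kbW
  refine Finset.measurable_sum _ fun i _ => ?_
  exact ((measurable_pi_apply i).comp h.snd.snd).mul_const _

theorem k9c_X_meas (hP : P.WF) (γ : P.W) (t : ℝ) : Measurable fun l => kbX (P.Pst γ) (P.co γ l) t := by
  have hc := (k2n_quad_cont (hP.Pst_adm γ).1).measurable
  have hm : Measurable fun l => ((t, kbY (P.co γ l) t, kbW (P.co γ l) t) : ℝ × KbB KbVer.two × ℝ) :=
    measurable_const.prodMk ((k9c_Y_meas hP γ t).prodMk (k9c_W_meas hP γ t))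
  exact hc.comp hm

theorem k9c_dot_meas (e : K9V) : Measurable (k9dot e) := by
  unfold k9dot
  fun_prop

theorem k9c_D_meas (hP : P.WF) (YA : KbSys P) (hY : YA.WF) (c : YA.C) (e : K9V) (Zs : ℝ) : Measurable (k9dD YA c e Zs).co := by
  have hA := hY.A_meas c
  have hX : ∀ τ, Measurable fun l => k9dX YA c l τ := fun τ => k9c_X_meas hP _ _
  have h0 : Measurable (k9dD YA c e Zs).y0 := by
    refine Measurable.indicator ?_ hA
    unfold k9dZe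
    exact (((k9c_dot_meas e).comp (k9c_Y_meas hP _ _)).sub_const _).div_const _
  have h1 : Measurable (k9dD YA c e Zs).y1 := by
    refine Measurable.indicator ?_ hA
    exact (k9c_dot_meas e).comp (hP.co_meas _).snd.fst
  have h2 : Measurable (k9dD YA c e Zs).x0 := Measurable.indicator (hX 0) hA
  have h3 : Measurable (k9dD YA c e Zs).x1 :=
    Measurable.indicator ((((hX 0).const_mul (-3)).add ((hX (1 / 2)).const_mul 4)).sub (hX 1)) hA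
  have h4 : Measurable (k9dD YA c e Zs).x2 :=
    Measurable.indicator ((((hX 0).const_mul 2).sub ((hX (1 / 2)).const_mul 4)).add ((hX 1).const_mul 2)) hA
  exact h0.prodMk (h1.prodMk (h2.prodMk (h3.prodMk h4)))

/-- LEAF S9c-P1 (~250 l.).  **The projected law in the original incidences.**   `F` = a measurable condition on `(τ, ζ, X, ζ')`.
PLAN.  `(k9dD YA c e Zs).mu = (YA.norm 1).mu c` by `rfl` (`k7aTm = KbPb.tm`), so `k2n_mu_norm_apply' hP hY 1 c U' hU'`, `k2nBack c x = (x.1, tauOf c x.2)`.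
On `l ∈ YA.A c` (true on the support: `hY.S_sub`) the indicators disappear: `D.y l τ = (e · y(tOf τ) - Zs)/q` (affine in `τ`, `ring`-type identity after unfolding `kbY`, `tOf`, `k9dZe`), `D.y1 l = e · V`,
`D.x l τ = kbX P_* (co l) (tOf τ)` : the right side is a polynomial of degree `≤ 2` in `τ` (`hP.Pst_adm`, `KbQuad.ev`, `kbW` has two coefficients: `Fin.sum_univ_two`), and a quadratic is recovered from its values at `0, 1/2, 1`.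
Measurability of `U' = {z | (z.2, D.y .., D.x .., D.y1 ..) ∈ F}` : the five coefficient maps are measurable (`Measurable.indicator`, `hY.A_meas`, `hP.co_meas`, `k2s_quad_cont`).   `tOf c (tauOf c t) = t`. -/
theorem k9c_D_push (hP : P.WF) (YA : KbSys P) (hY : YA.WF) (c : YA.C) (e : K9V) (Zs : ℝ) (F : Set (ℝ × ℝ × ℝ × ℝ)) (hF : MeasurableSet F) :
    (k9dD YA c e Zs).mu {z | (z.2, (k9dD YA c e Zs).y z.1 z.2, (k9dD YA c e Zs).x z.1 z.2, (k9dD YA c e Zs).y1 z.1) ∈ F}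
      = (ENNReal.ofReal YA.q * YA.nuC c)⁻¹ * P.mu (YA.wd c) {x | x ∈ YA.S c ∧
          ((x.2 - YA.tc c) / YA.q, (k9dot e (k9Y P (YA.wd c) x) - Zs) / YA.q, P.sig (YA.wd c) x, k9dot e (k9Vel P (YA.wd c) x)) ∈ F} := by
  have hco := k9c_D_meas hP YA hY c e Zs
  have m0 : Measurable (k9dD YA c e Zs).y0 := hco.fst
  have m1 : Measurable (k9dD YA c e Zs).y1 := hco.snd.fst
  have m2 : Measurable (k9dD YA c e Zs).x0 := hco.snd.snd.fst
  have m3 : Measurable (k9dD YA c e Zs).x1 := hco.snd.snd.snd.fst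
  have m4 : Measurable (k9dD YA c e Zs).x2 := hco.snd.snd.snd.snd
  have hmap : Measurable fun z : P.Lam × ℝ =>
      (z.2, (k9dD YA c e Zs).y z.1 z.2, (k9dD YA c e Zs).x z.1 z.2, (k9dD YA c e Zs).y1 z.1) := by
    refine measurable_snd.prodMk (Measurable.prodMk ?_ (Measurable.prodMk ?_ (m1.comp measurable_fst)))
    · exact (m0.comp measurable_fst).add ((m1.comp measurable_fst).mul measurable_snd)
    · exact ((m2.comp measurable_fst).add ((m3.comp measurable_fst).mul measurable_snd)).add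
        ((m4.comp measurable_fst).mul (measurable_snd.pow_const 2))
  have hU : MeasurableSet {z : P.Lam × ℝ |
      (z.2, (k9dD YA c e Zs).y z.1 z.2, (k9dD YA c e Zs).x z.1 z.2, (k9dD YA c e Zs).y1 z.1) ∈ F} := hmap hF
  have h1 := YA.k2n_mu_norm_apply' hP hY 1 c _ hU
  refine Eq.trans h1 ?_
  congr 2
  ext x
  constructor
  · rintro ⟨hx1, hx2⟩
    refine ⟨hx2, ?_⟩
    have hA : x.1 ∈ YA.A c := (hY.S_sub c hx2).2.1
    have hx1' : (YA.tauOf c x.2, (k9dD YA c e Zs).y x.1 (YA.tauOf c x.2), (k9dD YA c e Zs).x x.1 (YA.tauOf c x.2),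
        (k9dD YA c e Zs).y1 x.1) ∈ F := hx1
    rw [k9c_D_y YA c e Zs x.1 hA, k9c_D_x hP YA c e Zs x.1 hA] at hx1'
    have e1 : (k9dD YA c e Zs).y1 x.1 = k9dot e (kbV (P.co (YA.wd c) x.1)) :=
      Set.indicator_of_mem hA (fun l => k9dot e (kbV (P.co (YA.wd c) l)))
    rw [e1] at hx1'
    unfold k9dZe k9dX at hx1'
    rw [YA.k2n_tOf_tauOf] at hx1'
    exact hx1'
  · rintro ⟨hx2, hx1⟩
    refine ⟨?_, hx2⟩
    have hA : x.1 ∈ YA.A c := (hY.S_sub c hx2).2.1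
    show (YA.tauOf c x.2, (k9dD YA c e Zs).y x.1 (YA.tauOf c x.2), (k9dD YA c e Zs).x x.1 (YA.tauOf c x.2),
        (k9dD YA c e Zs).y1 x.1) ∈ F
    rw [k9c_D_y YA c e Zs x.1 hA, k9c_D_x hP YA c e Zs x.1 hA]
    have e1 : (k9dD YA c e Zs).y1 x.1 = k9dot e (kbV (P.co (YA.wd c) x.1)) :=
      Set.indicator_of_mem hA (fun l => k9dot e (kbV (P.co (YA.wd c) l)))
    rw [e1]
    unfold k9dZe k9dX
    rw [YA.k2n_tOf_tauOf]
    exact hx1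

/-- the world weight of the projected law (`nu univ = ν_A⁻¹ ν_A = 1`; `k2s_nuC_le` for `ν_A ≠ ⊤`) -/
theorem k9c_D_om (hP : P.WF) (YA : KbSys P) (c : YA.C) (e : K9V) (Zs : ℝ) (hν : YA.nuC c ≠ 0) : (k9dD YA c e Zs).om (fun _ => 0) 0 = 1 := by
  have ht : YA.nuC c ≠ ⊤ := ((k2s_nuC_le YA hP c).trans_lt ENNReal.one_lt_top).ne
  have e1 : ((fun _ => 0 : P.Lam → ℕ) ⁻¹' {0}) = Set.univ := by
    ext l; simp
  show ((YA.nuC c)⁻¹ • (P.nu (YA.wd c)).restrict (YA.A c)) ((fun _ => 0 : P.Lam → ℕ) ⁻¹' {0}) = 1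
  rw [e1, Measure.smul_apply, Measure.restrict_apply MeasurableSet.univ, Set.univ_inter, smul_eq_mul]
  exact ENNReal.inv_mul_cancel hν ht

/-! ## 2. Geometry -/

theorem k9c_dot_le (e v : K9V) (he : K9Unit e) : |k9dot e v| ≤ 2 * ‖v‖ := by
  have h0 := k9_unit_abs_le e he 0
  have h1 := k9_unit_abs_le e he 1
  have v0 : |v 0| ≤ ‖v‖ := norm_le_pi_norm v 0
  have v1 : |v 1| ≤ ‖v‖ := norm_le_pi_norm v 1
  have hv := norm_nonneg v
  unfold k9dot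
  calc |e 0 * v 0 + e 1 * v 1| ≤ |e 0 * v 0| + |e 1 * v 1| := abs_add_le _ _
    _ = |e 0| * |v 0| + |e 1| * |v 1| := by rw [abs_mul, abs_mul]
    _ ≤ 1 * ‖v‖ + 1 * ‖v‖ := add_le_add (mul_le_mul h0 v0 (abs_nonneg _) zero_le_one) (mul_le_mul h1 v1 (abs_nonneg _) zero_le_one)
    _ = 2 * ‖v‖ := by ring

theorem k9c_dot_sub (e a b : K9V) : k9dot e a - k9dot e b = k9dot e (a - b) := by
  unfold k9dot
  simp only [Pi.sub_apply]
  ring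

theorem k9c_dot_lin (e a b : K9V) (t : ℝ) : k9dot e (a + t • b) = k9dot e a + k9dot e b * t := by
  unfold k9dot
  simp only [Pi.add_apply, Pi.smul_apply, smul_eq_mul]
  ring

theorem k9c_frI_row (n z : K9V) (gC : ℝ) : (k9FrI n gC).mulVec z 1 = k9dot n z / gC := by
  simp only [k9FrI, Matrix.mulVec, dotProduct, Fin.sum_univ_two, Matrix.of_apply, Matrix.cons_val_zero, Matrix.cons_val_one, k9dot]
  ring

theorem k9c_tc_mem (Y : KbSys P) (c : Y.C) : Y.tc c ∈ Y.I c := by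
  have hq : 0 < kbQ Y.n := k9_aux_q_pos Y
  unfold KbSys.tc KbSys.I kbI
  constructor
  · exact le_rfl
  · nlinarith

theorem k9c_I_len (Y : KbSys P) (c : Y.C) (t : ℝ) (ht : t ∈ Y.I c) : |t - Y.tc c| ≤ Y.q := by
  unfold KbSys.I kbI at ht
  unfold KbSys.tc KbSys.q
  rw [abs_le]
  constructor <;> nlinarith [ht.1, ht.2, k9_aux_q_pos Y, show Y.q = kbQ Y.n from rfl]

theorem k9c_vel_le (K : ℝ) (hN : P.Ntv K) (γ : P.W) (l : P.Lam) (hl : l ∈ P.Sp γ) : ‖kbV (P.co γ l)‖ ≤ K := by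
  have := hN.base γ l hl 0 ⟨le_rfl, zero_le_one⟩
  have h2 := norm_nonneg (kbY (P.co γ l) 0)
  linarith

/-- LEAF S9c-P2 (with `k9c_frame`, `k9c_beC`, ~200 l. together).  **Actual range of `ζ`** (l.722-726).   `y(t) - y_c(t_c) = (t - t_c) V + D Di (y(t_c) - y_c(t_c))`, `‖V‖ ≤ K` (`hN.base`, `hY.A_sub`), `|t - t_c| ≤ q`, `k2s_mulVec_le`, `|e · v| ≤ 2 ‖v‖`. -/
theorem k9c_tang (Y : KbSys P) (hY : Y.WF) (K : ℝ) (hK : 1 ≤ K) (hN : P.Ntv K) (c : Y.C) (hsize : kbMn (Y.ch c).D ≤ Y.q * K)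
    (hbox : ∀ l ∈ Y.A c, ∀ t ∈ Y.I c, ‖(Y.ch c).Di.mulVec (kbY (P.co (Y.wd c) l) t - (Y.ch c).yc t)‖ ≤ K) (e : K9V) (he : K9Unit e) :
    ∀ l ∈ Y.A c, ∀ t ∈ Y.I c, |k9dot e (kbY (P.co (Y.wd c) l) t) - k9dot e ((Y.ch c).yc (Y.tc c))| ≤ 4 * K ^ 2 * Y.q := by
  intro l hl t ht
  have hq := k9_aux_q_pos Y
  have hV := k9c_vel_le K hN (Y.wd c) l (hY.A_sub c hl)
  have hb := hbox l hl (Y.tc c) (k9c_tc_mem Y c)
  have hlen := k9c_I_len Y c t ht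
  obtain ⟨z, hz⟩ : ∃ z : KbB KbVer.two, z = kbY (P.co (Y.wd c) l) (Y.tc c) - (Y.ch c).yc (Y.tc c) := ⟨_, rfl⟩
  rw [← hz] at hb
  have hDz : (Y.ch c).D.mulVec ((Y.ch c).Di.mulVec z) = z := by
    rw [Matrix.mulVec_mulVec, hY.inv c, Matrix.one_mulVec]
  have hzn : ‖z‖ ≤ Y.q * K * K := by
    rw [← hDz]
    refine (k2s_mulVec_le _ _).trans ?_
    exact mul_le_mul hsize hb (norm_nonneg _) (by positivity)
  have e1 : (kbY (P.co (Y.wd c) l) t - (Y.ch c).yc (Y.tc c) : KbB KbVer.two) = (t - Y.tc c) • kbV (P.co (Y.wd c) l) + z := by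
    rw [hz]
    unfold kbY kbV
    module
  have h3 : ‖(t - Y.tc c) • kbV (P.co (Y.wd c) l) + z‖ ≤ Y.q * K + Y.q * K * K := by
    refine (norm_add_le _ _).trans (add_le_add ?_ hzn)
    rw [norm_smul, Real.norm_eq_abs]
    exact mul_le_mul hlen hV (norm_nonneg _) hq.le
  rw [← e1] at h3
  have h4 : Y.q * K ≤ Y.q * K * K := by
    have : 0 ≤ Y.q * K := by positivity
    nlinarith
  have e2 : k9dot e (kbY (P.co (Y.wd c) l) t) - k9dot e ((Y.ch c).yc (Y.tc c))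
      = k9dot e (kbY (P.co (Y.wd c) l) t - (Y.ch c).yc (Y.tc c) : KbB KbVer.two) := k9c_dot_sub e _ _
  rw [e2]
  refine (k9c_dot_le e _ he).trans ?_
  calc 2 * ‖(kbY (P.co (Y.wd c) l) t - (Y.ch c).yc (Y.tc c) : KbB KbVer.two)‖ ≤ 2 * (Y.q * K + Y.q * K * K) :=
        mul_le_mul_of_nonneg_left h3 (by norm_num)
    _ ≤ 2 * (Y.q * K * K + Y.q * K * K) := by linarith
    _ = 4 * K ^ 2 * Y.q := by ring

/-- **normal position and normal velocity in a full-time chart** (l.771-772).   The second row of `k9FrI n gC` is `n / gC`; for the velocity subtract the times `t_c`, `t_c + 1/2` (`q = 1`). -/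
theorem k9c_frame (Y : KbSys P) (K gC : ℝ) (hgC : 0 < gC) (b : Y.C) (n : K9V) (hlvl : Y.n = 0) (hDi : (Y.ch b).Di = k9FrI n gC)
    (hbox : ∀ l ∈ Y.A b, ∀ t ∈ Y.I b, ‖(Y.ch b).Di.mulVec (kbY (P.co (Y.wd b) l) t - (Y.ch b).yc t)‖ ≤ K) (l : P.Lam) (hl : l ∈ Y.A b) :
    (∀ t ∈ Y.I b, |k9dot n (kbY (P.co (Y.wd b) l) t) - (k9dot n (Y.ch b).y0 + k9dot n (Y.ch b).y1 * t)| ≤ K * gC) ∧
      |k9dot n (kbV (P.co (Y.wd b) l)) - k9dot n (Y.ch b).y1| ≤ 4 * K * gC := by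
  have hyc : ∀ t, k9dot n ((Y.ch b).yc t) = k9dot n (Y.ch b).y0 + k9dot n (Y.ch b).y1 * t := fun t => k9c_dot_lin n _ _ t
  have hyy : ∀ t, k9dot n (kbY (P.co (Y.wd b) l) t) = k9dot n (P.co (Y.wd b) l).1 + k9dot n (kbV (P.co (Y.wd b) l)) * t :=
    fun t => k9c_dot_lin n _ _ t
  have key : ∀ t ∈ Y.I b, |k9dot n (kbY (P.co (Y.wd b) l) t) - (k9dot n (Y.ch b).y0 + k9dot n (Y.ch b).y1 * t)| ≤ K * gC := by
    intro t ht
    have hb := hbox l hl t ht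
    rw [hDi] at hb
    have h1 : |(k9FrI n gC).mulVec (kbY (P.co (Y.wd b) l) t - (Y.ch b).yc t : K9V) 1| ≤ K :=
      (norm_le_pi_norm ((k9FrI n gC).mulVec (kbY (P.co (Y.wd b) l) t - (Y.ch b).yc t : K9V)) 1).trans hb
    have e1 : (k9FrI n gC).mulVec (kbY (P.co (Y.wd b) l) t - (Y.ch b).yc t : K9V) 1
        = (k9dot n (kbY (P.co (Y.wd b) l) t) - k9dot n ((Y.ch b).yc t)) / gC :=
      (k9c_frI_row n _ gC).trans (congrArg (· / gC) (k9c_dot_sub n _ _).symm)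
    rw [e1, hyc, abs_div, abs_of_pos hgC, div_le_iff₀ hgC] at h1
    exact h1
  refine ⟨key, ?_⟩
  have hq : kbQ Y.n = 1 := by rw [hlvl]; simp [kbQ]
  have ht1 : Y.tc b ∈ Y.I b := k9c_tc_mem Y b
  have ht2 : Y.tc b + 1 / 2 ∈ Y.I b := by
    unfold KbSys.tc KbSys.I kbI
    rw [hq]
    constructor <;> linarith
  have k1 := key _ ht1
  have k2 := key _ ht2
  rw [hyy] at k1 k2
  rw [abs_le] at k1 k2 ⊢
  constructor <;> linarith [k1.1, k1.2, k2.1, k2.2]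

/-- the normal centre velocity is bounded (`|n · V| ≤ 2 K`) -/
theorem k9c_beC (Y : KbSys P) (hY : Y.WF) (K gC : ℝ) (hK : 1 ≤ K) (hN : P.Ntv K) (hgC : 0 < gC) (hgC1 : gC ≤ 1) (b : Y.C) (n : K9V) (hn : K9Unit n) (hlvl : Y.n = 0)
    (hDi : (Y.ch b).Di = k9FrI n gC) (hbox : ∀ l ∈ Y.A b, ∀ t ∈ Y.I b, ‖(Y.ch b).Di.mulVec (kbY (P.co (Y.wd b) l) t - (Y.ch b).yc t)‖ ≤ K)
    (hne : (Y.A b).Nonempty) : |k9dot n (Y.ch b).y1| ≤ 6 * K := by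
  obtain ⟨l, hl⟩ := hne
  have h1 := (k9c_frame Y K gC hgC b n hlvl hDi hbox l hl).2
  have hV := k9c_vel_le K hN (Y.wd b) l (hY.A_sub b hl)
  have h2 : |k9dot n (kbV (P.co (Y.wd b) l))| ≤ 2 * K :=
    (k9c_dot_le n (kbV (P.co (Y.wd b) l)) hn).trans (mul_le_mul_of_nonneg_left hV (by norm_num))
  have h3 : 4 * K * gC ≤ 4 * K := by nlinarith
  rw [abs_le] at h1 h2 ⊢
  constructor <;> linarith [h1.1, h1.2, h2.1, h2.2]

/-! ## 3. L9.5 (1): the caps -/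

/-- common last step of `k9c_ecap`, `k9c_eang` : push, projected cap, balance -/
theorem k9c_cap_fin (hP : P.WF) (YA : KbSys P) (hY : YA.WF) (c : YA.C) (K κp Zs : ℝ) (e : K9V) (hK : 1 ≤ K)
    (hbox : ∀ l ∈ YA.A c, ∀ t ∈ YA.I c, ‖(YA.ch c).Di.mulVec (kbY (P.co (YA.wd c) l) t - (YA.ch c).yc t)‖ ≤ K)
    (hfull : (YA.q / K) ^ 2 ≤ k9row e (k9D YA c)) (hbal : ENNReal.ofReal ((YA.ch c).J / K) ≤ YA.nuC c)
    (Gp : Set (P.Lam × ℝ))
    (hcap : ∀ R : Set (ℝ × K9V), MeasurableSet R → P.mu (YA.wd c) {x | x ∈ Gp ∧ P.bs (YA.wd c) x ∈ R} ≤ ENNReal.ofReal κp * volume R)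
    (F : Set (ℝ × ℝ × ℝ × ℝ)) (hF : MeasurableSet F) (B : Set (ℝ × ℝ)) (hB : MeasurableSet B)
    (hFB : ∀ x ∈ YA.S c, ((x.2 - YA.tc c) / YA.q, (k9dot e (k9Y P (YA.wd c) x) - Zs) / YA.q, P.sig (YA.wd c) x,
        k9dot e (k9Vel P (YA.wd c) x)) ∈ F → x ∈ Gp ∧ ((x.2 - YA.tc c) / YA.q, (k9dot e (k9Y P (YA.wd c) x) - Zs) / YA.q) ∈ B) :
    (k9dD YA c e Zs).mu {z | (z.2, (k9dD YA c e Zs).y z.1 z.2, (k9dD YA c e Zs).x z.1 z.2, (k9dD YA c e Zs).y1 z.1) ∈ F}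
      ≤ ENNReal.ofReal (3 * K ^ 3 * κp) * volume B := by
  have hK0 : 0 < K := lt_of_lt_of_le one_pos hK
  have hq : 0 < YA.q := k9_aux_q_pos YA
  have hJ : 0 < (YA.ch c).J := k2s_J_pos YA hY c
  rw [k9c_D_push hP YA hY c e Zs F hF]
  have h1 : P.mu (YA.wd c) {x | x ∈ YA.S c ∧ ((x.2 - YA.tc c) / YA.q, (k9dot e (k9Y P (YA.wd c) x) - Zs) / YA.q, P.sig (YA.wd c) x,
        k9dot e (k9Vel P (YA.wd c) x)) ∈ F} ≤ ENNReal.ofReal (κp * (3 * K ^ 2 * (YA.ch c).J * YA.q)) * volume B := by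
    refine le_trans (measure_mono ?_) (k9_proj_cap YA c K κp Zs e hK hY hbox hfull Gp hcap B hB)
    intro x hx
    obtain ⟨h2, h3⟩ := hFB x hx.1 hx.2
    exact ⟨h2, (hY.S_sub c hx.1).2, h3⟩
  have h2 : (ENNReal.ofReal YA.q * YA.nuC c)⁻¹ ≤ ENNReal.ofReal (K / (YA.q * (YA.ch c).J)) := by
    have h3 : ENNReal.ofReal (YA.q * (YA.ch c).J / K) ≤ ENNReal.ofReal YA.q * YA.nuC c := by
      rw [mul_div_assoc, ENNReal.ofReal_mul hq.le]
      exact mul_le_mul_right hbal _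
    refine (ENNReal.inv_le_inv.2 h3).trans ?_
    rw [← ENNReal.ofReal_inv_of_pos (by positivity), inv_div]
  calc (ENNReal.ofReal YA.q * YA.nuC c)⁻¹ * P.mu (YA.wd c) {x | x ∈ YA.S c ∧ ((x.2 - YA.tc c) / YA.q,
          (k9dot e (k9Y P (YA.wd c) x) - Zs) / YA.q, P.sig (YA.wd c) x, k9dot e (k9Vel P (YA.wd c) x)) ∈ F}
      ≤ ENNReal.ofReal (K / (YA.q * (YA.ch c).J)) * (ENNReal.ofReal (κp * (3 * K ^ 2 * (YA.ch c).J * YA.q)) * volume B) :=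
        mul_le_mul' h2 h1
    _ = ENNReal.ofReal (3 * K ^ 3 * κp) * volume B := by
        rw [← mul_assoc, ← ENNReal.ofReal_mul (by positivity)]
        congr 2
        field_simp

theorem k9c_nu_ne (YA : KbSys P) (hY : YA.WF) (c : YA.C) (K : ℝ) (hK : 1 ≤ K) (hbal : ENNReal.ofReal ((YA.ch c).J / K) ≤ YA.nuC c) :
    YA.nuC c ≠ 0 := by
  have hK0 : 0 < K := lt_of_lt_of_le one_pos hK
  have hJ : 0 < (YA.ch c).J := k2s_J_pos YA hY c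
  have h1 : 0 < ENNReal.ofReal ((YA.ch c).J / K) := ENNReal.ofReal_pos.2 (by positivity)
  exact (lt_of_lt_of_le h1 hbal).ne'

/-- LEAF S9c-P3 (~200 l.; black boxes `k9c_D_push`, `k9c_D_om`, `k9c_cap_bin`, `k9_proj_cap`).  **L9.5 (1), pure cap.**   `G ⊇ YA.S c` the analytic mask, `hpure` the prepared pure ceilings (a hidden width `a' ≥ p` with ceiling `K p^d`).
PLAN.  `γ' ≠ 0` : the set is empty.   `γ' = 0` : `k9c_D_om` (`ν_A ≠ 0` by `hbal`, `k2s_J_pos`), `k9c_D_push` with `F = {(τ, ζ, X, _) | (τ, ζ) ∈ B ∧ X ∈ Ico xs (xs + p)}`;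
`k9_proj_cap YA c K κp Zs e .. (Gp := {x | x ∈ G ∧ P.sig γ x ∈ Ico xs (xs + p)})` with `κp = 16 K³ p^d` (`k9c_cap_bin` with `hi = ofReal (K p^d)`): `μ {..} ≤ κp 3 K² J q |B|`;   `(q ν_A)⁻¹ q J ≤ K` by `hbal`. -/
theorem k9c_ecap (hP : P.WF) (YA : KbSys P) (hY : YA.WF) (c : YA.C) (K a d Zs : ℝ) (e : K9V) (hK : 1 ≤ K) (hN : P.Ntv K) (ha : 0 < a)
    (hbox : ∀ l ∈ YA.A c, ∀ t ∈ YA.I c, ‖(YA.ch c).Di.mulVec (kbY (P.co (YA.wd c) l) t - (YA.ch c).yc t)‖ ≤ K)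
    (hfull : (YA.q / K) ^ 2 ≤ k9row e (k9D YA c)) (hbal : ENNReal.ofReal ((YA.ch c).J / K) ≤ YA.nuC c)
    (G : Set (P.Lam × ℝ)) (hS : YA.S c ⊆ G)
    (hpure : ∀ p : ℝ, a ≤ p → p ≤ 1 → ∃ a' : ℝ, p ≤ a' ∧ ∀ x ∈ G, P.dn (P.hid a') (YA.wd c) x ≤ ENNReal.ofReal (K * p ^ d)) :
    (k9dD YA c e Zs).ECap (fun _ => 0) (48 * K ^ 6) 1 d a := by
  intro γ' B p xs hB hap hp1
  have hK0 : 0 < K := lt_of_lt_of_le one_pos hK
  have hp0 : 0 < p := lt_of_lt_of_le ha hap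
  have hpd : 0 ≤ p ^ d := Real.rpow_nonneg hp0.le d
  by_cases hγ : γ' = 0
  · subst hγ
    rw [k9c_D_om hP YA c e Zs (k9c_nu_ne YA hY c K hK hbal), mul_one]
    obtain ⟨a', hpa', hdn⟩ := hpure p hap hp1
    have hF : MeasurableSet {w : ℝ × ℝ × ℝ × ℝ | (w.1, w.2.1) ∈ B ∧ w.2.2.1 ∈ Set.Ico xs (xs + p)} := by
      refine MeasurableSet.inter ?_ ?_
      · exact (measurable_fst.prodMk (measurable_fst.comp measurable_snd)) hB
      · exact (measurable_fst.comp (measurable_snd.comp measurable_snd)) measurableSet_Ico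
    have hcap : ∀ R : Set (ℝ × K9V), MeasurableSet R →
        P.mu (YA.wd c) {x | x ∈ {x | x ∈ G ∧ P.sig (YA.wd c) x ∈ Set.Ico xs (xs + p)} ∧ P.bs (YA.wd c) x ∈ R}
          ≤ ENNReal.ofReal (16 * K ^ 3 * p ^ d) * volume R := by
      intro R hR
      refine le_trans (measure_mono ?_) ((k9c_cap_bin hP hK hN (lt_of_lt_of_le hp0 hpa') hpa' (YA.wd c) xs
        (ENNReal.ofReal (K * p ^ d)) R hR).trans (le_of_eq ?_))
      · intro x hx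
        exact ⟨hdn x hx.1.1, hx.2, hx.1.2⟩
      · rw [← ENNReal.ofReal_mul (by positivity)]
        congr 2
        ring
    have key := k9c_cap_fin hP YA hY c K (16 * K ^ 3 * p ^ d) Zs e hK hbox hfull hbal
      {x | x ∈ G ∧ P.sig (YA.wd c) x ∈ Set.Ico xs (xs + p)} hcap _ hF B hB
      (fun x hx hxF => ⟨⟨hS hx, hxF.2⟩, hxF.1⟩)
    refine le_trans (measure_mono ?_) (key.trans (le_of_eq ?_))
    · intro z hz
      exact ⟨hz.2.1, hz.2.2⟩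
    · congr 2
      ring
  · have hemp : {z : P.Lam × ℝ | (fun _ : P.Lam => 0) z.1 = γ' ∧ (k9dD YA c e Zs).bs z ∈ B ∧
        (k9dD YA c e Zs).x z.1 z.2 ∈ Set.Ico xs (xs + p)} = ∅ := by
      ext z
      simp only [Set.mem_ofPred_eq, Set.mem_empty_iff_false, iff_false, not_and]
      intro h0
      exact absurd h0.symm hγ
    rw [hemp, measure_empty]
    exact zero_le

/-- a velocity with tangential component in `[vs, vs + r)` and normal component within `ρ0` of `be` -/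
theorem k9c_vel_ball (n V : K9V) (hn : K9Unit n) (vs be r ρ0 : ℝ) (h1 : k9dot (k9Rot n) V ∈ Set.Ico vs (vs + r)) (h2 : |k9dot n V - be| ≤ ρ0) :
    ∀ i, |V i - (fun i => vs * k9Rot n i + be * n i : K9V) i| ≤ r + ρ0 := by
  have hu : n 0 ^ 2 + n 1 ^ 2 = 1 := hn
  have hn0 := k9_unit_abs_le n hn 0
  have hn1 := k9_unit_abs_le n hn 1
  obtain ⟨s, hs⟩ : ∃ s : ℝ, s = k9dot (k9Rot n) V - vs := ⟨_, rfl⟩
  obtain ⟨w, hw⟩ : ∃ w : ℝ, w = k9dot n V - be := ⟨_, rfl⟩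
  have hs1 : |s| ≤ r := by
    rw [hs, abs_le]
    constructor <;> linarith [h1.1, h1.2]
  have hw1 : |w| ≤ ρ0 := by rw [hw]; exact h2
  have hr0 : 0 ≤ r := (abs_nonneg _).trans hs1
  have hρ : 0 ≤ ρ0 := (abs_nonneg _).trans hw1
  have key : ∀ α β : ℝ, |α| ≤ 1 → |β| ≤ 1 → |s * α + w * β| ≤ r + ρ0 := by
    intro α β hα hβ
    calc |s * α + w * β| ≤ |s * α| + |w * β| := abs_add_le _ _
      _ = |s| * |α| + |w| * |β| := by rw [abs_mul, abs_mul]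
      _ ≤ r * 1 + ρ0 * 1 := add_le_add (mul_le_mul hs1 hα (abs_nonneg _) hr0) (mul_le_mul hw1 hβ (abs_nonneg _) hρ)
      _ = r + ρ0 := by ring
  intro i
  fin_cases i
  · have e0 : V 0 - (vs * k9Rot n 0 + be * n 0) = s * (-(n 1)) + w * n 0 := by
      rw [hs, hw]
      simp only [k9dot, k9Rot, Matrix.cons_val_zero, Matrix.cons_val_one]
      linear_combination (-V 0) * hu
    show |V 0 - (vs * k9Rot n 0 + be * n 0)| ≤ r + ρ0
    rw [e0]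
    exact key _ _ (by rwa [abs_neg]) hn0
  · have e1 : V 1 - (vs * k9Rot n 1 + be * n 1) = s * n 0 + w * n 1 := by
      rw [hs, hw]
      simp only [k9dot, k9Rot, Matrix.cons_val_zero, Matrix.cons_val_one]
      linear_combination (-V 1) * hu
    show |V 1 - (vs * k9Rot n 1 + be * n 1)| ≤ r + ρ0
    rw [e1]
    exact key _ _ hn0 hn1

/-- LEAF S9c-P4 (~250 l.; black boxes `k9c_D_push`, `k9c_D_om`, `k9c_cap_ang`, `k9_proj_cap`).  **L9.5 (1), angular cap.**   `n = n_C`, `e_Z = k9Rot n`, `be` normal centre velocity, `ρ0 = 4 K g_C`, `nL = N^{-f₁}` terminal density.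
PLAN.  As `k9c_ecap` with `F = {(τ, ζ, X, ζ') | (τ, ζ) ∈ B ∧ X ∈ Ico xs (xs + a) ∧ ζ' ∈ Ico vs (vs + N^{-u})}`.   For `l ∈ YA.A c` : `V = (e_Z · V) e_Z + (n · V) n`, so `|V i - z i| ≤ N^{-u} + ρ0 ≤ 2 N^{-u} ≤ 2 b` for `z = vs e_Z + be n`
(`ρ0 ≤ N^{-u₁} ≤ N^{-u}`).   `k9c_cap_ang` with `p = a`, `a := a'`, `hiJ = K nL N^{-S u}`, `loL = nL / K`, `hi0 = K a^d` : `κp = 576 K⁵ a^d N^{-S u}`;   then `k9_proj_cap` and `hbal` : factor `3 K³`. -/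
theorem k9c_eang (hP : P.WF) (YA : KbSys P) (hY : YA.WF) (c : YA.C) (K N aL a d S u1 nL be ρ0 Zs : ℝ) (n : K9V) (hK : 1 ≤ K) (hN : P.Ntv K) (hN1 : 1 ≤ N) (haL : 0 < aL)
    (haLa : aL ≤ a) (hnL : 0 < nL) (hn : K9Unit n)
    (hbox : ∀ l ∈ YA.A c, ∀ t ∈ YA.I c, ‖(YA.ch c).Di.mulVec (kbY (P.co (YA.wd c) l) t - (YA.ch c).yc t)‖ ≤ K)
    (hfull : (YA.q / K) ^ 2 ≤ k9row (k9Rot n) (k9D YA c)) (hbal : ENNReal.ofReal ((YA.ch c).J / K) ≤ YA.nuC c)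
    (hvel : ∀ l ∈ YA.A c, |k9dot n (kbV (P.co (YA.wd c) l)) - be| ≤ ρ0) (hρ0 : ρ0 ≤ N ^ (-u1))
    (G : Set (P.Lam × ℝ)) (hS : YA.S c ⊆ G)
    (hpa : ∃ a' : ℝ, a ≤ a' ∧ ∀ x ∈ G, P.dn (P.hid a') (YA.wd c) x ≤ ENNReal.ofReal (K * a ^ d))
    (hlow : ∀ x ∈ G, ENNReal.ofReal (nL / K) ≤ P.dn (P.hid aL) (YA.wd c) x)
    (hang : ∀ u : ℝ, 0 < u → u ≤ u1 → ∃ b : ℝ, N ^ (-u) ≤ b ∧ ∀ x ∈ G, P.dn (P.hv aL b) (YA.wd c) x ≤ ENNReal.ofReal (K * nL * N ^ (-(S * u)))) :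
    (k9dD YA c (k9Rot n) Zs).EAng (fun _ => 0) (1728 * K ^ 8) 1 d a N S u1 := by
  intro γ' B xs vs u hB hu hu1
  have hK0 : 0 < K := lt_of_lt_of_le one_pos hK
  have hN0 : 0 < N := lt_of_lt_of_le one_pos hN1
  have ha0 : 0 < a := lt_of_lt_of_le haL haLa
  have had : 0 ≤ a ^ d := Real.rpow_nonneg ha0.le d
  have hNu : 0 < N ^ (-u) := Real.rpow_pos_of_pos hN0 _
  have hNS : 0 < N ^ (-(S * u)) := Real.rpow_pos_of_pos hN0 _
  by_cases hγ : γ' = 0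
  · subst hγ
    rw [k9c_D_om hP YA c (k9Rot n) Zs (k9c_nu_ne YA hY c K hK hbal), mul_one]
    obtain ⟨a', haa', hdn⟩ := hpa
    obtain ⟨b, hb, hdb⟩ := hang u hu hu1
    have hρu : ρ0 ≤ N ^ (-u) := hρ0.trans (Real.rpow_le_rpow_of_exponent_le hN1 (by linarith))
    have hF : MeasurableSet {w : ℝ × ℝ × ℝ × ℝ | (w.1, w.2.1) ∈ B ∧ w.2.2.1 ∈ Set.Ico xs (xs + a) ∧ w.2.2.2 ∈ Set.Ico vs (vs + N ^ (-u))} := by
      refine MeasurableSet.inter ?_ (MeasurableSet.inter ?_ ?_)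
      · exact (measurable_fst.prodMk (measurable_fst.comp measurable_snd)) hB
      · exact (measurable_fst.comp (measurable_snd.comp measurable_snd)) measurableSet_Ico
      · exact (measurable_snd.comp (measurable_snd.comp measurable_snd)) measurableSet_Ico
    have hcap : ∀ R : Set (ℝ × K9V), MeasurableSet R →
        P.mu (YA.wd c) {x | x ∈ {x | x ∈ G ∧ P.sig (YA.wd c) x ∈ Set.Ico xs (xs + a) ∧
            ∀ i, |k9Vel P (YA.wd c) x i - (fun i => vs * k9Rot n i + be * n i : K9V) i| ≤ 2 * N ^ (-u)} ∧ P.bs (YA.wd c) x ∈ R}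
          ≤ ENNReal.ofReal (576 * K ^ 5 * a ^ d * N ^ (-(S * u))) * volume R := by
      intro R hR
      refine le_trans (measure_mono ?_) ((k9c_cap_ang hP (aL := aL) (a := a') (p := a) (b := b) (ρ := 2 * N ^ (-u))
        (hiJ := K * nL * N ^ (-(S * u))) (loL := nL / K) (hi0 := K * a ^ d) hK hN haL (haLa.trans haa') haa'
        (lt_of_lt_of_le hNu hb) (by positivity) (by linarith) (by positivity) (by positivity) (by positivity) (YA.wd c) xs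
        (fun i => vs * k9Rot n i + be * n i) R hR).trans (le_of_eq ?_))
      · intro x hx
        exact ⟨hdb x hx.1.1, hlow x hx.1.1, hdn x hx.1.1, hx.2, hx.1.2.1, hx.1.2.2⟩
      · congr 2
        field_simp
    have key := k9c_cap_fin hP YA hY c K (576 * K ^ 5 * a ^ d * N ^ (-(S * u))) Zs (k9Rot n) hK hbox hfull hbal
      {x | x ∈ G ∧ P.sig (YA.wd c) x ∈ Set.Ico xs (xs + a) ∧
            ∀ i, |k9Vel P (YA.wd c) x i - (fun i => vs * k9Rot n i + be * n i : K9V) i| ≤ 2 * N ^ (-u)} hcap _ hF B hB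
      (fun x hx hxF => ⟨⟨hS hx, hxF.2.1, fun i => ?_⟩, hxF.1⟩)
    · refine le_trans (measure_mono ?_) (key.trans (le_of_eq ?_))
      · intro z hz
        exact ⟨hz.2.1, hz.2.2.1, hz.2.2.2⟩
      · congr 2
        ring
    · have hl : x.1 ∈ YA.A c := ((hY.S_sub c hx).2).1
      refine (k9c_vel_ball n (k9Vel P (YA.wd c) x) hn vs be (N ^ (-u)) ρ0 hxF.2.2 (hvel x.1 hl) i).trans ?_
      linarith
  · have hemp : {z : P.Lam × ℝ | (fun _ : P.Lam => 0) z.1 = γ' ∧ (k9dD YA c (k9Rot n) Zs).bs z ∈ B ∧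
        (k9dD YA c (k9Rot n) Zs).x z.1 z.2 ∈ Set.Ico xs (xs + a) ∧ (k9dD YA c (k9Rot n) Zs).y1 z.1 ∈ Set.Ico vs (vs + N ^ (-u))} = ∅ := by
      ext z
      simp only [Set.mem_ofPred_eq, Set.mem_empty_iff_false, iff_false, not_and]
      intro h0
      exact absurd h0.symm hγ
    rw [hemp, measure_empty]
    exact zero_le

/-! ## 4. L9.5 (2): the support -/

/-- LEAF S9c-P5 (~200 l.; black box `k9_cell_support`).  **Cellwise support bound from the exit of L9.4.**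
PLAN.  `Y' := Y1.restr {c | c ∈ keep ∧ Y1.wd c = γ} (fun _ => Set.univ)` (the floors of `k9_cell_support` are required for ALL labels and in the measure of the ONE world `γ`).   `K9Node`, `K9Cmp`, `k9U` of `Y'` are those of `Y1` (`rfl` after unfolding `KbSys.restr`;
`k2s_restr_wf`, `k2s_restr_univ_sat`).   `G0 := Gs γ`, `Wt c := Y1.S c ∩ Gs γ` (`hgrd.floor`, `1 ≤ K η`; `Y1.S c ⊆ A ×ˢ I` by `WF.S_sub`), `gr := gr γ`;   `hgrd.cov` gives the chart of `x ∈ Cell`, `hcmp` its comparison;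
`hgrd.lip` and `Bd ≤ K`, `Bd e ≤ K a` give `hgr`. -/
theorem k9c_cell (hP : P.WF) (Y1 : KbSys P) (γ : P.W) (K g1 gC n1 a e h alC beC ts Zs η Bd : ℝ) (nC : K9V) (Gs Gq : P.W → Set (P.Lam × ℝ)) (keep : Set Y1.C)
    (gr : P.W → P.Lam × ℝ → ℕ) (ng : ℕ) (hK : 1 ≤ K) (hg1 : 0 < g1) (hg1' : g1 ≤ 1) (hgC : 0 ≤ gC) (hgC' : gC ≤ Y1.q * g1) (hh : 0 ≤ h) (hh' : h ≤ Y1.q) (hn1 : 0 < n1)
    (ha : 0 < a) (hnC : K9Unit nC) (hbeC : |beC| ≤ K) (hN : P.Ntv K) (h1 : K9Node P Y1 K g1) (hs : Y1.Sat K n1) (hprec : h / Y1.q + gC / (Y1.q * g1) ≤ a)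
    (hη0 : 0 < η) (hη : 1 ≤ K * η) (hBd : Bd ≤ K) (hBe : Bd * e ≤ K * a) (hgrd : K9cGr Y1 Gs Gq keep gr ng η Bd e) (hGs : MeasurableSet (Gs γ))
    (hG0 : ∀ R : Set (ℝ × K9V), MeasurableSet R → P.mu γ {x | x ∈ Gs γ ∧ P.bs γ x ∈ R} ≤ ENNReal.ofReal K * volume R)
    (Cell : Set (P.Lam × ℝ)) (hCell : ∀ x ∈ Cell, x ∈ Gq γ ∧ K9Cell P γ nC alC beC gC ts Zs h K x)
    (hcmp : ∀ c1, Y1.wd c1 = γ → (Cell ∩ Y1.S c1).Nonempty → K9Cmp Y1 nC beC g1 K c1) :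
    ∃ Z : Finset ℝ, (Z.card : ℝ) ≤ 10 ^ 10 * K ^ 25 / n1 ∧ ∀ x ∈ Cell, ∃ z ∈ Z, |P.sig γ x - z| ≤ 5000 * K ^ 9 * a := by
  have hK0 : 0 < K := by linarith
  have hq0 := k9_aux_q_pos Y1
  have hnode : K9Node P (Y1.restr {c | c ∈ keep ∧ Y1.wd c = γ} (fun _ => Set.univ)) K g1 :=
    ⟨k2s_restr_wf Y1 _ _ h1.wf (fun _ => MeasurableSet.univ), fun c => h1.size c.1, fun c => h1.box c.1, fun c => h1.det_le c.1,
      fun c => h1.det_ge c.1, fun c => h1.axis c.1⟩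
  refine k9_cell_support hP (Y1.restr {c | c ∈ keep ∧ Y1.wd c = γ} (fun _ => Set.univ)) γ K g1 gC n1 a h alC beC ts Zs nC hK hg1 hg1' hgC
    hgC' hh hh' hn1 ha hnC hbeC hN hnode (k2s_restr_univ_sat Y1 _ hs) hprec (Gs γ) hG0 (fun c => Y1.S c.1 ∩ Gs γ)
    (fun c => (h1.wf.S_meas c.1).inter hGs) (fun c x hx => ⟨hx.2, (h1.wf.S_sub c.1 hx.1).2⟩) (fun c => ?_) Cell (fun x hx => ?_)
    (gr γ) ng (hgrd.ng_le.trans hBd) (fun x hx => hgrd.gr_lt γ x (hCell x hx).1) (fun c x hx x' hx' hg d hd => ?_)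
  · -- the floor
    have hf := hgrd.floor c.1 c.2.1
    rw [c.2.2] at hf
    show ENNReal.ofReal Y1.q * Y1.nuC c.1 ≤ ENNReal.ofReal K * P.mu γ (Y1.S c.1 ∩ Gs γ)
    calc ENNReal.ofReal Y1.q * Y1.nuC c.1 ≤ ENNReal.ofReal (K * (η * Y1.q)) * Y1.nuC c.1 := by
          refine mul_le_mul' (ENNReal.ofReal_le_ofReal ?_) le_rfl
          calc Y1.q = 1 * Y1.q := (one_mul _).symm
            _ ≤ K * η * Y1.q := mul_le_mul_of_nonneg_right hη hq0.le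
            _ = K * (η * Y1.q) := by ring
      _ = ENNReal.ofReal K * (ENNReal.ofReal (η * Y1.q) * Y1.nuC c.1) := by
          rw [ENNReal.ofReal_mul hK0.le, mul_assoc]
      _ ≤ ENNReal.ofReal K * P.mu γ (Y1.S c.1 ∩ Gs γ) := mul_le_mul' le_rfl hf
  · -- the chart of a point of the cell
    obtain ⟨hxq, hxc⟩ := hCell x hx
    obtain ⟨c, hck, hcw, hxS⟩ := hgrd.cov γ x hxq
    exact ⟨hxc, ⟨c, hck, hcw⟩, hcw, ⟨hxS, Set.mem_univ _⟩, hcmp c hcw ⟨x, hx, hxS⟩⟩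
  · -- the graphs
    have hl := hgrd.lip c.1
    rw [c.2.2] at hl
    have h2 := hl x ⟨(hCell x hx.1).1, hx.2.1⟩ x' ⟨(hCell x' hx'.1).1, hx'.2.1⟩ hg d hd
    have hd0 : 0 ≤ d := (abs_nonneg _).trans (hd 0)
    calc |P.sig γ x - P.sig γ x'| ≤ Bd * (e + d) := h2
      _ = Bd * e + Bd * d := by ring
      _ ≤ K * a + K * d := add_le_add hBe (mul_le_mul_of_nonneg_right hBd hd0)
      _ = K * (a + d) := by ring

theorem k9c_card_Icc_le (a b : ℤ) (B : ℝ) (hB : 0 ≤ B) (h : (b : ℝ) + 1 - a ≤ B) : ((Finset.Icc a b).card : ℝ) ≤ B := by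
  rw [Int.card_Icc]
  rcases le_total 0 (b + 1 - a) with h0 | h0
  · have : (((b + 1 - a).toNat : ℤ) : ℝ) = ((b + 1 - a : ℤ) : ℝ) := by rw [Int.toNat_of_nonneg h0]
    have e : (((b + 1 - a).toNat : ℕ) : ℝ) = (((b + 1 - a).toNat : ℤ) : ℝ) := by norm_cast
    rw [e, this]
    push_cast
    exact h
  · rw [Int.toNat_of_nonpos h0]
    simpa using hB

theorem k9c_card_floor (x R : ℝ) (hR : 0 ≤ R) : ((Finset.Icc ⌊x - R⌋ ⌊x + R⌋).card : ℝ) ≤ 2 * R + 2 := by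
  refine k9c_card_Icc_le _ _ _ (by positivity) ?_
  have h1 := Int.floor_le (x + R)
  have h2 := Int.lt_floor_add_one (x - R)
  linarith

/-- LEAF S9c-P6 (~300 l.; black box `k9c_D_push`).  **From the cells to the total count** (l.876-880).   `M` values per cell, each within `R a`.
PLAN.  Choose `Z i j`.   `S := ` the triples `(i, j, k)` with `i ∈ Icc 0 ⌊1/σ⌋`, `j ∈ Icc (-(⌈Kt/σ⌉ + 1)) ⌈Kt/σ⌉`, `k ∈ (Z i j).biUnion fun z => Icc ⌊z/a - R⌋ ⌊z/a + R⌋` (`Finset.sigma` / `biUnion` + `image`).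
Card: `(1/σ + 1)(2 Kt/σ + 4) M (2 R + 2) ≤ 32 Kt M (R + 1)/σ²` (`σ ≤ 1 ≤ Kt`; `Int.card_Icc`, `Int.floor_le`, `Int.lt_floor_add_one`).
A.e. membership: `k9c_D_push` with `F = {(τ, ζ, X, _) | (⌊τ/σ⌋, ⌊ζ/σ⌋, ⌊X/a⌋) ∉ S}` (measurable: `Int.measurable_floor`-type, countable target) : the set of incidences is EMPTY (`0 ≤ τ < 1` from `hY.S_sub`, `|ζ| ≤ Kt` from `htang`), so the mass is `0`
(`measure_empty`, `mul_zero`);  `ae_iff`. -/
theorem k9c_supp_of_cells (hP : P.WF) (YA : KbSys P) (hY : YA.WF) (c : YA.C) (e : K9V) (Zs σ a d Kt M R : ℝ) (hσ : 0 < σ) (hσ1 : σ ≤ 1) (ha : 0 < a) (hKt : 1 ≤ Kt)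
    (hM : 0 ≤ M) (hR : 0 ≤ R) (htang : ∀ x ∈ YA.S c, |k9dot e (k9Y P (YA.wd c) x) - Zs| ≤ Kt * YA.q)
    (hcell : ∀ i j : ℤ, ∃ Z : Finset ℝ, (Z.card : ℝ) ≤ M ∧ ∀ x ∈ YA.S c, ⌊(x.2 - YA.tc c) / YA.q / σ⌋ = i → ⌊(k9dot e (k9Y P (YA.wd c) x) - Zs) / YA.q / σ⌋ = j →
      ∃ z ∈ Z, |P.sig (YA.wd c) x - z| ≤ R * a) :
    (k9dD YA c e Zs).Supp (32 * Kt * M * (R + 1) * a ^ d) σ 1 d a := by
  choose Z hZc hZ using hcell
  have hq0 : 0 < YA.q := k2s_q_pos YA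
  set IJ : Finset (ℤ × ℤ) := Finset.Icc 0 ⌊1 / σ⌋ ×ˢ Finset.Icc (-⌈Kt / σ⌉ - 1) ⌈Kt / σ⌉ with hIJ
  set Kf : ℤ × ℤ → Finset ℤ := fun ij => (Z ij.1 ij.2).biUnion fun z => Finset.Icc ⌊z / a - R⌋ ⌊z / a + R⌋ with hKf
  set S : Finset (ℤ × ℤ × ℤ) := IJ.biUnion fun ij => (Kf ij).image fun k => (ij.1, ij.2, k) with hS
  have hmem : ∀ x ∈ YA.S c, (⌊(x.2 - YA.tc c) / YA.q / σ⌋, ⌊(k9dot e (k9Y P (YA.wd c) x) - Zs) / YA.q / σ⌋, ⌊P.sig (YA.wd c) x / a⌋) ∈ S := by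
    intro x hx
    have hI : x.2 ∈ YA.I c := ((hY.S_sub c hx).2).2
    have hI' : (YA.iv c : ℝ) * kbQ YA.n ≤ x.2 ∧ x.2 < ((YA.iv c : ℝ) + 1) * kbQ YA.n := hI
    have hτ0 : 0 ≤ (x.2 - YA.tc c) / YA.q := div_nonneg (by unfold KbSys.tc; linarith [hI'.1]) hq0.le
    have hτ1 : (x.2 - YA.tc c) / YA.q ≤ 1 := by
      rw [div_le_one hq0]
      unfold KbSys.tc KbSys.q
      nlinarith [hI'.2]
    have hζ : |(k9dot e (k9Y P (YA.wd c) x) - Zs) / YA.q| ≤ Kt := by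
      rw [abs_div, abs_of_pos hq0, div_le_iff₀ hq0]
      exact htang x hx
    obtain ⟨z, hz, hzx⟩ := hZ _ _ x hx rfl rfl
    rw [hS, Finset.mem_biUnion]
    refine ⟨(⌊(x.2 - YA.tc c) / YA.q / σ⌋, ⌊(k9dot e (k9Y P (YA.wd c) x) - Zs) / YA.q / σ⌋), ?_, ?_⟩
    · rw [hIJ, Finset.mem_product, Finset.mem_Icc, Finset.mem_Icc]
      refine ⟨⟨Int.floor_nonneg.2 (div_nonneg hτ0 hσ.le), Int.floor_le_floor (div_le_div_of_nonneg_right hτ1 hσ.le)⟩, ?_, ?_⟩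
      · rw [Int.le_floor]
        push_cast
        have h1 := Int.le_ceil (Kt / σ)
        have h2 : -(Kt / σ) ≤ (k9dot e (k9Y P (YA.wd c) x) - Zs) / YA.q / σ := by
          rw [← neg_div]
          exact div_le_div_of_nonneg_right (abs_le.1 hζ).1 hσ.le
        linarith
      · have h2 : (k9dot e (k9Y P (YA.wd c) x) - Zs) / YA.q / σ ≤ Kt / σ := div_le_div_of_nonneg_right (abs_le.1 hζ).2 hσ.le
        exact (Int.floor_le_floor h2).trans (Int.floor_le_ceil _)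
    · rw [Finset.mem_image]
      refine ⟨⌊P.sig (YA.wd c) x / a⌋, ?_, rfl⟩
      rw [hKf, Finset.mem_biUnion]
      refine ⟨z, hz, ?_⟩
      rw [Finset.mem_Icc]
      rw [abs_le] at hzx
      constructor
      · refine Int.floor_le_floor ?_
        rw [le_div_iff₀ ha, sub_mul, div_mul_cancel₀ _ ha.ne']
        linarith [hzx.1]
      · refine Int.floor_le_floor ?_
        rw [div_le_iff₀ ha, add_mul, div_mul_cancel₀ _ ha.ne']
        linarith [hzx.2]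
  refine ⟨S, ?_, ?_⟩
  · rw [ae_iff]
    have hF : MeasurableSet {w : ℝ × ℝ × ℝ × ℝ | (⌊w.1 / σ⌋, ⌊w.2.1 / σ⌋, ⌊w.2.2.1 / a⌋) ∉ S} := by
      have hm : Measurable fun w : ℝ × ℝ × ℝ × ℝ => ((⌊w.1 / σ⌋, ⌊w.2.1 / σ⌋, ⌊w.2.2.1 / a⌋) : ℤ × ℤ × ℤ) := by
        refine Measurable.prodMk ?_ (Measurable.prodMk ?_ ?_)
        · exact Int.measurable_floor.comp (measurable_fst.div_const σ)
        · exact Int.measurable_floor.comp ((measurable_fst.comp measurable_snd).div_const σ)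
        · exact Int.measurable_floor.comp ((measurable_fst.comp (measurable_snd.comp measurable_snd)).div_const a)
      exact hm (MeasurableSet.of_discrete (s := {t : ℤ × ℤ × ℤ | t ∉ S}))
    have key := k9c_D_push hP YA hY c e Zs _ hF
    have e0 : {x : P.Lam × ℝ | x ∈ YA.S c ∧ ((x.2 - YA.tc c) / YA.q, (k9dot e (k9Y P (YA.wd c) x) - Zs) / YA.q, P.sig (YA.wd c) x, k9dot e (k9Vel P (YA.wd c) x)) ∈
        {w : ℝ × ℝ × ℝ × ℝ | (⌊w.1 / σ⌋, ⌊w.2.1 / σ⌋, ⌊w.2.2.1 / a⌋) ∉ S}} = ∅ := by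
      ext x
      simp only [Set.mem_ofPred_eq, Set.mem_empty_iff_false, iff_false, not_and, not_not]
      exact hmem x
    rw [e0, measure_empty, mul_zero] at key
    exact key
  · have hcK : ∀ ij, ((Kf ij).card : ℝ) ≤ M * (2 * R + 2) := by
      intro ij
      have h1 : (Kf ij).card ≤ ∑ z ∈ Z ij.1 ij.2, (Finset.Icc ⌊z / a - R⌋ ⌊z / a + R⌋).card := Finset.card_biUnion_le
      calc ((Kf ij).card : ℝ) ≤ ((∑ z ∈ Z ij.1 ij.2, (Finset.Icc ⌊z / a - R⌋ ⌊z / a + R⌋).card : ℕ) : ℝ) := by exact_mod_cast h1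
        _ = ∑ z ∈ Z ij.1 ij.2, ((Finset.Icc ⌊z / a - R⌋ ⌊z / a + R⌋).card : ℝ) := by push_cast; rfl
        _ ≤ ∑ _z ∈ Z ij.1 ij.2, (2 * R + 2) := Finset.sum_le_sum fun z _ => k9c_card_floor _ _ hR
        _ = ((Z ij.1 ij.2).card : ℝ) * (2 * R + 2) := by rw [Finset.sum_const, nsmul_eq_mul]
        _ ≤ M * (2 * R + 2) := mul_le_mul_of_nonneg_right (hZc _ _) (by positivity)
    have hcS : (S.card : ℝ) ≤ (IJ.card : ℝ) * (M * (2 * R + 2)) := by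
      have h1 : S.card ≤ ∑ ij ∈ IJ, ((Kf ij).image fun k => (ij.1, ij.2, k)).card := Finset.card_biUnion_le
      calc (S.card : ℝ) ≤ ((∑ ij ∈ IJ, ((Kf ij).image fun k => (ij.1, ij.2, k)).card : ℕ) : ℝ) := by exact_mod_cast h1
        _ = ∑ ij ∈ IJ, (((Kf ij).image fun k => (ij.1, ij.2, k)).card : ℝ) := by push_cast; rfl
        _ ≤ ∑ _ij ∈ IJ, (M * (2 * R + 2)) := Finset.sum_le_sum fun ij _ => le_trans (by exact_mod_cast Finset.card_image_le) (hcK ij)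
        _ = (IJ.card : ℝ) * (M * (2 * R + 2)) := by rw [Finset.sum_const, nsmul_eq_mul]
    have hσi : 1 ≤ 1 / σ := by rw [le_div_iff₀ hσ]; linarith
    have hKσ : 1 ≤ Kt / σ := by rw [le_div_iff₀ hσ]; linarith
    have hcI : ((Finset.Icc (0 : ℤ) ⌊1 / σ⌋).card : ℝ) ≤ 2 / σ := by
      refine k9c_card_Icc_le _ _ _ (by positivity) ?_
      have := Int.floor_le (1 / σ)
      have e2 : 2 / σ = 1 / σ + 1 / σ := by ring
      push_cast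
      linarith
    have hcJ : ((Finset.Icc (-⌈Kt / σ⌉ - 1) ⌈Kt / σ⌉).card : ℝ) ≤ 6 * (Kt / σ) := by
      refine k9c_card_Icc_le _ _ _ (by positivity) ?_
      have := Int.ceil_lt_add_one (Kt / σ)
      push_cast
      linarith
    have hcIJ : (IJ.card : ℝ) ≤ 2 / σ * (6 * (Kt / σ)) := by
      rw [hIJ, Finset.card_product]
      push_cast
      exact mul_le_mul hcI hcJ (by positivity) (by positivity)
    have had : 0 < a ^ d := Real.rpow_pos_of_pos ha d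
    have hMR : 0 ≤ M * (2 * R + 2) := by positivity
    calc (S.card : ℝ) * σ ^ 2 * (1 * a ^ d) ≤ (2 / σ * (6 * (Kt / σ)) * (M * (2 * R + 2))) * σ ^ 2 * (1 * a ^ d) := by
          have := hcS.trans (mul_le_mul_of_nonneg_right hcIJ hMR)
          gcongr
      _ = 24 * Kt * M * (R + 1) * a ^ d := by field_simp; ring
      _ ≤ 32 * Kt * M * (R + 1) * a ^ d := by
          have : 0 ≤ Kt * M * (R + 1) * a ^ d := by positivity
          nlinarith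

theorem k9c_floor_cell (u σ q : ℝ) (i : ℤ) (hσ : 0 < σ) (hq : 0 < q) (h : ⌊u / q / σ⌋ = i) : |u - q * i * σ| ≤ q * σ := by
  rw [Int.floor_eq_iff] at h
  obtain ⟨h1, h2⟩ := h
  rw [le_div_iff₀ hσ, le_div_iff₀ hq] at h1
  rw [div_lt_iff₀ hσ, div_lt_iff₀ hq] at h2
  rw [abs_le]
  constructor <;> nlinarith [mul_pos hq hσ]

/-- LEAF S9c-P7 (~200 l.; black boxes `k9c_cell`, `k9c_supp_of_cells`).  **L9.5 (2).**   `YA` prepared (`YA.S c ⊆ Gq γ`), `nC, alC, beC` the data of the full-time chart containing `c`.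
PLAN.  `k9c_supp_of_cells` with `M = 10^10 K^25 / n1`, `R = 5000 K^9`.   For `(i, j)` : `Cell := {x ∈ YA.S c | ⌊τ/σ⌋ = i ∧ ⌊ζ/σ⌋ = j}`, `h := YA.q σ`, `ts := t_A + q i σ`, `Zs' := Zs + q j σ` :
`0 ≤ t - ts < q σ`, `0 ≤ e_Z · y - Zs' < q σ` (`Int.floor_eq_iff`), `k9dot (k9Rot nC) y = k9crs nC y` (`k9du_dot_rot`).   `M a^d ≤ 10^10 K^26` by `hn1a`. -/
theorem k9c_supp (hP : P.WF) (Y1 YA : KbSys P) (hY : YA.WF) (c : YA.C) (K Kt g1 gC n1 a d e σ alC beC Zs η Bd : ℝ) (nC : K9V) (Gs Gq : P.W → Set (P.Lam × ℝ)) (keep : Set Y1.C)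
    (gr : P.W → P.Lam × ℝ → ℕ) (ng : ℕ) (hK : 1 ≤ K) (hKt : 1 ≤ Kt) (hg1 : 0 < g1) (hg1' : g1 ≤ 1) (hgC : 0 ≤ gC) (hgC' : gC ≤ Y1.q * g1) (hσ : 0 < σ) (hσ1 : σ ≤ 1)
    (hh' : YA.q * σ ≤ Y1.q) (hn1 : 0 < n1) (hn1a : a ^ d ≤ K * n1) (ha : 0 < a) (hnC : K9Unit nC) (hbeC : |beC| ≤ K) (hN : P.Ntv K) (h1 : K9Node P Y1 K g1) (hs : Y1.Sat K n1)
    (hprec : YA.q * σ / Y1.q + gC / (Y1.q * g1) ≤ a) (hη0 : 0 < η) (hη : 1 ≤ K * η) (hBd : Bd ≤ K) (hBe : Bd * e ≤ K * a) (hgrd : K9cGr Y1 Gs Gq keep gr ng η Bd e)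
    (hGs : MeasurableSet (Gs (YA.wd c)))
    (hG0 : ∀ R : Set (ℝ × K9V), MeasurableSet R → P.mu (YA.wd c) {x | x ∈ Gs (YA.wd c) ∧ P.bs (YA.wd c) x ∈ R} ≤ ENNReal.ofReal K * volume R)
    (hSq : YA.S c ⊆ Gq (YA.wd c))
    (hnorm : ∀ x ∈ YA.S c, |k9dot nC (k9Y P (YA.wd c) x) - (alC + beC * x.2)| ≤ K * gC)
    (htang : ∀ x ∈ YA.S c, |k9dot (k9Rot nC) (k9Y P (YA.wd c) x) - Zs| ≤ Kt * YA.q)
    (hcmp : ∀ c1, Y1.wd c1 = YA.wd c → (YA.S c ∩ Y1.S c1).Nonempty → K9Cmp Y1 nC beC g1 K c1) :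
    (k9dD YA c (k9Rot nC) Zs).Supp (2 * 10 ^ 15 * Kt * K ^ 35) σ 1 d a := by
  have hq0 : 0 < YA.q := k2s_q_pos YA
  have hK0 : 0 < K := by linarith
  have key := k9c_supp_of_cells hP YA hY c (k9Rot nC) Zs σ a d Kt (10 ^ 10 * K ^ 25 / n1) (5000 * K ^ 9) hσ hσ1 ha hKt (by positivity) (by positivity) htang
    (fun i j => by
      obtain ⟨Z, hZ1, hZ2⟩ := k9c_cell hP Y1 (YA.wd c) K g1 gC n1 a e (YA.q * σ) alC beC (YA.tc c + YA.q * i * σ) (Zs + YA.q * j * σ) η Bd nC Gs Gq keep gr ng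
        hK hg1 hg1' hgC hgC' (by positivity) hh' hn1 ha hnC hbeC hN h1 hs hprec hη0 hη hBd hBe hgrd hGs hG0
        {x | x ∈ YA.S c ∧ ⌊(x.2 - YA.tc c) / YA.q / σ⌋ = i ∧ ⌊(k9dot (k9Rot nC) (k9Y P (YA.wd c) x) - Zs) / YA.q / σ⌋ = j}
        (fun x hx => ⟨hSq hx.1, by
          have t1 := k9c_floor_cell _ σ YA.q i hσ hq0 hx.2.1
          rw [sub_sub] at t1
          exact t1, by
          have t2 := k9c_floor_cell _ σ YA.q j hσ hq0 hx.2.2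
          rw [sub_sub] at t2
          have e1 : k9dot (k9Rot nC) (k9Y P (YA.wd c) x) = k9crs nC (k9Y P (YA.wd c) x) := k9du_dot_rot nC _
          rw [e1] at t2
          exact t2, hnorm x hx.1⟩)
        (fun c1 hw hne => hcmp c1 hw (hne.mono fun x hx => ⟨hx.1.1, hx.2⟩))
      exact ⟨Z, hZ1, fun x hx hi hj => hZ2 x ⟨hx, hi, hj⟩⟩)
  obtain ⟨S, s1, s2⟩ := key
  refine ⟨S, s1, s2.trans ?_⟩
  have had : 0 < a ^ d := Real.rpow_pos_of_pos ha d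
  have h9 : 1 ≤ K ^ 9 := one_le_pow₀ hK
  have e1 : 32 * Kt * (10 ^ 10 * K ^ 25 / n1) * (5000 * K ^ 9 + 1) * a ^ d = 32 * Kt * (10 ^ 10 * K ^ 25) * (5000 * K ^ 9 + 1) * (a ^ d / n1) := by
    field_simp
  have h2 : a ^ d / n1 ≤ K := by rw [div_le_iff₀ hn1]; exact hn1a
  rw [e1]
  calc 32 * Kt * (10 ^ 10 * K ^ 25) * (5000 * K ^ 9 + 1) * (a ^ d / n1) ≤ 32 * Kt * (10 ^ 10 * K ^ 25) * (5001 * K ^ 9) * K := by
        have : 5000 * K ^ 9 + 1 ≤ 5001 * K ^ 9 := by linarith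
        gcongr
    _ = 32 * 10 ^ 10 * 5001 * Kt * K ^ 35 := by ring
    _ ≤ 2 * 10 ^ 15 * Kt * K ^ 35 := by
        have : 0 ≤ Kt * K ^ 35 := by positivity
        nlinarith

end

end Claimed.Agent.R252

/-!
# ROW 252 (S0492), unit S9c (post BP-252-S9c, sub-architect helper285; chief helper233), file 3: **EXIT OF S9c: FROM A GUARDED SAMPLE TO THE ENTRY `K9dIn` OF S9d**.      CONTRACT file: the `sorry`s are the leaves L-252-S9c-E*.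

09-unbounded-narrowness.tex l.505-883.   STATEMENTS ARE FROZEN (defects: one line to helper285).   Provers replace the `sorry`s IN PLACE (always patch a freshly pulled copy), helper lemmas directly above, prefix `k9c_`.
* `K9cIn s K a d S u1 nL e1`   what S9c uses of a sample `s : K9Sam` (DATA record of `S9b/Sam`), ONE scale, explicit slack `K` (no exponents, no grids).
* `k9c_core`    **L9.4 + L9.5 at one scale**: prepared sets `Gq ⊆ Gp`, mass `≥ 1/2`, and `ECap`, `EAng`, `Supp` of every projected law with slack `C₃ K^C₃`.      GLUE of files 1, 2.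
* `k9c_sam_in`  `s.Ok p τ → K9cIn s (N^((2+S)τ)) ..`  (real powers, grids).
* `k9c_entry`   `s.Ok p τ → K9dIn ..` with slack `N^τ'`.
NOT COVERED BY A CORE, ON PURPOSE (l.539-883): holomorphy / algebraic degree of the graphs (internal to `k9g_graphs_chart`);  'bounded overlapping cover' of the cores (half-open grid instead);  (9.21) `∑ R_A ≤ 1`, `‖μ_prep‖ = ∑ R_A ‖λ_A‖` (= `k2s_Z_le`, `k9c_D_push` with `F = univ`; S9d);
persistence under later restrictions (`ECap`, `EAng`, `Supp` are monotone in `mu`; S9d).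
-/

set_option autoImplicit false

namespace Claimed.Agent.R252

open MeasureTheory
open scoped ENNReal BigOperators
open Classical

noncomputable section

/-- the unit tangent `e_Z` of the chart `A` -/
def k9cE (s : K9Sam) (c : s.YA.C) : K9V := k9Rot (s.nC (s.up c))

/-- the tangential component `Z_*` of the centre of `A` at the left end point of its block -/
def k9cZs (s : K9Sam) (c : s.YA.C) : ℝ := k9dot (k9cE s c) ((s.YA.ch c).yc (s.YA.tc c))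

/-- **what S9c uses of a sample**, one scale, slack `K`.   `a = N^{-s₁}`, `e1 = N^{-r₁}`, `nL = N^{-f₁}`. -/
structure K9cIn (s : K9Sam) (K a d S u1 nL e1 : ℝ) : Prop where
  K_one : 1 ≤ K
  N_one : 1 ≤ s.N
  pwf : s.P.WF
  ntv : s.P.Ntv K
  -- the earlier charts
  node1 : K9Node s.P s.Y1 K s.g1
  geo1 : s.Y1.Geo K e1
  sat1 : s.Y1.Sat K s.n1
  e1_pos : 0 < e1
  e1_le : e1 ≤ 1
  e1_a : e1 ≤ K * a
  n1_pos : 0 < s.n1
  n1_a : a ^ d ≤ K * s.n1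
  g1_rng : 0 < s.g1 ∧ s.g1 ≤ 1
  -- the full-time charts
  wfC : s.YC.WF
  boxC : ∀ b, ∀ l ∈ s.YC.A b, ∀ t ∈ s.YC.I b, ‖(s.YC.ch b).Di.mulVec (kbY (s.P.co (s.YC.wd b) l) t - (s.YC.ch b).yc t)‖ ≤ K
  lvlC : s.YC.n = 0
  frame : ∀ b, K9Unit (s.nC b) ∧ (s.YC.ch b).Di = k9FrI (s.nC b) s.gC
  gC_pos : 0 < s.gC
  /-- `g_C ≪ q₁ g₁ a` -/
  gC_q1 : s.gC ≤ s.Y1.q * s.g1 * (a / 2)
  /-- `g_C ≪ N^{-u₁}` -/
  gC_u1 : 4 * K * s.gC ≤ s.N ^ (-u1)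
  cmp : ∀ (b : s.YC.C) (c1 : s.Y1.C), s.Y1.wd c1 = s.YC.wd b → (s.YC.S b ∩ s.Y1.S c1).Nonempty → K9Cmp s.Y1 (s.nC b) (s.beC b) s.g1 K c1
  -- the balanced charts
  wfA : s.YA.WF
  boxA : ∀ c, ∀ l ∈ s.YA.A c, ∀ t ∈ s.YA.I c, ‖(s.YA.ch c).Di.mulVec (kbY (s.P.co (s.YA.wd c) l) t - (s.YA.ch c).yc t)‖ ≤ K
  upA : ∀ c, s.YC.wd (s.up c) = s.YA.wd c ∧ s.YA.A c ⊆ s.YC.A (s.up c) ∧ s.YA.S c ⊆ s.YC.S (s.up c)
  path1 : ∀ c, ∀ x ∈ s.YA.S c, ∃ c1, s.Y1.wd c1 = s.YA.wd c ∧ x ∈ s.Y1.S c1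
  bal : ∀ c, ENNReal.ofReal ((s.YA.ch c).J / K) ≤ s.YA.nuC c
  full : ∀ c, (s.YA.q / K) ^ 2 ≤ k9row (k9cE s c) (k9D s.YA c)
  bigA : s.YA.Big K
  -- the analytic caps
  a_pos : 0 < a
  a_le : a ≤ 1
  aL_rng : 0 < s.aL ∧ s.aL ≤ a
  nL_pos : 0 < nL
  Gp_meas : ∀ γ, MeasurableSet (s.Gp γ)
  loss : s.P.mass (fun γ => s.YA.sel γ \ s.Gp γ) ≤ ENNReal.ofReal (1 / 4) * s.YA.mass
  pure : ∀ p : ℝ, a ≤ p → p ≤ 1 → ∃ a' : ℝ, p ≤ a' ∧ ∀ γ, ∀ x ∈ s.Gp γ, s.P.dn (s.P.hid a') γ x ≤ ENNReal.ofReal (K * p ^ d)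
  pure1 : ∀ γ, ∀ x ∈ s.Gp γ, s.P.dn (s.P.hid e1) γ x ≤ ENNReal.ofReal (K * s.n1)
  low : ∀ γ, ∀ x ∈ s.Gp γ, ENNReal.ofReal (nL / K) ≤ s.P.dn (s.P.hid s.aL) γ x
  ang : ∀ u : ℝ, 0 < u → u ≤ u1 → ∃ b : ℝ, s.N ^ (-u) ≤ b ∧ ∀ γ, ∀ x ∈ s.Gp γ, s.P.dn (s.P.hv s.aL b) γ x ≤ ENNReal.ofReal (K * nL * s.N ^ (-(S * u)))

/-! ## 1. Monotonicity in the slack -/

section mono

variable {P : K9P}

/-- LEAF S9c-E0 (the six lemmas of this section, ~150 l. together).  (field by field; `hP.B_pos`; `mass`: `ENNReal.ofReal_le_ofReal`) -/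
theorem k9c_ntv_mono (hP : P.WF) {K K' : ℝ} (h : P.Ntv K) (hK : K ≤ K') : P.Ntv K' := by
  refine ⟨fun γ l hl t ht => (h.base γ l hl t ht).trans hK, fun γ l hl t ht => (h.sig γ l hl t ht).trans hK, ?_, ?_, ?_, ?_⟩
  · intro γ l hl t ht
    exact (h.dw γ l hl t ht).trans (mul_le_mul_of_nonneg_right hK (hP.B_pos γ).le)
  · intro γ x hx
    exact (h.dw_low γ x hx).trans (mul_le_mul_of_nonneg_right hK (abs_nonneg _))
  · intro γ t y w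
    exact (h.dww γ t y w).trans (mul_le_mul_of_nonneg_right hK (by positivity))
  · exact h.mass.trans (mul_le_mul_left (ENNReal.ofReal_le_ofReal hK) _)

/-- (`0 ≤ q`, `0 ≤ g`, `0 ≤ J`, `0 ≤ kbMn D`) -/
theorem k9c_node_mono {Y : KbSys P} {K K' g : ℝ} (h : K9Node P Y K g) (hK : K ≤ K') (hg : 0 ≤ g) : K9Node P Y K' g := by
  have hq : 0 < Y.q := k2s_q_pos Y
  refine ⟨h.wf, ?_, fun c l hl t ht => (h.box c l hl t ht).trans hK, ?_, ?_, ?_⟩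
  · intro c
    exact (h.size c).trans (mul_le_mul_of_nonneg_left hK hq.le)
  · intro c
    refine (h.det_le c).trans ?_
    exact mul_le_mul_of_nonneg_right (mul_le_mul_of_nonneg_right hK (by positivity)) hg
  · intro c
    exact (h.det_ge c).trans (mul_le_mul_of_nonneg_right hK (abs_nonneg _))
  · intro c
    exact (h.axis c).trans (mul_le_mul_of_nonneg_right hK (k2n_Mn_nonneg _))

theorem k9c_cmp_mono {Y : KbSys P} {nC : K9V} {beC g1 K K' : ℝ} {c : Y.C} (h : K9Cmp Y nC beC g1 K c) (hK : K ≤ K') (hg : 0 ≤ g1) : K9Cmp Y nC beC g1 K' c := by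
  exact ⟨h.1.trans (mul_le_mul_of_nonneg_right hK hg), h.2.trans (mul_le_mul_of_nonneg_right hK hg)⟩

theorem k9c_ecap_mono {Λ : Type} [MeasurableSpace Λ] {D : K7aData Λ} {wd : Λ → ℕ} {K K' c d a : ℝ} (h : D.ECap wd K c d a) (hK : K ≤ K') (hc : 0 ≤ c) (ha : 0 < a) :
    D.ECap wd K' c d a := by
  intro γ B p xs hB hap hp1
  refine (h γ B p xs hB hap hp1).trans ?_
  have hp0 : 0 ≤ p ^ d := Real.rpow_nonneg (lt_of_lt_of_le ha hap).le d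
  refine mul_le_mul_left (mul_le_mul_left (ENNReal.ofReal_le_ofReal ?_) _) _
  exact mul_le_mul_of_nonneg_right (mul_le_mul_of_nonneg_right hK hc) hp0

theorem k9c_eang_mono {Λ : Type} [MeasurableSpace Λ] {D : K7aData Λ} {wd : Λ → ℕ} {K K' c d a N S1 u1 : ℝ} (h : D.EAng wd K c d a N S1 u1) (hK : K ≤ K') (hc : 0 ≤ c)
    (ha : 0 < a) (hN : 0 < N) : D.EAng wd K' c d a N S1 u1 := by
  intro γ B xs vs u hB hu hu1
  refine (h γ B xs vs u hB hu hu1).trans ?_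
  have hp0 : 0 ≤ a ^ d := Real.rpow_nonneg ha.le d
  have hn0 : 0 ≤ N ^ (-(S1 * u)) := Real.rpow_nonneg hN.le _
  refine mul_le_mul_left (mul_le_mul_left (ENNReal.ofReal_le_ofReal ?_) _) _
  exact mul_le_mul_of_nonneg_right (mul_le_mul_of_nonneg_right (mul_le_mul_of_nonneg_right hK hc) hp0) hn0

theorem k9c_supp_mono {Λ : Type} [MeasurableSpace Λ] {D : K7aData Λ} {K K' σ c d a : ℝ} (h : D.Supp K σ c d a) (hK : K ≤ K') : D.Supp K' σ c d a := by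
  obtain ⟨S, h1, h2⟩ := h
  exact ⟨S, h1, h2.trans hK⟩

end mono

/-! ## 2. The one-scale core -/

/-- the constants of `k9c_core` -/
theorem k9c_core_const (C2 : ℝ) (hC2 : 1 ≤ C2) : ∃ C3 : ℝ, 1 ≤ C3 ∧ ∀ K : ℝ, 1 ≤ K →
    48 * K ^ 6 ≤ C3 * K ^ C3 ∧ 1728 * K ^ 8 ≤ C3 * K ^ C3 ∧
      2 * 10 ^ 15 * (16 * (C2 * (K / (1 / (8 * K))) ^ C2) * K ^ 3) ^ 35 ≤ C3 * K ^ C3 := by
  obtain ⟨A, hA⟩ : ∃ A : ℝ, A = 2 * 10 ^ 15 * (16 * (C2 * (8 : ℝ) ^ C2)) ^ 35 := ⟨_, rfl⟩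
  obtain ⟨B, hB⟩ : ∃ B : ℝ, B = 35 * (2 * C2 + 3) := ⟨_, rfl⟩
  have h8 : (1 : ℝ) ≤ (8 : ℝ) ^ C2 := Real.one_le_rpow (by norm_num) (by linarith)
  have hA1 : 2 * 10 ^ 15 ≤ A := by
    rw [hA]
    have : (1 : ℝ) ≤ (16 * (C2 * (8 : ℝ) ^ C2)) ^ 35 := one_le_pow₀ (by nlinarith)
    nlinarith
  have hB1 : 175 ≤ B := by rw [hB]; linarith
  refine ⟨A + B, by linarith, fun K hK => ?_⟩
  have hK0 : 0 < K := by linarith
  have key : ∀ (A' : ℝ) (b : ℝ), 0 ≤ A' → A' ≤ A → b ≤ B → A' * K ^ b ≤ (A + B) * K ^ (A + B) := by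
    intro A' b h0 h1 h2
    have : K ^ b ≤ K ^ (A + B) := Real.rpow_le_rpow_of_exponent_le hK (by linarith)
    exact mul_le_mul (by linarith) this (Real.rpow_nonneg hK0.le _) (by linarith)
  refine ⟨?_, ?_, ?_⟩
  · have := key 48 6 (by norm_num) (by linarith) (by linarith)
    rwa [show (6 : ℝ) = ((6 : ℕ) : ℝ) by norm_num, Real.rpow_natCast] at this
  · have := key 1728 8 (by norm_num) (by linarith) (by linarith)
    rwa [show (8 : ℝ) = ((8 : ℕ) : ℝ) by norm_num, Real.rpow_natCast] at this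
  · have e1 : K / (1 / (8 * K)) = 8 * K ^ (2 : ℝ) := by
      rw [show (2 : ℝ) = ((2 : ℕ) : ℝ) by norm_num, Real.rpow_natCast]
      field_simp
    have e2 : (K / (1 / (8 * K))) ^ C2 = (8 : ℝ) ^ C2 * K ^ (2 * C2) := by
      rw [e1, Real.mul_rpow (by norm_num) (Real.rpow_nonneg hK0.le _), ← Real.rpow_mul hK0.le]
    have e3 : 16 * (C2 * (K / (1 / (8 * K))) ^ C2) * K ^ 3 = 16 * (C2 * (8 : ℝ) ^ C2) * K ^ (2 * C2 + 3) := by
      rw [e2, Real.rpow_add hK0, show (3 : ℝ) = ((3 : ℕ) : ℝ) by norm_num, Real.rpow_natCast]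
      ring
    have e4 : 2 * 10 ^ 15 * (16 * (C2 * (K / (1 / (8 * K))) ^ C2) * K ^ 3) ^ 35 = A * K ^ B := by
      rw [e3, mul_pow, hA, hB, ← Real.rpow_natCast (K ^ (2 * C2 + 3)) 35, ← Real.rpow_mul hK0.le]
      have : (2 * C2 + 3) * ((35 : ℕ) : ℝ) = 35 * (2 * C2 + 3) := by push_cast; ring
      rw [this]
      ring
    rw [e4]
    exact key A B (by linarith) le_rfl le_rfl

theorem k9c_core_half {m m' x y : ℝ≥0∞} (hm : m ≠ ⊤) (h : m ≤ m' + (x + y)) (hx : x ≤ ENNReal.ofReal (1 / 4) * m) (hy : y ≤ ENNReal.ofReal (1 / 4) * m) :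
    m ≤ 2 * m' := by
  have h4 : ENNReal.ofReal (1 / 4) = 1 / 4 := by
    rw [ENNReal.ofReal_div_of_pos (by norm_num)]
    simp
  rw [h4] at hx hy
  have h1 : m ≤ m' + (1 / 4 * m + 1 / 4 * m) := h.trans (by gcongr)
  have h2 : (1 / 4 * m + 1 / 4 * m : ℝ≥0∞) = m / 2 := by
    rw [← add_mul, ENNReal.div_add_div_same, div_eq_mul_inv m, mul_comm m]
    congr 1
    rw [show (1 + 1 : ℝ≥0∞) = 2 by norm_num, show (4 : ℝ≥0∞) = 2 * 2 by norm_num, ENNReal.div_eq_inv_mul,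
      ENNReal.mul_inv (by simp) (by simp), mul_assoc, ENNReal.inv_mul_cancel (by simp) (by simp), mul_one]
  rw [h2] at h1
  have h3 : m / 2 + m / 2 ≤ m' + m / 2 := by rwa [ENNReal.add_halves]
  have h5 : m / 2 ≠ ⊤ := ENNReal.div_ne_top hm (by simp)
  have h6 : m / 2 ≤ m' := (ENNReal.add_le_add_iff_right h5).1 h3
  calc m = 2 * (m / 2) := by rw [ENNReal.mul_div_cancel (by simp) (by simp)]
    _ ≤ 2 * m' := by gcongr

theorem k9c_core_mass (s : K9Sam) (K a d S u1 nL e1 : ℝ) (h : K9cIn s K a d S u1 nL e1) (Gq : s.P.W → Set (s.P.Lam × ℝ))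
    (hloss : s.P.mass (fun γ => ((s.YA.sel γ ∩ s.Gp γ) ∩ s.Y1.sel γ) \ Gq γ) ≤ ENNReal.ofReal (2 * (1 / (8 * K)))) :
    s.YA.mass ≤ 2 * (k9cSel s.YA Gq).mass := by
  have hK := h.K_one
  have hK0 : 0 < K := by linarith
  have h1 := k9c_sel_mass h.pwf s.YA h.wfA Gq
  have h2 : s.P.mass (fun γ => s.YA.sel γ \ Gq γ)
      ≤ s.P.mass (fun γ => s.YA.sel γ \ s.Gp γ) + s.P.mass (fun γ => ((s.YA.sel γ ∩ s.Gp γ) ∩ s.Y1.sel γ) \ Gq γ) := by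
    refine (k2s_mass_mono s.P fun γ => ?_).trans (k2s_mass_union s.P _ _)
    intro x hx
    by_cases hG : x ∈ s.Gp γ
    · right
      refine ⟨⟨⟨hx.1, hG⟩, ?_⟩, hx.2⟩
      obtain ⟨c, hc⟩ := Set.mem_iUnion.1 hx.1
      obtain ⟨hw, hxc⟩ := Set.mem_iUnion.1 hc
      obtain ⟨c1, hw1, hx1⟩ := h.path1 c x hxc
      exact Set.mem_iUnion.2 ⟨c1, Set.mem_iUnion.2 ⟨hw1.trans hw, hx1⟩⟩
    · left
      exact ⟨hx.1, hG⟩
  have hm : s.YA.mass ≠ ⊤ := ne_top_of_le_ne_top ENNReal.one_ne_top (k2s_mass_le_one s.YA h.pwf h.wfA)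
  refine k9c_core_half hm (h1.trans (by gcongr)) h.loss (hloss.trans ?_)
  have hb : 1 ≤ ENNReal.ofReal K * s.YA.mass := h.bigA
  have e : (2 * (1 / (8 * K)) : ℝ) = 1 / 4 * (1 / K) := by field_simp; norm_num
  rw [e, ENNReal.ofReal_mul (by norm_num)]
  gcongr
  calc ENNReal.ofReal (1 / K) = ENNReal.ofReal (1 / K) * 1 := (mul_one _).symm
    _ ≤ ENNReal.ofReal (1 / K) * (ENNReal.ofReal K * s.YA.mass) := by gcongr
    _ = s.YA.mass := by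
        rw [← mul_assoc, ← ENNReal.ofReal_mul (by positivity), one_div, inv_mul_cancel₀ hK0.ne', ENNReal.ofReal_one, one_mul]

theorem k9c_core_ecap (s : K9Sam) (K a d S u1 nL e1 : ℝ) (h : K9cIn s K a d S u1 nL e1) (Gq : s.P.W → Set (s.P.Lam × ℝ)) (hm : ∀ γ, MeasurableSet (Gq γ))
    (hsub : ∀ γ, Gq γ ⊆ s.Gp γ) (c : s.YA.C) :
    (k9dD (k9cSel s.YA Gq) c (k9cE s c) (k9cZs s c)).ECap (fun _ => 0) (48 * K ^ 6) 1 d a :=
  k9c_ecap h.pwf (k9cSel s.YA Gq) (k9c_sel_wf s.YA Gq h.wfA hm) c K a d (k9cZs s c) (k9cE s c) h.K_one h.ntv h.a_pos (h.boxA c) (h.full c) (h.bal c)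
    (s.Gp (s.YA.wd c)) (fun _ hx => hsub _ hx.2) (fun p h1 h2 => by
      obtain ⟨a', ha', H⟩ := h.pure p h1 h2
      exact ⟨a', ha', fun x hx => H _ x hx⟩)

theorem k9c_core_vel (s : K9Sam) (K a d S u1 nL e1 : ℝ) (h : K9cIn s K a d S u1 nL e1) (c : s.YA.C) (l : s.P.Lam) (hl : l ∈ s.YA.A c) :
    (∀ t ∈ s.YC.I (s.up c), |k9dot (s.nC (s.up c)) (kbY (s.P.co (s.YA.wd c) l) t) - (s.alC (s.up c) + s.beC (s.up c) * t)| ≤ K * s.gC) ∧
      |k9dot (s.nC (s.up c)) (kbV (s.P.co (s.YA.wd c) l)) - s.beC (s.up c)| ≤ 4 * K * s.gC := by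
  have := k9c_frame s.YC K s.gC h.gC_pos (s.up c) (s.nC (s.up c)) h.lvlC (h.frame _).2 (h.boxC _) l ((h.upA c).2.1 hl)
  rw [(h.upA c).1] at this
  exact this

theorem k9c_core_eang (s : K9Sam) (K a d S u1 nL e1 : ℝ) (h : K9cIn s K a d S u1 nL e1) (Gq : s.P.W → Set (s.P.Lam × ℝ)) (hm : ∀ γ, MeasurableSet (Gq γ))
    (hsub : ∀ γ, Gq γ ⊆ s.Gp γ) (c : s.YA.C) :
    (k9dD (k9cSel s.YA Gq) c (k9cE s c) (k9cZs s c)).EAng (fun _ => 0) (1728 * K ^ 8) 1 d a s.N S u1 :=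
  k9c_eang h.pwf (k9cSel s.YA Gq) (k9c_sel_wf s.YA Gq h.wfA hm) c K s.N s.aL a d S u1 nL (s.beC (s.up c)) (4 * K * s.gC) (k9cZs s c) (s.nC (s.up c)) h.K_one h.ntv
    h.N_one h.aL_rng.1 h.aL_rng.2 h.nL_pos (h.frame _).1 (h.boxA c) (h.full c) (h.bal c) (fun l hl => (k9c_core_vel s K a d S u1 nL e1 h c l hl).2) h.gC_u1
    (s.Gp (s.YA.wd c)) (fun _ hx => hsub _ hx.2)
    (by
      obtain ⟨a', ha', H⟩ := h.pure a le_rfl h.a_le
      exact ⟨a', ha', fun x hx => H _ x hx⟩)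
    (fun x hx => h.low _ x hx)
    (fun u h1 h2 => by
      obtain ⟨b, hb, H⟩ := h.ang u h1 h2
      exact ⟨b, hb, fun x hx => H _ x hx⟩)

theorem k9c_core_supp (s : K9Sam) (K a d S u1 nL e1 Bd : ℝ) (h : K9cIn s K a d S u1 nL e1) (hBd1 : 1 ≤ Bd) (Gq : s.P.W → Set (s.P.Lam × ℝ)) (keep : Set s.Y1.C)
    (gr : s.P.W → s.P.Lam × ℝ → ℕ) (ng : ℕ) (hgrd : K9cGr s.Y1 (fun γ => s.YA.sel γ ∩ s.Gp γ) Gq keep gr ng (1 / (8 * K)) Bd e1)
    (hGs : ∀ γ, MeasurableSet (s.YA.sel γ ∩ s.Gp γ)) (c : s.YA.C) (σ Kt : ℝ) (hσ : 0 < σ) (hσ1 : σ ≤ 1) (hσq : s.YA.q * σ ≤ s.Y1.q * (a / 2)) (hKt : 1 ≤ Kt)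
    (htang : ∀ l ∈ s.YA.A c, ∀ t ∈ s.YA.I c, |k9dot (k9cE s c) (kbY (s.P.co (s.YA.wd c) l) t) - k9cZs s c| ≤ Kt * s.YA.q) :
    (k9dD (k9cSel s.YA Gq) c (k9cE s c) (k9cZs s c)).Supp (2 * 10 ^ 15 * Kt * (16 * Bd * K ^ 3) ^ 35) σ 1 d a := by
  have hK := h.K_one
  have hK0 : 0 < K := by linarith
  obtain ⟨K1, hK1⟩ : ∃ K1 : ℝ, K1 = 16 * Bd * K ^ 3 := ⟨_, rfl⟩
  rw [← hK1]
  have hK2 : 1 ≤ K ^ 2 := one_le_pow₀ hK
  have hK3 : K ≤ K ^ 3 := by nlinarith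
  have hBK : K ^ 3 ≤ Bd * K ^ 3 := by nlinarith [pow_pos hK0 3]
  have b16 : 16 * K ^ 3 ≤ K1 := by rw [hK1]; linarith
  have bK : K ≤ K1 := by linarith
  have b6 : 6 * K ≤ K1 := by linarith
  have b1 : 1 ≤ K1 := by linarith
  have bBd : Bd ≤ K1 := by
    rw [hK1]
    have : 1 ≤ K ^ 3 := one_le_pow₀ hK
    nlinarith
  have hq1 : 0 < s.Y1.q := k2s_q_pos s.Y1
  have hq1' : s.Y1.q ≤ 1 := k2s_q_le_one s.Y1
  have hg1 := h.g1_rng
  have ha := h.a_pos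
  have hqg : 0 < s.Y1.q * s.g1 := mul_pos hq1 hg1.1
  have hgCq : s.gC ≤ s.Y1.q * s.g1 := by
    refine h.gC_q1.trans ?_
    have : a / 2 ≤ 1 := by linarith [h.a_le]
    nlinarith
  have hgC1 : s.gC ≤ 1 := by nlinarith
  have hwf' := k9c_sel_wf s.YA Gq h.wfA hgrd.meas
  have hS' : ∀ x ∈ (k9cSel s.YA Gq).S c, x ∈ s.YA.S c ∧ x ∈ Gq (s.YA.wd c) := fun x hx => hx
  have hAI : ∀ x ∈ (k9cSel s.YA Gq).S c, x.1 ∈ s.YA.A c ∧ x.2 ∈ s.YA.I c := fun x hx => (h.wfA.S_sub c (hS' x hx).1).2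
  -- the data of the full-time chart
  obtain ⟨be, hbe, hnorm, hcmp⟩ : ∃ be : ℝ, |be| ≤ K1 ∧
      (∀ x ∈ (k9cSel s.YA Gq).S c, |k9dot (s.nC (s.up c)) (k9Y s.P (s.YA.wd c) x) - (s.alC (s.up c) + be * x.2)| ≤ K1 * s.gC) ∧
      (∀ c1, s.Y1.wd c1 = s.YA.wd c → ((k9cSel s.YA Gq).S c ∩ s.Y1.S c1).Nonempty → K9Cmp s.Y1 (s.nC (s.up c)) be s.g1 K1 c1) := by
    by_cases hne : (s.YC.A (s.up c)).Nonempty
    · refine ⟨s.beC (s.up c), ?_, ?_, ?_⟩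
      · exact (k9c_beC s.YC h.wfC K s.gC hK h.ntv h.gC_pos hgC1 (s.up c) (s.nC (s.up c)) (h.frame _).1 h.lvlC (h.frame _).2 (h.boxC _) hne).trans b6
      · intro x hx
        have hxC : x ∈ s.YC.S (s.up c) := (h.upA c).2.2 (hS' x hx).1
        have hI : x.2 ∈ s.YC.I (s.up c) := (h.wfC.S_sub _ hxC).2.2
        refine ((k9c_core_vel s K a d S u1 nL e1 h c x.1 (hAI x hx).1).1 x.2 hI).trans ?_
        exact mul_le_mul_of_nonneg_right bK h.gC_pos.le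
      · intro c1 hw hn
        obtain ⟨x, hx, hx1⟩ := hn
        exact k9c_cmp_mono (h.cmp (s.up c) c1 (hw.trans (h.upA c).1.symm) ⟨x, (h.upA c).2.2 (hS' x hx).1, hx1⟩) bK hg1.1.le
    · have hemp : ∀ x, x ∉ (k9cSel s.YA Gq).S c := fun x hx => hne ⟨x.1, (h.upA c).2.1 (hAI x hx).1⟩
      refine ⟨0, by simpa using (by linarith : (0 : ℝ) ≤ K1), fun x hx => absurd hx (hemp x), fun c1 _ hn => ?_⟩
      obtain ⟨x, hx, -⟩ := hn
      exact absurd hx (hemp x)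
  have hG0 : ∀ R : Set (ℝ × K9V), MeasurableSet R →
      s.P.mu (s.YA.wd c) {x | x ∈ s.YA.sel (s.YA.wd c) ∩ s.Gp (s.YA.wd c) ∧ s.P.bs (s.YA.wd c) x ∈ R} ≤ ENNReal.ofReal K1 * volume R := by
    intro R hR
    obtain ⟨a', ha', H⟩ := h.pure 1 h.a_le le_rfl
    have h1 := k9c_cap_zero h.pwf hK h.ntv ha' (s.YA.wd c) (ENNReal.ofReal K) R hR
    refine (measure_mono ?_).trans (h1.trans ?_)
    · intro x hx
      refine ⟨?_, hx.2⟩
      have := H _ x hx.1.2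
      rwa [Real.one_rpow, mul_one] at this
    · rw [← ENNReal.ofReal_mul (by positivity)]
      gcongr
      calc 16 * K ^ 2 * K = 16 * K ^ 3 := by ring
        _ ≤ K1 := b16
  have hη0 : (0 : ℝ) < 1 / (8 * K) := by positivity
  have hη : 1 ≤ K1 * (1 / (8 * K)) := by
    rw [mul_one_div, le_div_iff₀ (by positivity)]
    nlinarith
  have hBe : Bd * e1 ≤ K1 * a := by
    have h1 : Bd * e1 ≤ Bd * (K * a) := mul_le_mul_of_nonneg_left h.e1_a (by linarith)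
    have h2 : Bd * K ≤ K1 := by
      rw [hK1]
      nlinarith [mul_le_mul_of_nonneg_left hK3 (by linarith : (0 : ℝ) ≤ Bd)]
    calc Bd * e1 ≤ Bd * K * a := by linarith
      _ ≤ K1 * a := mul_le_mul_of_nonneg_right h2 ha.le
  have hprec : s.YA.q * σ / s.Y1.q + s.gC / (s.Y1.q * s.g1) ≤ a := by
    have h1 : s.YA.q * σ / s.Y1.q ≤ a / 2 := by
      rw [div_le_iff₀ hq1]
      linarith
    have h2 : s.gC / (s.Y1.q * s.g1) ≤ a / 2 := by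
      rw [div_le_iff₀ hqg]
      linarith [h.gC_q1]
    linarith
  have hh' : s.YA.q * σ ≤ s.Y1.q := by
    refine hσq.trans ?_
    have : a / 2 ≤ 1 := by linarith [h.a_le]
    nlinarith
  exact k9c_supp h.pwf s.Y1 (k9cSel s.YA Gq) hwf' c K1 Kt s.g1 s.gC s.n1 a d e1 σ (s.alC (s.up c)) be (k9cZs s c) (1 / (8 * K)) Bd (s.nC (s.up c))
    (fun γ => s.YA.sel γ ∩ s.Gp γ) Gq keep gr ng b1 hKt hg1.1 hg1.2 h.gC_pos.le hgCq hσ hσ1 hh' h.n1_pos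
    (h.n1_a.trans (mul_le_mul_of_nonneg_right bK h.n1_pos.le)) ha (h.frame _).1 hbe (k9c_ntv_mono h.pwf h.ntv bK) (k9c_node_mono h.node1 bK hg1.1.le)
    (k2s_sat_mono s.Y1 h.sat1 bK h.n1_pos.le) hprec hη0 hη bBd hBe hgrd (hGs _) hG0 (fun x hx => (hS' x hx).2) hnorm
    (fun x hx => htang x.1 (hAI x hx).1 x.2 (hAI x hx).2) hcmp

/-- LEAF S9c-E1 (~300 l.; GLUE of files 1, 2).  **L9.4 + L9.5 at one scale.**
PLAN.  `C2` from `k9c_graphs`.   `η := 1 / (8 K)`, `Gs γ := s.YA.sel γ ∩ s.Gp γ` (measurable: finite union of `S_meas`), `k9c_graphs` for `s.Y1, K, e1, s.n1, η, Gs` (`pure1`) gives `Gq, keep, gr, ng` with `Bd = C2 (8 K²)^C2`.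
MASS: `k9c_sel_mass` : `YA.mass ≤ mass' + P.mass (sel \ Gq)`,  `sel γ \ Gq γ ⊆ (sel γ \ Gp γ) ∪ ((Gs γ ∩ Y1.sel γ) \ Gq γ)` (`path1`), so `≤ mass' + mass/4 + 2 η`, `2 η = 1/(4K) ≤ mass/4` (`bigA`);  `mass ≤ 1 < ⊤` (`k2s_mass_le_one`).
`YA' := k9cSel s.YA Gq` : same `C, wd, A, ch, q, nuC` (`rfl`), `YA'.S c ⊆ Gq ⊆ Gp`, `k9c_sel_wf`.
ECAP: `k9c_ecap` with `G := s.Gp (wd c)`.   EANG: `k9c_eang` with `n = nC (up c)`, `be = beC (up c)`, `ρ0 = 4 K g_C` (`k9c_frame`, `upA`), `hpa` = `pure` at `p = a`.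
SUPP: `K₁ := 16 Bd K³` (`≥ 6 K, 8 K = 1/η, 16 K³, Bd`; `Bd e1 ≤ K₁ a`);  lift `ntv, node1, sat1, cmp` to `K₁` (section 1, `k2s_sat_mono`);  `hG0` : `k9c_cap_zero` with `pure` at `p = 1`;  `hbeC` : `k9c_beC` if `YC.A (up c)` is nonempty, otherwise `YA'.S c = ∅` and
`Supp` holds with `S = ∅` (or: apply `k9c_supp` with `beC` replaced, all hypotheses on `x ∈ ∅` are void);  `hnorm` : `k9c_frame`;  `k9c_supp`.   `2·10^15 K₁^35 ≤ C3 K^C3`. -/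
theorem k9c_core : ∃ C3 : ℝ, 1 ≤ C3 ∧ ∀ (s : K9Sam) (K a d S u1 nL e1 : ℝ), K9cIn s K a d S u1 nL e1 →
    ∃ Gq : s.P.W → Set (s.P.Lam × ℝ), (∀ γ, MeasurableSet (Gq γ)) ∧ (∀ γ, Gq γ ⊆ s.Gp γ) ∧ s.YA.mass ≤ 2 * (k9cSel s.YA Gq).mass ∧
      ∀ c : s.YA.C, (k9dD (k9cSel s.YA Gq) c (k9cE s c) (k9cZs s c)).ECap (fun _ => 0) (C3 * K ^ C3) 1 d a ∧
        (k9dD (k9cSel s.YA Gq) c (k9cE s c) (k9cZs s c)).EAng (fun _ => 0) (C3 * K ^ C3) 1 d a s.N S u1 ∧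
        ∀ σ Kt : ℝ, 0 < σ → σ ≤ 1 → s.YA.q * σ ≤ s.Y1.q * (a / 2) → 1 ≤ Kt →
          (∀ l ∈ s.YA.A c, ∀ t ∈ s.YA.I c, |k9dot (k9cE s c) (kbY (s.P.co (s.YA.wd c) l) t) - k9cZs s c| ≤ Kt * s.YA.q) →
          (k9dD (k9cSel s.YA Gq) c (k9cE s c) (k9cZs s c)).Supp (C3 * K ^ C3 * Kt) σ 1 d a := by
  obtain ⟨C2, hC2, H2⟩ := k9c_graphs
  obtain ⟨C3, hC3, H3⟩ := k9c_core_const C2 hC2
  refine ⟨C3, hC3, fun s K a d S u1 nL e1 h => ?_⟩
  have hK := h.K_one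
  have hK0 : 0 < K := by linarith
  obtain ⟨c48, c1728, cS⟩ := H3 K hK
  have hη0 : (0 : ℝ) < 1 / (8 * K) := by positivity
  have hη1 : (1 : ℝ) / (8 * K) ≤ 1 := by
    rw [div_le_one (by positivity)]
    linarith
  have hGs : ∀ γ, MeasurableSet (s.YA.sel γ ∩ s.Gp γ) := fun γ =>
    (MeasurableSet.iUnion fun c => MeasurableSet.iUnion fun _ => h.wfA.S_meas c).inter (h.Gp_meas γ)
  obtain ⟨Gq, keep, gr, ng, hgrd⟩ := H2 s.P s.Y1 K e1 s.n1 (1 / (8 * K)) (fun γ => s.YA.sel γ ∩ s.Gp γ) h.pwf h.node1.wf hK h.ntv h.e1_pos h.e1_le h.geo1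
    h.n1_pos h.sat1 hη0 hη1 hGs (fun γ x hx => h.pure1 γ x hx.2)
  have hsub : ∀ γ, Gq γ ⊆ s.Gp γ := fun γ x hx => (hgrd.sub γ hx).2
  have hBd1 : 1 ≤ C2 * (K / (1 / (8 * K))) ^ C2 := by
    have h1 : 1 ≤ K / (1 / (8 * K)) := by
      rw [le_div_iff₀ hη0]
      linarith
    have h2 : 1 ≤ (K / (1 / (8 * K))) ^ C2 := Real.one_le_rpow h1 (by linarith)
    nlinarith
  refine ⟨Gq, hgrd.meas, hsub, k9c_core_mass s K a d S u1 nL e1 h Gq hgrd.loss, fun c => ⟨?_, ?_, ?_⟩⟩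
  · exact k9c_ecap_mono (k9c_core_ecap s K a d S u1 nL e1 h Gq hgrd.meas hsub c) c48 zero_le_one h.a_pos
  · exact k9c_eang_mono (k9c_core_eang s K a d S u1 nL e1 h Gq hgrd.meas hsub c) c1728 zero_le_one h.a_pos (by linarith [h.N_one])
  · intro σ Kt hσ hσ1 hσq hKt htang
    refine k9c_supp_mono (k9c_core_supp s K a d S u1 nL e1 _ h hBd1 Gq keep gr ng hgrd hGs c σ Kt hσ hσ1 hσq hKt htang) ?_
    calc 2 * 10 ^ 15 * Kt * (16 * (C2 * (K / (1 / (8 * K))) ^ C2) * K ^ 3) ^ 35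
        = 2 * 10 ^ 15 * (16 * (C2 * (K / (1 / (8 * K))) ^ C2) * K ^ 3) ^ 35 * Kt := by ring
      _ ≤ C3 * K ^ C3 * Kt := mul_le_mul_of_nonneg_right cS (by linarith)

/-! ## 3. From the sample -/

/-- LEAF S9c-E2 (~60 l., Mathlib only).  **Absorbing constants**: `N ≥ 1/τ`.   (`τ0 := min (τ' / (2 B + 2)) (A ^ (-(2 / τ')))` : `N^(τ'/2) ≥ (1/τ)^(τ'/2) ≥ A`, `N^(B τ) ≤ N^(τ'/2)`.) -/
theorem k9c_absorb (A B τ' : ℝ) (hA : 1 ≤ A) (hB : 0 ≤ B) (hτ' : 0 < τ') :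
    ∃ τ0 : ℝ, 0 < τ0 ∧ ∀ τ : ℝ, 0 < τ → τ ≤ τ0 → ∀ N : ℝ, 1 ≤ N → 1 / τ ≤ N → A * N ^ (B * τ) ≤ N ^ τ' := by
  have hA0 : 0 < A := lt_of_lt_of_le one_pos hA
  refine ⟨min (τ' / (2 * B + 2)) (A ^ (-(2 / τ'))), lt_min (by positivity) (Real.rpow_pos_of_pos hA0 _), ?_⟩
  intro τ hτ hτ0 N hN hτN
  have hN0 : 0 < N := lt_of_lt_of_le one_pos hN
  have h1 : τ ≤ τ' / (2 * B + 2) := hτ0.trans (min_le_left _ _)
  have h2 : τ ≤ A ^ (-(2 / τ')) := hτ0.trans (min_le_right _ _)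
  have h3 : B * τ ≤ τ' / 2 := by
    rw [le_div_iff₀ (by positivity)] at h1
    nlinarith
  have h4 : N ^ (B * τ) ≤ N ^ (τ' / 2) := Real.rpow_le_rpow_of_exponent_le hN h3
  have h5 : A ^ (2 / τ') ≤ N := by
    refine le_trans ?_ hτN
    rw [Real.rpow_neg hA0.le] at h2
    rw [le_div_iff₀ hτ]
    have h6 : 0 < A ^ (2 / τ') := Real.rpow_pos_of_pos hA0 _
    calc A ^ (2 / τ') * τ ≤ A ^ (2 / τ') * (A ^ (2 / τ'))⁻¹ := mul_le_mul_of_nonneg_left h2 h6.le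
      _ = 1 := mul_inv_cancel₀ h6.ne'
  have h7 : A ≤ N ^ (τ' / 2) := by
    have h8 : (A ^ (2 / τ')) ^ (τ' / 2) ≤ N ^ (τ' / 2) :=
      Real.rpow_le_rpow (Real.rpow_nonneg hA0.le _) h5 (by positivity)
    rw [← Real.rpow_mul hA0.le] at h8
    have h9 : 2 / τ' * (τ' / 2) = 1 := by field_simp
    rwa [h9, Real.rpow_one] at h8
  calc A * N ^ (B * τ) ≤ N ^ (τ' / 2) * N ^ (τ' / 2) :=
        mul_le_mul h7 h4 (Real.rpow_nonneg hN0.le _) (Real.rpow_nonneg hN0.le _)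
    _ = N ^ τ' := by rw [← Real.rpow_add hN0]; congr 1; ring

/-- LEAF S9c-E3 (~300 l.; real powers only).  **The one-scale form of a guarded sample.**   `K = N^((2+S)τ)`.
PLAN (`N ≥ 4`, all comparisons by `Real.rpow_le_rpow_of_exponent_le`, `Real.rpow_add`, `Real.rpow_mul`):   `ntv, node1, geo1, sat1, cmp, boxC, boxA, bal, full, bigA` : monotone in the slack (`N^τ ≤ K`; section 1, `k2s_geo_mono`, `k2s_sat_mono`, `k2s_big_mono`).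
`e1 = N^{-r₁}` : `r₁ ≥ s₁ - τ ≥ 0`.   `n1_a` : `n1_near`.   `gC_q1` : `thin`, `q1_near`, `1/τ ≥ k s₁ + s₁ + τ + 1`.   `gC_u1` : `4 K g_C ≤ N² N^((2+S)τ) N^{-1/τ}`.
`pure` : for `p ∈ [a, 1]` put `r := -log p / log N ∈ [0, s₁]`, `r' ∈ grid` with `r' ≤ r ≤ r' + τ` (`grid_dense`), `a' := N^{-r'} ≥ p`, `N^{-d r' + τ} ≤ N^{2τ} p^d` (`0 ≤ d < 1`).
`ang` : `w' ∈ vgrid`, `w' ≤ u ≤ w' + τ`, `b := N^{-w'}`, `N^{-f₁ - S w' + τ} ≤ N^{(1+S)τ} N^{-f₁} N^{-S u}`.   `low` : `N^{-f₁-τ} ≥ nL / K`.   `loss` : `τ ≤ 1/4`. -/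
theorem k9c_sam_in (p : K9Prm) (hp : p.Ok) (τ : ℝ) (hτ : 0 < τ) (hτ1 : τ ≤ 1 / 4) (hτs : τ ≤ p.s1) (hτu : 3 + (2 + p.S) * τ + p.u ≤ 1 / τ) (s : K9Sam) (h : s.Ok p τ) :
    K9cIn s (s.N ^ ((2 + p.S) * τ)) (s.N ^ (-p.s1)) p.d p.S p.u (s.N ^ (-s.f1)) (s.N ^ (-s.r1)) := by
  have hN2 : 2 ≤ s.N := h.N_big.1
  have hN1 : 1 ≤ s.N := by linarith
  have hN0 : 0 < s.N := by linarith
  have hmono : ∀ x y : ℝ, x ≤ y → s.N ^ x ≤ s.N ^ y := fun x y hxy => Real.rpow_le_rpow_of_exponent_le hN1 hxy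
  have hpos : ∀ x : ℝ, 0 < s.N ^ x := fun x => Real.rpow_pos_of_pos hN0 x
  have hS := hp.S_pos
  have hSτ : 0 < p.S * τ := mul_pos hS hτ
  have hKτ : s.N ^ τ ≤ s.N ^ ((2 + p.S) * τ) := hmono _ _ (by nlinarith)
  have hK0 : 0 < s.N ^ ((2 + p.S) * τ) := hpos _
  have hr1 := abs_le.1 h.r1_near
  have hn1 : 0 < s.n1 := lt_of_lt_of_le (hpos _) h.n1_near.1
  have hg1 := h.g1_rng
  have hks : p.k * p.s1 ≤ 1 := by nlinarith [hp.k_pos, hp.k_le, hp.s1_pos, hp.s1_lt]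
  have hgC : s.gC ≤ s.N ^ (-(1 / τ)) := h.thin.trans (by
    calc s.N ^ (-(1 / τ)) * s.g1 ≤ s.N ^ (-(1 / τ)) * 1 := mul_le_mul_of_nonneg_left hg1.2 (hpos _).le
      _ = _ := mul_one _)
  have hinv2 : s.N ^ (-1 : ℝ) ≤ 1 / 2 := by
    rw [Real.rpow_neg_one, one_div]
    exact inv_anti₀ (by norm_num) hN2
  refine
    { K_one := Real.one_le_rpow hN1 (by positivity)
      N_one := hN1
      pwf := h.wf
      ntv := k9c_ntv_mono h.wf h.ntv hKτ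
      node1 := k9c_node_mono h.node1 hKτ hg1.1.le
      geo1 := k2s_geo_mono _ h.wf h.geo1 hKτ (hpos _).le
      sat1 := k2s_sat_mono _ h.sat1 hKτ hn1.le
      e1_pos := hpos _
      e1_le := Real.rpow_le_one_of_one_le_of_nonpos hN1 (by linarith)
      e1_a := ?_
      n1_pos := hn1
      n1_a := ?_
      g1_rng := hg1
      wfC := h.wfC
      boxC := fun b l hl t ht => (h.geoC.box b l hl t ht).trans hKτ
      lvlC := h.lvlC
      frame := fun b => ⟨(h.frame b).1, (h.frame b).2.2.1⟩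
      gC_pos := h.gC_pos
      gC_q1 := ?_
      gC_u1 := ?_
      cmp := fun b c1 h1 h2 => k9c_cmp_mono (h.cmp b c1 h1 h2) hKτ hg1.1.le
      wfA := h.wfA
      boxA := fun c l hl t ht => (h.boxA c l hl t ht).trans hKτ
      upA := h.upA
      path1 := h.path1
      bal := ?_
      full := ?_
      bigA := k2s_big_mono _ h.bigA hKτ
      a_pos := hpos _
      a_le := Real.rpow_le_one_of_one_le_of_nonpos hN1 (by linarith [hp.s1_pos])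
      aL_rng := ⟨hpos _, hmono _ _ (by linarith [hp.s1_lt])⟩
      nL_pos := hpos _
      Gp_meas := h.Gp_meas
      loss := h.loss.trans (mul_le_mul_left (ENNReal.ofReal_le_ofReal hτ1) _)
      pure := ?_
      pure1 := ?_
      low := ?_
      ang := ?_ }
  · -- e1_a
    rw [← Real.rpow_add hN0]
    exact hmono _ _ (by nlinarith)
  · -- n1_a
    rw [← Real.rpow_mul hN0.le]
    calc s.N ^ (-p.s1 * p.d) ≤ s.N ^ ((2 + p.S) * τ + (-(p.d * p.s1) - τ)) := hmono _ _ (by nlinarith)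
      _ = s.N ^ ((2 + p.S) * τ) * s.N ^ (-(p.d * p.s1) - τ) := Real.rpow_add hN0 _ _
      _ ≤ _ := mul_le_mul_of_nonneg_left h.n1_near.1 hK0.le
  · -- gC_q1
    refine h.thin.trans ?_
    have e1 : s.N ^ (-(1 / τ)) ≤ s.N ^ (-(p.k * p.s1) - τ) * (s.N ^ (-p.s1) * s.N ^ (-1 : ℝ)) := by
      rw [← Real.rpow_add hN0, ← Real.rpow_add hN0]
      exact hmono _ _ (by nlinarith [hp.s1_lt, hp.u_pos])
    have e2 : s.N ^ (-(p.k * p.s1) - τ) * (s.N ^ (-p.s1) * s.N ^ (-1 : ℝ)) ≤ s.Y1.q * (s.N ^ (-p.s1) / 2) := by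
      refine mul_le_mul h.q1_near.1 ?_ (by have := hpos (-p.s1); have := hpos (-1); positivity) (k2s_q_pos _).le
      rw [div_eq_mul_one_div]
      exact mul_le_mul_of_nonneg_left hinv2 (hpos _).le
    calc s.N ^ (-(1 / τ)) * s.g1 ≤ (s.Y1.q * (s.N ^ (-p.s1) / 2)) * s.g1 := mul_le_mul_of_nonneg_right (e1.trans e2) hg1.1.le
      _ = _ := by ring
  · -- gC_u1
    have e4 : (4 : ℝ) ≤ s.N ^ (2 : ℝ) := by
      rw [Real.rpow_two]; nlinarith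
    calc 4 * s.N ^ ((2 + p.S) * τ) * s.gC ≤ s.N ^ (2 : ℝ) * s.N ^ ((2 + p.S) * τ) * s.N ^ (-(1 / τ)) :=
          mul_le_mul (mul_le_mul_of_nonneg_right e4 hK0.le) hgC h.gC_pos.le (by have := hpos 2; positivity)
      _ = s.N ^ (2 + (2 + p.S) * τ + -(1 / τ)) := by rw [Real.rpow_add hN0, Real.rpow_add hN0]
      _ ≤ _ := hmono _ _ (by linarith)
  · -- bal
    intro c
    refine le_trans (ENNReal.ofReal_le_ofReal ?_) (h.bal c).1
    have hJ : 0 ≤ (s.YA.ch c).J := abs_nonneg _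
    rw [div_eq_mul_inv, ← Real.rpow_neg hN0.le, mul_comm]
    exact mul_le_mul_of_nonneg_right (hmono _ _ (by nlinarith)) hJ
  · -- full
    intro c
    refine le_trans ?_ (h.full c)
    have hq := k2s_q_pos s.YA
    refine pow_le_pow_left₀ (by positivity) ?_ 2
    exact div_le_div_of_nonneg_left hq.le (hpos _) hKτ
  · -- pure
    intro p' hap hp1
    have hp0 : 0 < p' := lt_of_lt_of_le (hpos _) hap
    have hlogN : 0 < Real.log s.N := Real.log_pos (by linarith)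
    obtain ⟨r, hr⟩ : ∃ r : ℝ, r = -Real.log p' / Real.log s.N := ⟨_, rfl⟩
    have hpr : p' = s.N ^ (-r) := by
      rw [Real.rpow_def_of_pos hN0, hr]
      have : Real.log s.N * -(-Real.log p' / Real.log s.N) = Real.log p' := by field_simp
      rw [this, Real.exp_log hp0]
    have hr0 : 0 ≤ r := by
      by_contra hc
      push Not at hc
      have : 1 < s.N ^ (-r) := Real.one_lt_rpow (by linarith) (by linarith)
      linarith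
    have hrs : r ≤ p.s1 := by
      by_contra hc
      push Not at hc
      have : s.N ^ (-r) < s.N ^ (-p.s1) := Real.rpow_lt_rpow_of_exponent_lt (by linarith) (by linarith)
      linarith
    obtain ⟨r', hr'g, hr'1, hr'2⟩ := h.grid_dense r ⟨hr0, hrs⟩
    refine ⟨s.N ^ (-r'), by rw [hpr]; exact hmono _ _ (by linarith), fun γ x hx => ?_⟩
    refine (h.pure r' hr'g γ x hx).trans (ENNReal.ofReal_le_ofReal ?_)
    rw [hpr, ← Real.rpow_mul hN0.le, ← Real.rpow_add hN0]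
    exact hmono _ _ (by nlinarith [hp.d_nonneg, hp.d_lt])
  · -- pure1
    intro γ x hx
    exact (h.pure1 γ x hx).trans (ENNReal.ofReal_le_ofReal (mul_le_mul_of_nonneg_right hKτ hn1.le))
  · -- low
    intro γ x hx
    refine le_trans (ENNReal.ofReal_le_ofReal ?_) (h.low γ x hx)
    rw [div_eq_mul_inv, ← Real.rpow_neg hN0.le, ← Real.rpow_add hN0]
    exact hmono _ _ (by nlinarith)
  · -- ang
    intro u hu hu1
    obtain ⟨w', hw'g, hw'1, hw'2⟩ := h.vgrid_dense u ⟨hu.le, hu1⟩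
    refine ⟨s.N ^ (-w'), hmono _ _ (by linarith), fun γ x hx => ?_⟩
    refine (h.ang w' hw'g γ x hx).trans (ENNReal.ofReal_le_ofReal ?_)
    rw [← Real.rpow_add hN0, ← Real.rpow_add hN0]
    exact hmono _ _ (by nlinarith)

/-- the actual path factor is subpower on a guarded sample -/
theorem k9c_entry_Kp (p : K9Prm) (τ : ℝ) (hτ : 0 < τ) (hτ1 : τ ≤ 1 / 4) (s : K9Sam) (h : s.Ok p τ) : 4 ≤ s.N ∧ s.Kp ^ 2 ≤ s.N ^ τ := by
  have hN4 : 4 ≤ s.N := by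
    refine le_trans ?_ h.N_big.2
    rw [le_div_iff₀ hτ]
    linarith
  refine ⟨hN4, ?_⟩
  have hlog : 1 ≤ Real.log s.N := by
    have h1 : Real.log 4 ≤ Real.log s.N := Real.log_le_log (by norm_num) hN4
    have h2 : Real.log 4 = 2 * Real.log 2 := by
      rw [show (4 : ℝ) = 2 ^ 2 by norm_num, Real.log_pow]
      norm_num
    have h3 := Real.log_two_gt_d9
    linarith
  have hKp := h.Kp_one
  have hb : s.Kp ≤ s.Kp * Real.log s.N := by nlinarith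
  have hn : 2 ≤ s.n := by
    have h1 : (4 : ℝ) ≤ (s.n : ℝ) := by
      refine le_trans ?_ h.stage
      rw [le_div_iff₀ hτ]
      linarith
    have h2 : ((2 : ℕ) : ℝ) ≤ (s.n : ℝ) := by push_cast; linarith
    exact_mod_cast h2
  calc s.Kp ^ 2 ≤ (s.Kp * Real.log s.N) ^ 2 := pow_le_pow_left₀ (by linarith) hb 2
    _ ≤ (s.Kp * Real.log s.N) ^ s.n := pow_le_pow_right₀ (by linarith) hn
    _ ≤ s.N ^ τ := h.slack

/-- the mesh is finer than the earlier blocks -/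
theorem k9c_entry_sigma (p : K9Prm) (τ : ℝ) (hτ : 0 < τ) (hτ1 : τ ≤ 1 / 4) (s : K9Sam) (h : s.Ok p τ) (hN4 : 4 ≤ s.N) (σ : ℝ) (hσ : 0 < σ)
    (hσ' : σ ≤ s.N ^ (-(p.s1 + p.k * p.s1 + 1))) : s.YA.q * σ ≤ s.Y1.q * (s.N ^ (-p.s1) / 2) := by
  have hN0 : 0 < s.N := by linarith
  have hN1 : 1 ≤ s.N := by linarith
  have hqA : s.YA.q ≤ 1 := k2s_q_le_one s.YA
  have hqA0 : 0 < s.YA.q := k2s_q_pos s.YA
  have h2 : (2 : ℝ) ≤ s.N ^ (1 - τ) := by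
    have h3 : s.N ^ (1 / 2 : ℝ) ≤ s.N ^ (1 - τ) := Real.rpow_le_rpow_of_exponent_le hN1 (by linarith)
    have h4 : (4 : ℝ) ^ (1 / 2 : ℝ) ≤ s.N ^ (1 / 2 : ℝ) := Real.rpow_le_rpow (by norm_num) hN4 (by norm_num)
    have h5 : (4 : ℝ) ^ (1 / 2 : ℝ) = 2 := by
      rw [show (4 : ℝ) = 2 ^ (2 : ℝ) by norm_num, ← Real.rpow_mul (by norm_num)]
      norm_num
    linarith
  have e : s.N ^ (-(p.k * p.s1) - τ) * s.N ^ (-p.s1) = s.N ^ (-(p.s1 + p.k * p.s1 + 1)) * s.N ^ (1 - τ) := by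
    rw [← Real.rpow_add hN0, ← Real.rpow_add hN0]
    congr 1
    ring
  have hx : 0 < s.N ^ (-(p.s1 + p.k * p.s1 + 1)) := Real.rpow_pos_of_pos hN0 _
  have ha : 0 < s.N ^ (-p.s1) := Real.rpow_pos_of_pos hN0 _
  calc s.YA.q * σ ≤ 1 * σ := mul_le_mul_of_nonneg_right hqA hσ.le
    _ = σ := one_mul σ
    _ ≤ s.N ^ (-(p.s1 + p.k * p.s1 + 1)) := hσ'
    _ ≤ s.N ^ (-(p.s1 + p.k * p.s1 + 1)) * s.N ^ (1 - τ) / 2 := by
        rw [le_div_iff₀ (by norm_num)]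
        exact mul_le_mul_of_nonneg_left h2 hx.le
    _ = s.N ^ (-(p.k * p.s1) - τ) * (s.N ^ (-p.s1) / 2) := by rw [← e]; ring
    _ ≤ s.Y1.q * (s.N ^ (-p.s1) / 2) := mul_le_mul_of_nonneg_right h.q1_near.1 (by positivity)

/-- LEAF S9c-E4 (~250 l.; black boxes `k9c_core`, `k9c_sam_in`, `k9c_absorb`, `k9c_tang`).  **EXIT OF S9c = ENTRY OF S9d.**
PLAN.  `C3` from `k9c_core`;  `τ0` from `k9c_absorb (A := 16 C3) (B := (2 + S) C3 + 1) τ'`;  `τ := min` of `τ0`, `1/4`, `s₁`, and a bound which gives `hτu` (e.g. `1 / (6 + S + u)`).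
`Kp' := 4 Kp²` : `Kp_one`, monotone fields `ntv, size, box, known` from `a_ntv, a_size, a_box, a_known` (`k9c_ntv_mono`, `k9c_sel_known`, `k2s_known_mono`), `tang` = `k9c_tang` with `K = Kp`.
`Kp² ≤ 3 N^τ` : `(Kp log N)² ≤ (Kp log N)^n = Ks ≤ N^τ` (`stage`: `n ≥ 1/τ ≥ 2`; `Kp log N ≥ 2 log 2 ≥ 1`), `(log N)² ≥ (log 2)² ≥ 1/3`.   So `Kp' ≤ 12 N^τ ≤ N^τ'` and `C3 K^C3 Kp' ≤ 12 C3 N^(((2+S) C3 + 1) τ) ≤ N^τ'`.
`big` : `bigA` and `mass ≤ 2 mass'`, `2 N^τ ≤ N^τ'`.   `σ` : `q_A σ ≤ σ ≤ N^{-(s₁ + k s₁ + 1)} ≤ q₁ a / 2` (`q1_near`, `N^{1-τ} ≥ 2`).   `ecap, eang, supp` : `k9c_core` + monotonicity. -/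
theorem k9c_entry (p : K9Prm) (hp : p.Ok) (τ' : ℝ) (hτ' : 0 < τ') : ∃ τ : ℝ, 0 < τ ∧ ∀ s : K9Sam, s.Ok p τ →
    ∃ Gq : s.P.W → Set (s.P.Lam × ℝ), (∀ γ, MeasurableSet (Gq γ)) ∧ (∀ γ, Gq γ ⊆ s.Gp γ) ∧ s.YA.mass ≤ 2 * (k9cSel s.YA Gq).mass ∧
      ∀ σ : ℝ, 0 < σ → σ ≤ s.N ^ (-(p.s1 + p.k * p.s1 + 1)) →
        K9dIn s.P (k9cSel s.YA Gq) (k9cE s) (k9cZs s) s.N (s.N ^ τ') (4 * s.Kp ^ 2) s.aL σ p.d (s.N ^ (-p.s1)) p.S p.u := by
  obtain ⟨C3, hC3, H⟩ := k9c_core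
  have hS := hp.S_pos
  have hu := hp.u_pos
  obtain ⟨τ0, hτ0, Habs⟩ := k9c_absorb (16 * C3) ((2 + p.S) * C3 + 1) τ' (by linarith) (by positivity) hτ'
  obtain ⟨τ, hτdef⟩ : ∃ τ : ℝ, τ = min τ0 (min (1 / 4) (min p.s1 (1 / (6 + p.S + p.u)))) := ⟨_, rfl⟩
  have hτ : 0 < τ := by
    rw [hτdef]
    exact lt_min hτ0 (lt_min (by norm_num) (lt_min hp.s1_pos (by positivity)))
  have t0 : τ ≤ τ0 := hτdef ▸ min_le_left _ _
  have t1 : τ ≤ 1 / 4 := hτdef ▸ (min_le_right _ _).trans (min_le_left _ _)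
  have t2 : τ ≤ p.s1 := hτdef ▸ (min_le_right _ _).trans ((min_le_right _ _).trans (min_le_left _ _))
  have t3 : τ ≤ 1 / (6 + p.S + p.u) := hτdef ▸ (min_le_right _ _).trans ((min_le_right _ _).trans (min_le_right _ _))
  have hτu : 3 + (2 + p.S) * τ + p.u ≤ 1 / τ := by
    have h1 : 6 + p.S + p.u ≤ 1 / τ := by
      rw [le_div_iff₀ hτ]
      rw [le_div_iff₀ (by positivity)] at t3
      linarith
    have h2 : (2 + p.S) * τ ≤ (2 + p.S) * 1 := mul_le_mul_of_nonneg_left (by linarith) (by linarith)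
    linarith
  refine ⟨τ, hτ, fun s h => ?_⟩
  obtain ⟨hN4, hKp2⟩ := k9c_entry_Kp p τ hτ t1 s h
  have hN0 : 0 < s.N := by linarith
  have hN1 : 1 ≤ s.N := by linarith
  have hin := k9c_sam_in p hp τ hτ t1 t2 hτu s h
  obtain ⟨Gq, hm, hsub, hmass, Hc⟩ := H s _ _ _ _ _ _ _ hin
  refine ⟨Gq, hm, hsub, hmass, fun σ hσ hσ' => ?_⟩
  have habs := Habs τ hτ t0 s.N hN1 h.N_big.2
  obtain ⟨X, hX⟩ : ∃ X : ℝ, X = s.N ^ (((2 + p.S) * C3 + 1) * τ) := ⟨_, rfl⟩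
  rw [← hX] at habs
  have hKp := h.Kp_one
  have hNτ1 : 1 ≤ s.N ^ τ := Real.one_le_rpow hN1 hτ.le
  -- K^C3 * N^τ = X
  have eX : (s.N ^ ((2 + p.S) * τ)) ^ C3 * s.N ^ τ = X := by
    rw [hX, ← Real.rpow_mul hN0.le, ← Real.rpow_add hN0]
    congr 1
    ring
  have hKC1 : 1 ≤ (s.N ^ ((2 + p.S) * τ)) ^ C3 := Real.one_le_rpow (Real.one_le_rpow hN1 (by positivity)) (by linarith)
  have hNX : s.N ^ τ ≤ X := by rw [← eX]; nlinarith
  have hKX : (s.N ^ ((2 + p.S) * τ)) ^ C3 ≤ X := by rw [← eX]; nlinarith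
  have hX1 : 1 ≤ X := hNτ1.trans hNX
  have b1 : 4 * s.Kp ^ 2 ≤ s.N ^ τ' := by nlinarith
  have b2 : C3 * (s.N ^ ((2 + p.S) * τ)) ^ C3 ≤ s.N ^ τ' := by nlinarith
  have b3 : C3 * (s.N ^ ((2 + p.S) * τ)) ^ C3 * (4 * s.Kp ^ 2) ≤ s.N ^ τ' := by
    have h1 : C3 * (s.N ^ ((2 + p.S) * τ)) ^ C3 * (4 * s.Kp ^ 2) ≤ C3 * (s.N ^ ((2 + p.S) * τ)) ^ C3 * (4 * s.N ^ τ) := by
      apply mul_le_mul_of_nonneg_left (by linarith) (by positivity)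
    have h2 : C3 * (s.N ^ ((2 + p.S) * τ)) ^ C3 * (4 * s.N ^ τ) = 4 * C3 * X := by rw [← eX]; ring
    nlinarith
  have b4 : 2 * s.N ^ τ ≤ s.N ^ τ' := by nlinarith
  have bKp : s.Kp ≤ 4 * s.Kp ^ 2 := by nlinarith
  have ha0 : 0 < s.N ^ (-p.s1) := Real.rpow_pos_of_pos hN0 _
  have hσ1 : σ ≤ 1 := hσ'.trans (Real.rpow_le_one_of_one_le_of_nonpos hN1 (by
    have := hp.s1_pos
    have := hp.k_pos
    have : 0 < p.k * p.s1 := by positivity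
    linarith))
  have hunit : ∀ c, K9Unit (k9cE s c) := fun c => k9du_unit_rot _ (h.frame (s.up c)).1
  have htang : ∀ c, ∀ l ∈ s.YA.A c, ∀ t ∈ s.YA.I c, |k9dot (k9cE s c) (kbY (s.P.co (s.YA.wd c) l) t) - k9cZs s c| ≤ 4 * s.Kp ^ 2 * s.YA.q :=
    fun c => k9c_tang s.YA h.wfA s.Kp (by linarith) h.a_ntv c (h.a_size c) (h.a_box c) (k9cE s c) (hunit c)
  exact
    { Kp_one := by nlinarith
      Kp_le := b1
      aL_pos := hin.aL_rng.1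
      aL_le := hin.aL_rng.2
      pwf := h.wf
      ntv := k9c_ntv_mono h.wf h.a_ntv bKp
      wf := k9c_sel_wf s.YA Gq h.wfA hm
      size := fun c => (h.a_size c).trans (mul_le_mul_of_nonneg_left bKp (k2s_q_pos s.YA).le)
      box := fun c l hl t ht => (h.a_box c l hl t ht).trans bKp
      known := k2s_known_mono _ (k9c_sel_known s.YA Gq h.a_known) bKp
      unit := hunit
      tang := htang
      big := by
        have h1 : 1 ≤ ENNReal.ofReal (s.N ^ τ) * s.YA.mass := h.bigA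
        show 1 ≤ ENNReal.ofReal (s.N ^ τ') * (k9cSel s.YA Gq).mass
        calc 1 ≤ ENNReal.ofReal (s.N ^ τ) * s.YA.mass := h1
          _ ≤ ENNReal.ofReal (s.N ^ τ) * (2 * (k9cSel s.YA Gq).mass) := by gcongr
          _ = ENNReal.ofReal (2 * s.N ^ τ) * (k9cSel s.YA Gq).mass := by
              rw [ENNReal.ofReal_mul (by norm_num), ENNReal.ofReal_ofNat]
              ring
          _ ≤ ENNReal.ofReal (s.N ^ τ') * (k9cSel s.YA Gq).mass := by gcongr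
      ecap := fun c => k9c_ecap_mono (Hc c).1 b2 zero_le_one ha0
      eang := fun c => k9c_eang_mono (Hc c).2.1 b2 zero_le_one ha0 hN0
      supp := fun c => k9c_supp_mono ((Hc c).2.2 σ (4 * s.Kp ^ 2) hσ hσ1 (k9c_entry_sigma p τ hτ t1 s h hN4 σ hσ hσ') (by nlinarith) (htang c)) b3 }

end

end Claimed.Agent.R252
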