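import Claimed.Agent.R252.S9.PartD
import Claimed.Agent.R252.S9.PartC
import Claimed.Agent.R252.S3c.HubsContract
import Claimed.Agent.R252.S7a.BridgeContract
import Claimed.Agent.R252.S7a.T71Contract
import Claimed.Agent.R252.S9.PartB

/-!
# ROW 252 (S0492), unit S9b (sub-architect helper66; chief helper233), file 6: **PROPOSITION 9.1 = `K9Exit`**, the glue of S9a, S9b, S9c, S9d.      No `sorry` in THIS file.

* `k9b_dyadic`       a dyadic mesh `σ = 2^{-m} ∈ (N^{-M}/2, N^{-M}]`.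
* `k9b_hub_entry`    the exit `k9c_entry` of S9c (helper285) gives the entry `K9HubEntry p (s₁ + k s₁ + 2) u` of S9d (helper225).
* `K9HubA`           the exit of S9a (helper197: `k9a_hub_ctx`), for all admissible exponents.
* `k9bPrm`           the choice of the exponents:  `d = d_*`, `k = k_*`, `u = η`, `s₁ = min (1/2) (S η / (4 (d + 2 k)))` ((9.3)), `c' = s₁ ε / 2`.
* `k9b_exit`         `K9HubA → K9Exit`.      * `k9b_exit_all` : `K9Exit`  (with `k9a_hub` of helper197).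
-/

set_option autoImplicit false

namespace Claimed.Agent.R252

open MeasureTheory Filter Topology
open Claimed.Agent.R255 (uf)
open scoped ENNReal BigOperators

noncomputable section

/-- a dyadic number just below `x ∈ (0,1]` -/
theorem k9b_dyadic (x : ℝ) (h0 : 0 < x) (h1 : x ≤ 1) : ∃ m : ℕ, (1 / 2 : ℝ) ^ m ≤ x ∧ x / 2 ≤ (1 / 2 : ℝ) ^ m := by
  classical
  have hex : ∃ m : ℕ, (1 / 2 : ℝ) ^ m ≤ x := by
    obtain ⟨m, hm⟩ := exists_pow_lt_of_lt_one h0 (by norm_num : (1 / 2 : ℝ) < 1)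
    exact ⟨m, hm.le⟩
  refine ⟨Nat.find hex, Nat.find_spec hex, ?_⟩
  rcases Nat.eq_zero_or_pos (Nat.find hex) with h | h
  · rw [h, pow_zero]; linarith
  · have := Nat.find_min hex (Nat.sub_lt h one_pos)
    rw [not_le] at this
    have e : (1 / 2 : ℝ) ^ Nat.find hex = (1 / 2 : ℝ) ^ (Nat.find hex - 1) * (1 / 2) := by
      rw [← pow_succ, Nat.sub_add_cancel h]
    rw [e]
    linarith

/-- the exit of S9c is the entry of S9d -/
theorem k9b_hub_entry (p : K9Prm) (hp : p.Ok) : K9HubEntry p (p.s1 + p.k * p.s1 + 2) p.u := by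
  intro τ' hτ'
  obtain ⟨τc, hτc, H⟩ := k9c_entry p hp τ' hτ'
  have h2 : (0 : ℝ) < (2 : ℝ) ^ (-(1 / τ')) := Real.rpow_pos_of_pos two_pos _
  refine ⟨min τc ((2 : ℝ) ^ (-(1 / τ'))), lt_min hτc h2, ?_⟩
  intro s hs
  have hτ0 : 0 < min τc ((2 : ℝ) ^ (-(1 / τ'))) := lt_min hτc h2
  obtain ⟨Gq, g1, g2, g3, g4⟩ := H s (k9b_ok_mono hτ0 (min_le_left _ _) hs)
  have hN2 := hs.N_big.1
  have hN0 : (0 : ℝ) < s.N := by linarith
  have hN1 : (1 : ℝ) ≤ s.N := by linarith
  -- `2 ≤ N^τ'`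
  have hbig : (2 : ℝ) ^ (1 / τ') ≤ s.N := by
    refine le_trans ?_ hs.N_big.2
    rw [le_div_iff₀ hτ0]
    calc (2 : ℝ) ^ (1 / τ') * min τc ((2 : ℝ) ^ (-(1 / τ'))) ≤ (2 : ℝ) ^ (1 / τ') * (2 : ℝ) ^ (-(1 / τ')) :=
          mul_le_mul_of_nonneg_left (min_le_right _ _) (Real.rpow_nonneg two_pos.le _)
      _ = 1 := by rw [← Real.rpow_add two_pos]; simp
  have h2N : (2 : ℝ) ≤ s.N ^ τ' := by
    calc (2 : ℝ) = ((2 : ℝ) ^ (1 / τ')) ^ τ' := by
          rw [← Real.rpow_mul two_pos.le, one_div_mul_cancel hτ'.ne', Real.rpow_one]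
      _ ≤ s.N ^ τ' := Real.rpow_le_rpow (Real.rpow_nonneg two_pos.le _) hbig hτ'.le
  set M : ℝ := p.s1 + p.k * p.s1 + 2 with hM
  have hM0 : 0 ≤ M := by
    have := hp.s1_pos; have := hp.k_pos
    positivity
  obtain ⟨m, m1, m2⟩ := k9b_dyadic (s.N ^ (-M)) (Real.rpow_pos_of_pos hN0 _) (Real.rpow_le_one_of_one_le_of_nonpos hN1 (by linarith))
  have hσ0 : (0 : ℝ) < (1 / 2 : ℝ) ^ m := by positivity
  have hin := g4 ((1 / 2 : ℝ) ^ m) hσ0 (m1.trans (Real.rpow_le_rpow_of_exponent_le hN1 (by rw [hM]; linarith)))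
  refine ⟨fun c => s.YA.S c ∩ Gq (s.YA.wd c), (1 / 2 : ℝ) ^ m, m, rfl, ?_, ?_, ?_, fun c => Set.inter_subset_left, g3, fun c => ⟨hin.ecap c, hin.eang c, hin.supp c⟩⟩
  · refine le_trans ?_ m2
    rw [Real.rpow_sub hN0, div_le_div_iff_of_pos_left (Real.rpow_pos_of_pos hN0 _) (Real.rpow_pos_of_pos hN0 _) two_pos]
    exact h2N
  · exact m1.trans (Real.rpow_le_rpow_of_exponent_le hN1 (by linarith))
  · intro c
    exact (hs.wfA.S_meas c).inter (g1 _)

/-- **the exit of S9a** for all admissible exponents;  (9.3) is the last hypothesis -/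
def K9HubA : Prop :=
  ∀ (S η d₁ : ℝ) (p : K9Prm), 0 < S → 0 < η → KbBad KbVer.two S η d₁ → p.Ok → p.d = kp4Dst KbVer.two S η → p.k = kp4Kst KbVer.two S η → p.S = S → p.u ≤ η →
    (p.d + 2 * p.k) * p.s1 < p.S * p.u / 2 → K9HubCtx S η p

/-- the exponents of Sec 9 -/
def k9bPrm (S η ε : ℝ) : K9Prm where
  d := kp4Dst KbVer.two S η
  k := kp4Kst KbVer.two S η
  S := S
  u := η
  s1 := min (1 / 2) (S * η / (4 * (kp4Dst KbVer.two S η + 2 * kp4Kst KbVer.two S η)))
  cg := min (1 / 2) (S * η / (4 * (kp4Dst KbVer.two S η + 2 * kp4Kst KbVer.two S η))) * ε / 2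

theorem k9b_exit_eqns_cite : True := by
  have := @K9HubA.eq_1; have := @k9bPrm.eq_1
  trivial

/-- **Proposition 9.1** -/
theorem k9b_exit (hA : K9HubA) : K9Exit := by
  intro h1 S η d₀ hS hη hbad
  have hT : k7a_T71a := k7a_T71a_of_frontAng (k7a_bridge h1)
  have hd0 := kp4_Dst_nonneg KbVer.two S η
  have hd1 := kp4_Dst_lt_one' KbVer.two S η
  have hk0 := kp4_Kst_pos KbVer.two S η d₀ hS hη hbad
  have hk1 := kp4_Kst_le_one KbVer.two S η d₀ hbad
  obtain ⟨ε₀, hε₀, R₀, hmatch⟩ := k3c_K4eMatch 2 (kp4Dst KbVer.two S η) hd1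
  set ε : ℝ := min ε₀ 1 with hε
  have hε0 : 0 < ε := lt_min hε₀ one_pos
  have hε1 : ε ≤ 1 := min_le_right _ _
  set p := k9bPrm S η ε with hp
  have hden : 0 < 4 * (kp4Dst KbVer.two S η + 2 * kp4Kst KbVer.two S η) := by positivity
  have hs0 : 0 < p.s1 := lt_min (by norm_num) (by positivity)
  have hs2 : p.s1 ≤ 1 / 2 := min_le_left _ _
  have hs3 : p.s1 ≤ S * η / (4 * (kp4Dst KbVer.two S η + 2 * kp4Kst KbVer.two S η)) := min_le_right _ _
  have hcg : p.cg = p.s1 * ε / 2 := rfl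
  have hpok : p.Ok :=
    { d_nonneg := hd0
      d_lt := hd1
      k_pos := hk0
      k_le := hk1
      S_pos := hS
      u_pos := hη
      s1_pos := hs0
      s1_lt := by linarith
      cg_pos := by rw [hcg]; positivity
      cg_lt := by rw [hcg]; nlinarith }
  have h93 : (p.d + 2 * p.k) * p.s1 < p.S * p.u / 2 := by
    show (kp4Dst KbVer.two S η + 2 * kp4Kst KbVer.two S η) * p.s1 < S * η / 2
    rw [le_div_iff₀ hden] at hs3
    have : 0 < S * η := by positivity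
    nlinarith
  have hfin : K9HubFinal p := k9d_final hT p hpok (p.s1 + p.k * p.s1 + 2) p.u ε
    (by have : 0 < p.k * p.s1 := mul_pos hk0 hs0
        linarith) hη hε0 hε1
    ⟨R₀, fun R hR => hmatch _ le_rfl ε hε0 (min_le_left _ _) R hR⟩ hcg (k9b_hub_entry p hpok)
  exact k9b_excl S η d₀ hS hη hbad p hpok rfl rfl rfl le_rfl (hA S η d₀ p hS hη hbad hpok rfl rfl rfl le_rfl h93) hfin

/-- **Proposition 9.1**, all hubs of Sec 9 inserted -/
theorem k9b_exit_all : K9Exit :=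
  k9b_exit fun S η d₁ p hS hη hbad hp hd hk hpS hu hs1 => k9a_hub S η d₁ hS hη hbad p hp hd hk hpS hu hs1

end

end Claimed.Agent.R252

/-!
# ROW 252 (S0492), unit S9, last file: **PROPOSITION 9.1 = `K9Exit`** without hypotheses (helper91, after ADV-252-S9, report 932).
`k9b_exit` (S9b/ExitGlue, helper66) fed with `k9a_hub` (S9a/Hub, helper197).   Consumer: `h9` of `Top/Final.kt_final`.
-/

set_option autoImplicit false

namespace Claimed.Agent.R252

/-- the exit of S9a for all admissible exponents -/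
theorem k9_hubA : K9HubA :=
  fun S η d₁ p hS hη hbad hp hd hk hpS hu h93 => k9a_hub S η d₁ hS hη hbad p hp hd hk hpS hu h93

/-- **Proposition 9.1** -/
theorem k9_exit : K9Exit := k9b_exit k9_hubA

end Claimed.Agent.R252
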