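import Claimed.Agent.R252.Sheet.MvContract
import Claimed.Agent.R252.S9.Geo

/-!
# ROW 252 (S0492), unit S9, file 3: **L9.4 GRAPH DESCRIPTIONS, ONE-CHART CORE**: DEFINITIONS (architect helper233; sub-architect helper285).   No `sorry`: the theorem is in `S9/Graph.lean`

09-unbounded-narrowness.tex l.541-707, PAPER-FREE (Mathlib + `R252/Remez` + `R252/Sheet`).   Everything happens in the normalised base coordinates `û ∈ ℝ³` of ONE chart `Q₁` and the hidden variable `z = B w`.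
* `p(û,z) = A(û) + B(û) z + C z²/2`  the true test of the chart (`A` quadratic, `B` affine, `C` constant), `q` the native test `P_*` in the same coordinates;
* `Inc ⊆ ℝ³ × ℝ` the retained incidences, `m` their measure; base-density ceiling `c`, mass floor `c/K`      ((9.16)-(9.17), l.606-616);
* OUTPUT: at most `C₀ (K/η)^C₀` pairs (core box, function `G`), `G` bounded and Lipschitz on its core, every incidence outside a set of mass `≤ η m(Inc)` is assigned to a pair with `|q(û,z) - G(û)| ≤ C₀ (K/η)^C₀ e`.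

PLAN (each step = one or two leaves; constants polynomial in `K/η`):
1. `E₀ = fst '' Inc` has outer volume `≥ 1/K` (`hcap` on `toMeasurable volume E₀`, `hfloor`).
2. `Δ = B² - 2 C A` (degree `≤ 2`), `Δ(û) = p_z² - 2 C p`, so `|Δ| ≤ 3K²` on `E₀`;  polynomial Remez (`rmz_box`, coefficient norm) : `|Δ(u) - Δ(u')| ≤ L_Δ |u-u'|` on `[-3K,3K]³`, `L_Δ = C K^C`.
3. grid of half-open cubes of side `2r` (cores), comparison cube = same centre, side `4r`;  `r = 1/(C K^C)` with `4 r L_Δ ≤ 1/(8K²)`.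
4. LARGE CURVATURE `4 K³ |C| e > 1` : `k9_center_approx`, `G = q(û, -B(û)/C)` is a POLYNOMIAL of degree `≤ 2` (class `sh2_val 0 α 0 1`).
   SMALL CURVATURE: `k9_root_approx` (with `e := K e`, `κ := K`): entries (cube, sign `σ` of `p_z`); `Δ ≥ 1/(2K²)` at the incidences, so `Δ ∈ [Δ₀/2, 2Δ₀]` on the comparison cube of an occupied core (`sh2_stable_of_half`);
   `G = q(û, z_σ(û))`;  `C ≠ 0` : `G = α + β √Δ`, `α = A' - B'B/C + C'(Δ+B²)/(2C²)`, `β = σ (B'/C - C'B/C²)` (`sh2_val 0`);   `C = 0` : `G = (A'B² - B'AB + C'A²/2)/B²` `= sh2_val 1 0 β (B⁴)`.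
5. error: `q` is quadratic in `z` : `|q(û,z) - q(û,z_*)| ≤ |q_z| |z-z_*| + |C'| |z-z_*|²/2`.
6. delete the entries of mass `< η m(Inc)/N_e`;  a retained entry has `fst ''` of outer volume `≥ η/(K N_e)`, there `|G| ≤ K + error`;  `sh2_remez 3 4 1 m` on the comparison cube;
   the core is its half box: third clause of `sh2Bd` + mean value theorem along the segment give the Lipschitz bound.
-/

set_option autoImplicit false

namespace Claimed.Agent.R252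

open MeasureTheory
open scoped ENNReal BigOperators

noncomputable section

/-- a quadratic equation in `z` with polynomial coefficients in the normalised base -/
structure K9Eq where
  A : MvPolynomial (Fin 3) ℝ
  B : MvPolynomial (Fin 3) ℝ
  C : ℝ

/-- value -/
def K9Eq.ev (p : K9Eq) (u : Fin 3 → ℝ) (z : ℝ) : ℝ := MvPolynomial.eval u p.A + MvPolynomial.eval u p.B * z + p.C * z ^ 2 / 2

/-- derivative in `z` -/
def K9Eq.dz (p : K9Eq) (u : Fin 3 → ℝ) (z : ℝ) : ℝ := MvPolynomial.eval u p.B + p.C * z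

/-- total degree `≤ 2` -/
def K9Eq.Deg (p : K9Eq) : Prop := p.A.totalDegree ≤ 2 ∧ p.B.totalDegree ≤ 1

/-- the bounds (9.17) and the native bounds on the retained incidences -/
structure K9Inc (p q : K9Eq) (K e : ℝ) (x : (Fin 3 → ℝ) × ℝ) : Prop where
  box : ∀ i, |x.1 i| ≤ K
  val : |p.ev x.1 x.2| ≤ K * e
  dz_le : |p.dz x.1 x.2| ≤ K
  dz_ge : 1 ≤ K * |p.dz x.1 x.2|
  nval : |q.ev x.1 x.2| ≤ K
  ndz : |q.dz x.1 x.2| ≤ K

/-! **L9.4, one-chart core**: the theorem `k9_graphs_chart` is PROVED in `S9/Graph.lean` (glue `k9g_graphs_chart` of the leaves of `S9/GraphCutContract.lean`). -/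

end

end Claimed.Agent.R252

/-!
# ROW 252 (S0492), unit S9, file 3a: **THE CUT OF `k9_graphs_chart`** (L9.4, one-chart core).      CONTRACT file (sub-architect helper285, posts BP-252-S9c, BP-252-S9-GRAPH; prefix `k9g`)

PAPER-FREE (Mathlib + `R252/Remez` + `R252/Sheet` + `S9/GeoContract` §6).   Statements are frozen (defects: message to helper285).   Provers replace the `sorry`s IN PLACE, helper lemmas directly above, prefix `k9g_`.
The glue (`S9/Graph.lean`, helper285) proves `k9_graphs_chart` from the statements of this file.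

* `p.disc = B² - 2 C A`;  `k9gCen p q = q(û, -B/C)` (polynomial, large curvature);  `k9gG p q σ = q(û, z_σ(û))`, `z_σ = (σ √Δ - B)/C` (`C ≠ 0`), `-A/B` (`C = 0`)  (small curvature);
* `K9gSheet a b F` : `F = α + β √D / D^m`, `m ≤ 1`, degrees `≤ 4`, `D` is `4`-stable on the box `Icc a b`;
* grid: cores `Icc (k9gLo K r k) (k9gHi K r k)` of side `2r`, `k : Fin 3 → Fin (N+1)`, comparison cube = core enlarged by `r` on every side; `k9gEnt` = (index of the core, sign of `p_z`).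
LEAVES: G1 (algebra), G2 (sheet class), G3 (Remez + Lipschitz), G4 (pointwise fits), G5 (pruning), G6 (grid).
-/

set_option autoImplicit false

namespace Claimed.Agent.R252

open MeasureTheory
open scoped ENNReal BigOperators
open Classical

noncomputable section

/-! ## definitions -/

/-- the discriminant `Δ = B² - 2 C A` -/
def K9Eq.disc (p : K9Eq) : MvPolynomial (Fin 3) ℝ := p.B ^ 2 - MvPolynomial.C (2 * p.C) * p.A

/-- `q(û, -B(û)/C)` : the native test at the centre of `p` -/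
def k9gCen (p q : K9Eq) : MvPolynomial (Fin 3) ℝ :=
  q.A - MvPolynomial.C (1 / p.C) * (q.B * p.B) + MvPolynomial.C (q.C / (2 * p.C ^ 2)) * p.B ^ 2

/-- polynomial part of `q(û, (σ √Δ - B)/C)` -/
def k9gRtA (p q : K9Eq) : MvPolynomial (Fin 3) ℝ :=
  q.A - MvPolynomial.C (1 / p.C) * (q.B * p.B) + MvPolynomial.C (q.C / (2 * p.C ^ 2)) * (p.disc + p.B ^ 2)

/-- coefficient of `√Δ` in `q(û, (σ √Δ - B)/C)` -/
def k9gRtB (p q : K9Eq) (σ : ℝ) : MvPolynomial (Fin 3) ℝ :=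
  MvPolynomial.C σ * (MvPolynomial.C (1 / p.C) * q.B - MvPolynomial.C (q.C / p.C ^ 2) * p.B)

/-- numerator of `q(û, -A/B)` over `B²` -/
def k9gLin (p q : K9Eq) : MvPolynomial (Fin 3) ℝ :=
  q.A * p.B ^ 2 - q.B * p.A * p.B + MvPolynomial.C (q.C / 2) * p.A ^ 2

/-- the graph of the root branch with the sign `σ` -/
def k9gG (p q : K9Eq) (σ : ℝ) : (Fin 3 → ℝ) → ℝ :=
  if p.C = 0 then sh2_val 1 0 (k9gLin p q) (p.B ^ 4) else sh2_val 0 (k9gRtA p q) (k9gRtB p q σ) p.disc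

/-- the sheet class used here -/
def K9gSheet (a b : Fin 3 → ℝ) (F : (Fin 3 → ℝ) → ℝ) : Prop :=
  ∃ (m : ℕ) (α β D : MvPolynomial (Fin 3) ℝ), m ≤ 1 ∧ α.totalDegree ≤ 4 ∧ β.totalDegree ≤ 4 ∧ D.totalDegree ≤ 4 ∧
    sh2Stable 4 D a b ∧ F = sh2_val m α β D

/-- lower corner of the core with the index `k` -/
def k9gLo (K r : ℝ) {N : ℕ} (k : Fin 3 → Fin (N + 1)) : Fin 3 → ℝ := fun i => -K + 2 * r * ((k i : ℕ) : ℝ)

/-- upper corner of the core with the index `k` -/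
def k9gHi (K r : ℝ) {N : ℕ} (k : Fin 3 → Fin (N + 1)) : Fin 3 → ℝ := fun i => -K + 2 * r * (((k i : ℕ) : ℝ) + 1)

/-- the index of the core of a point -/
def k9gIdx (K r : ℝ) (N : ℕ) (u : Fin 3 → ℝ) : Fin 3 → Fin (N + 1) :=
  fun i => ⟨min ⌊(u i + K) / (2 * r)⌋₊ N, Nat.lt_succ_of_le (min_le_right _ _)⟩

/-- the entry of an incidence: core and sign of `p_z` -/
def k9gEnt (p : K9Eq) (K r : ℝ) (N : ℕ) (x : (Fin 3 → ℝ) × ℝ) : (Fin 3 → Fin (N + 1)) × Bool :=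
  (k9gIdx K r N x.1, decide (0 < p.dz x.1 x.2))

/-- the sign of an entry -/
def k9gSg (s : Bool) : ℝ := if s then 1 else -1

/-! ## G1 algebra   (LEAF L-252-S9-G1, ~200 l.) -/

theorem k9g_deg_C_mul (c : ℝ) (P : MvPolynomial (Fin 3) ℝ) (k : ℕ) (h : P.totalDegree ≤ k) :
    (MvPolynomial.C c * P).totalDegree ≤ k := by
  refine (MvPolynomial.totalDegree_mul _ _).trans ?_
  rw [MvPolynomial.totalDegree_C, zero_add]
  exact h

theorem k9g_deg_mul (P Q : MvPolynomial (Fin 3) ℝ) (k l : ℕ) (hP : P.totalDegree ≤ k) (hQ : Q.totalDegree ≤ l) :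
    (P * Q).totalDegree ≤ k + l :=
  (MvPolynomial.totalDegree_mul _ _).trans (add_le_add hP hQ)

theorem k9g_deg_sq (P : MvPolynomial (Fin 3) ℝ) (hP : P.totalDegree ≤ 1) : (P ^ 2).totalDegree ≤ 2 := by
  rw [sq]
  exact k9g_deg_mul P P 1 1 hP hP

theorem k9g_deg_sub (P Q : MvPolynomial (Fin 3) ℝ) (k : ℕ) (hP : P.totalDegree ≤ k) (hQ : Q.totalDegree ≤ k) :
    (P - Q).totalDegree ≤ k :=
  (MvPolynomial.totalDegree_sub _ _).trans (max_le hP hQ)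

theorem k9g_deg_add (P Q : MvPolynomial (Fin 3) ℝ) (k : ℕ) (hP : P.totalDegree ≤ k) (hQ : Q.totalDegree ≤ k) :
    (P + Q).totalDegree ≤ k :=
  (MvPolynomial.totalDegree_add _ _).trans (max_le hP hQ)

/-- (`MvPolynomial.totalDegree_sub`, `totalDegree_pow`, `totalDegree_mul`, `totalDegree_C`) -/
theorem k9g_disc_deg (p : K9Eq) (hp : p.Deg) : p.disc.totalDegree ≤ 2 := by
  unfold K9Eq.disc
  exact k9g_deg_sub _ _ 2 (k9g_deg_sq _ hp.2) (k9g_deg_C_mul _ _ 2 hp.1)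

/-- (`simp [K9Eq.disc, K9Eq.dz, K9Eq.ev]; ring`) -/
theorem k9g_disc_eval (p : K9Eq) (u : Fin 3 → ℝ) (z : ℝ) :
    MvPolynomial.eval u p.disc = p.dz u z ^ 2 - 2 * p.C * p.ev u z := by
  simp only [K9Eq.disc, K9Eq.dz, K9Eq.ev, map_sub, map_mul, map_pow, MvPolynomial.eval_C]
  ring

theorem k9g_cen_deg (p q : K9Eq) (hp : p.Deg) (hq : q.Deg) : (k9gCen p q).totalDegree ≤ 2 := by
  unfold k9gCen
  exact k9g_deg_add _ _ 2 (k9g_deg_sub _ _ 2 hq.1 (k9g_deg_C_mul _ _ 2 (k9g_deg_mul _ _ 1 1 hq.2 hp.2)))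
    (k9g_deg_C_mul _ _ 2 (k9g_deg_sq _ hp.2))

theorem k9g_cen_eval (p q : K9Eq) (u : Fin 3 → ℝ) (hC : p.C ≠ 0) :
    MvPolynomial.eval u (k9gCen p q) = q.ev u (-(MvPolynomial.eval u p.B) / p.C) := by
  simp only [k9gCen, K9Eq.ev, map_sub, map_add, map_mul, map_pow, MvPolynomial.eval_C]
  field_simp
  ring

/-- `(σ √Δ - B)² = Δ - 2 σ B √Δ + B²` (`Real.sq_sqrt`) -/
theorem k9g_G_eval_root (p q : K9Eq) (σ : ℝ) (u : Fin 3 → ℝ) (hC : p.C ≠ 0) (hσ : σ ^ 2 = 1) (hΔ : 0 ≤ MvPolynomial.eval u p.disc) :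
    k9gG p q σ u = q.ev u ((σ * Real.sqrt (MvPolynomial.eval u p.disc) - MvPolynomial.eval u p.B) / p.C) := by
  have hs : Real.sqrt (MvPolynomial.eval u p.disc) ^ 2 = MvPolynomial.eval u p.disc := Real.sq_sqrt hΔ
  obtain ⟨s, hs'⟩ : ∃ s, s = Real.sqrt (MvPolynomial.eval u p.disc) := ⟨_, rfl⟩
  rw [← hs'] at hs ⊢
  unfold k9gG
  rw [if_neg hC]
  simp only [sh2_val, k9gRtA, k9gRtB, K9Eq.ev, map_sub, map_add, map_mul, map_pow, MvPolynomial.eval_C, pow_zero, div_one]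
  rw [← hs', ← hs]
  have e : (σ * s - MvPolynomial.eval u p.B) ^ 2 = s ^ 2 - 2 * σ * s * MvPolynomial.eval u p.B + MvPolynomial.eval u p.B ^ 2 := by
    have : (σ * s - MvPolynomial.eval u p.B) ^ 2
        = σ ^ 2 * s ^ 2 - 2 * σ * s * MvPolynomial.eval u p.B + MvPolynomial.eval u p.B ^ 2 := by ring
    rw [this, hσ, one_mul]
  rw [div_pow, e]
  field_simp
  ring

/-- `√(B⁴) = B²` (`Real.sqrt_sq`, `B⁴ = (B²)²`) -/
theorem k9g_G_eval_lin (p q : K9Eq) (σ : ℝ) (u : Fin 3 → ℝ) (hC : p.C = 0) (hB : MvPolynomial.eval u p.B ≠ 0) :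
    k9gG p q σ u = q.ev u (-(MvPolynomial.eval u p.A) / MvPolynomial.eval u p.B) := by
  unfold k9gG
  rw [if_pos hC]
  have hs : Real.sqrt (MvPolynomial.eval u p.B ^ 4) = MvPolynomial.eval u p.B ^ 2 := by
    rw [show MvPolynomial.eval u p.B ^ 4 = (MvPolynomial.eval u p.B ^ 2) ^ 2 by ring]
    exact Real.sqrt_sq (sq_nonneg _)
  simp only [sh2_val, k9gLin, K9Eq.ev, map_sub, map_add, map_mul, map_pow, MvPolynomial.eval_C, map_zero, zero_add, pow_one, hs]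
  field_simp
  ring

/-! ## G2 the sheet class   (LEAF L-252-S9-G2, ~150 l.) -/

/-- `m = 0`, `α = P`, `β = 0`, `D = 1`, `D0 = 1` -/
theorem k9g_sheet_poly (P : MvPolynomial (Fin 3) ℝ) (hP : P.totalDegree ≤ 4) (a b : Fin 3 → ℝ) :
    K9gSheet a b fun u => MvPolynomial.eval u P := by
  refine ⟨0, P, 0, 1, by norm_num, hP, by simp, by simp, ⟨1, one_pos, fun u _ => ?_⟩, ?_⟩
  · simp only [map_one]
    constructor <;> norm_num
  · funext u
    simp [sh2_val]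

theorem k9g_deg_mul_le {P Q : MvPolynomial (Fin 3) ℝ} {a b c : ℕ} (hP : P.totalDegree ≤ a) (hQ : Q.totalDegree ≤ b) (h : a + b ≤ c) :
    (P * Q).totalDegree ≤ c :=
  (MvPolynomial.totalDegree_mul _ _).trans ((add_le_add hP hQ).trans h)

theorem k9g_deg_C_mul_le {Q : MvPolynomial (Fin 3) ℝ} (x : ℝ) {b : ℕ} (hQ : Q.totalDegree ≤ b) :
    (MvPolynomial.C x * Q).totalDegree ≤ b :=
  k9g_deg_mul_le (a := 0) (by simp) hQ (by omega)

theorem k9g_deg_pow_le {P : MvPolynomial (Fin 3) ℝ} {a c : ℕ} (n : ℕ) (hP : P.totalDegree ≤ a) (h : n * a ≤ c) :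
    (P ^ n).totalDegree ≤ c :=
  (MvPolynomial.totalDegree_pow _ _).trans ((Nat.mul_le_mul_left n hP).trans h)

theorem k9g_deg_add_le {P Q : MvPolynomial (Fin 3) ℝ} {c : ℕ} (hP : P.totalDegree ≤ c) (hQ : Q.totalDegree ≤ c) :
    (P + Q).totalDegree ≤ c :=
  (MvPolynomial.totalDegree_add _ _).trans (max_le hP hQ)

theorem k9g_deg_sub_le {P Q : MvPolynomial (Fin 3) ℝ} {c : ℕ} (hP : P.totalDegree ≤ c) (hQ : Q.totalDegree ≤ c) :
    (P - Q).totalDegree ≤ c :=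
  (MvPolynomial.totalDegree_sub _ _).trans (max_le hP hQ)

/-- `C ≠ 0` : `m = 0`, `D = Δ` (`2`-stable, hence `4`-stable);   `C = 0` : `m = 1`, `α = 0`, `D = B⁴`, and `Δ = B²`, so `D0/2 ≤ B² ≤ 2 D0` gives `D0²/4 ≤ B⁴ ≤ 4 D0²`.   Degrees: `k9g_disc_deg` and the `totalDegree` lemmas. -/
theorem k9g_sheet_G (p q : K9Eq) (hp : p.Deg) (hq : q.Deg) (σ : ℝ) (a b : Fin 3 → ℝ) (hst : sh2Stable 2 p.disc a b) :
    K9gSheet a b (k9gG p q σ) := by
  obtain ⟨hpA, hpB⟩ := hp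
  obtain ⟨hqA, hqB⟩ := hq
  have hdisc : p.disc.totalDegree ≤ 2 := k9g_disc_deg p ⟨hpA, hpB⟩
  obtain ⟨D0, hD0, hD⟩ := hst
  by_cases hC : p.C = 0
  · refine ⟨1, 0, k9gLin p q, p.B ^ 4, le_rfl, by simp, ?_, k9g_deg_pow_le 4 hpB (by norm_num), ⟨D0 ^ 2, by positivity, fun u hu => ?_⟩, ?_⟩
    · unfold k9gLin
      refine k9g_deg_add_le (k9g_deg_sub_le ?_ ?_) ?_
      · exact k9g_deg_mul_le hqA (k9g_deg_pow_le 2 hpB (le_refl _)) (by norm_num)
      · exact k9g_deg_mul_le (k9g_deg_mul_le hqB hpA (le_refl _)) hpB (by norm_num)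
      · exact k9g_deg_C_mul_le _ (k9g_deg_pow_le 2 hpA (by norm_num))
    · have h1 := hD u hu
      have e : MvPolynomial.eval u p.disc = MvPolynomial.eval u p.B ^ 2 := by
        simp [K9Eq.disc, hC]
      rw [e] at h1
      obtain ⟨x, hx⟩ : ∃ x, x = MvPolynomial.eval u p.B ^ 2 := ⟨_, rfl⟩
      have e2 : MvPolynomial.eval u (p.B ^ 4) = x ^ 2 := by
        rw [hx, map_pow]
        ring
      rw [e2]
      rw [← hx] at h1
      constructor
      · nlinarith [h1.1, h1.2]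
      · nlinarith [h1.1, h1.2]
    · unfold k9gG
      rw [if_pos hC]
  · refine ⟨0, k9gRtA p q, k9gRtB p q σ, p.disc, by norm_num, ?_, ?_, hdisc.trans (by norm_num), ⟨D0, hD0, fun u hu => ?_⟩, ?_⟩
    · unfold k9gRtA
      refine k9g_deg_add_le (k9g_deg_sub_le (hqA.trans (by norm_num)) ?_) ?_
      · exact k9g_deg_C_mul_le _ (k9g_deg_mul_le hqB hpB (by norm_num))
      · exact k9g_deg_C_mul_le _ (k9g_deg_add_le (hdisc.trans (by norm_num)) (k9g_deg_pow_le 2 hpB (by norm_num)))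
    · unfold k9gRtB
      refine k9g_deg_C_mul_le _ (k9g_deg_sub_le ?_ ?_)
      · exact k9g_deg_C_mul_le _ (hqB.trans (by norm_num))
      · exact k9g_deg_C_mul_le _ (hpB.trans (by norm_num))
    · have h1 := hD u hu
      constructor
      · linarith [h1.1]
      · linarith [h1.2]
    · unfold k9gG
      rw [if_neg hC]

/-! ## G3 Remez and Lipschitz bound for the sheet class   (LEAF L-252-S9-G3, ~250 l.) -/

/-- PLAN.  Constants: `sh2_remez 3 4 1 0` and `sh2_remez 3 4 1 1` give `(p₀, C₀)`, `(p₁, C₁)`; take `p = max p₀ p₁`, `C = max C₀ C₁ * 4 ^ p` (`(4/θ)^{p_i} ≤ 4^p (1/θ)^p` as `4/θ ≥ 1`).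
`θ ≤ 1` : otherwise `volume E ≤ volume (Icc a b) < ofReal θ * volume (Icc a b)` (`Real.volume_Icc_pi`, finite and positive).   `E ≠ ∅`, so `0 ≤ M`.
First clause of `sh2Bd` = bound on the box.   Lipschitz: `lam < 0` impossible, `lam = 0` gives `u = u'`; for `lam > 0` put `v = u' - u`, `h s = F (u + s • v)`; the half box is convex, so `u + s • v` is in it for `s ∈ [0,1]`;
`h` is differentiable there (`sh2_val_contDiffOn`, `sh2_stable_pos`, `sh2_pos_isOpen`, `sh2_line_contDiffAt`), `deriv h s = iteratedDeriv 1 (fun t => F ((u + s • v) + t • v)) 0` (translation of the parameter), bounded by `B * lam` (third clause of `sh2Bd`, `j = 1`);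
mean value inequality `Convex.norm_image_sub_le_of_norm_deriv_le` on `Icc 0 1`. -/
theorem k9g_sheet_lip : ∃ (p : ℕ) (C : ℝ), 1 ≤ C ∧
    ∀ (a b : Fin 3 → ℝ) (F : (Fin 3 → ℝ) → ℝ) (θ M : ℝ) (E : Set (Fin 3 → ℝ)), (∀ i, a i < b i) → K9gSheet a b F → 0 < θ → E ⊆ Set.Icc a b →
      ENNReal.ofReal θ * volume (Set.Icc a b) ≤ volume E → (∀ x ∈ E, |F x| ≤ M) →
      (∀ u ∈ Set.Icc a b, |F u| ≤ C * (1 / θ) ^ p * M) ∧
      ∀ u ∈ sh2Box a b (1 / 2), ∀ u' ∈ sh2Box a b (1 / 2), ∀ lam : ℝ, (∀ i, |u i - u' i| ≤ lam * ((b i - a i) / 2)) →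
        |F u - F u'| ≤ C * (1 / θ) ^ p * M * lam := by
  obtain ⟨p0, C0, hC0, H0⟩ := sh2_remez 3 4 1 0
  obtain ⟨p1, C1, hC1, H1⟩ := sh2_remez 3 4 1 1
  refine ⟨max p0 p1, max C0 C1 * 4 ^ (max p0 p1), ?_, ?_⟩
  · have h1 : (1 : ℝ) ≤ max C0 C1 := hC0.trans (le_max_left _ _)
    have h2 : (1 : ℝ) ≤ 4 ^ (max p0 p1) := one_le_pow₀ (by norm_num)
    nlinarith
  intro a b F θ M E hab hsheet hθ hE hvol hM
  obtain ⟨m, α, β, D, hm, hα, hβ, hD, hst, rfl⟩ := hsheet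
  obtain ⟨p, hp⟩ : ∃ p, p = max p0 p1 := ⟨_, rfl⟩
  obtain ⟨Cm, hCm⟩ : ∃ Cm, Cm = max C0 C1 := ⟨_, rfl⟩
  rw [← hp, ← hCm]
  have hCm0 : 0 ≤ Cm := by rw [hCm]; exact (zero_le_one.trans hC0).trans (le_max_left _ _)
  -- the volume of the box
  have hvpos : 0 < volume (Set.Icc a b) := by
    rw [Real.volume_Icc_pi, pos_iff_ne_zero, Finset.prod_ne_zero_iff]
    intro i _
    rw [Ne, ENNReal.ofReal_eq_zero, not_le]
    linarith [hab i]
  have hvfin : volume (Set.Icc a b) ≠ ⊤ := by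
    rw [Real.volume_Icc_pi]
    exact ENNReal.prod_ne_top fun i _ => ENNReal.ofReal_ne_top
  have hθ1 : θ ≤ 1 := by
    by_contra hcon
    have h1 : 1 < θ := not_le.1 hcon
    have h2 : volume E ≤ volume (Set.Icc a b) := measure_mono hE
    have h3 : 1 * volume (Set.Icc a b) < ENNReal.ofReal θ * volume (Set.Icc a b) :=
      (ENNReal.mul_lt_mul_iff_left hvpos.ne' hvfin).2 (by rw [← ENNReal.ofReal_one]; exact (ENNReal.ofReal_lt_ofReal_iff hθ).2 h1)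
    rw [one_mul] at h3
    exact absurd (hvol.trans h2) (not_le.2 h3)
  have hM0 : 0 ≤ M := by
    have h1 : 0 < volume E := lt_of_lt_of_le (ENNReal.mul_pos (by simpa using hθ) hvpos.ne') hvol
    have h2 : E.Nonempty := by
      rw [Set.nonempty_iff_ne_empty]
      rintro rfl
      simp at h1
    obtain ⟨x, hx⟩ := h2
    exact (abs_nonneg _).trans (hM x hx)
  have h4θ : 1 ≤ 4 / θ := by
    rw [le_div_iff₀ hθ]
    linarith
  have hpw : ∀ (p' : ℕ) (C' : ℝ), p' ≤ p → 0 ≤ C' → C' ≤ Cm → C' * (4 / θ) ^ p' * M ≤ Cm * 4 ^ p * (1 / θ) ^ p * M := by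
    intro p' C' hp' hC'0 hC'
    have e : Cm * 4 ^ p * (1 / θ) ^ p = Cm * (4 / θ) ^ p := by
      rw [mul_assoc, ← mul_pow]
      congr 2
      ring
    rw [e]
    refine mul_le_mul_of_nonneg_right ?_ hM0
    exact mul_le_mul hC' (pow_le_pow_right₀ h4θ hp') (by positivity) hCm0
  have hbd : sh2Bd 1 a b (sh2_val m α β D) (Cm * 4 ^ p * (1 / θ) ^ p * M) := by
    have hm' : m = 0 ∨ m = 1 := by omega
    rcases hm' with rfl | rfl
    · exact sh2_Bd_mono le_rfl (hpw p0 C0 (by rw [hp]; exact le_max_left _ _) (by linarith) (by rw [hCm]; exact le_max_left _ _))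
        (H0 4 α β D a b θ M E (by norm_num) hα hβ hD hab hst hθ hθ1 hE hvol hM)
    · exact sh2_Bd_mono le_rfl (hpw p1 C1 (by rw [hp]; exact le_max_right _ _) (by linarith) (by rw [hCm]; exact le_max_right _ _))
        (H1 4 α β D a b θ M E (by norm_num) hα hβ hD hab hst hθ hθ1 hE hvol hM)
  obtain ⟨B, hB⟩ : ∃ B, B = Cm * 4 ^ p * (1 / θ) ^ p * M := ⟨_, rfl⟩
  rw [← hB] at hbd ⊢
  refine ⟨hbd.1, ?_⟩
  intro u hu u' hu' lam hlam
  have hhalf : sh2Box a b (1 / 2) ⊆ Set.Icc a b := by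
    intro x hx
    constructor
    · intro i
      have h1 := abs_le.1 (hx i)
      have h2 := hab i
      linarith [h1.1]
    · intro i
      have h1 := abs_le.1 (hx i)
      have h2 := hab i
      linarith [h1.2]
  have hlam0 : 0 ≤ lam := by
    by_contra hcon
    have h1 : lam < 0 := not_le.1 hcon
    have h2 := (abs_nonneg _).trans (hlam 0)
    have h3 : 0 < (b 0 - a 0) / 2 := by linarith [hab 0]
    nlinarith
  rcases hlam0.eq_or_lt with h0 | hpos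
  · have e : u = u' := by
      funext i
      have h1 := hlam i
      rw [← h0, zero_mul] at h1
      have h2 := abs_eq_zero.1 (le_antisymm h1 (abs_nonneg _))
      linarith
    rw [e, sub_self, abs_zero, ← h0, mul_zero]
  obtain ⟨v, hv⟩ : ∃ v, v = u' - u := ⟨_, rfl⟩
  have hvb : ∀ i, |v i| ≤ lam * ((b i - a i) / 2) := by
    intro i
    rw [hv, Pi.sub_apply, abs_sub_comm]
    exact hlam i
  have hseg : ∀ s ∈ Set.Icc (0 : ℝ) 1, u + s • v ∈ sh2Box a b (1 / 2) := by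
    intro s hs i
    have h1 := abs_le.1 (hu i)
    have h2 := abs_le.1 (hu' i)
    have e : (u + s • v) i - (a i + b i) / 2 = (1 - s) * (u i - (a i + b i) / 2) + s * (u' i - (a i + b i) / 2) := by
      rw [hv]
      simp only [Pi.add_apply, Pi.smul_apply, Pi.sub_apply, smul_eq_mul]
      ring
    rw [e, abs_le]
    have hs1 : 0 ≤ 1 - s := by linarith [hs.2]
    constructor
    · nlinarith [mul_le_mul_of_nonneg_left h1.1 hs1, mul_le_mul_of_nonneg_left h2.1 hs.1]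
    · nlinarith [mul_le_mul_of_nonneg_left h1.2 hs1, mul_le_mul_of_nonneg_left h2.2 hs.1]
  have hdiff : ∀ s ∈ Set.Icc (0 : ℝ) 1, DifferentiableAt ℝ (fun s : ℝ => sh2_val m α β D (u + s • v)) s := by
    intro s hs
    have hm1 : 0 < MvPolynomial.eval (u + s • v) D := sh2_stable_pos (by norm_num) hst (hhalf (hseg s hs))
    have h1 : ContDiffAt ℝ 1 (sh2_val m α β D) (u + s • v) :=
      (sh2_val_contDiffOn m α β D 1).contDiffAt ((sh2_pos_isOpen D).mem_nhds hm1)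
    exact (h1.comp s (sh2_line_contDiffAt u v _ s)).differentiableAt one_ne_zero
  have hder : ∀ s ∈ Set.Icc (0 : ℝ) 1, ‖deriv (fun s : ℝ => sh2_val m α β D (u + s • v)) s‖ ≤ B * lam := by
    intro s hs
    have h3 := hbd.2.2 (u + s • v) (hseg s hs) v lam hpos hvb 1 le_rfl
    rw [iteratedDeriv_one, pow_one] at h3
    have e : (fun t : ℝ => sh2_val m α β D (u + s • v + t • v)) = fun t : ℝ => (fun r : ℝ => sh2_val m α β D (u + r • v)) (s + t) := by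
      funext t
      show sh2_val m α β D (u + s • v + t • v) = sh2_val m α β D (u + (s + t) • v)
      rw [add_smul, add_assoc]
    rw [e, deriv_comp_const_add (fun r : ℝ => sh2_val m α β D (u + r • v)) s 0, add_zero] at h3
    rw [Real.norm_eq_abs]
    exact h3
  have key := (convex_Icc (0 : ℝ) 1).norm_image_sub_le_of_norm_deriv_le hdiff hder
    (⟨le_rfl, zero_le_one⟩ : (0 : ℝ) ∈ Set.Icc (0 : ℝ) 1) (⟨zero_le_one, le_rfl⟩ : (1 : ℝ) ∈ Set.Icc (0 : ℝ) 1)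
  have e1 : u + (1 : ℝ) • v = u' := by rw [one_smul, hv]; abel
  have e0 : u + (0 : ℝ) • v = u := by rw [zero_smul, add_zero]
  simp only [e1, e0, sub_zero, norm_one, mul_one, Real.norm_eq_abs] at key
  rw [abs_sub_comm]
  exact key

/-! ## G4 pointwise fits at the incidences   (LEAF L-252-S9-G4, ~250 l.; black boxes `k9_center_approx`, `k9_root_approx`, G1) -/

/-- `q(û,z_*) = q(û,z) + q_z(û,z) (z_* - z) + C' (z_* - z)²/2` -/
theorem k9g_quad_err (q : K9Eq) (u : Fin 3 → ℝ) (z zs : ℝ) :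
    |q.ev u z - q.ev u zs| ≤ |q.dz u z| * |z - zs| + |q.C| * |z - zs| ^ 2 / 2 := by
  have e : q.ev u z - q.ev u zs = q.dz u z * (z - zs) - q.C * (z - zs) ^ 2 / 2 := by
    simp only [K9Eq.ev, K9Eq.dz]
    ring
  rw [e]
  refine (abs_sub _ _).trans ?_
  rw [abs_mul, abs_div, abs_mul, abs_pow, abs_two]

/-- `Δ = p_z² - 2 C p`, `|p_z| ≤ K`, `|C| |p| ≤ |C| K e ≤ K²` -/
theorem k9g_disc_le (p q : K9Eq) (K e : ℝ) (hK : 1 ≤ K) (he : 0 < e) (hpC : |p.C| * e ≤ K) (x : (Fin 3 → ℝ) × ℝ) (hx : K9Inc p q K e x) :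
    |MvPolynomial.eval x.1 p.disc| ≤ 3 * K ^ 2 := by
  have hK0 : 0 < K := by linarith
  rw [k9g_disc_eval p x.1 x.2]
  refine (abs_sub _ _).trans ?_
  rw [abs_pow, abs_mul, abs_mul, abs_two]
  have h1 : |p.dz x.1 x.2| ^ 2 ≤ K ^ 2 := pow_le_pow_left₀ (abs_nonneg _) hx.dz_le 2
  have h2 : |p.C| * |p.ev x.1 x.2| ≤ K ^ 2 := by
    calc |p.C| * |p.ev x.1 x.2| ≤ |p.C| * (K * e) := mul_le_mul_of_nonneg_left hx.val (abs_nonneg _)
      _ = (|p.C| * e) * K := by ring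
      _ ≤ K * K := mul_le_mul_of_nonneg_right hpC hK0.le
      _ = K ^ 2 := by ring
  nlinarith

/-- `k9_root_approx (A := A(û)) (B := B(û)) (C := p.C) (κ := K) (e := K e)` : `Δ ≥ p_z²/2 ≥ 1/(2K²)`, `|z - z_*| ≤ 2K² e`, `z_*` = the branch of `k9g_G_eval_root` / `k9g_G_eval_lin` (`C = 0` : `B(û) = p_z ≠ 0`);
`k9g_quad_err` : error `≤ K · 2K² e + K (2K² e)²/2 ≤ 4 K⁵ e`. -/
theorem k9g_fit_small (p q : K9Eq) (K e : ℝ) (hK : 1 ≤ K) (he : 0 < e) (he1 : e ≤ 1) (hqC : |q.C| ≤ K) (hsm : 4 * K ^ 3 * |p.C| * e ≤ 1)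
    (x : (Fin 3 → ℝ) × ℝ) (hx : K9Inc p q K e x) :
    1 / (2 * K ^ 2) ≤ MvPolynomial.eval x.1 p.disc ∧
      |q.ev x.1 x.2 - k9gG p q (k9gSg (decide (0 < p.dz x.1 x.2))) x.1| ≤ 4 * K ^ 5 * e := by
  have hK0 : 0 < K := by linarith
  obtain ⟨A, hA⟩ : ∃ A, A = MvPolynomial.eval x.1 p.A := ⟨_, rfl⟩
  obtain ⟨B, hB⟩ : ∃ B, B = MvPolynomial.eval x.1 p.B := ⟨_, rfl⟩
  have hdz : p.dz x.1 x.2 = B + p.C * x.2 := by rw [K9Eq.dz, hB]
  have hev : p.ev x.1 x.2 = A + B * x.2 + p.C * x.2 ^ 2 / 2 := by rw [K9Eq.ev, hA, hB]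
  have hdisc : MvPolynomial.eval x.1 p.disc = B ^ 2 - 2 * A * p.C := by
    simp only [K9Eq.disc, map_sub, map_mul, map_pow, MvPolynomial.eval_C, ← hA, ← hB]
    ring
  have hlow : 1 / K ≤ |B + p.C * x.2| := by
    rw [← hdz, div_le_iff₀ hK0, mul_comm]
    exact hx.dz_ge
  obtain ⟨r1, zs, -, r3, r4, r5⟩ := k9_root_approx A B p.C x.2 K (K * e) (by positivity) hK0 (hev ▸ hx.val) hlow
    (by
      calc 4 * K ^ 2 * |p.C| * (K * e) = 4 * K ^ 3 * |p.C| * e := by ring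
        _ ≤ 1 := hsm)
  rw [← hdisc, ← hdz] at r1
  have hQ2 : 1 / K ^ 2 ≤ p.dz x.1 x.2 ^ 2 := by
    rw [← hdz] at hlow
    calc 1 / K ^ 2 = (1 / K) ^ 2 := by rw [div_pow, one_pow]
      _ ≤ |p.dz x.1 x.2| ^ 2 := pow_le_pow_left₀ (by positivity) hlow 2
      _ = p.dz x.1 x.2 ^ 2 := sq_abs _
  have hΔlow : 1 / (2 * K ^ 2) ≤ MvPolynomial.eval x.1 p.disc := by
    refine le_trans ?_ r1
    calc 1 / (2 * K ^ 2) = 1 / K ^ 2 / 2 := by field_simp
      _ ≤ p.dz x.1 x.2 ^ 2 / 2 := by linarith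
  refine ⟨hΔlow, ?_⟩
  have hΔ0 : 0 ≤ MvPolynomial.eval x.1 p.disc := le_trans (by positivity) hΔlow
  have hQne : p.dz x.1 x.2 ≠ 0 := by
    intro h0
    rw [h0] at hQ2
    have : 0 < 1 / K ^ 2 := by positivity
    nlinarith
  -- the sign
  have hsg : k9gSg (decide (0 < p.dz x.1 x.2)) = (SignType.sign (p.dz x.1 x.2) : ℝ) := by
    unfold k9gSg
    rcases lt_or_gt_of_ne hQne with h | h
    · rw [sign_neg h, decide_eq_false (not_lt.2 h.le)]
      simp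
    · rw [sign_pos h, decide_eq_true h]
      simp
  have hsg2 : k9gSg (decide (0 < p.dz x.1 x.2)) ^ 2 = 1 := by
    unfold k9gSg
    split_ifs <;> norm_num
  have hG : k9gG p q (k9gSg (decide (0 < p.dz x.1 x.2))) x.1 = q.ev x.1 zs := by
    by_cases hC : p.C = 0
    · have hBne : MvPolynomial.eval x.1 p.B ≠ 0 := by
        rw [← hB]
        intro h0
        apply hQne
        rw [hdz, h0, hC]
        ring
      rw [k9g_G_eval_lin p q _ x.1 hC hBne, r5 hC, hA, hB]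
    · rw [k9g_G_eval_root p q _ x.1 hC hsg2 hΔ0, r4 hC, hsg, hdisc, hdz, hB]
  rw [hG]
  have hd : |x.2 - zs| ≤ 2 * K ^ 2 * e := by
    calc |x.2 - zs| ≤ 2 * K * (K * e) := r3
      _ = 2 * K ^ 2 * e := by ring
  have hd0 : 0 ≤ |x.2 - zs| := abs_nonneg _
  have t1 : |q.dz x.1 x.2| * |x.2 - zs| ≤ K * (2 * K ^ 2 * e) := mul_le_mul hx.ndz hd hd0 hK0.le
  have t2 : |q.C| * |x.2 - zs| ^ 2 ≤ K * (2 * K ^ 2 * e) ^ 2 :=
    mul_le_mul hqC (pow_le_pow_left₀ hd0 hd 2) (by positivity) hK0.le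
  have hK35 : K ^ 3 ≤ K ^ 5 := pow_le_pow_right₀ hK (by norm_num)
  have he2 : e ^ 2 ≤ e := by nlinarith
  have hK5 : 0 < K ^ 5 := by positivity
  calc |q.ev x.1 x.2 - q.ev x.1 zs| ≤ |q.dz x.1 x.2| * |x.2 - zs| + |q.C| * |x.2 - zs| ^ 2 / 2 := k9g_quad_err q x.1 x.2 zs
    _ ≤ K * (2 * K ^ 2 * e) + K * (2 * K ^ 2 * e) ^ 2 / 2 := by linarith
    _ = 2 * K ^ 3 * e + 2 * K ^ 5 * e ^ 2 := by ring
    _ ≤ 2 * K ^ 5 * e + 2 * K ^ 5 * e := by
        have a1 : K ^ 3 * e ≤ K ^ 5 * e := mul_le_mul_of_nonneg_right hK35 he.le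
        have a2 : K ^ 5 * e ^ 2 ≤ K ^ 5 * e := mul_le_mul_of_nonneg_left he2 hK5.le
        linarith
    _ = 4 * K ^ 5 * e := by ring

/-- `k9_center_approx (κ := K) (K' := 4K³)` : `|z - z_c| ≤ 4K⁴ e`; `k9g_cen_eval`, `k9g_quad_err` : error `≤ K · 4K⁴ e + K (4K⁴ e)²/2 ≤ 12 K⁹ e`. -/
theorem k9g_fit_large (p q : K9Eq) (K e : ℝ) (hK : 1 ≤ K) (he : 0 < e) (he1 : e ≤ 1) (hqC : |q.C| ≤ K) (hlg : 1 < 4 * K ^ 3 * |p.C| * e)
    (x : (Fin 3 → ℝ) × ℝ) (hx : K9Inc p q K e x) :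
    |q.ev x.1 x.2 - MvPolynomial.eval x.1 (k9gCen p q)| ≤ 12 * K ^ 9 * e := by
  have hK0 : 0 < K := by linarith
  have hC : p.C ≠ 0 := by
    intro h0
    rw [h0, abs_zero] at hlg
    linarith
  have hK' : 0 < 4 * K ^ 3 := by positivity
  have h1 := k9_center_approx (MvPolynomial.eval x.1 p.B) p.C x.2 K e (4 * K ^ 3) he hK'
    (by
      rw [div_le_iff₀ (mul_pos he hK')]
      calc (1 : ℝ) ≤ 4 * K ^ 3 * |p.C| * e := hlg.le
        _ = |p.C| * (e * (4 * K ^ 3)) := by ring)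
    hx.dz_le
  rw [k9g_cen_eval p q x.1 hC]
  obtain ⟨zs, hzs⟩ : ∃ zs, zs = -(MvPolynomial.eval x.1 p.B) / p.C := ⟨_, rfl⟩
  rw [← hzs] at h1 ⊢
  have hd : |x.2 - zs| ≤ 4 * K ^ 4 * e := by
    calc |x.2 - zs| ≤ K * (4 * K ^ 3) * e := h1
      _ = 4 * K ^ 4 * e := by ring
  have hd0 : 0 ≤ |x.2 - zs| := abs_nonneg _
  have t1 : |q.dz x.1 x.2| * |x.2 - zs| ≤ K * (4 * K ^ 4 * e) := mul_le_mul hx.ndz hd hd0 hK0.le
  have t2 : |q.C| * |x.2 - zs| ^ 2 ≤ K * (4 * K ^ 4 * e) ^ 2 :=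
    mul_le_mul hqC (pow_le_pow_left₀ hd0 hd 2) (by positivity) hK0.le
  have hK59 : K ^ 5 ≤ K ^ 9 := pow_le_pow_right₀ hK (by norm_num)
  have he2 : e ^ 2 ≤ e := by nlinarith
  have hK9 : 0 < K ^ 9 := by positivity
  calc |q.ev x.1 x.2 - q.ev x.1 zs| ≤ |q.dz x.1 x.2| * |x.2 - zs| + |q.C| * |x.2 - zs| ^ 2 / 2 := k9g_quad_err q x.1 x.2 zs
    _ ≤ K * (4 * K ^ 4 * e) + K * (4 * K ^ 4 * e) ^ 2 / 2 := by linarith
    _ = 4 * K ^ 5 * e + 8 * K ^ 9 * e ^ 2 := by ring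
    _ ≤ 4 * K ^ 9 * e + 8 * K ^ 9 * e := by
        have a1 : K ^ 5 * e ≤ K ^ 9 * e := mul_le_mul_of_nonneg_right hK59 he.le
        have a2 : K ^ 9 * e ^ 2 ≤ K ^ 9 * e := mul_le_mul_of_nonneg_left he2 hK9.le
        linarith
    _ = 12 * K ^ 9 * e := by ring

/-! ## G5 pruning of light entries   (LEAF L-252-S9-G5, ~150 l., Mathlib only) -/

/-- PLAN.  `J' = {j | ofReal (η / card J) * m Inc ≤ m (Inc ∩ ent ⁻¹' {j})}` (a `Finset J`), `n = J'.card`, `idx = Subtype.val ∘ J'.equivFin.symm`, `asg x = if h : ent x ∈ J' then some (J'.equivFin ⟨ent x, h⟩) else none`.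
`asg ⁻¹' {some k} = ent ⁻¹' {idx k}`.   `Inc ∩ asg ⁻¹' {none} = ⋃ j ∉ J', Inc ∩ ent ⁻¹' {j}` : `measure_biUnion_finset_le`, each term `≤ ofReal (η / card J) * m Inc`, at most `card J` terms, `card J * ofReal (η / card J) = ofReal η`
(`J` is nonempty if some `x` exists; if `X` is empty everything is `0`). -/
theorem k9g_prune {X : Type} [MeasurableSpace X] (m : Measure X) (Inc : Set X) (J : Type) [Fintype J] (ent : X → J)
    (hent : ∀ j, MeasurableSet (ent ⁻¹' {j})) (η : ℝ) (hη : 0 < η) :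
    ∃ (n : ℕ) (idx : Fin n → J) (asg : X → Option (Fin n)), n ≤ Fintype.card J ∧ (∀ k, MeasurableSet (asg ⁻¹' {some k})) ∧
      (∀ x k, asg x = some k → ent x = idx k) ∧
      (∀ k, ENNReal.ofReal (η / Fintype.card J) * m Inc ≤ m (Inc ∩ ent ⁻¹' {idx k})) ∧
      m (Inc ∩ asg ⁻¹' {none}) ≤ ENNReal.ofReal η * m Inc := by
  obtain ⟨c, hc⟩ : ∃ c : ℝ≥0∞, c = ENNReal.ofReal (η / Fintype.card J) * m Inc := ⟨_, rfl⟩
  rw [← hc]
  obtain ⟨J', hJ'⟩ : ∃ J' : Finset J, J' = Finset.univ.filter (fun j => c ≤ m (Inc ∩ ent ⁻¹' {j})) := ⟨_, rfl⟩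
  have hmem : ∀ j, j ∈ J' ↔ c ≤ m (Inc ∩ ent ⁻¹' {j}) := by
    intro j
    rw [hJ', Finset.mem_filter]
    exact ⟨fun h => h.2, fun h => ⟨Finset.mem_univ _, h⟩⟩
  have hasg : ∀ x k, (if h : ent x ∈ J' then some (J'.equivFin ⟨ent x, h⟩) else none) = some k
      ↔ ent x = (J'.equivFin.symm k).1 := by
    intro x k
    constructor
    · intro h
      by_cases hx : ent x ∈ J'
      · rw [dif_pos hx, Option.some.injEq] at h
        rw [← h, Equiv.symm_apply_apply]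
      · rw [dif_neg hx] at h
        exact absurd h (by simp)
    · intro h
      have hx : ent x ∈ J' := by rw [h]; exact (J'.equivFin.symm k).2
      rw [dif_pos hx, Option.some.injEq]
      have : (⟨ent x, hx⟩ : J') = J'.equivFin.symm k := Subtype.ext h
      rw [this, Equiv.apply_symm_apply]
  refine ⟨J'.card, fun k => (J'.equivFin.symm k).1,
    fun x => if h : ent x ∈ J' then some (J'.equivFin ⟨ent x, h⟩) else none, Finset.card_le_univ _, ?_, ?_, ?_, ?_⟩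
  · intro k
    have : (fun x => if h : ent x ∈ J' then some (J'.equivFin ⟨ent x, h⟩) else none) ⁻¹' {some k}
        = ent ⁻¹' {(J'.equivFin.symm k).1} := by
      ext x
      exact hasg x k
    rw [this]
    exact hent _
  · intro x k h
    exact (hasg x k).1 h
  · intro k
    exact (hmem _).1 (J'.equivFin.symm k).2
  · have hsub : Inc ∩ (fun x => if h : ent x ∈ J' then some (J'.equivFin ⟨ent x, h⟩) else none) ⁻¹' {none}
        ⊆ ⋃ j ∈ Finset.univ.filter (fun j => j ∉ J'), Inc ∩ ent ⁻¹' {j} := by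
      rintro x ⟨hx, hn⟩
      have hx' : ent x ∉ J' := by
        intro h
        have hn' : (if h : ent x ∈ J' then some (J'.equivFin ⟨ent x, h⟩) else none) = none := hn
        rw [dif_pos h] at hn'
        exact absurd hn' (by simp)
      simp only [Set.mem_iUnion]
      exact ⟨ent x, Finset.mem_filter.2 ⟨Finset.mem_univ _, hx'⟩, hx, rfl⟩
    refine (measure_mono hsub).trans ((measure_biUnion_finset_le _ _).trans ?_)
    have h1 : ∑ j ∈ Finset.univ.filter (fun j => j ∉ J'), m (Inc ∩ ent ⁻¹' {j})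
        ≤ ∑ _j ∈ Finset.univ.filter (fun j => j ∉ J'), c := by
      refine Finset.sum_le_sum fun j hj => ?_
      have := (Finset.mem_filter.1 hj).2
      rw [hmem] at this
      exact (not_le.1 this).le
    refine h1.trans ?_
    rw [Finset.sum_const, nsmul_eq_mul]
    have h2 : (((Finset.univ.filter (fun j => j ∉ J')).card : ℕ) : ℝ≥0∞) ≤ (Fintype.card J : ℝ≥0∞) := by
      exact_mod_cast Finset.card_le_univ _
    refine (mul_le_mul' h2 le_rfl).trans ?_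
    rw [hc, ← mul_assoc]
    refine mul_le_mul' ?_ le_rfl
    by_cases h0 : Fintype.card J = 0
    · rw [h0]
      simp
    · have h3 : (0 : ℝ) < Fintype.card J := by exact_mod_cast Nat.pos_of_ne_zero h0
      rw [← ENNReal.ofReal_natCast, ← ENNReal.ofReal_mul h3.le]
      refine ENNReal.ofReal_le_ofReal (le_of_eq ?_)
      field_simp

/-! ## G6 the grid   (LEAF L-252-S9-G6, ~200 l., Mathlib + `sh2_eval_contDiff`) -/

/-- `{u | k9gIdx K r N u = k} = ⋂ i, {u | min ⌊(u i + K)/(2r)⌋₊ N = k i}`; `Nat.measurable_floor`, `measurable_pi_apply`, `measurableSet_eq_fun` / preimage of a singleton of `ℕ` -/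
theorem k9g_idx_meas (K r : ℝ) (N : ℕ) (k : Fin 3 → Fin (N + 1)) : MeasurableSet {u : Fin 3 → ℝ | k9gIdx K r N u = k} := by
  have h : {u : Fin 3 → ℝ | k9gIdx K r N u = k} = ⋂ i, (fun u : Fin 3 → ℝ => min ⌊(u i + K) / (2 * r)⌋₊ N) ⁻¹' {((k i : Fin (N + 1)) : ℕ)} := by
    refine Set.ext fun u => ⟨fun e => Set.mem_iInter.2 fun i => ?_, fun e => ?_⟩
    · have e' : k9gIdx K r N u = k := e
      show min ⌊(u i + K) / (2 * r)⌋₊ N = ((k i : Fin (N + 1)) : ℕ)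
      rw [← e']
      rfl
    · show k9gIdx K r N u = k
      funext i
      exact Fin.ext (Set.mem_iInter.1 e i)
  rw [h]
  refine MeasurableSet.iInter fun i => ?_
  have h0 : Measurable fun u : Fin 3 → ℝ => u i := measurable_pi_apply i
  have h1 : Measurable fun u : Fin 3 → ℝ => (u i + K) / (2 * r) := (h0.add_const K).div_const (2 * r)
  have h2 : Measurable fun u : Fin 3 → ℝ => ⌊(u i + K) / (2 * r)⌋₊ := Nat.measurable_floor.comp h1
  have hm : Measurable fun u : Fin 3 → ℝ => min ⌊(u i + K) / (2 * r)⌋₊ N := h2.min measurable_const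
  exact hm (measurableSet_singleton _)

/-- (`p.dz` is continuous on the product: `sh2_eval_contDiff p.B 0`) -/
theorem k9g_ent_meas (p : K9Eq) (K r : ℝ) (N : ℕ) (j : (Fin 3 → Fin (N + 1)) × Bool) : MeasurableSet (k9gEnt p K r N ⁻¹' {j}) := by
  obtain ⟨k, b⟩ := j
  have hdz : Measurable fun x : (Fin 3 → ℝ) × ℝ => p.dz x.1 x.2 := by
    unfold K9Eq.dz
    exact ((sh2_eval_contDiff p.B 0).continuous.measurable.comp measurable_fst).add (measurable_snd.const_mul p.C)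
  have hpos : MeasurableSet {x : (Fin 3 → ℝ) × ℝ | 0 < p.dz x.1 x.2} := measurableSet_lt measurable_const hdz
  have h : k9gEnt p K r N ⁻¹' {(k, b)}
      = (Prod.fst ⁻¹' {u : Fin 3 → ℝ | k9gIdx K r N u = k}) ∩ {x : (Fin 3 → ℝ) × ℝ | decide (0 < p.dz x.1 x.2) = b} := by
    refine Set.ext fun x => ⟨fun e => ?_, fun e => ?_⟩
    · have e' : k9gEnt p K r N x = (k, b) := e
      exact ⟨congrArg Prod.fst e', congrArg Prod.snd e'⟩
    · exact Prod.ext e.1 e.2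
  rw [h]
  refine (measurable_fst (k9g_idx_meas K r N k)).inter ?_
  cases b
  · have e : {x : (Fin 3 → ℝ) × ℝ | decide (0 < p.dz x.1 x.2) = false} = {x : (Fin 3 → ℝ) × ℝ | 0 < p.dz x.1 x.2}ᶜ :=
      Set.ext fun x => ⟨fun e => of_decide_eq_false e, fun e => decide_eq_false e⟩
    rw [e]
    exact hpos.compl
  · have e : {x : (Fin 3 → ℝ) × ℝ | decide (0 < p.dz x.1 x.2) = true} = {x : (Fin 3 → ℝ) × ℝ | 0 < p.dz x.1 x.2} :=
      Set.ext fun x => ⟨fun e => of_decide_eq_true e, fun e => decide_eq_true e⟩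
    rw [e]
    exact hpos

/-- `0 ≤ (u i + K)/(2r) ≤ K/r ≤ N`, so the `min` is the floor; `Nat.floor_le`, `Nat.lt_floor_add_one` -/
theorem k9g_idx_mem (K r : ℝ) (N : ℕ) (hr : 0 < r) (hN : K / r ≤ N) (u : Fin 3 → ℝ) (hu : ∀ i, |u i| ≤ K) :
    u ∈ Set.Icc (k9gLo K r (k9gIdx K r N u)) (k9gHi K r (k9gIdx K r N u)) := by
  have h2r : 0 < 2 * r := by positivity
  have key : ∀ i, -K + 2 * r * (((k9gIdx K r N u i : Fin (N + 1)) : ℕ) : ℝ) ≤ u i ∧ u i ≤ -K + 2 * r * ((((k9gIdx K r N u i : Fin (N + 1)) : ℕ) : ℝ) + 1) := by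
    intro i
    obtain ⟨u1, u2⟩ := abs_le.1 (hu i)
    have hx0 : 0 ≤ (u i + K) / (2 * r) := div_nonneg (by linarith) h2r.le
    have hxN : (u i + K) / (2 * r) ≤ N := by
      refine le_trans ?_ hN
      rw [div_le_div_iff₀ h2r hr]
      nlinarith
    have hfl : ⌊(u i + K) / (2 * r)⌋₊ ≤ N := by
      have : ((⌊(u i + K) / (2 * r)⌋₊ : ℕ) : ℝ) ≤ N := (Nat.floor_le hx0).trans hxN
      exact_mod_cast this
    have hk : ((k9gIdx K r N u i : Fin (N + 1)) : ℕ) = ⌊(u i + K) / (2 * r)⌋₊ := min_eq_left hfl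
    rw [hk]
    have f1 := Nat.floor_le hx0
    have f2 := (Nat.lt_floor_add_one ((u i + K) / (2 * r))).le
    rw [le_div_iff₀ h2r] at f1
    rw [div_le_iff₀ h2r] at f2
    constructor <;> linarith
  exact ⟨fun i => (key i).1, fun i => (key i).2⟩

/-- the core is the half box of the comparison cube -/
theorem k9g_core_half (K r : ℝ) {N : ℕ} (k : Fin 3 → Fin (N + 1)) :
    Set.Icc (k9gLo K r k) (k9gHi K r k) ⊆ sh2Box (fun i => k9gLo K r k i - r) (fun i => k9gHi K r k i + r) (1 / 2) := by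
  intro x hx i
  have h1 : k9gLo K r k i ≤ x i := hx.1 i
  have h2 : x i ≤ k9gHi K r k i := hx.2 i
  have e : k9gHi K r k i = k9gLo K r k i + 2 * r := by
    unfold k9gHi k9gLo
    ring
  rw [abs_le]
  constructor <;> linarith

/-- a point of the core and a point of the comparison cube -/
theorem k9g_core_dist (K r : ℝ) {N : ℕ} (k : Fin 3 → Fin (N + 1)) (u0 u : Fin 3 → ℝ) (h0 : u0 ∈ Set.Icc (k9gLo K r k) (k9gHi K r k))
    (hu : u ∈ Set.Icc (fun i => k9gLo K r k i - r) (fun i => k9gHi K r k i + r)) : ∀ i, |u i - u0 i| ≤ 3 * r := by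
  intro i
  have h1 : k9gLo K r k i ≤ u0 i := h0.1 i
  have h2 : u0 i ≤ k9gHi K r k i := h0.2 i
  have h3 : k9gLo K r k i - r ≤ u i := hu.1 i
  have h4 : u i ≤ k9gHi K r k i + r := hu.2 i
  have e : k9gHi K r k i = k9gLo K r k i + 2 * r := by
    unfold k9gHi k9gLo
    ring
  rw [abs_le]
  constructor <;> linarith

/-- volume of a cube (`Real.volume_Icc_pi`, `Fin.prod_univ_three`, `ENNReal.ofReal_mul`) -/
theorem k9g_cube_vol (a b : Fin 3 → ℝ) (s : ℝ) (hs : 0 ≤ s) (h : ∀ i, b i - a i = s) : volume (Set.Icc a b) = ENNReal.ofReal (s ^ 3) := by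
  rw [Real.volume_Icc_pi, Fin.prod_univ_three, h 0, h 1, h 2, ← ENNReal.ofReal_mul hs, ← ENNReal.ofReal_mul (mul_nonneg hs hs)]
  congr 1
  ring

end

end Claimed.Agent.R252

/-!
# ROW 252 (S0492), unit S9, file 3b: **GLUE of L9.4, one-chart core** from the leaves of `S9/GraphCutContract.lean`      (helper285; prefix `k9g`)

`k9g_graphs_chart` = the statement of `k9_graphs_chart` (`S9/GraphContract.lean`).   No `sorry` in this file.
-/

set_option autoImplicit false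

namespace Claimed.Agent.R252

open MeasureTheory
open scoped ENNReal BigOperators
open Classical

noncomputable section

/-- the hypotheses of `k9_graphs_chart` -/
structure K9gHyp (p q : K9Eq) (K e c η : ℝ) (m : Measure ((Fin 3 → ℝ) × ℝ)) (Inc : Set ((Fin 3 → ℝ) × ℝ)) : Prop where
  hp : p.Deg
  hq : q.Deg
  hK : 1 ≤ K
  he : 0 < e
  he1 : e ≤ 1
  hc : 0 < c
  hη : 0 < η
  hη1 : η ≤ 1
  inc : ∀ x ∈ Inc, K9Inc p q K e x
  hpC : |p.C| * e ≤ K
  hqC : |q.C| ≤ K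
  cap : ∀ S : Set (Fin 3 → ℝ), MeasurableSet S → m (Inc ∩ Prod.fst ⁻¹' S) ≤ ENNReal.ofReal c * volume S
  floor : ENNReal.ofReal (c / K) ≤ m Inc

/-- the conclusion of `k9_graphs_chart` with the bound `Bd` -/
def K9gOut (q : K9Eq) (e η Bd : ℝ) (m : Measure ((Fin 3 → ℝ) × ℝ)) (Inc : Set ((Fin 3 → ℝ) × ℝ)) : Prop :=
  ∃ (n : ℕ) (lo hi : Fin n → Fin 3 → ℝ) (G : Fin n → (Fin 3 → ℝ) → ℝ) (asg : (Fin 3 → ℝ) × ℝ → Option (Fin n)),
    (n : ℝ) ≤ Bd ∧
    (∀ j, MeasurableSet (asg ⁻¹' {some j})) ∧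
    (∀ j, ∀ u ∈ Set.Icc (lo j) (hi j), |G j u| ≤ Bd) ∧
    (∀ j, ∀ u ∈ Set.Icc (lo j) (hi j), ∀ u' ∈ Set.Icc (lo j) (hi j), ∀ d : ℝ, (∀ i, |u i - u' i| ≤ d) → |G j u - G j u'| ≤ Bd * d) ∧
    m (Inc ∩ asg ⁻¹' {none}) ≤ ENNReal.ofReal η * m Inc ∧
    ∀ x ∈ Inc, ∀ j, asg x = some j → x.1 ∈ Set.Icc (lo j) (hi j) ∧ |q.ev x.1 x.2 - G j x.1| ≤ Bd * e

theorem K9gOut.mono {q : K9Eq} {e η Bd Bd' : ℝ} {m : Measure ((Fin 3 → ℝ) × ℝ)} {Inc : Set ((Fin 3 → ℝ) × ℝ)} (he : 0 ≤ e) (hB : Bd ≤ Bd')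
    (h : K9gOut q e η Bd m Inc) : K9gOut q e η Bd' m Inc := by
  obtain ⟨n, lo, hi, G, asg, h1, h2, h3, h4, h5, h6⟩ := h
  refine ⟨n, lo, hi, G, asg, h1.trans hB, h2, fun j u hu => (h3 j u hu).trans hB, fun j u hu u' hu' d hd => ?_, h5, fun x hx j hj => ?_⟩
  · have hd0 : 0 ≤ d := (abs_nonneg _).trans (hd 0)
    exact (h4 j u hu u' hu' d hd).trans (mul_le_mul_of_nonneg_right hB hd0)
  · exact ⟨(h6 x hx j hj).1, (h6 x hx j hj).2.trans (mul_le_mul_of_nonneg_right hB he)⟩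

/-- the base projection of a piece of the incidences has large outer volume -/
theorem k9g_proj_vol (m : Measure ((Fin 3 → ℝ) × ℝ)) (Inc T : Set ((Fin 3 → ℝ) × ℝ)) (c μ : ℝ) (hc : 0 < c)
    (hcap : ∀ S : Set (Fin 3 → ℝ), MeasurableSet S → m (Inc ∩ Prod.fst ⁻¹' S) ≤ ENNReal.ofReal c * volume S)
    (hT : T ⊆ Inc) (hμ : ENNReal.ofReal (c * μ) ≤ m T) : ENNReal.ofReal μ ≤ volume (Prod.fst '' T) := by
  have h1 : m T ≤ ENNReal.ofReal c * volume (Prod.fst '' T) := by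
    have h2 := hcap (toMeasurable volume (Prod.fst '' T)) (measurableSet_toMeasurable _ _)
    rw [measure_toMeasurable] at h2
    refine (measure_mono ?_).trans h2
    intro x hx
    exact ⟨hT hx, subset_toMeasurable _ _ ⟨x, hx, rfl⟩⟩
  rw [ENNReal.ofReal_mul hc.le] at hμ
  exact (ENNReal.mul_le_mul_iff_right (ENNReal.ofReal_pos.2 hc).ne' ENNReal.ofReal_ne_top).1 (hμ.trans h1)

theorem k9g_mono_bd {a A y : ℝ} {j k : ℕ} (ha0 : 0 ≤ a) (ha : a ≤ A) (hj : j ≤ k) (hy : 1 ≤ y) : a * y ^ j ≤ A * y ^ k :=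
  mul_le_mul ha (pow_le_pow_right₀ hy hj) (by positivity) (ha0.trans ha)

/-- relative volume in a cube -/
theorem k9g_rel_vol (a b : Fin 3 → ℝ) (s θ μ : ℝ) (hs : 0 ≤ s) (h : ∀ i, b i - a i = s) (hθ : 0 ≤ θ) (hμ : θ * s ^ 3 = μ) (E : Set (Fin 3 → ℝ))
    (hE : ENNReal.ofReal μ ≤ volume E) : ENNReal.ofReal θ * volume (Set.Icc a b) ≤ volume E := by
  rw [k9g_cube_vol a b s hs h, ← ENNReal.ofReal_mul hθ, hμ]
  exact hE

/-! ## large curvature -/

theorem k9g_large : ∃ (A : ℝ) (k : ℕ), 1 ≤ A ∧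
    ∀ (p q : K9Eq) (K e c η : ℝ) (m : Measure ((Fin 3 → ℝ) × ℝ)) (Inc : Set ((Fin 3 → ℝ) × ℝ)), K9gHyp p q K e c η m Inc →
      1 < 4 * K ^ 3 * |p.C| * e → K9gOut q e η (A * (K / η) ^ k) m Inc := by
  obtain ⟨p₁, C₁, hC₁, H⟩ := k9g_sheet_lip
  have h64 : (1 : ℝ) ≤ 64 ^ p₁ := one_le_pow₀ (by norm_num)
  refine ⟨13 * C₁ * 64 ^ p₁, 4 * p₁ + 9, by nlinarith, ?_⟩
  intro p q K e c η m Inc h hlg
  have hK := h.hK
  have hK0 : 0 < K := by linarith
  have hy : K ≤ K / η := by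
    rw [le_div_iff₀ h.hη]
    nlinarith [h.hη1]
  have hy1 : 1 ≤ K / η := hK.trans hy
  obtain ⟨F, hF⟩ : ∃ F : (Fin 3 → ℝ) → ℝ, F = fun u => MvPolynomial.eval u (k9gCen p q) := ⟨_, rfl⟩
  have hsheet : K9gSheet (fun _ => -(2 * K)) (fun _ => 2 * K) F := by
    rw [hF]
    exact k9g_sheet_poly _ ((k9g_cen_deg p q h.hp h.hq).trans (by norm_num)) _ _
  have hvol : ENNReal.ofReal (1 / K) ≤ volume (Prod.fst '' Inc) :=
    k9g_proj_vol m Inc Inc c (1 / K) h.hc h.cap subset_rfl (by rw [mul_one_div]; exact h.floor)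
  have hsub : Prod.fst '' Inc ⊆ Set.Icc (fun _ => -(2 * K)) (fun _ : Fin 3 => 2 * K) := by
    rintro u ⟨x, hx, rfl⟩
    refine ⟨fun i => ?_, fun i => ?_⟩
    · have := abs_le.1 ((h.inc x hx).box i)
      show -(2 * K) ≤ x.1 i
      linarith [this.1]
    · have := abs_le.1 ((h.inc x hx).box i)
      show x.1 i ≤ 2 * K
      linarith [this.2]
  have hθ : (0 : ℝ) < 1 / (64 * K ^ 4) := by positivity
  have hrel := k9g_rel_vol (fun _ => -(2 * K)) (fun _ => 2 * K) (4 * K) (1 / (64 * K ^ 4)) (1 / K) (by positivity) (fun _ => by ring) hθ.le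
    (by field_simp; ring) _ hvol
  have hM : ∀ u ∈ Prod.fst '' Inc, |F u| ≤ 13 * K ^ 9 := by
    rintro u ⟨x, hx, rfl⟩
    have h1 := k9g_fit_large p q K e hK h.he h.he1 h.hqC hlg x (h.inc x hx)
    have h2 := (h.inc x hx).nval
    have h3 : |F x.1| ≤ |q.ev x.1 x.2| + |q.ev x.1 x.2 - F x.1| := by
      have := abs_sub_abs_le_abs_sub (F x.1) (q.ev x.1 x.2)
      rw [abs_sub_comm] at this
      linarith
    rw [hF] at h3 ⊢
    have h4 : 12 * K ^ 9 * e ≤ 12 * K ^ 9 := mul_le_of_le_one_right (by positivity) h.he1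
    have h5 : K ≤ K ^ 9 := le_self_pow₀ hK (by norm_num)
    linarith
  obtain ⟨hb, hl⟩ := H _ _ F _ _ _ (fun _ => by linarith) hsheet hθ hsub hrel hM
  have hB : C₁ * (1 / (1 / (64 * K ^ 4))) ^ p₁ * (13 * K ^ 9) ≤ 13 * C₁ * 64 ^ p₁ * (K / η) ^ (4 * p₁ + 9) := by
    have e1 : C₁ * (1 / (1 / (64 * K ^ 4))) ^ p₁ * (13 * K ^ 9) = 13 * C₁ * 64 ^ p₁ * K ^ (4 * p₁ + 9) := by
      rw [one_div_one_div, mul_pow, ← pow_mul, pow_add]
      ring
    rw [e1]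
    exact mul_le_mul_of_nonneg_left (pow_le_pow_left₀ hK0.le hy _) (by positivity)
  obtain ⟨Bd, hBd⟩ : ∃ Bd, Bd = 13 * C₁ * 64 ^ p₁ * (K / η) ^ (4 * p₁ + 9) := ⟨_, rfl⟩
  rw [← hBd] at hB ⊢
  have hyk : 1 ≤ (K / η) ^ (4 * p₁ + 9) := one_le_pow₀ hy1
  have hBd1 : 1 ≤ Bd := by
    rw [hBd]
    have : (1 : ℝ) ≤ 13 * C₁ * 64 ^ p₁ := by nlinarith
    nlinarith
  have hcore : ∀ u ∈ Set.Icc (fun _ : Fin 3 => -K) (fun _ => K), u ∈ Set.Icc (fun _ : Fin 3 => -(2 * K)) (fun _ => 2 * K) ∧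
      u ∈ sh2Box (fun _ : Fin 3 => -(2 * K)) (fun _ => 2 * K) (1 / 2) := by
    intro u hu
    refine ⟨⟨fun i => ?_, fun i => ?_⟩, fun i => ?_⟩
    · have := hu.1 i
      show -(2 * K) ≤ u i
      simp only at this
      linarith
    · have := hu.2 i
      show u i ≤ 2 * K
      simp only at this
      linarith
    · have h1 := hu.1 i
      have h2 := hu.2 i
      simp only at h1 h2
      rw [abs_le]
      constructor <;> linarith
  refine ⟨1, fun _ _ => -K, fun _ _ => K, fun _ => F, fun _ => some 0, by simpa using hBd1, fun j => ?_, fun j u hu => ?_,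
    fun j u hu u' hu' d hd => ?_, ?_, fun x hx j _ => ⟨⟨fun i => ?_, fun i => ?_⟩, ?_⟩⟩
  · have : (fun _ : (Fin 3 → ℝ) × ℝ => (some 0 : Option (Fin 1))) ⁻¹' {some j} = Set.univ := by
      ext x
      simp [Subsingleton.elim j 0]
    rw [this]
    exact MeasurableSet.univ
  · exact (hb u (hcore u hu).1).trans hB
  · have hd0 : 0 ≤ d := (abs_nonneg _).trans (hd 0)
    have h1 := hl u (hcore u hu).2 u' (hcore u' hu').2 (d / (2 * K)) (fun i => by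
      have e1 : d / (2 * K) * ((2 * K - -(2 * K)) / 2) = d := by field_simp; ring
      rw [e1]
      exact hd i)
    refine h1.trans ?_
    have h2 : d / (2 * K) ≤ d := div_le_self hd0 (by linarith)
    have h3 : 0 ≤ C₁ * (1 / (1 / (64 * K ^ 4))) ^ p₁ * (13 * K ^ 9) := by positivity
    calc C₁ * (1 / (1 / (64 * K ^ 4))) ^ p₁ * (13 * K ^ 9) * (d / (2 * K))
        ≤ C₁ * (1 / (1 / (64 * K ^ 4))) ^ p₁ * (13 * K ^ 9) * d := mul_le_mul_of_nonneg_left h2 h3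
      _ ≤ Bd * d := mul_le_mul_of_nonneg_right hB hd0
  · have : (fun _ : (Fin 3 → ℝ) × ℝ => (some 0 : Option (Fin 1))) ⁻¹' {none} = ∅ := by
      ext x
      simp
    rw [this, Set.inter_empty, measure_empty]
    exact zero_le
  · exact (abs_le.1 ((h.inc x hx).box i)).1
  · exact (abs_le.1 ((h.inc x hx).box i)).2
  · have h1 := k9g_fit_large p q K e hK h.he h.he1 h.hqC hlg x (h.inc x hx)
    rw [hF]
    refine h1.trans (mul_le_mul_of_nonneg_right ?_ h.he.le)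
    have h2 : 12 * K ^ 9 ≤ C₁ * (1 / (1 / (64 * K ^ 4))) ^ p₁ * (13 * K ^ 9) := by
      have h3 : (1 : ℝ) ≤ (1 / (1 / (64 * K ^ 4))) ^ p₁ := by
        refine one_le_pow₀ ?_
        rw [one_div_one_div]
        have : 1 ≤ K ^ 4 := one_le_pow₀ hK
        linarith
      have h4 : 1 ≤ C₁ * (1 / (1 / (64 * K ^ 4))) ^ p₁ := by nlinarith
      have h5 : 0 < K ^ 9 := by positivity
      nlinarith
    exact h2.trans hB

/-! ## small curvature -/

theorem k9g_card (N : ℕ) : (Fintype.card ((Fin 3 → Fin (N + 1)) × Bool) : ℝ) = 2 * ((N : ℝ) + 1) ^ 3 := by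
  simp only [Fintype.card_prod, Fintype.card_fun, Fintype.card_fin, Fintype.card_bool]
  push_cast
  ring

theorem k9g_small : ∃ (A : ℝ) (k : ℕ), 1 ≤ A ∧
    ∀ (p q : K9Eq) (K e c η : ℝ) (m : Measure ((Fin 3 → ℝ) × ℝ)) (Inc : Set ((Fin 3 → ℝ) × ℝ)), K9gHyp p q K e c η m Inc →
      4 * K ^ 3 * |p.C| * e ≤ 1 → K9gOut q e η (A * (K / η) ^ k) m Inc := by
  obtain ⟨p₁, C₁, hC₁, H⟩ := k9g_sheet_lip
  obtain ⟨R₀, hR₀⟩ : ∃ R₀ : ℝ, R₀ = 8 * C₁ * 4096 ^ p₁ := ⟨_, rfl⟩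
  have h4096 : (1 : ℝ) ≤ 4096 ^ p₁ := one_le_pow₀ (by norm_num)
  have h3456 : (1 : ℝ) ≤ 3456 ^ p₁ := one_le_pow₀ (by norm_num)
  have hR₀1 : 1 ≤ R₀ := by rw [hR₀]; nlinarith
  have hR₀0 : 0 < R₀ := by linarith
  have hC₁0 : 0 < C₁ := by linarith
  refine ⟨54 * R₀ ^ 3 + 5 * C₁ * 3456 ^ p₁ * R₀ + 4, 12 * p₁ + 12, ?_, ?_⟩
  · have : 0 ≤ 54 * R₀ ^ 3 + 5 * C₁ * 3456 ^ p₁ * R₀ := by positivity
    linarith
  intro p q K e c η m Inc h hsm
  have hK := h.hK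
  have hK0 : 0 < K := by linarith
  obtain ⟨y, hyd⟩ : ∃ y, y = K / η := ⟨_, rfl⟩
  rw [← hyd]
  have hy : K ≤ y := by
    rw [hyd, le_div_iff₀ h.hη]
    nlinarith [h.hη1]
  have hy1 : 1 ≤ y := hK.trans hy
  have hy0 : 0 < y := by linarith
  -- the radius
  obtain ⟨W, hW⟩ : ∃ W : ℝ, W = C₁ * 4096 ^ p₁ * K ^ (4 * p₁) := ⟨_, rfl⟩
  have hW0 : 0 < W := by rw [hW]; positivity
  obtain ⟨ri, hri⟩ : ∃ ri : ℝ, ri = R₀ * K ^ (4 * p₁ + 3) := ⟨_, rfl⟩
  have hriW : ri = 8 * W * K ^ 3 := by rw [hri, hR₀, hW, pow_add]; ring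
  have hri1 : 1 ≤ ri := by
    rw [hri]
    have : 1 ≤ K ^ (4 * p₁ + 3) := one_le_pow₀ hK
    nlinarith
  have hri0 : 0 < ri := by linarith
  obtain ⟨r, hr⟩ : ∃ r : ℝ, r = 1 / ri := ⟨_, rfl⟩
  have hr0 : 0 < r := by rw [hr]; positivity
  have hr1 : r ≤ 1 := by rw [hr, div_le_one hri0]; exact hri1
  have hrri : r * ri = 1 := by rw [hr]; field_simp
  have hKr : K / r = K * ri := by rw [hr]; field_simp
  obtain ⟨N, hN⟩ : ∃ N : ℕ, N = ⌈K / r⌉₊ := ⟨_, rfl⟩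
  have hNge : K / r ≤ N := by rw [hN]; exact Nat.le_ceil _
  have hNle : (N : ℝ) + 1 ≤ 3 * (K * ri) := by
    have h1 : (N : ℝ) < K / r + 1 := by rw [hN]; exact Nat.ceil_lt_add_one (by positivity)
    have h2 : 1 ≤ K * ri := by nlinarith
    rw [hKr] at h1
    linarith
  have hN0 : (0 : ℝ) < (N : ℝ) + 1 := by positivity
  -- the discriminant varies slowly
  have hvol0 : ENNReal.ofReal (1 / K) ≤ volume (Prod.fst '' Inc) :=
    k9g_proj_vol m Inc Inc c (1 / K) h.hc h.cap subset_rfl (by rw [mul_one_div]; exact h.floor)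
  have hΔlip : ∀ u u' : Fin 3 → ℝ, (∀ i, |u i| ≤ 4 * K) → (∀ i, |u' i| ≤ 4 * K) → (∀ i, |u i - u' i| ≤ 3 * r) →
      |MvPolynomial.eval u p.disc - MvPolynomial.eval u' p.disc| ≤ 1 / (4 * K ^ 2) := by
    have hsheet : K9gSheet (fun _ => -(8 * K)) (fun _ => 8 * K) fun u => MvPolynomial.eval u p.disc :=
      k9g_sheet_poly _ ((k9g_disc_deg p h.hp).trans (by norm_num)) _ _
    have hθ : (0 : ℝ) < 1 / (4096 * K ^ 4) := by positivity
    have hrel := k9g_rel_vol (fun _ => -(8 * K)) (fun _ => 8 * K) (16 * K) (1 / (4096 * K ^ 4)) (1 / K) (by positivity) (fun _ => by ring) hθ.le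
      (by field_simp; ring) _ hvol0
    have hsub : Prod.fst '' Inc ⊆ Set.Icc (fun _ => -(8 * K)) (fun _ : Fin 3 => 8 * K) := by
      rintro u ⟨x, hx, rfl⟩
      refine ⟨fun i => ?_, fun i => ?_⟩
      · have := abs_le.1 ((h.inc x hx).box i)
        show -(8 * K) ≤ x.1 i
        linarith [this.1]
      · have := abs_le.1 ((h.inc x hx).box i)
        show x.1 i ≤ 8 * K
        linarith [this.2]
    have hM : ∀ u ∈ Prod.fst '' Inc, |MvPolynomial.eval u p.disc| ≤ 3 * K ^ 2 := by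
      rintro u ⟨x, hx, rfl⟩
      exact k9g_disc_le p q K e hK h.he h.hpC x (h.inc x hx)
    obtain ⟨-, hl⟩ := H _ _ _ _ _ _ (fun _ => by linarith) hsheet hθ hsub hrel hM
    intro u u' hu hu' hd
    have hbox : ∀ w : Fin 3 → ℝ, (∀ i, |w i| ≤ 4 * K) → w ∈ sh2Box (fun _ : Fin 3 => -(8 * K)) (fun _ => 8 * K) (1 / 2) := by
      intro w hw i
      have e1 : w i - (-(8 * K) + 8 * K) / 2 = w i := by ring
      have e2 : (1 : ℝ) / 2 * ((8 * K - -(8 * K)) / 2) = 4 * K := by ring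
      rw [e1, e2]
      exact hw i
    have h1 := hl u (hbox u hu) u' (hbox u' hu') (3 * r / (8 * K)) (fun i => by
      have e1 : 3 * r / (8 * K) * ((8 * K - -(8 * K)) / 2) = 3 * r := by field_simp; ring
      rw [e1]
      exact hd i)
    refine h1.trans (le_of_eq_of_le ?_ (?_ : 9 / (64 * K ^ 2) ≤ 1 / (4 * K ^ 2)))
    · rw [one_div_one_div, mul_pow, ← pow_mul, hr, hriW, hW]
      field_simp
      ring
    · rw [div_le_div_iff₀ (by positivity) (by positivity)]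
      nlinarith [sq_nonneg K]
  -- entries
  obtain ⟨cJ, hcJ⟩ : ∃ cJ : ℝ, cJ = (Fintype.card ((Fin 3 → Fin (N + 1)) × Bool) : ℝ) := ⟨_, rfl⟩
  have hcJe : cJ = 2 * ((N : ℝ) + 1) ^ 3 := by rw [hcJ, k9g_card]
  have hcJ0 : 0 < cJ := by rw [hcJe]; positivity
  obtain ⟨μ, hμ⟩ : ∃ μ : ℝ, μ = η / (cJ * K) := ⟨_, rfl⟩
  have hμ0 : 0 < μ := by rw [hμ]; exact div_pos h.hη (by positivity)
  obtain ⟨θ, hθd⟩ : ∃ θ : ℝ, θ = μ / (64 * r ^ 3) := ⟨_, rfl⟩
  have hθ0 : 0 < θ := by rw [hθd]; positivity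
  have hθinv : 1 / θ ≤ 3456 * y ^ 4 := by
    have e1 : 1 / θ = 128 * (((N : ℝ) + 1) * r) ^ 3 * K / η := by
      rw [hθd, hμ, hcJe]
      have := h.hη.ne'
      field_simp
      ring
    have h1 : ((N : ℝ) + 1) * r ≤ 3 * K := by
      calc ((N : ℝ) + 1) * r ≤ 3 * (K * ri) * r := mul_le_mul_of_nonneg_right hNle hr0.le
        _ = 3 * K * (r * ri) := by ring
        _ = 3 * K := by rw [hrri, mul_one]
    have h2 : (((N : ℝ) + 1) * r) ^ 3 ≤ (3 * K) ^ 3 := pow_le_pow_left₀ (by positivity) h1 3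
    have h3 : K ^ 3 ≤ y ^ 3 := pow_le_pow_left₀ hK0.le hy 3
    rw [e1, mul_div_assoc, ← hyd]
    calc 128 * (((N : ℝ) + 1) * r) ^ 3 * y ≤ 128 * (3 * K) ^ 3 * y := by gcongr
      _ = 3456 * K ^ 3 * y := by ring
      _ ≤ 3456 * y ^ 3 * y := by gcongr
      _ = 3456 * y ^ 4 := by ring
  obtain ⟨B, hB⟩ : ∃ B : ℝ, B = C₁ * (1 / θ) ^ p₁ * (5 * K ^ 5) := ⟨_, rfl⟩
  have hB0 : 0 ≤ B := by rw [hB]; positivity
  have hBle : B ≤ 5 * C₁ * 3456 ^ p₁ * y ^ (4 * p₁ + 5) := by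
    have h1 : (1 / θ) ^ p₁ ≤ (3456 * y ^ 4) ^ p₁ := pow_le_pow_left₀ (by positivity) hθinv _
    have h2 : K ^ 5 ≤ y ^ 5 := pow_le_pow_left₀ hK0.le hy 5
    rw [hB]
    calc C₁ * (1 / θ) ^ p₁ * (5 * K ^ 5) ≤ C₁ * (3456 * y ^ 4) ^ p₁ * (5 * y ^ 5) := by gcongr
      _ = 5 * C₁ * 3456 ^ p₁ * y ^ (4 * p₁ + 5) := by rw [mul_pow, ← pow_mul, pow_add]; ring
  obtain ⟨Bd, hBd⟩ : ∃ Bd, Bd = (54 * R₀ ^ 3 + 5 * C₁ * 3456 ^ p₁ * R₀ + 4) * y ^ (12 * p₁ + 12) := ⟨_, rfl⟩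
  rw [← hBd]
  have hA2 : 0 ≤ 5 * C₁ * 3456 ^ p₁ := by positivity
  have hBBd : B ≤ Bd := by
    refine hBle.trans ?_
    rw [hBd]
    refine k9g_mono_bd hA2 ?_ (by omega) hy1
    have : 5 * C₁ * 3456 ^ p₁ ≤ 5 * C₁ * 3456 ^ p₁ * R₀ := le_mul_of_one_le_right hA2 hR₀1
    have h3 : 0 ≤ 54 * R₀ ^ 3 := by positivity
    linarith
  have hBrBd : B * (1 / (2 * r)) ≤ Bd := by
    have e1 : 1 / (2 * r) = ri / 2 := by rw [hr]; field_simp
    have h1 : ri ≤ R₀ * y ^ (4 * p₁ + 3) := by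
      rw [hri]
      exact mul_le_mul_of_nonneg_left (pow_le_pow_left₀ hK0.le hy _) hR₀0.le
    rw [e1, hBd]
    calc B * (ri / 2) ≤ (5 * C₁ * 3456 ^ p₁ * y ^ (4 * p₁ + 5)) * (R₀ * y ^ (4 * p₁ + 3)) := by
          refine mul_le_mul hBle (by linarith) (by positivity) (by positivity)
      _ = 5 * C₁ * 3456 ^ p₁ * R₀ * y ^ (8 * p₁ + 8) := by
          rw [show 8 * p₁ + 8 = (4 * p₁ + 5) + (4 * p₁ + 3) by ring, pow_add]; ring
      _ ≤ (54 * R₀ ^ 3 + 5 * C₁ * 3456 ^ p₁ * R₀ + 4) * y ^ (12 * p₁ + 12) := by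
          refine k9g_mono_bd (by positivity) ?_ (by omega) hy1
          have h3 : 0 ≤ 54 * R₀ ^ 3 := by positivity
          linarith
  have hcJBd : cJ ≤ Bd := by
    have h1 : ((N : ℝ) + 1) ^ 3 ≤ (3 * (K * ri)) ^ 3 := pow_le_pow_left₀ hN0.le hNle 3
    have h2 : K ^ (12 * p₁ + 12) ≤ y ^ (12 * p₁ + 12) := pow_le_pow_left₀ hK0.le hy _
    rw [hcJe, hBd]
    calc 2 * ((N : ℝ) + 1) ^ 3 ≤ 2 * (3 * (K * ri)) ^ 3 := by gcongr
      _ = 54 * R₀ ^ 3 * K ^ (12 * p₁ + 12) := by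
          rw [hri, show 12 * p₁ + 12 = 3 + (4 * p₁ + 3) * 3 by ring, pow_add, pow_mul]; ring
      _ ≤ 54 * R₀ ^ 3 * y ^ (12 * p₁ + 12) := by gcongr
      _ ≤ (54 * R₀ ^ 3 + 5 * C₁ * 3456 ^ p₁ * R₀ + 4) * y ^ (12 * p₁ + 12) := by
          refine mul_le_mul_of_nonneg_right ?_ (by positivity)
          have h3 : 0 ≤ 5 * C₁ * 3456 ^ p₁ * R₀ := by positivity
          linarith
  have hfitBd : 4 * K ^ 5 ≤ Bd := by
    have h2 : K ^ 5 ≤ y ^ 5 := pow_le_pow_left₀ hK0.le hy 5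
    rw [hBd]
    calc 4 * K ^ 5 ≤ 4 * y ^ 5 := by gcongr
      _ ≤ (54 * R₀ ^ 3 + 5 * C₁ * 3456 ^ p₁ * R₀ + 4) * y ^ (12 * p₁ + 12) := by
          refine k9g_mono_bd (by norm_num) ?_ (by omega) hy1
          have h3 : 0 ≤ 54 * R₀ ^ 3 + 5 * C₁ * 3456 ^ p₁ * R₀ := by positivity
          linarith
  -- one retained entry
  have main : ∀ (κ : Fin 3 → Fin (N + 1)) (s : Bool),
      ENNReal.ofReal (η / cJ) * m Inc ≤ m (Inc ∩ k9gEnt p K r N ⁻¹' {(κ, s)}) →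
      (∀ u ∈ Set.Icc (k9gLo K r κ) (k9gHi K r κ), |k9gG p q (k9gSg s) u| ≤ B) ∧
      ∀ u ∈ Set.Icc (k9gLo K r κ) (k9gHi K r κ), ∀ u' ∈ Set.Icc (k9gLo K r κ) (k9gHi K r κ), ∀ d : ℝ, (∀ i, |u i - u' i| ≤ d) →
        |k9gG p q (k9gSg s) u - k9gG p q (k9gSg s) u'| ≤ B * (1 / (2 * r)) * d := by
    intro κ s hmass
    obtain ⟨T, hT⟩ : ∃ T, T = Inc ∩ k9gEnt p K r N ⁻¹' {(κ, s)} := ⟨_, rfl⟩
    rw [← hT] at hmass
    have hTInc : T ⊆ Inc := by rw [hT]; exact Set.inter_subset_left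
    have hTent : ∀ x ∈ T, k9gIdx K r N x.1 = κ ∧ decide (0 < p.dz x.1 x.2) = s := by
      intro x hx
      rw [hT] at hx
      have h1 : k9gEnt p K r N x = (κ, s) := hx.2
      exact ⟨congrArg Prod.fst h1, congrArg Prod.snd h1⟩
    have hTcore : ∀ x ∈ T, x.1 ∈ Set.Icc (k9gLo K r κ) (k9gHi K r κ) := by
      intro x hx
      have h1 := k9g_idx_mem K r N hr0 hNge x.1 (h.inc x (hTInc hx)).box
      rwa [(hTent x hx).1] at h1
    have hTm : ENNReal.ofReal (c * μ) ≤ m T := by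
      refine le_trans ?_ hmass
      have e1 : c * μ = η / cJ * (c / K) := by rw [hμ]; field_simp
      rw [e1, ENNReal.ofReal_mul (div_nonneg h.hη.le hcJ0.le)]
      exact mul_le_mul_right h.floor _
    have hTvol : ENNReal.ofReal μ ≤ volume (Prod.fst '' T) := k9g_proj_vol m Inc T c μ h.hc h.cap hTInc hTm
    have hTne : T.Nonempty := by
      by_contra hne
      rw [Set.not_nonempty_iff_eq_empty] at hne
      rw [hne, measure_empty] at hTm
      have : 0 < ENNReal.ofReal (c * μ) := ENNReal.ofReal_pos.2 (mul_pos h.hc hμ0)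
      exact absurd hTm (not_le.2 this)
    obtain ⟨x₀, hx₀⟩ := hTne
    have hΔ₀ := (k9g_fit_small p q K e hK h.he h.he1 h.hqC hsm x₀ (h.inc x₀ (hTInc hx₀))).1
    have hK2 : 0 < K ^ 2 := by positivity
    have hΔ₀pos : 0 < MvPolynomial.eval x₀.1 p.disc := lt_of_lt_of_le (by positivity) hΔ₀
    have hst : sh2Stable 2 p.disc (fun i => k9gLo K r κ i - r) (fun i => k9gHi K r κ i + r) := by
      refine sh2_stable_of_half _ hΔ₀pos fun u hu => ?_
      have hd := k9g_core_dist K r κ x₀.1 u (hTcore x₀ hx₀) hu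
      have hb0 := (h.inc x₀ (hTInc hx₀)).box
      have h1 := hΔlip u x₀.1 (fun i => by
        have h2 := abs_sub_abs_le_abs_sub (u i) (x₀.1 i)
        have h3 := hd i
        have h4 := hb0 i
        linarith) (fun i => by have := hb0 i; linarith) hd
      refine h1.trans ?_
      have e1 : 1 / (4 * K ^ 2) = 1 / (2 * K ^ 2) / 2 := by field_simp; ring
      rw [e1]
      linarith
    have hsheet := k9g_sheet_G p q h.hp h.hq (k9gSg s) _ _ hst
    have hside : ∀ i, (k9gHi K r κ i + r) - (k9gLo K r κ i - r) = 4 * r := by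
      intro i
      unfold k9gHi k9gLo
      ring
    have hrel := k9g_rel_vol (fun i => k9gLo K r κ i - r) (fun i => k9gHi K r κ i + r) (4 * r) θ μ (by positivity) hside hθ0.le
      (by rw [hθd]; field_simp; ring) _ hTvol
    have hcc : Set.Icc (k9gLo K r κ) (k9gHi K r κ) ⊆ Set.Icc (fun i => k9gLo K r κ i - r) (fun i => k9gHi K r κ i + r) := by
      intro u hu
      refine ⟨fun i => ?_, fun i => ?_⟩
      · have := hu.1 i
        show k9gLo K r κ i - r ≤ u i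
        linarith
      · have := hu.2 i
        show u i ≤ k9gHi K r κ i + r
        linarith
    have hsub : Prod.fst '' T ⊆ Set.Icc (fun i => k9gLo K r κ i - r) (fun i => k9gHi K r κ i + r) := by
      rintro u ⟨x, hx, rfl⟩
      exact hcc (hTcore x hx)
    have hM : ∀ u ∈ Prod.fst '' T, |k9gG p q (k9gSg s) u| ≤ 5 * K ^ 5 := by
      rintro u ⟨x, hx, rfl⟩
      have h1 := (k9g_fit_small p q K e hK h.he h.he1 h.hqC hsm x (h.inc x (hTInc hx))).2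
      rw [(hTent x hx).2] at h1
      have h2 := (h.inc x (hTInc hx)).nval
      have h3 := abs_sub_abs_le_abs_sub (k9gG p q (k9gSg s) x.1) (q.ev x.1 x.2)
      rw [abs_sub_comm] at h3
      have h4 : 4 * K ^ 5 * e ≤ 4 * K ^ 5 := mul_le_of_le_one_right (by positivity) h.he1
      have h5 : K ≤ K ^ 5 := le_self_pow₀ hK (by norm_num)
      linarith
    obtain ⟨hb, hl⟩ := H _ _ _ θ _ _ (fun i => by have := hside i; linarith) hsheet hθ0 hsub hrel hM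
    rw [← hB] at hb hl
    refine ⟨fun u hu => hb u (hcc hu), fun u hu u' hu' d hd => ?_⟩
    have h1 := hl u (k9g_core_half K r κ hu) u' (k9g_core_half K r κ hu') (d / (2 * r)) (fun i => by
      rw [hside i]
      have e1 : d / (2 * r) * (4 * r / 2) = d := by field_simp; ring
      rw [e1]
      exact hd i)
    refine h1.trans (le_of_eq ?_)
    ring
  -- pruning
  obtain ⟨n, idx, asg, hn, hmeas, hent, hmass, hlost⟩ :=
    k9g_prune m Inc ((Fin 3 → Fin (N + 1)) × Bool) (k9gEnt p K r N) (k9g_ent_meas p K r N) η h.hη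
  rw [← hcJ] at hmass
  refine ⟨n, fun j => k9gLo K r (idx j).1, fun j => k9gHi K r (idx j).1, fun j => k9gG p q (k9gSg (idx j).2), asg, ?_, hmeas,
    fun j u hu => ((main (idx j).1 (idx j).2 (hmass j)).1 u hu).trans hBBd, fun j u hu u' hu' d hd => ?_, hlost, fun x hx j hj => ?_⟩
  · have : (n : ℝ) ≤ cJ := by rw [hcJ]; exact_mod_cast hn
    exact this.trans hcJBd
  · have hd0 : 0 ≤ d := (abs_nonneg _).trans (hd 0)
    exact ((main (idx j).1 (idx j).2 (hmass j)).2 u hu u' hu' d hd).trans (mul_le_mul_of_nonneg_right hBrBd hd0)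
  · have h1 := hent x j hj
    have h2 : k9gIdx K r N x.1 = (idx j).1 := congrArg Prod.fst h1
    have h3 : decide (0 < p.dz x.1 x.2) = (idx j).2 := congrArg Prod.snd h1
    have h4 := k9g_idx_mem K r N hr0 hNge x.1 (h.inc x hx).box
    rw [h2] at h4
    have h5 := (k9g_fit_small p q K e hK h.he h.he1 h.hqC hsm x (h.inc x hx)).2
    rw [h3] at h5
    exact ⟨h4, h5.trans (mul_le_mul_of_nonneg_right hfitBd h.he.le)⟩

/-! ## the theorem -/

/-- **L9.4, one-chart core** (the statement of `k9_graphs_chart`) -/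
theorem k9g_graphs_chart : ∃ C0 : ℝ, 1 ≤ C0 ∧
    ∀ (p q : K9Eq) (K e c η : ℝ) (m : Measure ((Fin 3 → ℝ) × ℝ)) (Inc : Set ((Fin 3 → ℝ) × ℝ)), p.Deg → q.Deg → 1 ≤ K → 0 < e → e ≤ 1 → 0 < c →
      0 < η → η ≤ 1 → MeasurableSet Inc → (∀ x ∈ Inc, K9Inc p q K e x) → |p.C| * e ≤ K → |q.C| ≤ K →
      (∀ S : Set (Fin 3 → ℝ), MeasurableSet S → m (Inc ∩ Prod.fst ⁻¹' S) ≤ ENNReal.ofReal c * volume S) → ENNReal.ofReal (c / K) ≤ m Inc →
      ∃ (n : ℕ) (lo hi : Fin n → Fin 3 → ℝ) (G : Fin n → (Fin 3 → ℝ) → ℝ) (asg : (Fin 3 → ℝ) × ℝ → Option (Fin n)),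
        (n : ℝ) ≤ C0 * (K / η) ^ C0 ∧
        (∀ j, MeasurableSet (asg ⁻¹' {some j})) ∧
        (∀ j, ∀ u ∈ Set.Icc (lo j) (hi j), |G j u| ≤ C0 * (K / η) ^ C0) ∧
        (∀ j, ∀ u ∈ Set.Icc (lo j) (hi j), ∀ u' ∈ Set.Icc (lo j) (hi j), ∀ d : ℝ, (∀ i, |u i - u' i| ≤ d) → |G j u - G j u'| ≤ C0 * (K / η) ^ C0 * d) ∧
        m (Inc ∩ asg ⁻¹' {none}) ≤ ENNReal.ofReal η * m Inc ∧
        ∀ x ∈ Inc, ∀ j, asg x = some j → x.1 ∈ Set.Icc (lo j) (hi j) ∧ |q.ev x.1 x.2 - G j x.1| ≤ C0 * (K / η) ^ C0 * e := by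
  obtain ⟨A₁, k₁, hA₁, H₁⟩ := k9g_large
  obtain ⟨A₂, k₂, hA₂, H₂⟩ := k9g_small
  refine ⟨A₁ + A₂ + k₁ + k₂, ?_, ?_⟩
  · have h1 : (0 : ℝ) ≤ k₁ := Nat.cast_nonneg _
    have h2 : (0 : ℝ) ≤ k₂ := Nat.cast_nonneg _
    linarith
  intro p q K e c η m Inc hp hq hK he he1 hc hη hη1 _ hinc hpC hqC hcap hfloor
  have h : K9gHyp p q K e c η m Inc := ⟨hp, hq, hK, he, he1, hc, hη, hη1, hinc, hpC, hqC, hcap, hfloor⟩
  have hy1 : 1 ≤ K / η := by
    rw [le_div_iff₀ hη]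
    linarith
  have hk1 : (0 : ℝ) ≤ k₁ := Nat.cast_nonneg _
  have hk2 : (0 : ℝ) ≤ k₂ := Nat.cast_nonneg _
  have hbd : ∀ (A : ℝ) (k : ℕ), 0 ≤ A → A ≤ A₁ + A₂ + k₁ + k₂ → (k : ℝ) ≤ A₁ + A₂ + k₁ + k₂ →
      A * (K / η) ^ k ≤ (A₁ + A₂ + k₁ + k₂) * (K / η) ^ (A₁ + A₂ + k₁ + k₂) := by
    intro A k hA0 hA hk
    have h1 : (K / η) ^ k ≤ (K / η) ^ (A₁ + A₂ + (k₁ : ℝ) + k₂) := by
      rw [← Real.rpow_natCast]
      exact Real.rpow_le_rpow_of_exponent_le hy1 hk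
    exact mul_le_mul hA h1 (by positivity) (hA0.trans hA)
  by_cases hcase : 4 * K ^ 3 * |p.C| * e ≤ 1
  · exact (H₂ p q K e c η m Inc h hcase).mono he.le (hbd A₂ k₂ (by linarith) (by linarith) (by linarith))
  · exact (H₁ p q K e c η m Inc h (not_le.1 hcase)).mono he.le (hbd A₁ k₁ (by linarith) (by linarith) (by linarith))

/-- **L9.4, one-chart core** (the name of the chief's plan) -/
theorem k9_graphs_chart : ∃ C0 : ℝ, 1 ≤ C0 ∧
    ∀ (p q : K9Eq) (K e c η : ℝ) (m : Measure ((Fin 3 → ℝ) × ℝ)) (Inc : Set ((Fin 3 → ℝ) × ℝ)), p.Deg → q.Deg → 1 ≤ K → 0 < e → e ≤ 1 → 0 < c →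
      0 < η → η ≤ 1 → MeasurableSet Inc → (∀ x ∈ Inc, K9Inc p q K e x) → |p.C| * e ≤ K → |q.C| ≤ K →
      (∀ S : Set (Fin 3 → ℝ), MeasurableSet S → m (Inc ∩ Prod.fst ⁻¹' S) ≤ ENNReal.ofReal c * volume S) → ENNReal.ofReal (c / K) ≤ m Inc →
      ∃ (n : ℕ) (lo hi : Fin n → Fin 3 → ℝ) (G : Fin n → (Fin 3 → ℝ) → ℝ) (asg : (Fin 3 → ℝ) × ℝ → Option (Fin n)),
        (n : ℝ) ≤ C0 * (K / η) ^ C0 ∧
        (∀ j, MeasurableSet (asg ⁻¹' {some j})) ∧
        (∀ j, ∀ u ∈ Set.Icc (lo j) (hi j), |G j u| ≤ C0 * (K / η) ^ C0) ∧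
        (∀ j, ∀ u ∈ Set.Icc (lo j) (hi j), ∀ u' ∈ Set.Icc (lo j) (hi j), ∀ d : ℝ, (∀ i, |u i - u' i| ≤ d) → |G j u - G j u'| ≤ C0 * (K / η) ^ C0 * d) ∧
        m (Inc ∩ asg ⁻¹' {none}) ≤ ENNReal.ofReal η * m Inc ∧
        ∀ x ∈ Inc, ∀ j, asg x = some j → x.1 ∈ Set.Icc (lo j) (hi j) ∧ |q.ev x.1 x.2 - G j x.1| ≤ C0 * (K / η) ^ C0 * e :=
  k9g_graphs_chart

end

end Claimed.Agent.R252
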